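import Crest.Agent.N265.K.Act0

/-! # Task K4: bundles act on `G X`; projection formula; the operator ring `Op X` -/

set_option autoImplicit false
noncomputable section
open MvPolynomial Module

namespace Crest.Agent.N265
open Bun GM
variable {X Y Z : Spc}

/-- `A ⊗ M` inside `⊕ M(deg i)` -/
def Bun.actSub (A : Bun X) (M : GM) : Submodule R (pw A.deg M).M where
  carrier := {v | ∀ a : A.ι → R, A.IsCov a → ∑ i, a i • (v : A.ι → M.M) i = 0}
  add_mem' := fun ha hb => Bun.Act.add (N := M.M) ha hb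
  zero_mem' := Bun.Act.zero (N := M.M)
  smul_mem' := fun r _ hu => Bun.Act.smul (N := M.M) hu r
lemma Bun.mem_actSub {A : Bun X} {M : GM} {u : (pw A.deg M).M} :
    u ∈ A.actSub M ↔ A.Act (N := M.M) u := Iff.rfl
lemma Bun.stab_actSub (A : Bun X) (M : GM) : (pw A.deg M).Stab (A.actSub M) := by
  intro u hu a ha
  obtain ⟨b, hb, hab⟩ := ha.gam
  have h1 := congrArg M.g (hu b hb)
  rw [map_sum, map_zero] at h1
  refine Eq.trans (Finset.sum_congr rfl fun i _ => ?_) h1
  rw [LinearMap.map_smulₛₗ, hab, mul_comm, mul_smul]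
  rfl
/-- `A ⊗ M` -/
def Bun.act (A : Bun X) (M : GM) : GM := (pw A.deg M).sub (A.actSub M) (A.stab_actSub M)
lemma Bun.red_act (A : Bun X) {M : GM} (h : M.Red X) : (A.act M).Red X := (h.pw A.hdeg).sub _
/-- matrices with values in the family map into `A ⊗ M` -/
lemma Bun.mat_mem_act (A : Bun X) {M : GM} (h : M.Red X) {κ : Type} [Fintype κ] (e : κ → D)
    (Φ : Matrix A.ι κ R) (hΦ : ∀ x ∈ X.pts, ∀ v, mev x Φ v ∈ A.L x) (u : (pw e M).M) :
    mat e A.deg Φ M u ∈ A.actSub M := A.act_mv h.ann hΦ (N := M.M) u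
set_option linter.unusedVariables false in
/-- matrices killing the family kill `A ⊗ M` -/
lemma Bun.mat_act_eq_zero (A : Bun X) {M : GM} (h : M.Red X) {κ : Type} [Fintype κ] (e : κ → D)
    (Φ : Matrix κ A.ι R) (hΦ : ∀ x ∈ X.pts, ∀ v ∈ A.L x, mev x Φ v = 0) {u : (pw A.deg M).M}
    (hu : u ∈ A.actSub M) : mat A.deg e Φ M u = 0 := Bun.Act.mv_eq_zero (N := M.M) hu hΦ
/-- `A ⊗ O` is the module of sections -/
lemma Bun.mem_act_O (A : Bun X) (s : A.ι → R) :
    ((fun i => Ideal.Quotient.mk X.I (s i) : A.ι → R ⧸ X.I) : (pw A.deg (O X)).M) ∈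
      A.actSub (O X) ↔ A.IsSec s := by
  have key : ∀ a : A.ι → R, ∑ i, a i • (Ideal.Quotient.mk X.I (s i) : R ⧸ X.I) = 0 ↔
      ∀ x ∈ X.pts, ∑ i, eval x (a i) * eval x (s i) = 0 := by
    intro a
    have h1 : ∑ i, a i • (Ideal.Quotient.mk X.I (s i) : R ⧸ X.I) =
        Ideal.Quotient.mk X.I (∑ i, a i * s i) := by
      rw [map_sum]; rfl
    rw [h1, Ideal.Quotient.eq_zero_iff_mem, Spc.mem_I]
    simp only [map_sum, map_mul]
  constructor
  · intro h x hx
    rw [← perp_perp (A.L x)]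
    intro a0 ha0
    obtain ⟨a, rfl, ha⟩ := A.alg.cogen x hx a0 ha0
    simpa only [mul_comm] using (key a).1 (h a ha) x hx
  · exact fun h a ha => (key a).2 fun x hx => ha x hx _ (h x hx)

/-- functoriality in the bundle -/
def Bun.actMap (A B : Bun X) (Φ : Matrix B.ι A.ι R)
    (h : ∀ x ∈ X.pts, ∀ v ∈ A.L x, mev x Φ v ∈ B.L x) (M : GM) :
    (A.act M).M →ₗ[R] (B.act M).M :=
  (mat A.deg B.deg Φ M).restrict fun _ hu => Bun.Act.map (N := M.M) hu h
lemma Bun.deg0_actMap {A B : Bun X} {Φ : Matrix B.ι A.ι R} (hΦ : MHmg A.deg B.deg Φ) (h) (M : GM) :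
    Deg0 (A.actMap B Φ h M) := fun u => Subtype.ext (deg0_mat hΦ M u.1)
/-- functoriality in the module -/
def Bun.actLin (A : Bun X) {M N : GM} (f : M.M →ₗ[R] N.M) : (A.act M).M →ₗ[R] (A.act N).M :=
  LinearMap.restrict (p := A.actSub M) (q := A.actSub N) (f.compLeft A.ι)
    fun _ hu => Bun.Act.lin (N := M.M) hu f
lemma Bun.deg0_actLin (A : Bun X) {M N : GM} {f : M.M →ₗ[R] N.M} (hf : Deg0 f) :
    Deg0 (A.actLin f) := fun u => Subtype.ext (funext fun i =>
  (f.map_smul (C (chi (-A.deg i)) : R) (M.g (u.1 i))).trans (congrArg _ (hf (u.1 i))))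

lemma Bun.act_ses_mod (A : Bun X) {M₁ M₂ M₃ : GM} (h : GM.SES M₁ M₂ M₃) (h₂ : M₂.Red X) :
    cl X (A.act M₂) = cl X (A.act M₁) + cl X (A.act M₃) := by
  obtain ⟨f, p, hf, hp, hi, he, hs⟩ := h
  refine cl_locSES ⟨A.actLin f, A.actLin p, A.deg0_actLin hf, A.deg0_actLin hp,
    fun a => Subtype.ext (funext fun i => he.apply_apply_eq_zero (a.1 i)), fun x hx => ?_⟩
    (A.red_act (h₂.of_inj hf hi)).on (A.red_act h₂).on (A.red_act (h₂.of_surj hp hs)).on
  obtain ⟨r, P, hr, h1, h2⟩ := A.exists_proj hx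
  refine ⟨r, hr, fun a ha => ?_, fun b hb => ?_, fun c => ?_⟩
  · have : a = 0 := Subtype.ext (funext fun i =>
      hi ((congrFun (congrArg Subtype.val ha) i).trans (map_zero f).symm))
    rw [this, smul_zero]
  · choose w hw using fun i => (he (b.1 i)).1 (congrFun (congrArg Subtype.val hb) i)
    have h3 : A.Act w := Bun.Act.of_inj hi (by rw [funext hw]; exact b.2)
    have h4 : A.actLin f ⟨w, h3⟩ = b := Subtype.ext (funext hw)
    exact ⟨r • ⟨w, h3⟩, (map_smul (A.actLin f) r _).trans (congrArg _ h4)⟩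
  · choose w hw using fun i => hs (c.1 i)
    refine ⟨⟨mv P w, A.act_mv h₂.ann h1 w⟩, Subtype.ext (funext fun i => ?_)⟩
    refine (map_mv p P w i).trans ?_
    rw [funext hw]
    exact congrFun (Bun.Act.mv_eq_smul (N := M₃.M) c.2 h2) i
lemma Bun.irr_act (A : Bun X) {M : GM} (h : M.Irr X) : (A.act M).Irr X := fun x hx =>
  (h x hx).imp fun _ hr => ⟨hr.1, fun m => Subtype.ext (funext fun i => hr.2 (m.1 i))⟩

section cx
variable {A B C : Bun X} {f : Matrix B.ι A.ι R} {p : Matrix C.ι B.ι R} {M : GM} {x : Pt}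
lemma act_inj (hf) (hx : x ∈ X.pts) (hi : A.L x ⊓ LinearMap.ker (mev x f) = ⊥) :
    ∃ r : R, eval x r ≠ 0 ∧ ∀ a, A.actMap B f hf M a = 0 → r • a = 0 := by
  obtain ⟨r, H, hr, h⟩ := A.alg.exists_retr f hx hi
  refine ⟨r, hr, fun a ha => Subtype.ext ?_⟩
  have h1 : mv (N := M.M) f a.1 = 0 := congrArg Subtype.val ha
  have h2 := Bun.Act.mv_eq_smul (N := M.M) a.2 (Φ := H * f) (r := r)
    fun y hy v hv => by rw [mev_mul, (h y hy).2 v hv]
  exact h2.symm.trans ((mv_mul H f _).trans ((congrArg _ h1).trans (mv_zero H)))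
lemma act_surj (hM : M.Red X) (hp) (hx : x ∈ X.pts) (hs : (B.L x).map (mev x p) = C.L x) :
    ∃ r : R, eval x r ≠ 0 ∧ ∀ c, ∃ b, B.actMap C p hp M b = r • c := by
  obtain ⟨r, H, hr, h⟩ := B.alg.exists_sect C.alg p
    (fun y hy => Submodule.map_le_iff_le_comap.2 (hp y hy)) hx hs
  refine ⟨r, hr, fun c => ⟨⟨mv (N := M.M) H c.1, B.act_mv hM.ann (fun y hy => (h y hy).1) _⟩,
    Subtype.ext ?_⟩⟩
  exact (mv_mul (N := M.M) p H c.1).symm.trans (Bun.Act.mv_eq_smul (N := M.M) c.2
    fun y hy v hv => by rw [mev_mul, (h y hy).2 v hv])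
lemma act_mid (hM : M.Red X) (hf hp)
    (h0 : ∀ x ∈ X.pts, (A.L x).map (mev x f) ≤ B.L x ⊓ LinearMap.ker (mev x p)) (hx : x ∈ X.pts)
    (he : (A.L x).map (mev x f) = B.L x ⊓ LinearMap.ker (mev x p)) :
    ∃ r : R, eval x r ≠ 0 ∧ ∀ b, B.actMap C p hp M b = 0 → ∃ a, A.actMap B f hf M a = r • b := by
  obtain ⟨r, H, H', hr, h⟩ := A.alg.exists_homotopy B.alg C.alg f p h0
    (fun y hy => Submodule.map_le_iff_le_comap.2 (hp y hy)) hx he
  refine ⟨r, hr, fun b hb => ⟨⟨mv (N := M.M) H b.1, A.act_mv hM.ann (fun y hy => (h y hy).1) _⟩,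
    Subtype.ext ?_⟩⟩
  have h1 : mv (N := M.M) p b.1 = 0 := congrArg Subtype.val hb
  have h2 := Bun.Act.mv_eq_smul (N := M.M) b.2 (Φ := f * H + H' * p) (r := r)
    fun y hy v hv => by rw [mev_add', mev_mul, mev_mul, (h y hy).2.2 v hv]
  have h3 : ∀ u : B.ι → M.M, mv p u = 0 → mv (f * H + H' * p) u = mv f (mv H u) := fun u hu => by
    rw [mv_add, mv_mul, mv_mul, hu, mv_zero, add_zero]
  exact (h3 _ h1).symm.trans h2
lemma act_comp (hf hp)
    (h0 : ∀ x ∈ X.pts, (A.L x).map (mev x f) ≤ B.L x ⊓ LinearMap.ker (mev x p)) (a) :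
    B.actMap C p hp M (A.actMap B f hf M a) = 0 :=
  Subtype.ext ((mv_mul (N := M.M) p f a.1).symm.trans (Bun.Act.mv_eq_zero (N := M.M) a.2
    fun y hy v hv => by rw [mev_mul]; exact (h0 y hy ⟨v, hv, rfl⟩).2))
end cx

lemma Bun.act_ses {A B C : Bun X} (h : Bun.SES A B C) {M : GM} (hM : M.Red X) :
    cl X (B.act M) = cl X (A.act M) + cl X (C.act M) := by
  obtain ⟨f, p, hf, hp, h⟩ := h
  have h1 : ∀ x ∈ X.pts, ∀ v ∈ A.L x, mev x f v ∈ B.L x := fun x hx v hv =>
    ((h x hx).2.1.le ⟨v, hv, rfl⟩).1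
  have h2 : ∀ x ∈ X.pts, ∀ v ∈ B.L x, mev x p v ∈ C.L x := fun x hx v hv =>
    (h x hx).2.2.le ⟨v, hv, rfl⟩
  refine cl_locSES ⟨A.actMap B f h1 M, B.actMap C p h2 M, deg0_actMap hf h1 M,
    deg0_actMap hp h2 M, act_comp h1 h2 fun x hx => (h x hx).2.1.le, fun x hx => ?_⟩
    (A.red_act hM).on (B.red_act hM).on (C.red_act hM).on
  obtain ⟨r₁, a₁, b₁⟩ := act_inj (M := M) h1 hx (h x hx).1
  obtain ⟨r₂, a₂, b₂⟩ := act_mid hM h1 h2 (fun x hx => (h x hx).2.1.le) hx (h x hx).2.1
  obtain ⟨r₃, a₃, b₃⟩ := act_surj hM h2 hx (h x hx).2.2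
  refine ⟨r₁ * r₂ * r₃, by simp [a₁, a₂, a₃], fun a ha => ?_, fun b hb => ?_, fun c => ?_⟩
  · rw [mul_assoc, mul_comm, mul_smul, b₁ a ha, smul_zero]
  · obtain ⟨a, ha⟩ := b₂ b hb
    exact ⟨(r₁ * r₃) • a, by rw [map_smul, ha, ← mul_smul, mul_right_comm]⟩
  · obtain ⟨b, hb⟩ := b₃ c
    exact ⟨(r₁ * r₂) • b, by rw [map_smul, hb, ← mul_smul]⟩

lemma Bun.cl_act_top (A : Bun X) (hA : ∀ x ∈ X.pts, A.L x = ⊤) {M : GM} (hM : M.Red X) :
    cl X (A.act M) = ∑ i, cl X (M.shift (A.deg i)) := by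
  rw [← cl_pw A.hdeg hM.on]
  exact cl_iso (LinearEquiv.ofTop (A.actSub M) (eq_top_iff.2 fun u _ =>
    A.act_top hA hM.ann (N := M.M) u)) fun _ => rfl
lemma Bun.cl_act_line {d : D} (hd : d ∈ DS X.B) {M : GM} (hM : M.Red X) :
    cl X ((line X d).act M) = sh X d (cl X M) := by
  rw [(line X d).cl_act_top (fun _ _ => rfl) hM, sh_cl hd hM.on]
  change ∑ _ : Unit, cl X (M.shift (dpr X.B d)) = _
  rw [dpr_of_mem hd, Fintype.sum_unique]

lemma Bun.cl_act_tens (A B : Bun X) {M : GM} (hM : M.Red X) :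
    cl X ((A.tens B).act M) = cl X (A.act (B.act M)) := by
  let F : ((A.tens B).act M).M →ₗ[R] (A.act (B.act M)).M :=
    { toFun := fun w => ⟨fun i => ⟨fun j => w.1 (i, j), Bun.Act.tens_right (N := M.M) w.2 i⟩,
        fun a ha => Subtype.ext (funext fun j => by
          refine Eq.trans ?_ (Bun.Act.tens_left (N := M.M) w.2 j a ha)
          exact map_sum ((LinearMap.proj j).comp (B.actSub M).subtype) _ _)⟩
      map_add' := fun _ _ => rfl
      map_smul' := fun _ _ => rfl }
  refine cl_locIso F (fun w => Subtype.ext (funext fun i => Subtype.ext (funext fun j => ?_)))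
    ((A.tens B).red_act hM).on (A.red_act (B.red_act hM)).on fun x hx => ?_
  · change (C (chi (-(A.deg i + B.deg j))) : R) • M.g (w.1 (i, j)) =
      (C (chi (-A.deg i)) : R) • (C (chi (-B.deg j)) : R) • M.g (w.1 (i, j))
    rw [neg_add, chi_add, map_mul, mul_smul]
  · obtain ⟨r, hr, h⟩ := A.exists_tens B hx
    refine ⟨r, hr, fun a ha => ?_, fun b => ⟨⟨_, h hM.ann (fun q => (b.1 q.1).1 q.2)
      (fun j => Bun.Act.lin (N := (B.act M).M) b.2 ((LinearMap.proj j).comp (B.actSub M).subtype))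
      fun i => (b.1 i).2⟩, rfl⟩⟩
    have : a = 0 := Subtype.ext (funext fun q =>
      congrFun (congrArg Subtype.val (congrFun (congrArg Subtype.val ha) q.1)) q.2)
    rw [this, smul_zero]

lemma exists_act (X : Spc) : ∃ Φ : K X →+* AddMonoid.End (G X), ∀ (A : Bun X) (M : GM),
    M.Red X → Φ A.kl (cl X M) = cl X (A.act M) := by
  choose φ hφ using fun A : Bun X => G.exists_liftRed (X := X) (fun M => cl X (A.act M))
    (fun _ _ _ h hB => A.act_ses_mod h hB) (fun _ _ hi => cl_irr (A.irr_act hi))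
  obtain ⟨Φ, hΦ⟩ := K.exists_lift (G := AddMonoid.End (G X)) φ fun A B C h =>
    G.hom_ext_red fun M hM => by
      change φ B _ = φ A _ + φ C _
      rw [hφ _ _ hM, hφ _ _ hM, hφ _ _ hM, Bun.act_ses h hM]
  have h1 : Φ 1 = 1 := by
    rw [K.one_def, hΦ]
    exact G.hom_ext_red fun M hM => by
      rw [hφ _ _ hM, Bun.cl_act_line (zero_mem _) hM, sh_zero]; rfl
  have h2 : ∀ a b, Φ (a * b) = Φ a * Φ b := by
    intro a b
    induction a using K.ind with
    | h0 => simp
    | hneg a ha => rw [neg_mul, map_neg, map_neg, ha, neg_mul]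
    | hadd a a' ha ha' => rw [add_mul, map_add, map_add, ha, ha', add_mul]
    | hkl A =>
      induction b using K.ind with
      | h0 => simp
      | hneg b hb => rw [mul_neg, map_neg, map_neg, hb, mul_neg]
      | hadd b b' hb hb' => rw [mul_add, map_add, map_add, hb, hb', mul_add]
      | hkl B =>
        rw [← kl_tens, hΦ, hΦ, hΦ]
        exact G.hom_ext_red fun M hM => by
          change φ _ _ = φ A (φ B _)
          rw [hφ _ _ hM, hφ _ _ hM, hφ _ _ (B.red_act hM), A.cl_act_tens B hM]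
  exact ⟨{ Φ with map_one' := h1, map_mul' := h2 }, fun A M hM => by
    change Φ A.kl _ = _
    rw [hΦ]
    exact hφ _ _ hM⟩
instance (X : Spc) : Module (K X) (G X) := Module.compHom (G X) (exists_act X).choose
lemma kl_smul (A : Bun X) {M : GM} (h : M.Red X) : A.kl • cl X M = cl X (A.act M) :=
  (exists_act X).choose_spec A M h
lemma lbK_smul {d : D} (hd : d ∈ DS X.B) (a : G X) : lbK X d • a = sh X d a := by
  induction a using G.ind_red with
  | h0 => simp
  | hneg a ha => rw [smul_neg, map_neg, ha]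
  | hadd a b ha hb => rw [smul_add, map_add, ha, hb]
  | hcl M hM => rw [lbK, kl_smul _ hM, Bun.cl_act_line hd hM]
lemma sh_smul {d : D} (hd : d ∈ DS X.B) (u : K X) (a : G X) : sh X d (u • a) = u • sh X d a := by
  rw [← lbK_smul hd, ← lbK_smul hd, smul_smul, smul_smul, mul_comm]
lemma Bun.cl_piece_act (h : Proj Y X) (A : Bun X) {N : GM} (hN : N.Red Y) :
    cl X (piece X.B ((A.pull h).act N)) = cl X (A.act (piece X.B N)) := by
  have hm : ∀ u : ((A.pull h).act N).M, u ∈ pieceSub X.B ((A.pull h).act N) ↔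
      ∀ i, u.1 i ∈ pieceSub X.B N := fun u =>
    Iff.trans ⟨(deg0_subtype _).mem_pieceSub,
      (deg0_subtype _).mem_pieceSub_of_inj Subtype.val_injective⟩ (mem_pieceSub_pw A.hdeg)
  let F : (piece X.B ((A.pull h).act N)).M →ₗ[R] (A.act (piece X.B N)).M :=
    { toFun := fun w => ⟨fun i => (⟨(PieceT.val w).1 i, (hm _).1 (Subtype.property w) i⟩ :
          pieceSub X.B N), fun a ha => PieceT.ext ((map_sum (PieceT.valHom X.B N) _ _).trans
        ((PieceT.val w).2 _ (ha.kill h)))⟩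
      map_add' := fun _ _ => rfl
      map_smul' := fun _ _ => rfl }
  refine cl_locIso F (fun w => Subtype.ext (funext fun i => PieceT.ext ?_))
    (Red.piece h ((A.pull h).red_act hN).ann).on (A.red_act (Red.piece h hN.ann)).on fun x hx => ?_
  · change (C (chi (-A.deg i)) : R) • N.g ((PieceT.val w).1 i) =
      kill X.B (C (chi (-A.deg i))) • N.g ((PieceT.val w).1 i)
    simp [kill]
  · obtain ⟨r, P, hr, h1, h2⟩ := A.exists_proj hx
    refine ⟨r, hr, fun a ha => ?_, fun b => ?_⟩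
    · have : a = 0 := PieceT.ext (Subtype.ext (funext fun i =>
        congrArg PieceT.val (congrFun (congrArg Subtype.val ha) i)))
      rw [this, smul_zero]
    · have h3 : mv (N := PieceT X.B N) P b.1 = r • b.1 :=
        Bun.Act.mv_eq_smul (N := PieceT X.B N) b.2 h2
      have h4 : (A.pull h).Act (mv (P.map (kill X.B)) fun i => PieceT.val (b.1 i)) :=
        (A.pull h).act_mv hN.ann (fun y hy v =>
          (mev_kill' X.B y P v).symm ▸ h1 _ (h.map y hy) v) _
      refine ⟨(⟨⟨_, h4⟩, (hm _).2 fun i => ?_⟩ : pieceSub X.B ((A.pull h).act N)),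
        Subtype.ext (funext fun i => PieceT.ext ?_)⟩
      · have h5 : (mv (N := PieceT X.B N) P b.1 i).val ∈ pieceSub X.B N := Subtype.property _
        exact (congrArg (· ∈ pieceSub X.B N) (val_mv P b.1 i)).mp h5
      · exact (val_mv P b.1 i).symm.trans (congrArg PieceT.val (congrFun h3 i))
lemma Bun.deg0_act_shift (A : Bun X) (M : GM) (d : D) :
    Deg0 (M := A.act (M.shift d)) (N := (A.act M).shift d) LinearMap.id :=
  fun u => Subtype.ext (funext fun i =>
    smul_comm (C (chi (-A.deg i)) : R) (C (chi (-d)) : R) (M.g (u.1 i)))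
lemma cl_piece_congr {M N : GM} (e : M.M ≃ₗ[R] N.M) (he : Deg0 e.toLinearMap) (B : Finset ℕ) :
    cl X (piece B M) = cl X (piece B N) :=
  cl_iso (LinearEquiv.ofBijective (pieceMap B _ he) ⟨fun _ _ h =>
    PieceT.ext (e.injective (congrArg PieceT.val h)), fun b =>
      exists_pieceMap_eq B _ he b (e.apply_symm_apply _)⟩) (deg0_pieceMap B _ he)
lemma Big.inDS {k : ℤ} {d : D} (hd : Big Y X k d) : d ∈ DS Y.B :=
  fun b hb => hd.2.1 b (Or.inr hb)
lemma Big.weaken {k k' : ℤ} {d : D} (hd : Big Y X k d) (h : k' ≤ k) : Big Y X k' d :=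
  ⟨hd.1, hd.2.1, fun b h1 h2 => h.trans (hd.2.2 b h1 h2)⟩
/-- projection formula -/
theorem push_smulK (h : Proj Y X) (u : K X) (a : G Y) :
    push Y X (K.pull h u • a) = u • push Y X a := by
  induction u using K.ind with
  | h0 => simp
  | hneg u hu => rw [map_neg, neg_smul, map_neg, hu, neg_smul]
  | hadd u v hu hv => rw [map_add, add_smul, map_add, hu, hv, add_smul]
  | hkl A =>
    let P : AddSubgroup (G Y) :=
      { carrier := {a | push Y X (K.pull h A.kl • a) = A.kl • push Y X a}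
        zero_mem' := by simp
        add_mem' := fun {a b} ha hb => by
          rw [Set.mem_ofPred_eq] at *
          rw [smul_add, map_add, map_add, smul_add, ha, hb]
        neg_mem' := fun {a} ha => by
          rw [Set.mem_ofPred_eq] at *
          rw [smul_neg, map_neg, map_neg, smul_neg, ha] }
    have hP : P = ⊤ := by
      refine G.ext_big h P (fun k a ha => ?_) fun M hM => ?_
      · change push Y X (K.pull h A.kl • _) = A.kl • _
        rw [← sh_smul (zsmul_mem (eT_mem _) k), push_sh h (zsmul_mem (eT_mem _) k),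
          push_sh h (zsmul_mem (eT_mem _) k), ← sh_smul (zsmul_mem (eT_mem _) k)]
        exact congrArg _ ha
      · obtain ⟨k₁, h₁⟩ := (isPush h).big M hM.on
        obtain ⟨k₂, h₂⟩ := (isPush h).big _ ((A.pull h).red_act hM).on
        refine ⟨max k₁ k₂, fun d hd => ?_⟩
        have hMd := hM.shift hd.inDS
        change push Y X (K.pull h A.kl • _) = A.kl • _
        rw [K.pull_kl, kl_smul _ hMd, h₁ d (hd.weaken (le_max_left _ _)),
          kl_smul _ (Red.piece h hMd.ann), ← A.cl_piece_act h hMd,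
          cl_iso (A := (A.pull h).act (M.shift d)) (B := ((A.pull h).act M).shift d)
            (LinearEquiv.refl R _) ((A.pull h).deg0_act_shift M d),
          h₂ d (hd.weaken (le_max_right _ _))]
        exact (cl_piece_congr (M := (A.pull h).act (M.shift d)) (N := ((A.pull h).act M).shift d)
          (LinearEquiv.refl R _) ((A.pull h).deg0_act_shift M d) _).symm
    have : a ∈ P := hP ▸ AddSubgroup.mem_top a
    exact this
lemma mem_range_incl (hZ : Z.Sub X) {N : GM} (hN : N.On X)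
    (h : ∀ x ∈ X.pts, x ∉ Z.pts → N.Kill x) : cl X N ∈ (incl Z X).range :=
  ⟨cl Z N, incl_cl hZ ⟨hZ.1 ▸ hN.deg, fun x hx hn => by
    by_cases hX : x ∈ X.pts
    · exact h x hX hn
    · exact hN.supp x (hZ.1 ▸ hx) hX⟩⟩
/-- a complex of bundles that is exact off `Z` acts into the classes supported on `Z` -/
theorem cx_smul_mem {A B C : Bun X} (f : Matrix B.ι A.ι R) (p : Matrix C.ι B.ι R)
    (hf : MHmg A.deg B.deg f) (hp : MHmg B.deg C.deg p) (hZ : Z.Sub X)
    (h : ∀ x ∈ X.pts, (A.L x).map (mev x f) ≤ B.L x ⊓ LinearMap.ker (mev x p) ∧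
      (B.L x).map (mev x p) ≤ C.L x)
    (he : ∀ x ∈ X.pts, x ∉ Z.pts → A.L x ⊓ LinearMap.ker (mev x f) = ⊥ ∧
      (A.L x).map (mev x f) = B.L x ⊓ LinearMap.ker (mev x p) ∧ (B.L x).map (mev x p) = C.L x)
    (a : G X) : (A.kl - B.kl + C.kl) • a ∈ (incl Z X).range := by
  induction a using G.ind_red with
  | h0 => rw [smul_zero]; exact zero_mem _
  | hneg a ha => rw [smul_neg]; exact neg_mem ha
  | hadd a b ha hb => rw [smul_add]; exact add_mem ha hb
  | hcl M hM =>
    have h1 : ∀ x ∈ X.pts, ∀ v ∈ A.L x, mev x f v ∈ B.L x := fun x hx v hv =>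
      ((h x hx).1 ⟨v, hv, rfl⟩).1
    have h2 : ∀ x ∈ X.pts, ∀ v ∈ B.L x, mev x p v ∈ C.L x := fun x hx v hv =>
      (h x hx).2 ⟨v, hv, rfl⟩
    rw [add_smul, sub_smul, kl_smul _ hM, kl_smul _ hM, kl_smul _ hM,
      cl_cx (A.red_act hM).on (B.red_act hM).on (C.red_act hM).on _ _ (deg0_actMap hf h1 M)
        (deg0_actMap hp h2 M) (act_comp h1 h2 fun x hx => (h x hx).1)]
    refine add_mem (sub_mem (mem_range_incl hZ ((A.red_act hM).on.sub _) fun x hx hn => ?_)
      (mem_range_incl hZ (((B.red_act hM).on.sub _).quot _) fun x hx hn => ?_))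
      (mem_range_incl hZ ((C.red_act hM).on.quot _) fun x hx hn => ?_)
    · obtain ⟨r, hr, h3⟩ := act_inj (M := M) h1 hx (he x hx hn).1
      exact ⟨r, hr, fun m => Subtype.ext (h3 m.1 m.2)⟩
    · obtain ⟨r, hr, h3⟩ := act_mid hM h1 h2 (fun x hx => (h x hx).1) hx (he x hx hn).2.1
      refine ⟨r, hr, fun m => ?_⟩
      obtain ⟨m, rfl⟩ := Submodule.Quotient.mk_surjective _ m
      exact (Submodule.Quotient.mk_eq_zero _).2 (h3 m.1 m.2)
    · obtain ⟨r, hr, h3⟩ := act_surj hM h2 hx (he x hx hn).2.2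
      refine ⟨r, hr, fun m => ?_⟩
      obtain ⟨m, rfl⟩ := Submodule.Quotient.mk_surjective _ m
      exact (Submodule.Quotient.mk_eq_zero _).2 (h3 m)

/-- the classes acting by zero after every pull-back -/
def annK (X : Spc) : Ideal (K X) where
  carrier := {u | ∀ (Y : Spc) (h : Proj Y X) (a : G Y), K.pull h u • a = 0}
  add_mem' := by intro a b ha hb Y h c; rw [map_add, add_smul, ha, hb, add_zero]
  zero_mem' := by intro Y h c; simp
  smul_mem' := by intro u a ha Y h c; rw [smul_eq_mul, map_mul, mul_smul, ha, smul_zero]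
/-- the operator ring -/
def Op (X : Spc) : Type 1 := K X ⧸ annK X
instance (X : Spc) : CommRing (Op X) := inferInstanceAs (CommRing (K X ⧸ annK X))
/-- the operator of a `K`-class -/
def op (X : Spc) : K X →+* Op X := Ideal.Quotient.mk (annK X)
lemma op_surj : Function.Surjective (op X) := Ideal.Quotient.mk_surjective
lemma op_eq_zero {u : K X} :
    op X u = 0 ↔ ∀ (Y : Spc) (h : Proj Y X) (a : G Y), K.pull h u • a = 0 :=
  Ideal.Quotient.eq_zero_iff_mem
lemma isTorsionBySet_annK (X : Spc) : Module.IsTorsionBySet (K X) (G X) (annK X) := by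
  rintro a ⟨u, hu⟩
  have := hu X (Proj.refl X) a
  rwa [K.pull_self] at this
instance (X : Spc) : Module (Op X) (G X) := (isTorsionBySet_annK X).module
lemma op_smul (u : K X) (a : G X) : op X u • a = u • a := rfl
/-- pull-back of operators -/
def Op.pull (h : Proj Y X) : Op X →+* Op Y :=
  Ideal.quotientMap (annK Y) (K.pull h) fun u hu W h' a => by
    rw [K.pull_pull]; exact hu W _ a
lemma Op.pull_op (h : Proj Y X) (u : K X) : Op.pull h (op X u) = op Y (K.pull h u) := rfl
lemma Op.pull_pull (h : Proj Z Y) (h' : Proj Y X) (u : Op X) :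
    Op.pull h (Op.pull h' u) = Op.pull (h.trans h') u := by
  obtain ⟨u, rfl⟩ := op_surj u
  rw [Op.pull_op, Op.pull_op, Op.pull_op, K.pull_pull]
lemma Op.pull_self (u : Op X) : Op.pull (Proj.refl X) u = u := by
  obtain ⟨u, rfl⟩ := op_surj u
  rw [Op.pull_op, K.pull_self]
theorem push_smul (h : Proj Y X) (u : Op X) (a : G Y) :
    push Y X (Op.pull h u • a) = u • push Y X a := by
  obtain ⟨u, rfl⟩ := op_surj u
  exact push_smulK h u a
lemma Op.eq_zero {u : Op X} (h : ∀ (Y : Spc) (p : Proj Y X) (a : G Y), Op.pull p u • a = 0) :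
    u = 0 := by
  obtain ⟨u, rfl⟩ := op_surj u
  exact op_eq_zero.2 h
/-- an operator vanishes if it kills the structure sheaves of irreducible spaces over `X` -/
theorem Op.eq_zero_of_irred {u : Op X}
    (h : ∀ (Y : Spc) (p : Proj Y X), Y.Irred → Op.pull p u • one Y = 0) : u = 0 := by
  refine Op.eq_zero fun Y p a => ?_
  have hP := G.dev (AddMonoidHom.ker (DistribSMul.toAddMonoidHom (G Y) (Op.pull p u)))
    fun W hW hi d hd => by
      change Op.pull p u • cl Y ((O W).shift d) = 0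
      have h1 : cl Y ((O W).shift d) = sh Y d (push W Y (one W)) := by
        rw [push_eq_incl hW, one, incl_cl hW (red_O W).on, sh_cl hd ((red_O W).on.mono hW)]
      rw [h1, ← lbK_smul hd, ← op_smul, smul_comm, ← push_smul hW.proj, Op.pull_pull, h W _ hi,
        map_zero, smul_zero]
  have : a ∈ AddMonoidHom.ker (DistribSMul.toAddMonoidHom (G Y) (Op.pull p u)) :=
    hP ▸ AddSubgroup.mem_top a
  exact this
/-- `O(d)` as an operator -/
def lb (X : Spc) (d : D) : Op X := op X (lbK X d)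
lemma lb_zero : lb X 0 = 1 := map_one (op X)
lemma lb_add (d e : D) : lb X (d + e) = lb X d * lb X e := by rw [lb, lbK_add, map_mul]; rfl
lemma lb_mul_neg (d : D) : lb X d * lb X (-d) = 1 := by rw [← lb_add, add_neg_cancel, lb_zero]
lemma isUnit_lb (d : D) : IsUnit (lb X d) := IsUnit.of_mul_eq_one _ (lb_mul_neg d)
lemma lb_nsmul (n : ℕ) (d : D) : lb X (n • d) = lb X d ^ n := by
  induction n with
  | zero => rw [zero_smul, pow_zero, lb_zero]
  | succ n ih => rw [succ_nsmul, lb_add, ih, pow_succ]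
lemma lb_sum {α : Type*} (s : Finset α) (d : α → D) :
    lb X (∑ i ∈ s, d i) = ∏ i ∈ s, lb X (d i) := by
  classical
  induction s using Finset.induction_on with
  | empty => rw [Finset.sum_empty, Finset.prod_empty, lb_zero]
  | insert a s ha ih => rw [Finset.sum_insert ha, Finset.prod_insert ha, lb_add, ih]
lemma lb_smul {d : D} (hd : d ∈ DS X.B) (a : G X) : lb X d • a = sh X d a := lbK_smul hd a
lemma Op.pull_lb (h : Proj Y X) {d : D} (hd : d ∈ DS X.B) : Op.pull h (lb X d) = lb Y d := by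
  rw [lb, Op.pull_op, K.pull_lbK h hd]; rfl
/-- Koszul relation of a block -/
theorem prod_one_sub_lb {b : ℕ} (hb : b ∈ X.B) (V : Finset Var) (hV : ∀ v ∈ V, v.1 = b)
    (h : ∀ x ∈ X.pts, ∀ v : Var, v.1 = b → x v ≠ 0 → v ∈ V) :
    ∏ v ∈ V, (1 - lb X (-vdeg v)) = 0 := by
  classical
  refine Op.eq_zero fun Y p a => ?_
  have hd : ∀ v ∈ V, vdeg v ∈ DS X.B := fun v hv => vdeg_mem (by rw [hV v hv]; exact hb)
  have h1 : Op.pull p (∏ v ∈ V, (1 - lb X (-vdeg v))) =
      ∑ S ∈ V.powerset, (-1 : ℤ) ^ S.card • lb Y (-∑ v ∈ S, vdeg v) := by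
    rw [map_prod, Finset.prod_congr rfl (g := fun v => 1 + -lb Y (-vdeg v)) fun v hv => by
      rw [map_sub, map_one, Op.pull_lb p (neg_mem (hd v hv)), sub_eq_add_neg],
      Finset.prod_one_add]
    refine Finset.sum_congr rfl fun S _ => ?_
    rw [Finset.prod_neg, ← Finset.sum_neg_distrib, lb_sum, zsmul_eq_mul]
    simp
  rw [h1, Finset.sum_smul, ← koszul_block (p.sub hb) V hV (fun y hy v hv h0 =>
    h _ (p.map y hy) v hv (by rwa [restr, if_pos (by rw [hv]; exact hb)])) a]
  refine Finset.sum_congr rfl fun S hS => ?_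
  rw [smul_assoc, lb_smul (neg_mem (sum_mem fun v hv =>
    DS_mono p.sub (hd v (Finset.mem_powerset.1 hS hv))))]
/-- on a `T`-trivial space `O(d)` is `t^(nwt d)` up to a nilpotent -/
theorem isNilpotent_lb_sub {w : ℕ → ℤ} (hw : X.TTriv w) {d : D} (hd : d ∈ DS X.B) :
    IsNilpotent (lb X d - lb X (nwt X.B w d • eT)) := by
  classical
  let S : AddSubgroup D :=
    { carrier := {e | IsNilpotent (lb X e - 1)}
      zero_mem' := by simp [lb_zero]
      add_mem' := fun {a b} ha hb => by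
        have : lb X (a + b) - 1 = lb X a * (lb X b - 1) + (lb X a - 1) := by rw [lb_add]; ring
        rw [Set.mem_ofPred_eq, this]
        exact (Commute.all _ _).isNilpotent_add ((Commute.all _ _).isNilpotent_mul_left hb) ha
      neg_mem' := fun {a} ha => by
        have : lb X (-a) - 1 = -lb X (-a) * (lb X a - 1) := by
          have := lb_mul_neg (X := X) a
          linear_combination this
        rw [Set.mem_ofPred_eq, this]
        exact (Commute.all _ _).isNilpotent_mul_left ha }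
  have h1 : ∀ b ∈ X.B, eB b + w b • eT ∈ S := by
    intro b hb
    obtain ⟨V, -, hV⟩ := X.fin
    have h2 := prod_one_sub_lb hb (V.filter fun v => v.1 = b ∧ v.2.2 = w b)
      (fun v hv => (Finset.mem_filter.1 hv).2.1) fun x hx v hv h0 => Finset.mem_filter.2
        ⟨by by_contra h; exact h0 (hV x hx v h), hv, by rw [hw x hx v h0, hv]⟩
    rw [Finset.prod_congr rfl (g := fun _ => 1 - lb X (-(eB b + w b • eT))) fun v hv => by
      rw [vdeg, (Finset.mem_filter.1 hv).2.1, (Finset.mem_filter.1 hv).2.2],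
      Finset.prod_const] at h2
    refine neg_mem_iff.1 ?_
    change IsNilpotent (_ - 1)
    rw [← neg_sub]
    exact IsNilpotent.neg ⟨_, h2⟩
  have h2 : d - nwt X.B w d • eT = ∑ b ∈ X.B, d (some b) • (eB b + w b • eT) := by
    ext i
    rw [Finsupp.finsetSum_apply]
    cases i with
    | none => simp [nwt, eB, eT, mul_comm]
    | some c =>
      by_cases hc : c ∈ X.B
      · rw [Finset.sum_eq_single c]
        · simp [eB, eT]
        · intro b _ hb
          simp [eB, eT, hb]
        · exact fun h => (h hc).elim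
      · rw [Finset.sum_eq_zero]
        · simp [eT, hd c hc]
        · intro b hb
          have : b ≠ c := fun h => hc (h ▸ hb)
          simp [eB, eT, this]
  have h3 : d - nwt X.B w d • eT ∈ S := by
    rw [h2]
    exact sum_mem fun b hb => zsmul_mem (h1 b hb) _
  have h4 : lb X d - lb X (nwt X.B w d • eT) =
      lb X (nwt X.B w d • eT) * (lb X (d - nwt X.B w d • eT) - 1) := by
    rw [mul_sub, ← lb_add, add_sub_cancel, mul_one]
  rw [h4]
  exact (Commute.all _ _).isNilpotent_mul_left h3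
/-- the coefficient ring `ℤ[t^±]` acts -/
def tHom (X : Spc) : LaurentPolynomial ℤ →+* Op X :=
  AddMonoidAlgebra.liftNCRingHom (Int.castRingHom _)
    { toFun := fun k => lb X (Multiplicative.toAdd k • eT)
      map_one' := by simp [lb_zero]
      map_mul' := by intro a b; simp [add_smul, lb_add] } fun _ _ => Commute.all _ _
lemma tHom_T (k : ℤ) : tHom X (LaurentPolynomial.T k) = lb X (k • eT) := by
  rw [tHom, LaurentPolynomial.T, AddMonoidAlgebra.liftNCRingHom_single]
  simp
lemma laurent_ind {P : LaurentPolynomial ℤ → Prop} (h0 : P 0)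
    (hT : ∀ k, P (LaurentPolynomial.T k)) (hneg : ∀ p, P p → P (-p))
    (hadd : ∀ p q, P p → P q → P (p + q)) (p : LaurentPolynomial ℤ) : P p := by
  refine LaurentPolynomial.induction_on' p hadd fun n a => ?_
  have h1 : LaurentPolynomial.C a * LaurentPolynomial.T n = a • LaurentPolynomial.T (R := ℤ) n := by
    rw [zsmul_eq_mul]; simp
  rw [h1]
  induction a using Int.induction_on with
  | zero => rwa [zero_smul]
  | succ i ih => rw [add_smul, one_smul]; exact hadd _ _ (ih (by rw [zsmul_eq_mul]; simp)) (hT n)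
  | pred i ih =>
    rw [sub_smul, one_smul, sub_eq_add_neg]
    exact hadd _ _ (ih (by rw [zsmul_eq_mul]; simp)) (hneg _ (hT n))
lemma Op.pull_tHom (h : Proj Y X) (p : LaurentPolynomial ℤ) :
    Op.pull h (tHom X p) = tHom Y p := by
  induction p using laurent_ind with
  | h0 => simp
  | hT k => rw [tHom_T, tHom_T, Op.pull_lb h (zsmul_mem (eT_mem _) k)]
  | hneg p hp => rw [map_neg, map_neg, map_neg, hp]
  | hadd p q hp hq => rw [map_add, map_add, map_add, hp, hq]
lemma chiT_tHom_one (p : LaurentPolynomial ℤ) : chiT (tHom Spc.pt0 p • one _) = p := by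
  induction p using laurent_ind with
  | h0 => simp
  | hT k => rw [tHom_T, lb_smul (zsmul_mem (eT_mem _) k), chiT_one]
  | hneg p hp => rw [map_neg, neg_smul, map_neg, hp]
  | hadd p q hp hq => rw [map_add, add_smul, map_add, hp, hq]
lemma chiT_smul (p : LaurentPolynomial ℤ) (a : G Spc.pt0) :
    chiT (tHom Spc.pt0 p • a) = p * chiT a := by
  have h1 : a = tHom Spc.pt0 (chiT a) • one _ := chiT.injective (chiT_tHom_one _).symm
  conv_lhs => rw [h1, smul_smul, ← map_mul, chiT_tHom_one]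
/-- equivariant Euler characteristic -/
def eul (X : Spc) : G X →+ LaurentPolynomial ℤ := chiT.toAddMonoidHom.comp (push X Spc.pt0)
lemma eul_apply (a : G X) : eul X a = chiT (push X Spc.pt0 a) := rfl
lemma eul_push (h : Proj Y X) (a : G Y) : eul X (push Y X a) = eul Y a := by
  rw [eul_apply, eul_apply, push_push h (Spc.proj_pt0 X)]
lemma eul_tHom (p : LaurentPolynomial ℤ) (a : G X) : eul X (tHom X p • a) = p * eul X a := by
  rw [eul_apply, eul_apply, ← Op.pull_tHom (Spc.proj_pt0 X), push_smul, chiT_smul]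
lemma Spc.pt0_isPt (w : ℕ → ℤ) : Spc.pt0.IsPt w := by
  refine ⟨fun x hx v hv => ?_, 0, by rw [Spc.pt0_pts]; rfl, fun y hy => ⟨0, fun v => ?_⟩⟩
  · rw [Spc.pt0_pts] at hx
    exact (hv (by rw [hx]; rfl)).elim
  · rw [Spc.pt0_pts] at hy
    rw [hy]; simp
lemma Spc.IsPt.eul_one {P : Spc} {w : ℕ → ℤ} (h : P.IsPt w) : eul P (one P) = 1 := by
  have h1 := chiT_one 0
  rw [zero_smul, sh_zero] at h1
  rw [eul_apply, push_one_pt h (Spc.pt0_isPt w) (Spc.proj_pt0 P), h1, LaurentPolynomial.T_zero]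
lemma Spc.IsPt.eq_eul {P : Spc} {w : ℕ → ℤ} (h : P.IsPt w) (a : G P) :
    a = tHom P (eul P a) • one P := by
  have ha : a ∈ AddSubgroup.closure {a | ∃ k : ℤ, a = sh P (k • eT) (one P)} :=
    h.span ▸ AddSubgroup.mem_top a
  induction ha using AddSubgroup.closure_induction with
  | mem a ha =>
    obtain ⟨k, rfl⟩ := ha
    rw [← lb_smul (zsmul_mem (eT_mem _) k), ← tHom_T, eul_tHom, h.eul_one, mul_one]
  | zero => simp
  | add a b _ _ ha hb => rw [map_add, map_add, add_smul, ← ha, ← hb]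
  | neg a _ ha => rw [map_neg, map_neg, neg_smul, ← ha]
/-- setting `t = 1` on a space with weight-zero variables -/
theorem wt_cancel (hX : X.TTriv 0) {M N : GM} (hM : M.On X) (hN : N.On X)
    (hM0 : ∀ d : D, d none ≠ 0 → M.gr d = ⊥) (hN0 : ∀ d : D, d none ≠ 0 → N.gr d = ⊥)
    (q r : Polynomial ℤ) (j : ℕ) (a : G X)
    (h : tHom X (Polynomial.toLaurent ((1 - Polynomial.X) ^ j * q)) • (cl X M - cl X N) =
      tHom X (Polynomial.toLaurent ((1 - Polynomial.X) ^ (j + 1) * r)) • a) :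
    q.eval 1 • (cl X M - cl X N) = 0 := by
  obtain ⟨π, h1, h2, h3⟩ := G.exists_wt hX
  have hT : ∀ (k i : ℤ) (b : G X), π k (tHom X (LaurentPolynomial.T i) • b) = π (k + i) b :=
    fun k i b => by rw [tHom_T, lb_smul (zsmul_mem (eT_mem _) i), h1]
  let t : Op X := tHom X (Polynomial.toLaurent (1 - Polynomial.X))
  have ht : ∀ k b, π k (t • b) = π k b - π (k + 1) b := fun k b => by
    simp only [t, map_sub, map_one, Polynomial.toLaurent_X, sub_smul, one_smul, hT]
  have cancel : ∀ b, (∀ k, π k (t • b) = 0) → ∀ k, π k b = 0 := by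
    intro b hb k
    by_contra hk
    have h4 : ∀ n : ℕ, π (k + n) b = π k b := fun n => by
      induction n with
      | zero => simp
      | succ n ih => rw [← ih, Nat.cast_succ, ← add_assoc, eq_comm, ← sub_eq_zero, ← ht, hb]
    refine Set.infinite_of_injective_forall_mem (f := fun n : ℕ => k + n)
      (fun m n hmn => by simpa using hmn) (fun n => ?_) (h2 b)
    change π (k + n) b ≠ 0
    rwa [h4]
  have cancel' : ∀ (i : ℕ) b, (∀ k, π k (t ^ i • b) = 0) → ∀ k, π k b = 0 := by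
    intro i
    induction i with
    | zero => intro b hb; simpa using hb
    | succ i ih => intro b hb; exact ih b (cancel _ fun k => by rw [smul_smul, ← pow_succ', hb])
  let S : G X →+ G X :=
    { toFun := fun b => ∑ᶠ k, π k b
      map_zero' := by simp
      map_add' := fun b c => by
        simp only [map_add]
        exact finsum_add_distrib (h2 b) (h2 c) }
  have hS : ∀ (p : Polynomial ℤ) b, S (tHom X (Polynomial.toLaurent p) • b) = p.eval 1 • S b := by
    intro p b
    induction p using Polynomial.induction_on' with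
    | add p q hp hq => simp only [map_add, add_smul, hp, hq, Polynomial.eval_add]
    | monomial n c =>
      have h4 : Polynomial.toLaurent (Polynomial.monomial n c) =
          c • LaurentPolynomial.T (R := ℤ) n := by
        rw [Polynomial.toLaurent_C_mul_T, zsmul_eq_mul]; simp
      rw [h4, map_zsmul, smul_assoc, map_zsmul, Polynomial.eval_monomial, one_pow, mul_one]
      congr 1
      change ∑ᶠ k, π k _ = ∑ᶠ k, π k b
      simp only [hT]
      exact finsum_comp_equiv (Equiv.addRight (n : ℤ)) (f := fun k => π k b)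
  have h4 : S (cl X M - cl X N) = cl X M - cl X N := by
    change ∑ᶠ k, π k _ = _
    rw [finsum_eq_single _ 0 fun k hk => by
      rw [map_sub, (h3 M hM hM0).2 k hk, (h3 N hN hN0).2 k hk, sub_self],
      map_sub, (h3 M hM hM0).1, (h3 N hN hN0).1]
  have h5 := cancel' j (tHom X (Polynomial.toLaurent q) • (cl X M - cl X N) -
      tHom X (Polynomial.toLaurent ((1 - Polynomial.X) * r)) • a) fun k => by
    simp only [map_mul, map_pow, pow_succ, mul_smul] at h
    simp only [t, map_mul, mul_smul, smul_sub (_ ^ j : Op X), h, sub_self, map_zero]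
  have h6 : S (tHom X (Polynomial.toLaurent q) • (cl X M - cl X N) -
      tHom X (Polynomial.toLaurent ((1 - Polynomial.X) * r)) • a) = 0 := by
    change ∑ᶠ k, π k _ = 0
    simp only [h5, finsum_zero]
  rw [map_sub, hS, hS, h4] at h6
  simpa using h6

end Crest.Agent.N265
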