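import Crest.Agent.N265.K.Box1
import Crest.Agent.N265.K.Act

/-! # The external product: structure sheaves, action of bundles, pieces -/

set_option autoImplicit false
noncomputable section
open MvPolynomial
open scoped TensorProduct

namespace Crest.Agent.N265.Bx
open GM
variable {S X : Spc} {M N : GM}

/-- evaluation on the coordinate ring -/
def evA (S : Spc) (y : S.pts) : A S →ₐ[ℂ] ℂ :=
  Ideal.Quotient.liftₐ S.I (aeval y.1) fun _ h => h y.1 y.2
/-- evaluation on the structure sheaf -/
def evO (X : Spc) (x : X.pts) : (O X).M →ₗ[ℂ] ℂ where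
  toFun := evA X x
  map_add' := map_add (evA X x)
  map_smul' c m := by
    refine (map_mul (evA X x) (algebraMap ℂ (A X) c) m).trans ?_
    rw [AlgHom.commutes]; rfl
/-- evaluation on the external product -/
def ev (y : S.pts) (x : X.pts) : T S (O X) →+ ℂ :=
  ((evA S y).toLinearMap ∘ₗ (TensorProduct.rid ℂ (A S)).toLinearMap ∘ₗ
    (evO X x).lTensor (A S)).toAddMonoidHom
/-- the class of a polynomial -/
def mkO (X : Spc) (b : R) : (O X).M := Ideal.Quotient.mk X.I b
lemma mkO_smul (r b : R) : r • mkO X b = mkO X (r * b) := rfl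
lemma mkO_surj (m : (O X).M) : ∃ b, mkO X b = m := Ideal.Quotient.mk_surjective m
lemma ev_tm (y : S.pts) (x : X.pts) (a b : R) :
    ev y x (tm S a (mkO X b)) = eval x.1 b * eval y.1 a := by
  change evA S y (eval x.1 b • Ideal.Quotient.mk S.I a) = _
  rw [map_smul]; rfl
lemma eq_zero_of_ev {t : T S (O X)} (h : ∀ y x, ev y x t = 0) : t = 0 := by
  refine eq_zero_of_lTensor (fun x : X.pts => evO X x) (fun m hm => ?_) t fun x => ?_
  · obtain ⟨b, rfl⟩ := mkO_surj m
    exact Ideal.Quotient.eq_zero_iff_mem.2 fun x hx => hm ⟨x, hx⟩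
  · refine (TensorProduct.rid ℂ (A S)).map_eq_zero_iff.1 ?_
    obtain ⟨a, ha⟩ := Ideal.Quotient.mk_surjective
      (TensorProduct.rid ℂ (A S) ((evO X x).lTensor (A S) t))
    rw [← ha]
    refine Ideal.Quotient.eq_zero_iff_mem.2 fun y hy => ?_
    exact (congrArg (evA S ⟨y, hy⟩) ha).trans (h ⟨y, hy⟩ x)
lemma ev_smul (hX : Disjoint X.B S.B) (y : S.pts) (x : X.pts) (r : R) (t : T S (O X)) :
    ev y x (r • t) = eval (x.1 + y.1) r * ev y x t := by
  refine smul_ind (ev y x) (eval (x.1 + y.1)) (fun c a m => ?_) (fun v a m => ?_) r t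
  · obtain ⟨b, rfl⟩ := mkO_surj m
    rw [C_smul_left, ev_tm, ev_tm]; simp; ring
  · obtain ⟨b, rfl⟩ := mkO_surj m
    by_cases hv : v.1 ∈ S.B
    · have : x.1 v = 0 := by
        by_contra h
        exact Finset.disjoint_left.1 hX (X.mem_B x.2 h) hv
      rw [X_smul_in hv, ev_tm, ev_tm]; simp [this]; ring
    · have : y.1 v = 0 := by
        by_contra h
        exact hv (S.mem_B y.2 h)
      rw [X_smul_out hv, mkO_smul, ev_tm, ev_tm]; simp [this]; ring
lemma fib_eq_add (hX : Disjoint X.B S.B) {z : Pt} (hz : z ∈ (X.fib S).pts) :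
    restr X.B z + restr S.B z = z := by
  funext v
  by_cases h1 : v.1 ∈ X.B
  · simp [restr, h1, Finset.disjoint_left.1 hX h1]
  · by_cases h2 : v.1 ∈ S.B
    · simp [restr, h1, h2]
    · have : z v = 0 := by
        by_contra h
        exact (Finset.mem_union.1 (hz.2.2 v h)).elim h1 h2
      simp [restr, h1, h2, this]
lemma smul_one_eq_zero (hX : Disjoint X.B S.B) (r : R) :
    r • tm S 1 (mkO X 1) = 0 ↔ r ∈ (X.fib S).I := by
  constructor
  · intro h z hz
    have := ev_smul hX ⟨_, hz.2.1⟩ ⟨_, hz.1⟩ r (tm S 1 (mkO X 1))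
    rw [h, ev_tm, map_zero] at this
    simpa [fib_eq_add hX hz] using this.symm
  · intro h
    refine eq_zero_of_ev fun y x => ?_
    rw [ev_smul hX, h _ (Spc.add_mem_fib hX x.2 y.2).1, zero_mul]

lemma red_bx (hX : Disjoint X.B S.B) (hM : M.Red X) (h) : (bx S M h).Red (X.fib S) := by
  refine ⟨degIn_bx hM.deg h, fun r hr => smul_eq_zero_of fun a m => ?_⟩
  let f : (O X).M →ₗ[R] M.M :=
    Submodule.liftQ X.I (LinearMap.toSpanSingleton R M.M m) fun s hs => hM.ann s hs m
  have : tm S a m = bmap S f (kill S.B a • tm S 1 (mkO X 1)) := by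
    rw [kill_smul_tm', mul_one, bmap_tm]
    exact congrArg _ (one_smul R m).symm
  rw [this, ← map_smul, smul_comm, (smul_one_eq_zero hX r).2 hr, smul_zero, map_zero]

lemma cl_bx_O (hX : Disjoint X.B S.B) (h) (W : Spc) :
    cl W (bx S (O X) h) = cl W (O (X.fib S)) := by
  let φ : (O (X.fib S)).M →ₗ[R] (bx S (O X) h).M :=
    Submodule.liftQ (X.fib S).I (LinearMap.toSpanSingleton R (T S (O X)) (tm S 1 (mkO X 1)))
      fun s hs => (smul_one_eq_zero hX s).2 hs
  have hφ : ∀ r, φ (mkO _ r) = r • tm S 1 (mkO X 1) := fun _ => rfl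
  refine (cl_iso (LinearEquiv.ofBijective φ ⟨(injective_iff_map_eq_zero φ).2 fun m hm => ?_,
    fun t => ?_⟩) fun m => ?_).symm
  · obtain ⟨r, rfl⟩ := mkO_surj m
    exact Ideal.Quotient.eq_zero_iff_mem.2 ((smul_one_eq_zero hX r).1 hm)
  · induction t using T.ind with
    | h0 => exact ⟨0, map_zero φ⟩
    | h1 a m =>
      obtain ⟨b, rfl⟩ := mkO_surj m
      refine ⟨mkO _ (kill S.B a * kc S.B b), (hφ _).trans ?_⟩
      rw [mul_smul, ← h.tm_smul, kill_smul_tm', mkO_smul, mul_one, mul_one]
    | h2 s t hs ht =>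
      obtain ⟨a, rfl⟩ := hs
      obtain ⟨b, rfl⟩ := ht
      exact ⟨a + b, map_add φ a b⟩
  · obtain ⟨r, rfl⟩ := mkO_surj m
    have e : (bx S (O X) h).g (tm S 1 (mkO X 1)) = tm S 1 (mkO X 1) := by
      change tm S (gam 1) (mkO X (gam 1)) = _
      rw [map_one]
    exact (congrArg (fun t => gam r • t) e.symm).trans
      ((bx S (O X) h).g.map_smulₛₗ r (tm S 1 (mkO X 1))).symm

/-! ### the action of bundles -/

/-- the comparison map `O_S ⊗ (A ⊗ M) → ⊕ O_S ⊗ M` -/
def jA (S : Spc) (E : Bun X) (M : GM) (h : Av S M) :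
    T S (E.act M) →ₗ[R] (pw E.deg (bx S M h)).M :=
  LinearMap.pi fun i => bmap S (M := E.act M) (N := M)
    ((LinearMap.proj i : (E.ι → M.M) →ₗ[R] M.M) ∘ₗ (E.actSub M).subtype)
lemma jA_tm (E : Bun X) (h : Av S M) (a : R) (u : E.actSub M) (i : E.ι) :
    (jA S E M h (tm S (M := E.act M) a u) : E.ι → T S M) i = tm S a ((u.1 : E.ι → M.M) i) := rfl
lemma jA_inj (E : Bun X) (h : Av S M) : Function.Injective (jA S E M h) := by
  refine (injective_iff_map_eq_zero _).2 fun t ht => ?_
  exact eq_zero_of_lTensor (V := (E.act M).M) (W := fun _ : E.ι => M.M)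
    (fun i => (((LinearMap.proj i : (E.ι → M.M) →ₗ[R] M.M) ∘ₗ (E.actSub M).subtype :
      (E.act M).M →ₗ[R] M.M)).restrictScalars ℂ)
    (fun v hv => Subtype.ext (funext hv)) t fun i => congrFun ht i
lemma deg0_jA (E : Bun X) (h : Av S M) (h') :
    Deg0 (M := bx S (E.act M) h') (N := pw E.deg (bx S M h)) (jA S E M h) := by
  intro t
  induction t using T.ind with
  | h0 => exact (congrArg _ (map_zero _)).trans ((map_zero _).trans
      ((congrArg _ (map_zero _)).trans (map_zero _)).symm)
  | h1 a u => exact funext fun i => (C_smul_right (M := M) _ _ _).symm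
  | h2 s t hs ht =>
    exact (congrArg _ (map_add _ _ _)).trans ((map_add _ _ _).trans
      ((congrArg₂ _ hs ht).trans ((congrArg _ (map_add _ _ _)).trans (map_add _ _ _)).symm))

lemma cl_bx_act (hX : Disjoint X.B S.B) (E : Bun X) (hM : M.Red X) (h h') :
    cl (X.fib S) (bx S (E.act M) h') =
      cl (X.fib S) ((E.pull (Spc.fib_fst X S)).act (bx S M h)) := by
  have hr := red_bx hX hM h
  set E' := E.pull (Spc.fib_fst X S) with hE'
  let j : (bx S (E.act M) h').M →ₗ[R] (pw E'.deg (bx S M h)).M := jA S E M h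
  have hj : Deg0 j := deg0_jA E h h'
  have hst := hj.stab_comap (E'.stab_actSub (bx S M h))
  have hW : (bx S (E.act M) h').On (X.fib S) := (red_bx hX (E.red_act hM) h').on
  have loc : ∀ z ∈ (X.fib S).pts, ∃ r : R, eval z r ≠ 0 ∧
      (∀ t, r • j t ∈ E'.actSub (bx S M h)) ∧ ∀ w ∈ E'.actSub (bx S M h), ∃ t, j t = r • w := by
    intro z hz
    obtain ⟨r, P, hr0, hP⟩ := E.alg _ hz.1
    have hP1 : ∀ (Y : Spc) (F : Bun Y) (K : GM), K.Red Y → ∀ (s : R) (Q : Matrix F.ι F.ι R),
        (∀ y ∈ Y.pts, ∀ v ∈ F.L y, mev y Q v = eval y s • v) →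
        ∀ u ∈ F.actSub K, ∀ k, ∑ i, Q k i • (u : F.ι → K.M) i = s • (u : F.ι → K.M) k := by
      intro Y F K hK s Q hQ u hu k
      have := congrFun (F.mat_act_eq_zero hK F.deg (Q + (-s) • (1 : Matrix F.ι F.ι R))
        (fun y hy v hv => by
          rw [B0.mev_add, B0.mev_smul, B0.mev_one, hQ y hy v hv]; simp) hu) k
      change ∑ i, (Q + (-s) • (1 : Matrix F.ι F.ι R)) k i • (u : F.ι → K.M) i = 0 at this
      simp only [Matrix.add_apply, add_smul, Finset.sum_add_distrib, Matrix.smul_apply,
        Matrix.one_apply, smul_eq_mul, mul_ite, mul_one, mul_zero, ite_smul, zero_smul,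
        Finset.sum_ite_eq, Finset.mem_univ, if_true] at this
      rw [neg_smul] at this
      exact add_neg_eq_zero.1 this
    have hP' : ∀ y ∈ (X.fib S).pts, (∀ v, mev y (P.map (kill X.B)) v ∈ E'.L y) ∧
        ∀ v ∈ E'.L y, mev y (P.map (kill X.B)) v = eval y (kill X.B r) • v := fun y hy => by
      rw [B0.mev_kill, eval_kill]; exact hP _ hy.1
    refine ⟨kill X.B r, by rwa [eval_kill], fun t => ?_, fun w hw => ?_⟩
    · have : kill X.B r • j t = mat E'.deg E'.deg (P.map (kill X.B)) (bx S M h) (j t) := by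
        induction t using T.ind with
        | h0 => erw [map_zero j]; simp
        | h2 s t hs ht => erw [map_add j]; rw [smul_add, map_add, hs, ht]
        | h1 a u =>
          funext k
          change kill X.B r • tm S a ((u.1 : E.ι → M.M) k) =
            ∑ i, kill X.B (P k i) • tm S a ((u.1 : E.ι → M.M) i)
          simp only [kill_smul_out hX, hM.deg.kill_smul]
          rw [← tm_sum_right]
          exact congrArg _ (hP1 X E M hM r P (fun y hy => (hP y hy).2) u.1 u.2 k).symm
      rw [this]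
      exact E'.mat_mem_act hr _ _ (fun y hy => (hP' y hy).1) _
    · have key : ∀ (i : E.ι) (τ : T S M), ∃ t, ∀ k,
          (j t : E.ι → T S M) k = kill X.B (P k i) • τ := by
        intro i τ
        induction τ using T.ind with
        | h0 => exact ⟨0, fun k => by rw [map_zero, smul_zero]; rfl⟩
        | h2 s t hs ht =>
          obtain ⟨a, ha⟩ := hs
          obtain ⟨b, hb⟩ := ht
          exact ⟨a + b, fun k => by rw [map_add, smul_add, ← ha, ← hb]; rfl⟩
        | h1 a m =>
          refine ⟨tm S (M := E.act M) a ⟨_, E.mat_mem_act hM E.deg P (fun y hy => (hP y hy).1)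
            (Pi.single i m : E.ι → M.M)⟩, fun k => ?_⟩
          rw [kill_smul_out hX, hM.deg.kill_smul]
          refine congrArg (tm S a) ?_
          change ∑ l, P k l • (Pi.single i m : E.ι → M.M) l = _
          simp [Pi.single_apply]
      choose τ hτ using key
      refine ⟨∑ i, τ i ((w : E.ι → T S M) i), funext fun k => ?_⟩
      rw [map_sum]
      refine (Finset.sum_apply k _ _).trans ?_
      exact (Finset.sum_congr rfl fun i _ => hτ i _ k).trans
        (hP1 _ E' _ hr _ _ (fun y hy => (hP' y hy).2) w hw k)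
  have e1 := cl_locIso (X := X.fib S) _ (deg0_subtype hst) (hW.sub hst) hW fun z hz => by
    obtain ⟨r, h0, h1, -⟩ := loc z hz
    refine ⟨r, h0, fun a ha => ?_, fun b => ⟨⟨r • b, ?_⟩, rfl⟩⟩
    · rw [show a = 0 from Subtype.ext ha, smul_zero]
    · rw [Submodule.mem_comap, map_smul]; exact h1 b
  have e2 := cl_locIso (X := X.fib S) (A := (bx S (E.act M) h').sub _ hst) (B := E'.act (bx S M h))
    (j.restrict fun _ h => h) (fun m => Subtype.ext (hj m.1)) (hW.sub hst) (E'.red_act hr).on
    fun z hz => by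
      obtain ⟨r, h0, -, h2⟩ := loc z hz
      refine ⟨r, h0, fun a ha => ?_, fun b => ?_⟩
      · rw [show a = 0 from Subtype.ext (jA_inj E h
          ((congrArg Subtype.val ha).trans (map_zero j).symm)), smul_zero]
      · obtain ⟨t, ht⟩ := h2 b.1 b.2
        exact ⟨⟨t, by rw [Submodule.mem_comap, ht]; exact Submodule.smul_mem _ _ b.2⟩,
          Subtype.ext ht⟩
  rw [← e1, e2]

/-! ### pieces -/

/-- the inclusion of a piece -/
def valL (B : Finset ℕ) (N : GM) : (piece B N).M →ₗ[ℂ] N.M where
  toFun := PieceT.val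
  map_add' _ _ := rfl
  map_smul' c m := by
    change kill B (C c) • PieceT.val m = (C c : R) • PieceT.val m
    simp [kill]
lemma lt_val_mem (B : Finset ℕ) (h : Av S N) (t : T S (piece B N)) :
    (lt S (valL B N) t : (bx S N h).M) ∈ pieceSub (B ∪ S.B) (bx S N h) := by
  induction t using T.ind_h with
  | h0 => rw [map_zero]; exact zero_mem _
  | h2 s t hs ht => rw [map_add]; exact add_mem hs ht
  | h1 d hd e a m ha hm =>
    by_cases he : e ∈ DS B
    · exact AddSubgroup.subset_closure ⟨_, add_mem (DS_mono Finset.subset_union_right hd)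
        (DS_mono Finset.subset_union_left he), tm_mem_gr h ha (piece_gr.1 hm)⟩
    · rw [degIn_piece B N e he, Submodule.mem_bot] at hm
      rw [hm, tm_zero, map_zero]; exact zero_mem _
lemma cl_bx_piece {B B' : Finset ℕ} (hN : N.DegIn B') (hB : Disjoint B' S.B) (h h') (W : Spc) :
    cl W (bx S (piece B N) h') = cl W (piece (B ∪ S.B) (bx S N h)) := by
  let ψ : (bx S (piece B N) h').M →ₗ[R] (piece (B ∪ S.B) (bx S N h)).M :=
    { toFun := fun t => (⟨_, lt_val_mem B h t⟩ : pieceSub _ _)
      map_add' := fun s t => PieceT.ext (map_add (lt S (valL B N)) s t)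
      map_smul' := fun r t => PieceT.ext (smul_ind (lt S (valL B N)) (kill (B ∪ S.B)).toRingHom
        (fun c a m => by
          rw [C_smul_left, lt_tm, lt_tm, ← C_smul_left]; simp [kill])
        (fun v a m => by
          by_cases hv : v.1 ∈ S.B
          · rw [X_smul_in hv, lt_tm, lt_tm, ← X_smul_in hv]; simp [kill, hv]
          · rw [X_smul_out hv, lt_tm, lt_tm]
            change tm S a (kill B (MvPolynomial.X v) • PieceT.val m) = _
            by_cases hv' : v.1 ∈ B
            · simp [kill, hv', X_smul_out hv]; rfl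
            · simp [kill, hv, hv', tm_zero]) r t) }
  refine cl_iso (LinearEquiv.ofBijective ψ ⟨fun s t e => ?_, fun w => ?_⟩) fun t => PieceT.ext ?_
  · exact Module.Flat.lTensor_preserves_injective_linearMap (M := A S) (valL B N)
      (fun _ _ => PieceT.ext) (congrArg PieceT.val e)
  · have key : ∀ t : T S N, ∃ t' : T S (piece B N), ∀ d ∈ DS (B ∪ S.B),
        (bx S N h).cp d (lt S (valL B N) t') = (bx S N h).cp d t := by
      intro t
      induction t using T.ind_h with
      | h0 => exact ⟨0, fun d _ => by rw [map_zero]⟩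
      | h2 s t hs ht =>
        obtain ⟨s', hs⟩ := hs
        obtain ⟨t', ht⟩ := ht
        refine ⟨s' + t', fun d hd => ?_⟩
        rw [map_add]
        exact (map_add _ _ _).trans (((congrArg₂ _ (hs d hd) (ht d hd))).trans
          (map_add _ _ _).symm)
      | h1 d hd e a m ha hm =>
        by_cases he : e ∈ DS B
        · exact ⟨tm S (M := piece B N) a
            (⟨m, AddSubgroup.subset_closure ⟨e, he, hm⟩⟩ : pieceSub B N), fun _ _ => rfl⟩
        refine ⟨0, fun c hc => ?_⟩
        rw [map_zero]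
        refine (map_zero _).trans (Eq.symm ?_)
        by_cases he' : e ∈ DS B'
        · refine (bx S N h).cp_of_mem_ne (tm_mem_gr h ha hm) fun e' => he fun b hb => ?_
          by_cases hb' : b ∈ S.B
          · exact he' b (Finset.disjoint_right.1 hB hb')
          · have := hc b (by simp [hb, hb'])
            rwa [e', Finsupp.add_apply, hd b hb', zero_add] at this
        · rw [hN e he', Submodule.mem_bot] at hm
          rw [hm, tm_zero]; exact map_zero _
    obtain ⟨t, ht⟩ := key (PieceT.val w)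
    refine ⟨t, PieceT.ext (eq_of_cp fun d => ?_)⟩
    by_cases hd : d ∈ DS (B ∪ S.B)
    · exact ht d hd
    · exact (mem_pieceSub.1 (lt_val_mem B h t) d hd).trans
        (mem_pieceSub.1 (Subtype.property w) d hd).symm
  · change lt S (valL B N) (gT S _ t) = gT S N (lt S (valL B N) t)
    induction t using T.ind with
    | h0 => simp
    | h1 a m => rfl
    | h2 s t hs ht => simp only [map_add, hs, ht]

end Crest.Agent.N265.Bx
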