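import Crest.Agent.N265.K.Loc
import Crest.Agent.N265.K.Box2

/-! # Task K9: external product with a structure sheaf; specialisation at a point of a factor -/

set_option autoImplicit false
noncomputable section
open MvPolynomial

namespace Crest.Agent.N265
variable {X Y S : Spc}

lemma Proj.fib_map (p : Proj Y X) (S : Spc) : Proj (Y.fib S) (X.fib S) :=
  Spc.fib_lift ((Spc.fib_fst Y S).trans p) (Spc.fib_snd Y S)

namespace Bx
open GM
lemma exists_box0 (hX : Disjoint X.B S.B) : ∃ Φ : G X →+ G (X.fib S),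
    ∀ (M : GM) (_ : M.On X) (h), Φ (cl X M) = cl _ (bx S M h) := by
  classical
  obtain ⟨Φ, hΦ⟩ := G.exists_lift (X := X)
    (fun M => if h : Av S M then cl (X.fib S) (bx S M h) else 0) (fun A B C hs hB => by
      have h2 := av_of_degIn hB.deg hX
      obtain ⟨h1, h3⟩ : Av S A ∧ Av S C := by
        obtain ⟨f, p, -, -, hi, -, hs⟩ := hs
        exact ⟨h2.of_inj hi, h2.of_surj hs⟩
      simp only [dif_pos h1, dif_pos h2, dif_pos h3]
      exact cl_ses (ses_bx hs h1 h2 h3) (on_bx hX hB h2)) fun A hA hi => by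
      simp only [dif_pos (av_of_degIn hA.deg hX)]
      exact cl_irr (irr_bx hX hA hi _)
  exact ⟨Φ, fun M hM h => (hΦ M hM).trans (dif_pos h)⟩
open Classical in
/-- the external product on `G` -/
def box0 (X S : Spc) : G X →+ G (X.fib S) :=
  if h : Disjoint X.B S.B then (exists_box0 h).choose else 0
lemma box0_cl (hX : Disjoint X.B S.B) {M : GM} (hM : M.On X) (h) :
    box0 X S (cl X M) = cl _ (bx S M h) := by
  rw [box0, dif_pos hX]; exact (exists_box0 hX).choose_spec M hM h
lemma box0_smulK (hX : Disjoint X.B S.B) (u : K X) (a : G X) :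
    box0 X S (u • a) = K.pull (Spc.fib_fst X S) u • box0 X S a := by
  induction u using K.ind with
  | h0 => simp
  | hneg u h => rw [neg_smul, map_neg, h, map_neg, neg_smul]
  | hadd u v h h' => rw [add_smul, map_add, h, h', map_add, add_smul]
  | hkl A =>
    induction a using G.ind_red with
    | h0 => simp
    | hneg a h => rw [smul_neg, map_neg, h, map_neg, smul_neg]
    | hadd a b h h' => rw [smul_add, map_add, h, h', map_add, smul_add]
    | hcl M hM =>
      have h := av_of_degIn hM.deg hX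
      rw [kl_smul A hM, box0_cl hX (A.red_act hM).on (av_of_degIn (A.red_act hM).deg hX),
        box0_cl hX hM.on h, K.pull_kl, kl_smul _ (red_bx hX hM h), cl_bx_act hX A hM h]
lemma box0_sh (hX : Disjoint X.B S.B) {d : D} (hd : d ∈ DS X.B) (a : G X) :
    box0 X S (sh X d a) = sh _ d (box0 X S a) := by
  rw [← lbK_smul hd, box0_smulK hX, K.pull_lbK _ hd,
    lbK_smul (DS_mono (Spc.fib_fst X S).sub hd)]
lemma push_box0 (p : Proj Y X) (hY : Disjoint Y.B S.B) (a : G Y) :
    push (Y.fib S) (X.fib S) (box0 Y S a) = box0 X S (push Y X a) := by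
  have hX : Disjoint X.B S.B := hY.mono_left p.sub
  have := G.ext_big p (AddMonoidHom.eqLocus ((push (Y.fib S) (X.fib S)).comp (box0 Y S))
    ((box0 X S).comp (push Y X))) (fun k a ha => ?_) fun M hM => ?_
  · exact (this.ge (AddSubgroup.mem_top a) :)
  · have hk : ∀ B, k • eT ∈ DS B := fun B => zsmul_mem (eT_mem B) k
    change push _ _ (box0 Y S _) = box0 X S (push Y X _) at ha ⊢
    rw [box0_sh hY (hk _), push_sh (p.fib_map S) (hk _), ha, push_sh p (hk _), box0_sh hX (hk _)]
  · have h := av_of_degIn hM.deg hY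
    obtain ⟨k, hk⟩ := (isPush p).big M hM.on
    obtain ⟨k', hk'⟩ := (isPush (p.fib_map S)).big _ (on_bx hY hM.on h)
    refine ⟨max k k', fun d hd => ?_⟩
    have hd' : d ∈ DS Y.B := fun b hb => hd.2.1 b (Or.inr hb)
    have hr : (piece X.B (M.shift d)).Red X := Red.piece p hM.ann
    change push _ _ (box0 Y S _) = box0 X S (push Y X _)
    rw [box0_cl hY (hM.on.shift hd') h, hk d ⟨hd.1, hd.2.1, fun b h1 h2 =>
      (le_max_left _ _).trans (hd.2.2 b h1 h2)⟩, box0_cl hX hr.on (av_of_degIn hr.deg hX),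
      cl_bx_piece (hM.deg.shift hd') hY h, bx_shift h]
    refine hk' d ⟨hd.1, fun b hb => hd.2.1 b ?_, fun b h1 h2 => ?_⟩
    · change b ∈ X.B ∪ S.B ∨ b ∉ Y.B ∪ S.B at hb
      simp only [Finset.mem_union, not_or] at hb
      rcases hb with (hb | hb) | hb
      exacts [Or.inl hb, Or.inr (Finset.disjoint_right.1 hY hb), Or.inr hb.1]
    · change b ∈ Y.B ∪ S.B at h1
      change b ∉ X.B ∪ S.B at h2
      simp only [Finset.mem_union, not_or] at h1 h2
      exact (le_max_right _ _).trans (hd.2.2 b (h1.resolve_right h2.2) h2.1)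
lemma pt0_fib (S : Spc) : Spc.pt0.fib S = S := by
  refine Spc.ext (Finset.empty_union _) (Set.ext fun z => ⟨fun hz => ?_, fun hz => ?_⟩)
  · have : restr S.B z = z := by
      funext v
      by_cases hv : v.1 ∈ S.B
      · simp [restr, hv]
      · have : z v = 0 := by
          by_contra h
          exact hv (by simpa [Spc.pt0, Spc.full] using hz.2.2 v h)
        simp [restr, hv, this]
    exact this ▸ hz.2.1
  · exact ⟨(Spc.proj_pt0 S).map z hz, (S.restr_eq hz).symm ▸ hz,
      fun v hv => Finset.mem_union_right _ (S.mem_B hz hv)⟩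
end Bx

/-- `M ↦ M ⊗_ℂ O_S` (variables of the blocks of `S` act on the right factor) -/
theorem exists_box (S : Spc) : ∃ Φ : ∀ X : Spc, G X →+ G (X.fib S),
    (∀ X : Spc, Disjoint X.B S.B → Φ X (one X) = one (X.fib S)) ∧
    (∀ X : Spc, Disjoint X.B S.B → ∀ (u : Op X) (a : G X),
      Φ X (u • a) = Op.pull (Spc.fib_fst X S) u • Φ X a) ∧
    ∀ (X Y : Spc), Proj Y X → Disjoint Y.B S.B → ∀ a : G Y,
      push (Y.fib S) (X.fib S) (Φ Y a) = Φ X (push Y X a) :=
  ⟨fun X => Bx.box0 X S, fun X h => (Bx.box0_cl h (GM.red_O X).on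
      (Bx.av_of_degIn (GM.red_O X).deg h)).trans (Bx.cl_bx_O h _ _),
    fun X h u a => by obtain ⟨u, rfl⟩ := op_surj u; exact Bx.box0_smulK h u a,
    fun _ _ p h a => Bx.push_box0 p h a⟩
/-- external product with `O_S` -/
def box (X S : Spc) : G X →+ G (X.fib S) := (exists_box S).choose X
lemma box_one (h : Disjoint X.B S.B) : box X S (one X) = one (X.fib S) :=
  (exists_box S).choose_spec.1 X h
lemma box_smul (h : Disjoint X.B S.B) (u : Op X) (a : G X) :
    box X S (u • a) = Op.pull (Spc.fib_fst X S) u • box X S a :=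
  (exists_box S).choose_spec.2.1 X h u a
lemma push_box (p : Proj Y X) (h : Disjoint Y.B S.B) (a : G Y) :
    push (Y.fib S) (X.fib S) (box Y S a) = box X S (push Y X a) :=
  (exists_box S).choose_spec.2.2 X Y p h a
/-- Künneth -/
theorem push_box_snd (h : Disjoint X.B S.B) (a : G X) :
    push (X.fib S) S (box X S a) = eul X a • one S := by
  have h0 : Disjoint Spc.pt0.B S.B := Finset.disjoint_empty_left _
  have e : push X Spc.pt0 a = tHom _ (eul X a) • one Spc.pt0 := chiT.injective (by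
    have := chiT_one 0
    rw [zero_smul, sh_zero] at this
    rw [chiT_smul, this]; exact (mul_one _).symm)
  have key : ∀ W : Spc, W = S → push W S (one W) = one S := by rintro W rfl; exact push_self _
  rw [← push_push ((Spc.proj_pt0 X).fib_map S) (Spc.fib_snd _ S), push_box (Spc.proj_pt0 X) h, e,
    box_smul h0, box_one h0, Op.pull_tHom, ← Op.pull_tHom (Spc.fib_snd _ S), push_smul,
    key _ (Bx.pt0_fib S), La_smul]

/-- substitute the point `p` for the variables of the blocks outside `B` -/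
def spec (B : Finset ℕ) (p : Pt) : R →ₐ[ℂ] R := aeval fun v => if v.1 ∈ B then MvPolynomial.X v else C (p v)
lemma eval_spec (B : Finset ℕ) (p x : Pt) (r : R) :
    eval x (spec B p r) = eval (fun v => if v.1 ∈ B then x v else p v) r := by
  induction r using MvPolynomial.induction_on with
  | C c => simp [spec]
  | add p q hp hq => simp [hp, hq]
  | mul_X q v hq =>
    rw [map_mul, map_mul, map_mul, hq]
    by_cases h : v.1 ∈ B <;> simp [spec, h]
namespace Bx
/-- the torus element acting like `gpt` on the blocks `B` only -/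
def torB (B : Finset ℕ) : Tor where
  toFun d := Units.mk0 (chi (dpr B d.toAdd)) (chi_ne _)
  map_one' := Units.ext (by simp)
  map_mul' a b := Units.ext (by simp [chi_add])
lemma torB_apply (B : Finset ℕ) (d : D) :
    (torB B (Multiplicative.ofAdd d) : ℂ) = chi (dpr B d) := rfl
lemma tpt_torB {B : Finset ℕ} {p : Pt} (hp : ∀ v, p v ≠ 0 → v.2.2 = 0) (x : Pt) :
    tpt (torB B) (fun v => if v.1 ∈ B then x v else p v) =
      fun v => if v.1 ∈ B then gpt x v else p v := by
  funext v
  rw [tpt, torB_apply]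
  by_cases hv : v.1 ∈ B
  · rw [if_pos hv, if_pos hv, dpr_of_mem (vdeg_mem hv), gpt]
  · rw [if_neg hv, if_neg hv]
    by_cases h0 : p v = 0
    · simp [h0]
    · have : dpr B (vdeg v) = 0 := by
        ext i
        rw [dpr_apply, vdeg, hp v h0, zero_smul, add_zero, eB, Finsupp.single_apply]
        split_ifs with h1 h2
        · exact absurd (h1 _ h2.symm) hv
        · rfl
        · rfl
      rw [this, chi_zero, one_mul]
lemma hmg_spec {B : Finset ℕ} {p : Pt} (hp : ∀ v, p v ≠ 0 → v.2.2 = 0) {d : D} {r : R}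
    (h : Hmg d r) : Hmg (dpr B d) (spec B p r) := MvPolynomial.funext fun x => by
  rw [eval_gam, eval_spec, ← tpt_torB hp, h.eval_tpt, torB_apply, map_mul, eval_C, eval_spec]
lemma mix_eq (h : Disjoint X.B S.B) {x p : Pt} (hx : x ∈ X.pts) (hp : p ∈ S.pts) :
    (fun v => if v.1 ∈ X.B then x v else p v) = x + p := by
  funext v
  split_ifs with hv
  · have : p v = 0 := by
      by_contra h0
      exact Finset.disjoint_left.1 h hv (S.mem_B hp h0)
    simp [this]
  · have : x v = 0 := by
      by_contra h0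
      exact hv (X.mem_B hx h0)
    simp [this]
lemma mev_spec (h : Disjoint X.B S.B) {x p : Pt} (hx : x ∈ X.pts) (hp : p ∈ S.pts) {ι κ : Type}
    [Fintype ι] (Φ : Matrix κ ι R) : mev x (Φ.map (spec X.B p)) = mev (x + p) Φ := by
  ext v j; simp [mev_apply, eval_spec, mix_eq h hx hp]
lemma mem_tpt_iff {W : Spc} (A : Bun W) (c : Tor) {z : Pt} (hz : z ∈ W.pts) (v : A.ι → ℂ) :
    v ∈ A.L z ↔ (fun i => (c (Multiplicative.ofAdd (A.deg i)) : ℂ) * v i) ∈ A.L (tpt c z) := by
  refine ⟨A.alg.gen.tpt A.eqv c hz, fun h => ?_⟩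
  have := A.alg.gen.tpt A.eqv c⁻¹ (W.tpt_mem c hz) h
  convert this using 2
  · funext u; simp [tpt]
  · simp
end Bx
/-- a bundle on `X × S` restricted to `X × {p}`, as a bundle on `X` -/
def Bun.atPt (A : Bun (X.fib S)) (h : Disjoint X.B S.B) (hS : S.TTriv fun _ => 0) (p : Pt)
    (hp : p ∈ S.pts) : Bun X where
  ι := A.ι
  deg := fun i => dpr X.B (A.deg i)
  hdeg := fun _ => dpr_mem _ _
  L := fun x => A.L (x + p)
  eqv := fun x hx v => by
    have := Bx.mem_tpt_iff A (Bx.torB X.B) (Spc.add_mem_fib h hx hp).1 v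
    rwa [← Bx.mix_eq h hx hp, Bx.tpt_torB (hS p hp), Bx.mix_eq h hx hp,
      Bx.mix_eq h (X.inv x hx) hp] at this
  alg := fun x hx => by
    obtain ⟨r, P, hr, hP⟩ := A.alg _ (Spc.add_mem_fib h hx hp).1
    refine ⟨spec X.B p r, P.map (spec X.B p), by rwa [eval_spec, Bx.mix_eq h hx hp],
      fun y hy => ?_⟩
    rw [Bx.mev_spec h hy hp, eval_spec, Bx.mix_eq h hy hp]
    exact hP _ (Spc.add_mem_fib h hy hp).1
lemma dpr_dpr {B B' : Finset ℕ} (h : B ⊆ B') (d : D) : dpr B (dpr B' d) = dpr B d := by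
  ext i
  rw [dpr_apply, dpr_apply, dpr_apply]
  split_ifs with h1 h2
  · rfl
  · exact absurd (fun b e => h (h1 b e)) h2
  · rfl
theorem K.exists_atPt (h : Disjoint X.B S.B) (hS : S.TTriv fun _ => 0) (p : Pt) (hp : p ∈ S.pts) :
    ∃ Φ : K (X.fib S) →+* K X, ∀ A : Bun (X.fib S), Φ A.kl = (A.atPt h hS p hp).kl := by
  obtain ⟨Φ, hΦ⟩ := K.exists_lift (fun A : Bun (X.fib S) => (A.atPt h hS p hp).kl) (by
    rintro A B C ⟨f, q, hf, hq, H⟩
    refine kl_ses ⟨f.map (spec X.B p), q.map (spec X.B p), fun j i => ?_, fun j i => ?_,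
      fun x hx => ?_⟩
    · exact (map_sub (dpr X.B) _ _) ▸ Bx.hmg_spec (hS p hp) (hf j i)
    · exact (map_sub (dpr X.B) _ _) ▸ Bx.hmg_spec (hS p hp) (hq j i)
    · have := H _ (Spc.add_mem_fib h hx hp).1
      rw [← Bx.mev_spec h hx hp, ← Bx.mev_spec h hx hp] at this
      exact this)
  refine ⟨{ Φ with map_one' := ?_, map_mul' := K3.map_mul_of Φ fun A B => ?_ }, hΦ⟩
  · exact (hΦ _).trans (K3.kl_reindex (Equiv.refl _)
      (fun _ => (dpr_dpr Finset.subset_union_left _).symm) fun _ _ _ => Iff.rfl)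
  · rw [hΦ, hΦ, hΦ, ← kl_tens]
    exact K3.kl_reindex (Equiv.refl _) (fun _ => (map_add (dpr X.B) _ _).symm) fun _ _ _ => Iff.rfl
/-- restriction to `X × {p}` -/
def K.atPt (h : Disjoint X.B S.B) (hS : S.TTriv fun _ => 0) (p : Pt) (hp : p ∈ S.pts) :
    K (X.fib S) →+* K X := (K.exists_atPt h hS p hp).choose
lemma K.atPt_kl (h : Disjoint X.B S.B) (hS p hp) (A : Bun (X.fib S)) :
    K.atPt h hS p hp A.kl = (A.atPt h hS p hp).kl := (K.exists_atPt h hS p hp).choose_spec A
lemma K.atPt_pull_fst (h : Disjoint X.B S.B) (hS p hp) (u : K X) :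
    K.atPt h hS p hp (K.pull (Spc.fib_fst X S) u) = u := by
  have key : ∀ A : Bun X, K.atPt h hS p hp (K.pull (Spc.fib_fst X S) A.kl) = A.kl := fun A => by
    rw [K.pull_kl, K.atPt_kl]
    refine K3.kl_reindex (Equiv.refl _) (fun i => (dpr_of_mem (A.hdeg i)).symm) fun x hx v => ?_
    change v ∈ A.L (restr X.B (x + p)) ↔ _
    rw [(Spc.add_mem_fib h hx hp).2.1]; rfl
  obtain ⟨A, B, rfl⟩ := K.exists_sub u
  rw [map_sub, map_sub, key, key]
lemma K.atPt_lbK (h : Disjoint X.B S.B) (hS p hp) (d : D) :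
    K.atPt h hS p hp (lbK (X.fib S) d) = lbK X d :=
  (K.atPt_kl h hS p hp _).trans (K3.kl_reindex (Equiv.refl _)
    (fun _ => (dpr_dpr Finset.subset_union_left _).symm) fun _ _ _ => Iff.rfl)
lemma K.atPt_dual (h : Disjoint X.B S.B) (hS p hp) (u : K (X.fib S)) :
    K.atPt h hS p hp (K.dual _ u) = K.dual X (K.atPt h hS p hp u) := by
  have key : ∀ A : Bun (X.fib S), K.atPt h hS p hp (K.dual _ A.kl) =
      K.dual X (K.atPt h hS p hp A.kl) := fun A => by
    rw [K.dual_kl, map_sub, K.atPt_kl, K.atPt_kl, K.atPt_kl, K.dual_kl]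
    congr 1 <;> exact K3.kl_reindex (Equiv.refl _) (fun _ => (map_neg (dpr X.B) _).symm)
      fun _ _ _ => Iff.rfl
  obtain ⟨A, B, rfl⟩ := K.exists_sub u
  simp only [map_sub, key]
lemma K.atPt_pull (q : Proj Y X) (h : Disjoint X.B S.B) (h' : Disjoint Y.B S.B) (hS p hp)
    (u : K (X.fib S)) :
    K.atPt h' hS p hp (K.pull (q.fib_map S) u) = K.pull q (K.atPt h hS p hp u) := by
  have key : ∀ A : Bun (X.fib S), K.atPt h' hS p hp (K.pull (q.fib_map S) A.kl) =
      K.pull q (K.atPt h hS p hp A.kl) := fun A => by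
    rw [K.pull_kl, K.atPt_kl, K.atPt_kl, K.pull_kl]
    refine K3.kl_reindex (Equiv.refl _) (fun i => ?_) fun y hy v => ?_
    · change dpr X.B (A.deg i) = dpr Y.B (A.deg i)
      ext j
      rw [dpr_apply, dpr_apply]
      split_ifs with h1 h2 h2
      · rfl
      · exact absurd (fun b e => q.sub (h1 b e)) h2
      · push Not at h1
        obtain ⟨b, rfl, hb⟩ := h1
        refine (A.hdeg i b fun h3 => ?_).symm
        exact (Finset.mem_union.1 h3).elim hb (Finset.disjoint_left.1 h' (h2 b rfl))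
      · rfl
    · change v ∈ A.L (restr (X.B ∪ S.B) (y + p)) ↔ v ∈ A.L (restr X.B y + p)
      have : restr (X.B ∪ S.B) (y + p) = restr X.B y + p := by
        funext u
        by_cases h1 : u.1 ∈ X.B
        · simp [restr, h1]
        · by_cases h2 : u.1 ∈ S.B
          · have : y u = 0 := by
              by_contra h0
              exact Finset.disjoint_left.1 h' (Y.mem_B hy h0) h2
            simp [restr, h1, h2, this]
          · have : p u = 0 := by
              by_contra h0
              exact h2 (S.mem_B hp h0)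
            simp [restr, h1, h2, this]
      rw [this]
  obtain ⟨A, B, rfl⟩ := K.exists_sub u
  simp only [map_sub, key]
/-- classes pulled back from `S` specialise to their rank (weight zero case) -/
lemma K.atPt_pull_snd (h : Disjoint X.B S.B) (hS p hp) (A : Bun S) (hA : A.Pure (fun _ => 0) 0) :
    K.atPt h hS p hp (K.pull (Spc.fib_snd X S) A.kl) = Module.finrank ℂ (A.L p) := by
  rw [K.pull_kl, K.atPt_kl]
  have hd : ∀ i, dpr X.B (A.deg i) = 0 := fun i => by
    ext j
    rw [dpr_apply]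
    split_ifs with h1
    · rcases j with _ | b
      · simpa using hA i
      · exact A.hdeg i b (Finset.disjoint_left.1 h (h1 b rfl))
    · rfl
  let β := Module.finBasis ℂ (A.L p)
  let g : Matrix A.ι (Fin (Module.finrank ℂ (A.L p))) R :=
    (Matrix.of fun i j => (β j).1 i).map (C : ℂ → R)
  have hg : ∀ y v, mev y g v = (β.equivFun.symm v).1 := fun y v => by
    rw [B0.mev_C]
    funext i; simp [Matrix.mulVec, dotProduct, mul_comm]
  have e : (Bun.triv X (fun _ : Fin (Module.finrank ℂ (A.L p)) => 0) fun _ => zero_mem _).kl =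
      ((A.pull (Spc.fib_snd X S)).atPt h hS p hp).kl := by
    refine kl_iso g (fun i j => ?_) fun y hy => ⟨eq_bot_iff.2 fun v hv => ?_, ?_⟩
    · change Hmg (dpr X.B (A.deg i) - 0) (C _)
      erw [hd]; rw [sub_zero]; exact Hmg.C _
    · exact β.equivFun.symm.map_eq_zero_iff.1 (Subtype.ext ((hg y v).symm.trans hv.2))
    · change _ = A.L (restr S.B (y + p))
      rw [(Spc.add_mem_fib h hy hp).2.2]
      refine le_antisymm ?_ fun v hv => ⟨β.equivFun ⟨v, hv⟩, trivial, (hg _ _).trans ?_⟩
      · rintro _ ⟨v, -, rfl⟩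
        exact (hg y v).symm ▸ Subtype.mem _
      · rw [LinearEquiv.symm_apply_apply]
  rw [← e, kl_triv, ← K.one_def]
  simp

end Crest.Agent.N265
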