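import Crest.Agent.N265.K.Ring

/-! # Weight projections in `K X` on `T`-trivial spaces (helper25) -/

set_option autoImplicit false
noncomputable section

namespace Crest.Agent.N265
open Bun
variable {X Y : Spc}

section wtaux
variable {w : ℕ → ℤ}

lemma Hmg.nwt_eq_zero (hw : X.TTriv w) {d : D} {r : R} (h : Hmg d r) {x : Pt} (hx : x ∈ X.pts)
    (h0 : MvPolynomial.eval x r ≠ 0) : nwt X.B w d = 0 := by
  let c : Tor := (zpowersHom ℂˣ (Units.mk0 2 two_ne_zero)).comp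
    (AddMonoidHom.toMultiplicative (nwtH X.B w))
  have hc : ∀ d, (c (Multiplicative.ofAdd d) : ℂ) = 2 ^ nwt X.B w d := fun d => by
    simp [c, nwtH]
  have hcx : tpt c x = x := by
    funext u
    by_cases hu : x u = 0
    · simp [tpt, hu]
    · rw [tpt, hc, nwt_vdeg w (X.mem_B hx hu), hw x hx u hu]; simp
  have h1 := h.eval_tpt c x
  rw [hcx, hc] at h1
  have h2 : (2 : ℂ) ^ nwt X.B w d = 1 := mul_right_cancel₀ h0 (by rw [one_mul]; exact h1.symm)
  have h3 : (2 : ℝ) ^ nwt X.B w d = 1 := by simpa using congrArg norm h2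
  exact (zpow_eq_one_iff_right₀ (by norm_num) (by norm_num)).1 h3

lemma nwt_sub (B : Finset ℕ) (w : ℕ → ℤ) (d e : D) : nwt B w (d - e) = nwt B w d - nwt B w e :=
  map_sub (nwtH B w) d e

lemma MHmg.nwt_eq (hw : X.TTriv w) {ι κ : Type} {a : ι → D} {b : κ → D} {f : Matrix κ ι R}
    (hf : MHmg a b f) {x : Pt} (hx : x ∈ X.pts) {i : ι} {j : κ}
    (h0 : MvPolynomial.eval x (f j i) ≠ 0) : nwt X.B w (b j) = nwt X.B w (a i) := by
  rw [← sub_eq_zero, ← nwt_sub]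
  exact (hf j i).nwt_eq_zero hw hx h0

lemma mev_wt (hw : X.TTriv w) (p : ℤ → Prop) [DecidablePred p] {ι κ : Type} [Fintype ι]
    {a : ι → D} {b : κ → D} {f : Matrix κ ι R} (hf : MHmg a b f) {x : Pt} (hx : x ∈ X.pts)
    (v : ι → ℂ) :
    mev x (f.submatrix (Subtype.val : {j // p (nwt X.B w (b j))} → κ)
      (Subtype.val : {i // p (nwt X.B w (a i))} → ι)) (LinearMap.funLeft ℂ ℂ Subtype.val v) =
      LinearMap.funLeft ℂ ℂ Subtype.val (mev x f v) := by
  funext j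
  rw [LinearMap.funLeft_apply, mev_apply, mev_apply,
    ← Finset.sum_filter_of_ne (p := fun i => p (nwt X.B w (a i)))
      fun i _ h0 => hf.nwt_eq hw hx (left_ne_zero_of_mul h0) ▸ j.2]
  exact (Finset.sum_subtype (F := inferInstance) (p := fun i => p (nwt X.B w (a i))) _ (by simp)
    fun i => MvPolynomial.eval x (f j.1 i) * v i).symm

lemma funLeft_extZ {ι : Type} (p : ι → Prop) [DecidablePred p] (u : {i // p i} → ℂ) :
    LinearMap.funLeft ℂ ℂ Subtype.val (extZ p u) = u := by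
  funext i
  simp [extZ, i.2]

lemma mev_extZ_eq_zero (hw : X.TTriv w) (p : ℤ → Prop) [DecidablePred p] {ι κ : Type} [Fintype ι]
    {a : ι → D} {b : κ → D} {f : Matrix κ ι R} (hf : MHmg a b f) {x : Pt} (hx : x ∈ X.pts)
    {u : {i // p (nwt X.B w (a i))} → ℂ}
    (h : mev x (f.submatrix (Subtype.val : {j // p (nwt X.B w (b j))} → κ)
      (Subtype.val : {i // p (nwt X.B w (a i))} → ι)) u = 0) : mev x f (extZ _ u) = 0 := by
  funext j
  by_cases hj : p (nwt X.B w (b j))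
  · have := mev_wt hw p hf hx (extZ _ u)
    rw [funLeft_extZ, h] at this
    exact (congrFun this ⟨j, hj⟩).symm
  · rw [mev_apply]
    refine Finset.sum_eq_zero fun i _ => ?_
    by_cases h0 : MvPolynomial.eval x (f j i) = 0
    · rw [h0, zero_mul]
    · rw [extZ, dif_neg (hf.nwt_eq hw hx h0 ▸ hj), mul_zero]

lemma Bun.SES.wt {A B C : Bun X} (h : SES A B C) (hw : X.TTriv w) (p : ℤ → Prop)
    [DecidablePred p] : SES (A.wt w hw p) (B.wt w hw p) (C.wt w hw p) := by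
  obtain ⟨f, q, hf, hq, h⟩ := h
  refine ⟨f.submatrix Subtype.val Subtype.val, q.submatrix Subtype.val Subtype.val,
    fun j i => hf j.1 i.1, fun j i => hq j.1 i.1, fun x hx => ?_⟩
  obtain ⟨h1, h2, h3⟩ := h x hx
  refine ⟨eq_bot_iff.2 ?_, le_antisymm ?_ ?_, le_antisymm ?_ ?_⟩
  · rintro u ⟨hu, hu0⟩
    have h4 : extZ _ u ∈ A.L x ⊓ LinearMap.ker (mev x f) :=
      ⟨A.extZ_mem hw p hx hu, mev_extZ_eq_zero hw p hf hx hu0⟩
    rw [h1, Submodule.mem_bot] at h4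
    have h5 := funLeft_extZ _ u
    rw [h4, map_zero] at h5
    exact h5.symm
  · rintro _ ⟨_, ⟨v, hv, rfl⟩, rfl⟩
    have h4 : mev x f v ∈ B.L x ⊓ LinearMap.ker (mev x q) := h2 ▸ ⟨v, hv, rfl⟩
    have h5 := mev_wt hw p hf hx v
    refine ⟨⟨_, h4.1, h5.symm⟩, ?_⟩
    refine (congrArg _ h5).trans ((mev_wt hw p hq hx _).trans ?_)
    rw [show mev x q (mev x f v) = 0 from h4.2, map_zero]
    rfl
  · rintro u ⟨hu, hu0⟩
    have h4 : extZ _ u ∈ B.L x ⊓ LinearMap.ker (mev x q) :=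
      ⟨B.extZ_mem hw p hx hu, mev_extZ_eq_zero hw p hq hx hu0⟩
    rw [← h2] at h4
    obtain ⟨v, hv, e⟩ := h4
    refine ⟨_, ⟨v, hv, rfl⟩, (mev_wt hw p hf hx v).trans ?_⟩
    rw [e]
    exact funLeft_extZ _ u
  · rintro _ ⟨_, ⟨v, hv, rfl⟩, rfl⟩
    exact ⟨_, (h3 ▸ ⟨v, hv, rfl⟩ : mev x q v ∈ C.L x), (mev_wt hw p hq hx v).symm⟩
  · rintro _ ⟨u, hu, rfl⟩
    rw [← h3] at hu
    obtain ⟨v, hv, rfl⟩ := hu
    exact ⟨_, ⟨v, hv, rfl⟩, mev_wt hw p hq hx v⟩

lemma Bun.pure_iff {A : Bun X} {k : ℤ} : A.Pure w k ↔ ∀ i, nwt X.B w (A.deg i) = k :=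
  forall_congr' fun _ => sub_eq_iff_eq_add.symm

lemma Bun.Pure.kl_wt {A : Bun X} {k : ℤ} (h : A.Pure w k) (hw : X.TTriv w) (p : ℤ → Prop)
    [DecidablePred p] : (A.wt w hw p).kl = if p k then A.kl else 0 := by
  have h1 := pure_iff.1 h
  split_ifs with hp
  · rw [N265.kl_wt A w hw p, kl_wt_bot A w hw (fun k => ¬ p k) fun i => by simpa [h1] using hp,
      add_zero]
  · exact kl_wt_bot A w hw p fun i => by simpa [h1] using hp

lemma nwt_mono {B B' : Finset ℕ} (h : B ⊆ B') (w : ℕ → ℤ) {d : D} (hd : d ∈ DS B) :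
    nwt B' w d = nwt B w d := by
  unfold nwt
  rw [Finset.sum_subset h fun b _ hb => by rw [hd b hb, mul_zero]]

lemma nwt_eT (B : Finset ℕ) (w : ℕ → ℤ) (k : ℤ) : nwt B w (k • eT) = k := by
  simp [nwt, eT]

/-- restricting a family along two equivalent index predicates -/
lemma kl_sub_congr {A B : Bun X} {ι : Type} {p q : ι → Prop} (L : Pt → Submodule ℂ (ι → ℂ))
    (deg : ι → D) (a : A.ι ≃ {i // p i}) (b : B.ι ≃ {i // q i}) (hpq : ∀ i, q i ↔ p i)
    (hA : ∀ i, A.deg i = deg (a i)) (hB : ∀ j, B.deg j = deg (b j))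
    (hLA : ∀ x, A.L x = (L x).map (LinearMap.funLeft ℂ ℂ fun i => (a i).1))
    (hLB : ∀ x, B.L x = (L x).map (LinearMap.funLeft ℂ ℂ fun j => (b j).1)) : A.kl = B.kl := by
  refine K3.kl_reindex ((b.trans (Equiv.subtypeEquivRight hpq)).trans a.symm)
    (fun j => by simp [hA, hB]) fun x _ v => ?_
  rw [hLA, hLB]
  constructor
  · rintro ⟨u, hu, rfl⟩
    exact ⟨u, hu, funext fun j => by simp⟩
  · rintro ⟨u, hu, e⟩
    refine ⟨u, hu, funext fun i => ?_⟩
    have := congrFun e (b.symm ((Equiv.subtypeEquivRight hpq).symm (a i)))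
    simpa using this
end wtaux

/-- weight projection on a `T`-trivial space -/
theorem K.exists_wt {w : ℕ → ℤ} (hw : X.TTriv w) (p : ℤ → Prop) [DecidablePred p] :
    ∃ Φ : K X →+ K X, ∀ A : Bun X, Φ A.kl = (A.wt w hw p).kl :=
  K.exists_lift (fun A => (A.wt w hw p).kl) fun _ _ _ h => kl_ses (h.wt hw p)
/-- weight projection -/
def K.wt {w : ℕ → ℤ} (hw : X.TTriv w) (p : ℤ → Prop) [DecidablePred p] : K X →+ K X :=
  (K.exists_wt hw p).choose
lemma K.wt_kl {w : ℕ → ℤ} (hw : X.TTriv w) (p : ℤ → Prop) [DecidablePred p] (A : Bun X) :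
    K.wt hw p A.kl = (A.wt w hw p).kl := (K.exists_wt hw p).choose_spec A
/-- classes of pure weight `k` -/
def K.Pure {w : ℕ → ℤ} (hw : X.TTriv w) (k : ℤ) (u : K X) : Prop := K.wt hw (· = k) u = u
section
variable {w : ℕ → ℤ} {hw : X.TTriv w}
lemma Bun.Pure.kpure {A : Bun X} {k : ℤ} (h : A.Pure w k) : K.Pure hw k A.kl := by
  rw [K.Pure, K.wt_kl, h.kl_wt, if_pos rfl]
lemma K.Pure.add {k : ℤ} {u v : K X} (h : K.Pure hw k u) (h' : K.Pure hw k v) :
    K.Pure hw k (u + v) := by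
  unfold K.Pure at *
  rw [map_add, h, h']
lemma K.Pure.sub {k : ℤ} {u v : K X} (h : K.Pure hw k u) (h' : K.Pure hw k v) :
    K.Pure hw k (u - v) := by
  unfold K.Pure at *
  rw [map_sub, h, h']
lemma K.Pure.exists_sub {k : ℤ} {u : K X} (h : K.Pure hw k u) :
    ∃ A B : Bun X, A.Pure w k ∧ B.Pure w k ∧ u = A.kl - B.kl := by
  obtain ⟨A, B, rfl⟩ := K.exists_sub u
  refine ⟨_, _, A.wt_pure w hw k, B.wt_pure w hw k, ?_⟩
  rw [← K.wt_kl, ← K.wt_kl, ← map_sub]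
  exact h.symm
lemma Bun.Pure.tens {A B : Bun X} {k j : ℤ} (h : A.Pure w k) (h' : B.Pure w j) :
    (A.tens B).Pure w (k + j) := pure_iff.2 fun p =>
  (map_add (nwtH X.B w) _ _).trans (congrArg₂ (· + ·) (pure_iff.1 h p.1) (pure_iff.1 h' p.2))
lemma Bun.Pure.ann {A : Bun X} {k : ℤ} (h : A.Pure w k) : A.ann.Pure w (-k) := pure_iff.2 fun i =>
  (map_neg (nwtH X.B w) _).trans (congrArg Neg.neg (pure_iff.1 h i))
lemma Bun.Pure.amb {A : Bun X} {k : ℤ} (h : A.Pure w k) : A.amb.Pure w k := h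
lemma K.Pure.mul {k j : ℤ} {u v : K X} (h : K.Pure hw k u) (h' : K.Pure hw j v) :
    K.Pure hw (k + j) (u * v) := by
  obtain ⟨A, B, hA, hB, rfl⟩ := h.exists_sub
  obtain ⟨A', B', hA', hB', rfl⟩ := h'.exists_sub
  rw [sub_mul, mul_sub, mul_sub, ← kl_tens, ← kl_tens, ← kl_tens, ← kl_tens]
  exact ((hA.tens hA').kpure.sub (hA.tens hB').kpure).sub
    ((hB.tens hA').kpure.sub (hB.tens hB').kpure)
lemma K.Pure.dual {k : ℤ} {u : K X} (h : K.Pure hw k u) : K.Pure hw (-k) (K.dual X u) := by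
  obtain ⟨A, B, hA, hB, rfl⟩ := h.exists_sub
  rw [map_sub, K.dual_kl, K.dual_kl]
  exact (hA.ann.amb.kpure.sub hA.ann.kpure).sub (hB.ann.amb.kpure.sub hB.ann.kpure)
lemma K.pure_lbK {d : D} (hd : d ∈ DS X.B) : K.Pure hw (nwt X.B w d) (lbK X d) :=
  Bun.Pure.kpure (A := line X d) (pure_iff.2 fun _ => congrArg (nwt X.B w) (dpr_of_mem hd))
lemma K.pure_t (k : ℤ) : K.Pure hw k (lbK X (k • eT)) := by
  have := K.pure_lbK (hw := hw) (zsmul_mem (eT_mem X.B) k)
  rwa [nwt_eT] at this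
lemma K.Pure.wt_of {k : ℤ} {u : K X} (h : K.Pure hw k u) (p : ℤ → Prop) [DecidablePred p] :
    K.wt hw p u = if p k then u else 0 := by
  obtain ⟨A, B, hA, hB, rfl⟩ := h.exists_sub
  rw [map_sub, K.wt_kl, K.wt_kl, hA.kl_wt, hB.kl_wt]
  split_ifs <;> simp
lemma K.wt_add_wt (p : ℤ → Prop) [DecidablePred p] (u : K X) :
    K.wt hw p u + K.wt hw (fun k => ¬ p k) u = u :=
  DFunLike.congr_fun (K.hom_ext (φ := K.wt hw p + K.wt hw fun k => ¬ p k) (ψ := AddMonoidHom.id _)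
    fun A => by
      rw [AddMonoidHom.add_apply, K.wt_kl, K.wt_kl]
      exact (kl_wt A w hw p).symm) u
lemma K.pull_wt (q : Proj Y X) (hY : Y.TTriv w) (p : ℤ → Prop) [DecidablePred p] (u : K X) :
    K.pull q (K.wt hw p u) = K.wt hY p (K.pull q u) :=
  DFunLike.congr_fun (K.hom_ext (φ := (K.pull q).toAddMonoidHom.comp (K.wt hw p))
    (ψ := (K.wt hY p).comp (K.pull q).toAddMonoidHom) fun A => by
      change K.pull q (K.wt hw p A.kl) = K.wt hY p (K.pull q A.kl)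
      rw [K.wt_kl, K.pull_kl, K.pull_kl, K.wt_kl]
      exact kl_sub_congr (p := fun i => p (nwt X.B w (A.deg i)))
        (q := fun i => p (nwt Y.B w (A.deg i))) (fun y => A.L (restr X.B y)) A.deg (Equiv.refl _)
        (Equiv.refl _) (fun i => by rw [nwt_mono q.sub w (A.hdeg i)]) (fun _ => rfl) (fun _ => rfl)
        (fun _ => rfl) fun _ => rfl) u
/-- weights only depend on the blocks of the space -/
lemma K.wt_congr {w' : ℕ → ℤ} (hw' : X.TTriv w') (p : ℤ → Prop) [DecidablePred p] (u : K X) :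
    K.wt hw p u = K.wt hw' p u := by
  refine DFunLike.congr_fun (K.hom_ext fun A => ?_) u
  rw [K.wt_kl, K.wt_kl]
  rcases X.pts.eq_empty_or_nonempty with h0 | ⟨x, hx⟩
  · rw [kl_of_bot fun x hx => by simp [h0] at hx, kl_of_bot fun x hx => by simp [h0] at hx]
  have e : ∀ d, nwt X.B w' d = nwt X.B w d := fun d => by
    unfold nwt
    congr 1
    refine Finset.sum_congr rfl fun b hb => ?_
    obtain ⟨v, rfl, hv⟩ := X.rel x hx b hb
    rw [← hw x hx v hv, ← hw' x hx v hv]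
  exact kl_sub_congr (p := fun i => p (nwt X.B w (A.deg i)))
    (q := fun i => p (nwt X.B w' (A.deg i))) A.L A.deg (Equiv.refl _) (Equiv.refl _)
    (fun i => by rw [e]) (fun _ => rfl) (fun _ => rfl) (fun _ => rfl) fun _ => rfl
/-- on a point a class of pure weight is determined by its rank -/
lemma K.Pure.eq_of_isPt (h : X.IsPt w) {k : ℤ} {u : K X} (hu : K.Pure hw k u) {x : Pt}
    (hx : x ∈ X.pts) : u = K.rk hx u • lbK X (k • eT) := by
  obtain ⟨A, B, hA, hB, rfl⟩ := hu.exists_sub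
  obtain ⟨m, hm⟩ := A.exists_rk h.irred.conn
  obtain ⟨n, hn⟩ := B.exists_rk h.irred.conn
  rw [map_sub, K.rk_kl, K.rk_kl, hm x hx, hn x hx, h.kl_pure hA hm, h.kl_pure hB hn, sub_smul,
    natCast_zsmul, natCast_zsmul]
  rfl
end


section
variable {w : ℕ → ℤ} {hw : X.TTriv w} {k : ℤ} {a : K X}
theorem K.Pure.wt (h : K.Pure hw k a) (p : ℤ → Prop) [DecidablePred p] :
    K.wt hw p a = if p k then a else 0 := h.wt_of p
theorem K.pure_zero : K.Pure hw k 0 := map_zero _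
theorem K.pure_one : K.Pure hw 0 1 := by
  have := K.pure_t (hw := hw) 0
  rwa [zero_smul, lbK_zero] at this
theorem K.Pure.neg (h : K.Pure hw k a) : K.Pure hw k (-a) := by
  unfold K.Pure at *
  rw [map_neg, h]
theorem K.Pure.nsmul (h : K.Pure hw k a) (n : ℕ) : K.Pure hw k (n • a) := by
  unfold K.Pure at *
  rw [map_nsmul, h]
theorem K.Pure.zsmul (h : K.Pure hw k a) (n : ℤ) : K.Pure hw k (n • a) := by
  unfold K.Pure at *
  rw [map_zsmul, h]
theorem K.pure_natCast (n : ℕ) : K.Pure hw 0 n := by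
  rw [← nsmul_one]
  exact K.pure_one.nsmul n
theorem K.pure_kl {A : Bun X} (h : A.Pure w k) : K.Pure hw k A.kl := h.kpure
theorem K.wt_pull (hY : Y.TTriv w) (q : Proj Y X) (p : ℤ → Prop) [DecidablePred p] (a : K X) :
    K.wt hY p (K.pull q a) = K.pull q (K.wt hw p a) := (K.pull_wt q hY p a).symm
theorem K.Pure.pull (h : K.Pure hw k a) (hY : Y.TTriv w) (q : Proj Y X) :
    K.Pure hY k (K.pull q a) := by
  rw [K.Pure, K.wt_pull (hw := hw), h]
theorem K.pure_wt (a : K X) (k : ℤ) : K.Pure hw k (K.wt hw (· = k) a) := by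
  obtain ⟨A, B, rfl⟩ := K.exists_sub a
  rw [map_sub, K.wt_kl, K.wt_kl]
  exact (A.wt_pure w hw k).kpure.sub (B.wt_pure w hw k).kpure
/-- a bundle whose class is pure may be replaced by a pure bundle -/
theorem K.Pure.exists_bun {A : Bun X} (h : K.Pure hw k A.kl) :
    ∃ A' : Bun X, A'.Pure w k ∧ A'.kl = A.kl ∧
      ∀ x ∈ X.pts, Module.finrank ℂ (A'.L x) = Module.finrank ℂ (A.L x) := by
  have e : (A.wt w hw (· = k)).kl = A.kl := (K.wt_kl hw _ A).symm.trans h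
  refine ⟨_, A.wt_pure w hw k, e, fun x hx => ?_⟩
  have := congrArg (K.rk hx) e
  rw [K.rk_kl, K.rk_kl] at this
  exact_mod_cast this
end

end Crest.Agent.N265
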