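import Crest.Agent.N265.K.AlgDefs

/-!
# Row 265, layer K: basic lemmas on `lamS`, `symS`, `tens`, `aug` (task K-POW; helper96)
-/

set_option autoImplicit false

noncomputable section

namespace Crest.Agent.N265.Pow

open TensorProduct Module

variable {V W U V' W' : Type} [AddCommGroup V] [Module ℂ V] [AddCommGroup W] [Module ℂ W]
  [AddCommGroup U] [Module ℂ U] [AddCommGroup V'] [Module ℂ V'] [AddCommGroup W'] [Module ℂ W']

/-! ### generic powers of a subspace in an algebra -/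

section Gen

variable {A B : Type} [Ring A] [Algebra ℂ A] [Ring B] [Algebra ℂ B]

theorem pw_le (j : V →ₗ[ℂ] A) (k : ℕ) (L : Submodule ℂ V) :
    (L.map j) ^ k ≤ (LinearMap.range j) ^ k :=
  pow_le_pow_left' LinearMap.map_le_range k

theorem pw_map (j : V →ₗ[ℂ] A) (j' : W →ₗ[ℂ] B) (φ : V →ₗ[ℂ] W) (F : A →ₐ[ℂ] B)
    (hF : ∀ v, F (j v) = j' (φ v)) (k : ℕ) (L : Submodule ℂ V)
    (G : ((LinearMap.range j) ^ k : Submodule ℂ A) →ₗ[ℂ] ((LinearMap.range j') ^ k : Submodule ℂ B))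
    (hG : ∀ z, (G z : B) = F z) :
    (((L.map j) ^ k).comap ((LinearMap.range j) ^ k).subtype).map G =
      (((L.map φ).map j') ^ k).comap ((LinearMap.range j') ^ k).subtype := by
  have h : ((L.map j) ^ k).map F.toLinearMap = ((L.map φ).map j') ^ k := by
    rw [Submodule.map_pow, ← Submodule.map_comp, ← Submodule.map_comp]
    congr 2
    ext v
    exact hF v
  ext z
  rw [Submodule.mem_comap, ← h]
  constructor
  · rintro ⟨y, hy, rfl⟩
    exact ⟨y, hy, (hG y).symm⟩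
  · rintro ⟨y, hy, hz⟩
    exact ⟨⟨y, pw_le j k L hy⟩, hy, Subtype.ext ((hG _).trans hz)⟩

theorem pw_smul (j : V →ₗ[ℂ] A) (F : A →ₐ[ℂ] A) (L : Submodule ℂ V) (f : ℂ)
    (hF : ∀ v ∈ L, F (j v) = f • j v) {k : ℕ} {z : A} (hz : z ∈ (L.map j) ^ k) :
    F z = f ^ k • z := by
  induction hz using Submodule.pow_induction_on_left' with
  | algebraMap r => simp
  | add x y i hx hy h1 h2 => rw [map_add, h1, h2, smul_add]
  | mem_mul m hm i x hx h =>
    obtain ⟨v, hv, rfl⟩ := hm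
    rw [map_mul, h, hF v hv, smul_mul_smul_comm, pow_succ']

theorem pw_span (j : V →ₗ[ℂ] A) (k : ℕ) (L : Submodule ℂ V)
    (m : (Fin k → V) → ((LinearMap.range j) ^ k : Submodule ℂ A))
    (hm : ∀ v, (m v : A) = (List.ofFn fun i => j (v i)).prod) :
    ((L.map j) ^ k).comap ((LinearMap.range j) ^ k).subtype =
      Submodule.span ℂ (m '' {v | ∀ i, v i ∈ L}) := by
  apply Submodule.map_injective_of_injective ((LinearMap.range j) ^ k).injective_subtype
  rw [Submodule.map_comap_subtype, inf_eq_right.2 (pw_le j k L), Submodule.map_span,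
    Submodule.pow_eq_span_pow_set]
  congr 1
  ext a
  rw [Set.mem_pow]
  constructor
  · rintro ⟨f, rfl⟩
    choose v hv hv' using fun i => (f i).2
    refine ⟨m v, ⟨v, hv, rfl⟩, ?_⟩
    simp only [Submodule.subtype_apply, hm, hv']
  · rintro ⟨_, ⟨v, hv, rfl⟩, rfl⟩
    exact ⟨fun i => ⟨j (v i), v i, hv i, rfl⟩, (hm v).symm⟩

end Gen

/-! ### exterior powers -/

theorem lamM_coe (k : ℕ) (φ : V →ₗ[ℂ] W) (z : Lam k V) :
    (lamM k φ z : ExteriorAlgebra ℂ W) = ExteriorAlgebra.map φ z := by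
  have h : (Lam k W).subtype ∘ₗ lamM k φ =
      (ExteriorAlgebra.map φ).toLinearMap ∘ₗ (Lam k V).subtype := by
    apply exteriorPower.linearMap_ext
    ext v
    simp [ExteriorAlgebra.map_apply_ιMulti]
  exact LinearMap.congr_fun h z

theorem mem_lamS {k : ℕ} {L : Submodule ℂ V} {z : Lam k V} :
    z ∈ lamS k L ↔ (z : ExteriorAlgebra ℂ V) ∈ (L.map (ExteriorAlgebra.ι ℂ)) ^ k := Iff.rfl

theorem lamS_map (k : ℕ) (φ : V →ₗ[ℂ] W) (L : Submodule ℂ V) :
    (lamS k L).map (lamM k φ) = lamS k (L.map φ) :=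
  pw_map _ _ φ (ExteriorAlgebra.map φ) (ExteriorAlgebra.map_apply_ι φ) k L _ (lamM_coe k φ)

theorem lamS_mono (k : ℕ) {L L' : Submodule ℂ V} (h : L ≤ L') : lamS k L ≤ lamS k L' :=
  Submodule.comap_mono (pow_le_pow_left' (Submodule.map_mono h) k)

@[simp] theorem lamS_top (k : ℕ) : lamS k (⊤ : Submodule ℂ V) = ⊤ := by
  rw [lamS, Submodule.map_top, Submodule.comap_subtype_self]

@[simp] theorem lamS_zero (L : Submodule ℂ V) : lamS 0 L = ⊤ := by
  rw [eq_top_iff]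
  intro z _
  have hz : (z : ExteriorAlgebra ℂ V) ∈ LinearMap.range (ExteriorAlgebra.ι ℂ) ^ 0 := z.2
  rw [mem_lamS, pow_zero]
  rwa [pow_zero] at hz

theorem range_lamM (k : ℕ) (φ : V →ₗ[ℂ] W) :
    LinearMap.range (lamM k φ) = lamS k (LinearMap.range φ) := by
  rw [← Submodule.map_top, ← lamS_top, lamS_map, Submodule.map_top]

theorem lamS_eq_range (k : ℕ) (L : Submodule ℂ V) :
    lamS k L = LinearMap.range (lamM k L.subtype) := by
  rw [range_lamM, Submodule.range_subtype]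

theorem range_lamM_le (k : ℕ) {E : V →ₗ[ℂ] W} {L : Submodule ℂ W} (h : LinearMap.range E ≤ L) :
    LinearMap.range (lamM k E) ≤ lamS k L := by
  rw [range_lamM]
  exact lamS_mono k h

theorem lamM_mem (k : ℕ) {φ : V →ₗ[ℂ] W} {L : Submodule ℂ V} {L' : Submodule ℂ W}
    (h : ∀ v ∈ L, φ v ∈ L') {z : Lam k V} (hz : z ∈ lamS k L) : lamM k φ z ∈ lamS k L' :=
  lamS_mono k (Submodule.map_le_iff_le_comap.2 h) (lamS_map k φ L ▸ Submodule.mem_map_of_mem hz)

theorem lamM_smul (k : ℕ) {E : V →ₗ[ℂ] V} {L : Submodule ℂ V} {f : ℂ} (h : ∀ v ∈ L, E v = f • v)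
    {z : Lam k V} (hz : z ∈ lamS k L) : lamM k E z = f ^ k • z :=
  Subtype.ext <| (lamM_coe k E z).trans <| pw_smul _ (ExteriorAlgebra.map E) L f
    (fun v hv => by rw [ExteriorAlgebra.map_apply_ι, h v hv, map_smul]) hz

theorem lamM_id (k : ℕ) : lamM k (LinearMap.id : V →ₗ[ℂ] V) = LinearMap.id :=
  exteriorPower.map_id

theorem lamM_comp (k : ℕ) (φ : V →ₗ[ℂ] W) (ψ : W →ₗ[ℂ] U) :
    lamM k (ψ ∘ₗ φ) = lamM k ψ ∘ₗ lamM k φ :=
  exteriorPower.map_comp φ ψ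

theorem lamS_eq_span (k : ℕ) (L : Submodule ℂ V) :
    lamS k L = Submodule.span ℂ (exteriorPower.ιMulti ℂ k '' {v | ∀ i, v i ∈ L}) :=
  pw_span _ k L _ fun v => ExteriorAlgebra.ιMulti_apply v

theorem ιMulti_mem (k : ℕ) {L : Submodule ℂ V} {v : Fin k → V} (hv : ∀ i, v i ∈ L) :
    exteriorPower.ιMulti ℂ k v ∈ lamS k L := by
  rw [lamS_eq_span]
  exact Submodule.subset_span ⟨v, hv, rfl⟩

theorem span_ιMulti (k : ℕ) :
    Submodule.span ℂ (Set.range (exteriorPower.ιMulti ℂ k : (Fin k → V) → Lam k V)) = ⊤ :=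
  exteriorPower.ιMulti_span ℂ k V

theorem lamM_injective (k : ℕ) {φ : V →ₗ[ℂ] W} (h : Function.Injective φ) :
    Function.Injective (lamM k φ) :=
  exteriorPower.map_injective_field h

theorem lamS_one (L : Submodule ℂ V) :
    lamS 1 L = L.comap (exteriorPower.oneEquiv ℂ V).toLinearMap := by
  rw [Submodule.comap_equiv_eq_map_symm, lamS_eq_span, eq_comm, Submodule.map_symm_eq_iff,
    Submodule.map_span]
  apply le_antisymm
  · rw [Submodule.span_le]
    rintro _ ⟨_, ⟨v, hv, rfl⟩, rfl⟩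
    simpa using hv 0
  · intro v hv
    exact Submodule.subset_span ⟨_, ⟨fun _ => v, fun _ => hv, rfl⟩, by simp⟩

/-- `Λ^k L ≃ lamS k L` -/
def lamSEquiv (k : ℕ) (L : Submodule ℂ V) : Lam k L ≃ₗ[ℂ] lamS k L :=
  (LinearEquiv.ofInjective _ (lamM_injective k L.injective_subtype)).trans
    (LinearEquiv.ofEq _ _ (lamS_eq_range k L).symm)

@[simp] theorem lamSEquiv_coe (k : ℕ) (L : Submodule ℂ V) (z : Lam k L) :
    (lamSEquiv k L z : Lam k V) = lamM k L.subtype z := rfl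

theorem finrank_lamS (k : ℕ) (L : Submodule ℂ V) [FiniteDimensional ℂ L] :
    finrank ℂ (lamS k L) = (finrank ℂ L).choose k := by
  rw [← (lamSEquiv k L).finrank_eq, exteriorPower.finrank_eq]

theorem lamS_eq_bot {k : ℕ} (L : Submodule ℂ V) [FiniteDimensional ℂ L] (h : finrank ℂ L < k) :
    lamS k L = ⊥ := by
  have : Module.Finite ℂ (lamS k L) := Module.Finite.equiv (lamSEquiv k L)
  rw [← Submodule.finrank_eq_zero, finrank_lamS, Nat.choose_eq_zero_of_lt h]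

/-! ### symmetric powers -/

theorem mem_symS {k : ℕ} {L : Submodule ℂ V} {z : Sy k V} :
    z ∈ symS k L ↔ (z : SymmetricAlgebra ℂ V) ∈ (L.map (SymmetricAlgebra.ι ℂ V)) ^ k := Iff.rfl

theorem symS_map (k : ℕ) (φ : V →ₗ[ℂ] W) (L : Submodule ℂ V) :
    (symS k L).map (symM k φ) = symS k (L.map φ) :=
  pw_map _ _ φ (symA φ) (symA_ι φ) k L _ (symM_coe k φ)

theorem symS_mono (k : ℕ) {L L' : Submodule ℂ V} (h : L ≤ L') : symS k L ≤ symS k L' :=
  Submodule.comap_mono (pow_le_pow_left' (Submodule.map_mono h) k)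

@[simp] theorem symS_top (k : ℕ) : symS k (⊤ : Submodule ℂ V) = ⊤ := by
  rw [symS, Submodule.map_top, Submodule.comap_subtype_self]

@[simp] theorem symS_zero (L : Submodule ℂ V) : symS 0 L = ⊤ := by
  rw [eq_top_iff]
  intro z _
  have hz : (z : SymmetricAlgebra ℂ V) ∈ LinearMap.range (SymmetricAlgebra.ι ℂ V) ^ 0 := z.2
  rw [mem_symS, pow_zero]
  rwa [pow_zero] at hz

theorem range_symM (k : ℕ) (φ : V →ₗ[ℂ] W) :
    LinearMap.range (symM k φ) = symS k (LinearMap.range φ) := by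
  rw [← Submodule.map_top, ← symS_top, symS_map, Submodule.map_top]

theorem symS_eq_range (k : ℕ) (L : Submodule ℂ V) :
    symS k L = LinearMap.range (symM k L.subtype) := by
  rw [range_symM, Submodule.range_subtype]

theorem range_symM_le (k : ℕ) {E : V →ₗ[ℂ] W} {L : Submodule ℂ W} (h : LinearMap.range E ≤ L) :
    LinearMap.range (symM k E) ≤ symS k L := by
  rw [range_symM]
  exact symS_mono k h

theorem symM_mem (k : ℕ) {φ : V →ₗ[ℂ] W} {L : Submodule ℂ V} {L' : Submodule ℂ W}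
    (h : ∀ v ∈ L, φ v ∈ L') {z : Sy k V} (hz : z ∈ symS k L) : symM k φ z ∈ symS k L' :=
  symS_mono k (Submodule.map_le_iff_le_comap.2 h) (symS_map k φ L ▸ Submodule.mem_map_of_mem hz)

theorem symM_smul (k : ℕ) {E : V →ₗ[ℂ] V} {L : Submodule ℂ V} {f : ℂ} (h : ∀ v ∈ L, E v = f • v)
    {z : Sy k V} (hz : z ∈ symS k L) : symM k E z = f ^ k • z :=
  Subtype.ext <| pw_smul _ (symA E) L f (fun v hv => by rw [symA_ι, h v hv, map_smul]) hz

theorem symA_id : symA (LinearMap.id : V →ₗ[ℂ] V) = AlgHom.id ℂ _ := by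
  apply SymmetricAlgebra.algHom_ext
  ext v
  simp

theorem symA_comp (φ : V →ₗ[ℂ] W) (ψ : W →ₗ[ℂ] U) : symA (ψ ∘ₗ φ) = (symA ψ).comp (symA φ) := by
  apply SymmetricAlgebra.algHom_ext
  ext v
  simp

theorem symM_id (k : ℕ) : symM k (LinearMap.id : V →ₗ[ℂ] V) = LinearMap.id := by
  ext z
  simp [symA_id]

theorem symM_comp (k : ℕ) (φ : V →ₗ[ℂ] W) (ψ : W →ₗ[ℂ] U) :
    symM k (ψ ∘ₗ φ) = symM k ψ ∘ₗ symM k φ := by
  ext z
  simp [symA_comp]

/-- the product of `k` vectors in `S^k V` -/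
def symP (k : ℕ) (v : Fin k → V) : Sy k V :=
  ⟨∏ i, SymmetricAlgebra.ι ℂ V (v i), by
    rw [← List.prod_ofFn]
    show _ ∈ LinearMap.range (SymmetricAlgebra.ι ℂ V) ^ k
    rw [Submodule.pow_eq_span_pow_set]
    exact Submodule.subset_span (Set.mem_pow.2 ⟨fun i => ⟨_, v i, rfl⟩, rfl⟩)⟩

@[simp] theorem symP_coe (k : ℕ) (v : Fin k → V) :
    (symP k v : SymmetricAlgebra ℂ V) = ∏ i, SymmetricAlgebra.ι ℂ V (v i) := rfl

@[simp] theorem symM_symP (k : ℕ) (φ : V →ₗ[ℂ] W) (v : Fin k → V) :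
    symM k φ (symP k v) = symP k (φ ∘ v) := by
  ext
  simp

theorem symS_eq_span (k : ℕ) (L : Submodule ℂ V) :
    symS k L = Submodule.span ℂ (symP k '' {v | ∀ i, v i ∈ L}) :=
  pw_span _ k L _ fun v => by rw [symP_coe, List.prod_ofFn]

theorem symP_mem (k : ℕ) {L : Submodule ℂ V} {v : Fin k → V} (hv : ∀ i, v i ∈ L) :
    symP k v ∈ symS k L := by
  rw [symS_eq_span]
  exact Submodule.subset_span ⟨v, hv, rfl⟩

theorem span_symP (k : ℕ) :
    Submodule.span ℂ (Set.range (symP k : (Fin k → V) → Sy k V)) = ⊤ := by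
  rw [← symS_top, symS_eq_span]
  simp

/-- two linear maps on `S^k V` agree if they agree on products -/
theorem sy_ext {k : ℕ} {f g : Sy k V →ₗ[ℂ] W} (h : ∀ v, f (symP k v) = g (symP k v)) : f = g :=
  LinearMap.ext_on_range (span_symP k) h

/-- the product of `k` vectors as a multilinear map -/
def symML (k : ℕ) : MultilinearMap ℂ (fun _ : Fin k => V) (Sy k V) :=
  ((MultilinearMap.mkPiAlgebra ℂ (Fin k) (SymmetricAlgebra ℂ V)).compLinearMap
    fun _ => SymmetricAlgebra.ι ℂ V).codRestrict _ fun v => (symP k v).2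

@[simp] theorem symML_apply (k : ℕ) (v : Fin k → V) : symML k v = symP k v := rfl

theorem symM_injective (k : ℕ) {φ : V →ₗ[ℂ] W} (h : Function.Injective φ) :
    Function.Injective (symM k φ) := by
  obtain ⟨g, hg⟩ := φ.exists_leftInverse_of_injective (LinearMap.ker_eq_bot.2 h)
  refine Function.LeftInverse.injective (g := symM k g) fun z => ?_
  rw [← LinearMap.comp_apply, ← symM_comp, hg, symM_id, LinearMap.id_apply]

/-- `S^k L ≃ symS k L` -/
def symSEquiv (k : ℕ) (L : Submodule ℂ V) : Sy k L ≃ₗ[ℂ] symS k L :=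
  (LinearEquiv.ofInjective _ (symM_injective k L.injective_subtype)).trans
    (LinearEquiv.ofEq _ _ (symS_eq_range k L).symm)

@[simp] theorem symSEquiv_coe (k : ℕ) (L : Submodule ℂ V) (z : Sy k L) :
    (symSEquiv k L z : Sy k V) = symM k L.subtype z := rfl

theorem symι_injective : Function.Injective (SymmetricAlgebra.ι ℂ V) := by
  rw [← LinearMap.ker_eq_bot, LinearMap.ker_eq_bot']
  intro v hv
  rw [← Module.forall_dual_apply_eq_zero_iff ℂ]
  intro ℓ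
  rw [← SymmetricAlgebra.lift_ι_apply ℓ v, hv, map_zero]

/-- `S^1 V ≃ V` -/
def sy1 (V : Type) [AddCommGroup V] [Module ℂ V] : Sy 1 V ≃ₗ[ℂ] V :=
  ((LinearEquiv.ofInjective _ symι_injective).trans (LinearEquiv.ofEq _ _ (pow_one _).symm)).symm

@[simp] theorem sy1_symm_coe (v : V) :
    ((sy1 V).symm v : SymmetricAlgebra ℂ V) = SymmetricAlgebra.ι ℂ V v := rfl

@[simp] theorem ι_sy1 (z : Sy 1 V) : SymmetricAlgebra.ι ℂ V (sy1 V z) = z := by
  rw [← sy1_symm_coe, LinearEquiv.symm_apply_apply]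

@[simp] theorem sy1_symP (v : Fin 1 → V) : sy1 V (symP 1 v) = v 0 :=
  symι_injective (by simp)

theorem sy1_nat (φ : V →ₗ[ℂ] W) :
    (sy1 W).toLinearMap ∘ₗ symM 1 φ = φ ∘ₗ (sy1 V).toLinearMap :=
  sy_ext fun v => by simp

theorem symS_one (L : Submodule ℂ V) : symS 1 L = L.comap (sy1 V).toLinearMap := by
  ext z
  rw [mem_symS, pow_one, ← ι_sy1 z, Submodule.mem_comap]
  exact ⟨fun ⟨v, hv, h⟩ => by rwa [symι_injective h] at hv, fun h => ⟨_, h, rfl⟩⟩

theorem exists_sy0 (z : Sy 0 V) : ∃ c : ℂ, algebraMap ℂ _ c = (z : SymmetricAlgebra ℂ V) := by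
  have hz : (z : SymmetricAlgebra ℂ V) ∈ LinearMap.range (SymmetricAlgebra.ι ℂ V) ^ 0 := z.2
  rwa [pow_zero, Submodule.mem_one] at hz

/-- `S^0 V ≃ ℂ` -/
def sy0 (V : Type) [AddCommGroup V] [Module ℂ V] : Sy 0 V ≃ₗ[ℂ] ℂ :=
  LinearEquiv.ofLinearMap ((SymmetricAlgebra.algebraMapInv (R := ℂ) (M := V)).toLinearMap ∘ₗ
      (Sy 0 V).subtype)
    ((Algebra.linearMap ℂ _).codRestrict _ fun c => by
      rw [Sy, pow_zero]; exact Submodule.algebraMap_mem c)
    (by ext; simp) (by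
      ext z
      obtain ⟨c, hc⟩ := exists_sy0 z
      simp [← hc])

@[simp] theorem sy0_symm_coe (c : ℂ) :
    ((sy0 V).symm c : SymmetricAlgebra ℂ V) = algebraMap ℂ _ c := rfl

@[simp] theorem algebraMap_sy0 (z : Sy 0 V) :
    algebraMap ℂ (SymmetricAlgebra ℂ V) (sy0 V z) = z := by
  rw [← sy0_symm_coe, LinearEquiv.symm_apply_apply]

@[simp] theorem sy0_symP (v : Fin 0 → V) : sy0 V (symP 0 v) = 1 :=
  (SymmetricAlgebra.algebraMap_eq_one_iff V _).1 (by simp)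

theorem sy0_nat (φ : V →ₗ[ℂ] W) : (sy0 W).toLinearMap ∘ₗ symM 0 φ = (sy0 V).toLinearMap :=
  sy_ext fun v => by simp

theorem exists_comp_of_ker_le {φ : V →ₗ[ℂ] W} {ψ : V →ₗ[ℂ] U}
    (h : LinearMap.ker φ ≤ LinearMap.ker ψ) : ∃ g : W →ₗ[ℂ] U, g ∘ₗ φ = ψ := by
  obtain ⟨g, hg⟩ := LinearMap.exists_extend
    ((LinearMap.ker φ).liftQ ψ h ∘ₗ φ.quotKerEquivRange.symm.toLinearMap)
  refine ⟨g, LinearMap.ext fun v => ?_⟩
  have h1 := LinearMap.congr_fun hg ⟨φ v, v, rfl⟩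
  have h2 : φ.quotKerEquivRange.symm ⟨φ v, v, rfl⟩ = Submodule.Quotient.mk v := by
    rw [LinearEquiv.symm_apply_eq]
    exact Subtype.ext (φ.quotKerEquivRange_apply_mk v).symm
  simpa [h2] using h1

theorem ker_symM_mono (k : ℕ) {φ : V →ₗ[ℂ] W} {ψ : V →ₗ[ℂ] U}
    (h : LinearMap.ker φ ≤ LinearMap.ker ψ) :
    LinearMap.ker (symM k φ) ≤ LinearMap.ker (symM k ψ) := by
  obtain ⟨g, rfl⟩ := exists_comp_of_ker_le h
  rw [symM_comp]
  exact LinearMap.ker_le_ker_comp _ _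

theorem ker_lamM_mono (k : ℕ) {φ : V →ₗ[ℂ] W} {ψ : V →ₗ[ℂ] U}
    (h : LinearMap.ker φ ≤ LinearMap.ker ψ) :
    LinearMap.ker (lamM k φ) ≤ LinearMap.ker (lamM k ψ) := by
  obtain ⟨g, rfl⟩ := exists_comp_of_ker_le h
  rw [lamM_comp]
  exact LinearMap.ker_le_ker_comp _ _

/-! ### tensor products -/

theorem tens_eq_range (L : Submodule ℂ V) (L' : Submodule ℂ W) :
    tens L L' = LinearMap.range (TensorProduct.map L.subtype L'.subtype) :=
  (TensorProduct.range_mapIncl L L').symm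

theorem tmul_mem {L : Submodule ℂ V} {L' : Submodule ℂ W} {v : V} {w : W} (hv : v ∈ L)
    (hw : w ∈ L') : v ⊗ₜ[ℂ] w ∈ tens L L' :=
  Submodule.apply_mem_map₂ (TensorProduct.mk ℂ V W) hv hw

theorem tens_le {L : Submodule ℂ V} {L' : Submodule ℂ W} {N : Submodule ℂ (V ⊗[ℂ] W)} :
    tens L L' ≤ N ↔ ∀ v ∈ L, ∀ w ∈ L', v ⊗ₜ[ℂ] w ∈ N :=
  Submodule.map₂_le

theorem tens_mono {L₁ L₂ : Submodule ℂ V} {L₁' L₂' : Submodule ℂ W} (h : L₁ ≤ L₂)
    (h' : L₁' ≤ L₂') : tens L₁ L₁' ≤ tens L₂ L₂' :=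
  Submodule.map₂_le_map₂ h h'

@[simp] theorem tens_top : tens (⊤ : Submodule ℂ V) (⊤ : Submodule ℂ W) = ⊤ :=
  TensorProduct.map₂_mk_top_top_eq_top ℂ V W

@[simp] theorem tens_bot_left (L' : Submodule ℂ W) : tens (⊥ : Submodule ℂ V) L' = ⊥ :=
  Submodule.map₂_bot_left _ _

@[simp] theorem tens_bot_right (L : Submodule ℂ V) : tens L (⊥ : Submodule ℂ W) = ⊥ :=
  Submodule.map₂_bot_right _ _

theorem tens_sup_left (L₁ L₂ : Submodule ℂ V) (L' : Submodule ℂ W) :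
    tens (L₁ ⊔ L₂) L' = tens L₁ L' ⊔ tens L₂ L' :=
  Submodule.map₂_sup_left _ _ _ _

theorem tens_sup_right (L : Submodule ℂ V) (L₁ L₂ : Submodule ℂ W) :
    tens L (L₁ ⊔ L₂) = tens L L₁ ⊔ tens L L₂ :=
  Submodule.map₂_sup_right _ _ _ _

theorem range_tmap (φ : V →ₗ[ℂ] V') (ψ : W →ₗ[ℂ] W') :
    LinearMap.range (TensorProduct.map φ ψ) = tens (LinearMap.range φ) (LinearMap.range ψ) :=
  TensorProduct.range_map φ ψ

theorem tens_map (φ : V →ₗ[ℂ] V') (ψ : W →ₗ[ℂ] W') (L : Submodule ℂ V) (L' : Submodule ℂ W) :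
    (tens L L').map (TensorProduct.map φ ψ) = tens (L.map φ) (L'.map ψ) := by
  rw [tens_eq_range, ← LinearMap.range_comp, ← TensorProduct.map_comp, range_tmap,
    LinearMap.range_comp, LinearMap.range_comp, Submodule.range_subtype, Submodule.range_subtype]

theorem range_tmap_le {φ : V →ₗ[ℂ] V'} {ψ : W →ₗ[ℂ] W'} {L : Submodule ℂ V'} {L' : Submodule ℂ W'}
    (h : LinearMap.range φ ≤ L) (h' : LinearMap.range ψ ≤ L') :
    LinearMap.range (TensorProduct.map φ ψ) ≤ tens L L' := by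
  rw [range_tmap]
  exact tens_mono h h'

theorem tmap_mem {φ : V →ₗ[ℂ] V'} {ψ : W →ₗ[ℂ] W'} {L : Submodule ℂ V} {L' : Submodule ℂ W}
    {N : Submodule ℂ V'} {N' : Submodule ℂ W'} (h : ∀ v ∈ L, φ v ∈ N) (h' : ∀ w ∈ L', ψ w ∈ N')
    {z : V ⊗[ℂ] W} (hz : z ∈ tens L L') : TensorProduct.map φ ψ z ∈ tens N N' :=
  tens_mono (Submodule.map_le_iff_le_comap.2 h) (Submodule.map_le_iff_le_comap.2 h')
    (tens_map φ ψ L L' ▸ Submodule.mem_map_of_mem hz)

/-- linear maps that agree on pure tensors of `L ⊗ L'` agree on `tens L L'` -/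
theorem tens_eqOn {f g : V ⊗[ℂ] W →ₗ[ℂ] U} {L : Submodule ℂ V} {L' : Submodule ℂ W}
    (h : ∀ v ∈ L, ∀ w ∈ L', f (v ⊗ₜ[ℂ] w) = g (v ⊗ₜ[ℂ] w)) {z : V ⊗[ℂ] W} (hz : z ∈ tens L L') :
    f z = g z :=
  (tens_le (N := LinearMap.eqLocus f g)).2 h hz

theorem tmap_smul {E : V →ₗ[ℂ] V} {E' : W →ₗ[ℂ] W} {L : Submodule ℂ V} {L' : Submodule ℂ W}
    {f f' : ℂ} (h : ∀ v ∈ L, E v = f • v) (h' : ∀ w ∈ L', E' w = f' • w)
    {z : V ⊗[ℂ] W} (hz : z ∈ tens L L') : TensorProduct.map E E' z = (f * f') • z :=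
  tens_eqOn (g := (f * f') • LinearMap.id) (fun v hv w hw => by
    simp [h v hv, h' w hw, TensorProduct.smul_tmul', smul_smul, mul_comm]) hz

theorem tmap_injective {φ : V →ₗ[ℂ] V'} {ψ : W →ₗ[ℂ] W'} (h : Function.Injective φ)
    (h' : Function.Injective ψ) : Function.Injective (TensorProduct.map φ ψ) :=
  TensorProduct.map_injective_of_flat_flat φ ψ h h'

/-- `L ⊗ L' ≃ tens L L'` -/
def tensEquiv (L : Submodule ℂ V) (L' : Submodule ℂ W) : L ⊗[ℂ] L' ≃ₗ[ℂ] tens L L' :=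
  (LinearEquiv.ofInjective _ (tmap_injective L.injective_subtype L'.injective_subtype)).trans
    (LinearEquiv.ofEq _ _ (tens_eq_range L L').symm)

@[simp] theorem tensEquiv_coe (L : Submodule ℂ V) (L' : Submodule ℂ W) (z : L ⊗[ℂ] L') :
    (tensEquiv L L' z : V ⊗[ℂ] W) = TensorProduct.map L.subtype L'.subtype z := rfl

theorem finrank_tens (L : Submodule ℂ V) (L' : Submodule ℂ W) :
    finrank ℂ (tens L L') = finrank ℂ L * finrank ℂ L' := by
  rw [← (tensEquiv L L').finrank_eq, Module.finrank_tensorProduct]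

theorem tens_inf_ker_left (ψ : V →ₗ[ℂ] U) (L : Submodule ℂ V) (N : Submodule ℂ W) :
    tens L N ⊓ LinearMap.ker (TensorProduct.map ψ (LinearMap.id : W →ₗ[ℂ] W)) =
      tens (L ⊓ LinearMap.ker ψ) N := by
  apply le_antisymm
  · rintro z ⟨hz, hz0⟩
    rw [tens_eq_range] at hz
    obtain ⟨y, rfl⟩ := hz
    have h1 : (ψ ∘ₗ L.subtype).rTensor N y = 0 := by
      apply tmap_injective (φ := LinearMap.id) Function.injective_id N.injective_subtype
      rw [map_zero, ← LinearMap.mem_ker.1 hz0, LinearMap.rTensor, TensorProduct.map_map,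
        TensorProduct.map_map]
      rfl
    obtain ⟨x, rfl⟩ := (Module.Flat.rTensor_exact N
      (LinearMap.exact_subtype_ker_map (ψ ∘ₗ L.subtype)) y).1 h1
    rw [LinearMap.rTensor, TensorProduct.map_map]
    refine range_tmap_le ?_ ?_ ⟨x, rfl⟩
    · rintro _ ⟨v, rfl⟩
      exact ⟨v.1.2, v.2⟩
    · rintro _ ⟨v, rfl⟩
      exact v.2
  · refine le_inf (tens_mono inf_le_left le_rfl) (tens_le.2 fun v hv w _ => ?_)
    simp [LinearMap.mem_ker.1 hv.2]

theorem tens_inf_ker_right (ψ : W →ₗ[ℂ] U) (L : Submodule ℂ V) (N : Submodule ℂ W) :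
    tens L N ⊓ LinearMap.ker (TensorProduct.map (LinearMap.id : V →ₗ[ℂ] V) ψ) =
      tens L (N ⊓ LinearMap.ker ψ) := by
  apply le_antisymm
  · rintro z ⟨hz, hz0⟩
    rw [tens_eq_range] at hz
    obtain ⟨y, rfl⟩ := hz
    have h1 : (ψ ∘ₗ N.subtype).lTensor L y = 0 := by
      apply tmap_injective (ψ := LinearMap.id) L.injective_subtype Function.injective_id
      rw [map_zero, ← LinearMap.mem_ker.1 hz0, LinearMap.lTensor, TensorProduct.map_map,
        TensorProduct.map_map]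
      rfl
    obtain ⟨x, rfl⟩ := (Module.Flat.lTensor_exact L
      (LinearMap.exact_subtype_ker_map (ψ ∘ₗ N.subtype)) y).1 h1
    rw [LinearMap.lTensor, TensorProduct.map_map]
    refine range_tmap_le ?_ ?_ ⟨x, rfl⟩
    · rintro _ ⟨v, rfl⟩
      exact v.2
    · rintro _ ⟨v, rfl⟩
      exact ⟨v.1.2, v.2⟩
  · refine le_inf (tens_mono le_rfl inf_le_left) (tens_le.2 fun v _ w hw => ?_)
    simp [LinearMap.mem_ker.1 hw.2]

/-! ### the augmentation -/

@[simp] theorem aug_tmul (k : ℕ) (ψ : V →ₗ[ℂ] W) (a : Lam 0 V) (z : Sy k V) :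
    aug k ψ (a ⊗ₜ[ℂ] z) = exteriorPower.zeroEquiv ℂ V a • symM k ψ z := by
  simp [aug]

theorem aug_map (k : ℕ) (ψ : V →ₗ[ℂ] W) (K L : Submodule ℂ V) :
    (tens (lamS 0 K) (symS k L)).map (aug k ψ) = symS k (L.map ψ) := by
  rw [← symS_map]
  apply le_antisymm
  · rw [Submodule.map_le_iff_le_comap, tens_le]
    intro a _ z hz
    rw [Submodule.mem_comap, aug_tmul]
    exact Submodule.smul_mem _ _ (Submodule.mem_map_of_mem hz)
  · rintro _ ⟨z, hz, rfl⟩
    exact ⟨(exteriorPower.zeroEquiv ℂ V).symm 1 ⊗ₜ z, tmul_mem (by simp) hz, by simp⟩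

theorem aug_nat (k : ℕ) {ψ : V' →ₗ[ℂ] W'} {ψ' : V →ₗ[ℂ] W} {f : V →ₗ[ℂ] V'} {h : W →ₗ[ℂ] W'}
    (hc : h ∘ₗ ψ' = ψ ∘ₗ f) :
    aug k ψ ∘ₗ TensorProduct.map (lamM 0 f) (symM k f) = symM k h ∘ₗ aug k ψ' := by
  apply TensorProduct.ext'
  intro a z
  have h1 := LinearMap.congr_fun (exteriorPower.zeroEquiv_naturality f) a
  have h2 := LinearMap.congr_fun ((symM_comp k ψ' h).symm.trans (hc ▸ symM_comp k f ψ)) z
  simp only [LinearMap.comp_apply, LinearEquiv.coe_coe] at h1 h2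
  simp [h1, h2]

/-! ### forms -/

/-- evaluation of a polynomial function at `v` -/
def ev (v : V) : SymmetricAlgebra ℂ (Dual ℂ V) →ₐ[ℂ] ℂ :=
  SymmetricAlgebra.lift (Dual.eval ℂ V v)

@[simp] theorem ev_ι (v : V) (ℓ : Dual ℂ V) : ev v (SymmetricAlgebra.ι ℂ _ ℓ) = ℓ v :=
  SymmetricAlgebra.lift_ι_apply _ _

theorem ev_symA (φ : V →ₗ[ℂ] W) (v : V) (z : SymmetricAlgebra ℂ (Dual ℂ W)) :
    ev v (symA φ.dualMap z) = ev (φ v) z := by
  have h : (ev v).comp (symA φ.dualMap) = ev (φ v) := by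
    apply SymmetricAlgebra.algHom_ext
    ext ℓ
    simp
  exact DFunLike.congr_fun h z

theorem ev_smul {k : ℕ} (c : ℂ) (v : V) (z : Sy k (Dual ℂ V)) :
    ev (c • v) (z : SymmetricAlgebra ℂ (Dual ℂ V)) = c ^ k * ev v z := by
  have h := symM_smul k (E := (c • LinearMap.id : V →ₗ[ℂ] V).dualMap) (L := ⊤) (f := c)
    (fun ℓ _ => by ext w; simp) (z := z) (by simp)
  have h2 := ev_symA (c • LinearMap.id : V →ₗ[ℂ] V) v z
  rw [← symM_coe k, h] at h2
  simpa using h2.symm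

theorem eq_zero_of_ev [FiniteDimensional ℂ V] {z : SymmetricAlgebra ℂ (Dual ℂ V)}
    (h : ∀ v, ev v z = 0) : z = 0 := by
  classical
  let b := Module.finBasis ℂ V
  let e := SymmetricAlgebra.equivMvPolynomial b.dualBasis
  rw [← map_eq_zero_iff e e.injective]
  apply MvPolynomial.funext
  intro x
  have h1 : (MvPolynomial.aeval x).comp e.toAlgHom = ev (b.equivFun.symm x) := by
    apply SymmetricAlgebra.algHom_ext
    apply b.dualBasis.ext
    intro i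
    have := SymmetricAlgebra.equivMvPolynomial_ι_apply b.dualBasis i
    show MvPolynomial.aeval x (SymmetricAlgebra.equivMvPolynomial b.dualBasis
      (SymmetricAlgebra.ι ℂ _ (b.dualBasis i))) = ev _ (SymmetricAlgebra.ι ℂ _ _)
    rw [this, ev_ι, MvPolynomial.aeval_X, Basis.dualBasis_apply, ← Basis.equivFun_apply,
      LinearEquiv.apply_symm_apply]
  have h2 := DFunLike.congr_fun h1 z
  rw [h] at h2
  simpa [MvPolynomial.aeval_def] using h2

theorem mem_ker_symM_dual [FiniteDimensional ℂ V] (k : ℕ) (φ : V →ₗ[ℂ] W) (z : Sy k (Dual ℂ W)) :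
    z ∈ LinearMap.ker (symM k φ.dualMap) ↔
      ∀ v, ev (φ v) (z : SymmetricAlgebra ℂ (Dual ℂ W)) = 0 := by
  rw [LinearMap.mem_ker, Subtype.ext_iff, symM_coe]
  constructor
  · intro h v
    rw [← ev_symA, h]
    simp
  · intro h
    exact eq_zero_of_ev fun v => by rw [ev_symA, h]

theorem mem_ker_symM_iff (k : ℕ) (L : Submodule ℂ V) [FiniteDimensional ℂ L]
    {ψ : Dual ℂ V →ₗ[ℂ] W} (hψ : LinearMap.ker ψ = L.dualAnnihilator) (z : Sy k (Dual ℂ V)) :
    z ∈ LinearMap.ker (symM k ψ) ↔ ∀ v ∈ L, ev v (z : SymmetricAlgebra ℂ (Dual ℂ V)) = 0 := by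
  have h : LinearMap.ker ψ = LinearMap.ker L.subtype.dualMap := by
    rw [hψ, LinearMap.ker_dualMap_eq_dualAnnihilator_range, Submodule.range_subtype]
  rw [le_antisymm (ker_symM_mono k h.le) (ker_symM_mono k h.ge), mem_ker_symM_dual]
  simp

theorem ker_symM_eq (k : ℕ) (L : Submodule ℂ V) {ψ : Dual ℂ V →ₗ[ℂ] W}
    (hψ : LinearMap.ker ψ = L.dualAnnihilator) :
    LinearMap.ker (symM k L.subtype.dualMap) = LinearMap.ker (symM k ψ) := by
  have h : LinearMap.ker ψ = LinearMap.ker L.subtype.dualMap := by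
    rw [hψ, LinearMap.ker_dualMap_eq_dualAnnihilator_range, Submodule.range_subtype]
  exact le_antisymm (ker_symM_mono k h.ge) (ker_symM_mono k h.le)

end Crest.Agent.N265.Pow
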