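import Mathlib

/-!
# Row 265, layer K: exterior / symmetric powers of subspaces (frame-free linear algebra; helper68)

`Lam k V`, `Sy k V` : the degree `k` parts of the exterior / symmetric algebra;
`lamS k L`, `symS k L` : the powers of a subspace `L ≤ V`; `lamM`, `symM` : functoriality;
`tens L L'` : `L ⊗ L'` inside `V ⊗ W`.  `KosStmt` is the relative Koszul complex
`Λ^i K ⊗ S^j L → ⋯ → S^k L → S^k (ψ L) → 0` (`K = L ⊓ ker ψ`), which gives both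
`λ_{-s} S_s = 1` and the multiplicativity of `S_s`.
-/

set_option autoImplicit false

noncomputable section

namespace Crest.Agent.N265.Pow

open TensorProduct

variable {V W U : Type} [AddCommGroup V] [Module ℂ V] [AddCommGroup W] [Module ℂ W]
  [AddCommGroup U] [Module ℂ U]

/-- `Λ^k V` -/
abbrev Lam (k : ℕ) (V : Type) [AddCommGroup V] [Module ℂ V] : Submodule ℂ (ExteriorAlgebra ℂ V) :=
  ⋀[ℂ]^k V

/-- `S^k V` -/
abbrev Sy (k : ℕ) (V : Type) [AddCommGroup V] [Module ℂ V] : Submodule ℂ (SymmetricAlgebra ℂ V) :=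
  LinearMap.range (SymmetricAlgebra.ι ℂ V) ^ k

/-- `Λ^k L ≤ Λ^k V` -/
def lamS (k : ℕ) (L : Submodule ℂ V) : Submodule ℂ (Lam k V) :=
  ((L.map (ExteriorAlgebra.ι ℂ)) ^ k).comap (Lam k V).subtype

/-- `S^k L ≤ S^k V` -/
def symS (k : ℕ) (L : Submodule ℂ V) : Submodule ℂ (Sy k V) :=
  ((L.map (SymmetricAlgebra.ι ℂ V)) ^ k).comap (Sy k V).subtype

/-- `Λ^k φ` -/
abbrev lamM (k : ℕ) (φ : V →ₗ[ℂ] W) : Lam k V →ₗ[ℂ] Lam k W := exteriorPower.map k φ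

/-- the algebra map `S φ` -/
def symA (φ : V →ₗ[ℂ] W) : SymmetricAlgebra ℂ V →ₐ[ℂ] SymmetricAlgebra ℂ W :=
  SymmetricAlgebra.lift (SymmetricAlgebra.ι ℂ W ∘ₗ φ)

@[simp] theorem symA_ι (φ : V →ₗ[ℂ] W) (v : V) :
    symA φ (SymmetricAlgebra.ι ℂ V v) = SymmetricAlgebra.ι ℂ W (φ v) :=
  SymmetricAlgebra.lift_ι_apply _ _

theorem symA_mem (φ : V →ₗ[ℂ] W) (k : ℕ) {z : SymmetricAlgebra ℂ V} (hz : z ∈ Sy k V) :
    symA φ z ∈ Sy k W := by
  have h : (Sy k V).map (symA φ).toLinearMap ≤ Sy k W := by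
    rw [Submodule.map_pow]
    refine pow_le_pow_left' ?_ k
    rintro _ ⟨_, ⟨v, rfl⟩, rfl⟩
    exact ⟨φ v, (symA_ι φ v).symm⟩
  exact h ⟨z, hz, rfl⟩

/-- `S^k φ` -/
def symM (k : ℕ) (φ : V →ₗ[ℂ] W) : Sy k V →ₗ[ℂ] Sy k W :=
  (symA φ).toLinearMap.restrict fun _ hz => symA_mem φ k hz

@[simp] theorem symM_coe (k : ℕ) (φ : V →ₗ[ℂ] W) (z : Sy k V) :
    (symM k φ z : SymmetricAlgebra ℂ W) = symA φ z := rfl

instance finite_Sy (k : ℕ) [FiniteDimensional ℂ V] : FiniteDimensional ℂ (Sy k V) := by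
  have h : (LinearMap.range (SymmetricAlgebra.ι ℂ V)).FG := by
    rw [← Submodule.map_top]
    exact (Module.Finite.fg_top (R := ℂ) (M := V)).map _
  exact Module.Finite.iff_fg.2 (h.pow k)

/-- `L ⊗ L' ≤ V ⊗ W` -/
def tens (L : Submodule ℂ V) (L' : Submodule ℂ W) : Submodule ℂ (V ⊗[ℂ] W) :=
  Submodule.map₂ (TensorProduct.mk ℂ V W) L L'

/-- the augmentation `Λ^0 V ⊗ S^k V → S^k W` -/
def aug (k : ℕ) (ψ : V →ₗ[ℂ] W) : (Lam 0 V ⊗[ℂ] Sy k V) →ₗ[ℂ] Sy k W :=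
  symM k ψ ∘ₗ (TensorProduct.lid ℂ (Sy k V)).toLinearMap ∘ₗ
    TensorProduct.map (exteriorPower.zeroEquiv ℂ V).toLinearMap LinearMap.id

/-- A natural Koszul differential with the relative exactness properties. -/
structure Kos where
  d : ∀ (V : Type) [AddCommGroup V] [Module ℂ V] [FiniteDimensional ℂ V] (i j : ℕ),
    (Lam (i + 1) V ⊗[ℂ] Sy j V) →ₗ[ℂ] (Lam i V ⊗[ℂ] Sy (j + 1) V)
  nat : ∀ (V : Type) [AddCommGroup V] [Module ℂ V] [FiniteDimensional ℂ V] (φ : V →ₗ[ℂ] V)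
    (i j : ℕ), d V i j ∘ₗ TensorProduct.map (lamM (i + 1) φ) (symM j φ) =
      TensorProduct.map (lamM i φ) (symM (j + 1) φ) ∘ₗ d V i j
  inj : ∀ (V : Type) [AddCommGroup V] [Module ℂ V] [FiniteDimensional ℂ V]
    (K L : Submodule ℂ V), K ≤ L → ∀ i : ℕ,
      tens (lamS (i + 1) K) (symS 0 L) ⊓ LinearMap.ker (d V i 0) = ⊥
  mid : ∀ (V : Type) [AddCommGroup V] [Module ℂ V] [FiniteDimensional ℂ V]
    (K L : Submodule ℂ V), K ≤ L → ∀ i j : ℕ,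
      (tens (lamS (i + 2) K) (symS j L)).map (d V (i + 1) j) =
        tens (lamS (i + 1) K) (symS (j + 1) L) ⊓ LinearMap.ker (d V i (j + 1))
  fin : ∀ (V W : Type) [AddCommGroup V] [Module ℂ V] [FiniteDimensional ℂ V]
    [AddCommGroup W] [Module ℂ W] (ψ : V →ₗ[ℂ] W) (L : Submodule ℂ V) (j : ℕ),
      (tens (lamS 1 (L ⊓ LinearMap.ker ψ)) (symS j L)).map (d V 0 j) =
        tens (lamS 0 (L ⊓ LinearMap.ker ψ)) (symS (j + 1) L) ⊓ LinearMap.ker (aug (j + 1) ψ)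

/-- task K-KOS -/
def KosStmt : Prop := Nonempty Kos

end Crest.Agent.N265.Pow
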