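import Mathlib
import Crest.Agent.N265.K.Pow

/-!
# Row 265, layer K: algebraic families of subspaces (frame-free; helper68)

`T` is a type of points, `𝒜` an algebra of functions on `T` (the regular functions).
`RegV`, `RegM` : regular families of vectors / linear maps; `Alg` : algebraic families of
subspaces = vector bundles (local projectors with one denominator); `Near x₀ p` : `p` holds on a
basic open neighbourhood of `x₀`.  `Diag S g` : `g` is diagonalisable with eigenvalues in `S`.
-/

set_option autoImplicit false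

noncomputable section

namespace Crest.Agent.N265.Alg

variable {T : Type} (𝒜 : Subalgebra ℂ (T → ℂ))
variable {V W : Type} [AddCommGroup V] [Module ℂ V] [AddCommGroup W] [Module ℂ W]

/-- a regular family of vectors -/
def RegV (s : T → V) : Prop := ∀ ℓ : Module.Dual ℂ V, (fun x => ℓ (s x)) ∈ 𝒜

/-- a regular family of linear maps -/
def RegM (φ : T → V →ₗ[ℂ] W) : Prop := ∀ v : V, RegV 𝒜 fun x => φ x v

/-- `p` holds on a basic open neighbourhood of `x₀` -/
def Near (x₀ : T) (p : T → Prop) : Prop := ∃ f ∈ 𝒜, f x₀ ≠ 0 ∧ ∀ x, f x ≠ 0 → p x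

/-- an algebraic family of subspaces (a subbundle of the trivial bundle `V`) -/
def Alg (L : T → Submodule ℂ V) : Prop :=
  ∀ x₀ : T, ∃ f ∈ 𝒜, ∃ E : T → V →ₗ[ℂ] V, RegM 𝒜 E ∧ f x₀ ≠ 0 ∧
    ∀ x, LinearMap.range (E x) ≤ L x ∧ ∀ v ∈ L x, E x v = f x • v

/-- `g` is diagonalisable with all eigenvalues in `S` -/
def Diag (S : Set ℂ) (g : V →ₗ[ℂ] V) : Prop :=
  ⨆ c ∈ S, Module.End.eigenspace g c = ⊤

end Crest.Agent.N265.Alg
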