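import Mathlib
import Crest.Agent.N265.K.AlgDefs

/-!
# Row 265, layer K: `Near`, regular families of vectors and maps (task K-ALG1, part 1; helper82)
-/

set_option autoImplicit false

noncomputable section

namespace Crest.Agent.N265.Alg

open Module

variable {T : Type} {𝒜 : Subalgebra ℂ (T → ℂ)}
variable {V W U : Type} [AddCommGroup V] [Module ℂ V] [AddCommGroup W] [Module ℂ W]
  [AddCommGroup U] [Module ℂ U]

/-! ### `Near` -/

namespace Near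
variable {x₀ : T} {p q : T → Prop}

theorem of_forall (h : ∀ x, p x) : Near 𝒜 x₀ p :=
  ⟨1, one_mem _, one_ne_zero, fun x _ => h x⟩

theorem of_ne {f : T → ℂ} (hf : f ∈ 𝒜) (h0 : f x₀ ≠ 0) : Near 𝒜 x₀ fun x => f x ≠ 0 :=
  ⟨f, hf, h0, fun _ h => h⟩

theorem mono (h : Near 𝒜 x₀ p) (hpq : ∀ x, p x → q x) : Near 𝒜 x₀ q := by
  obtain ⟨f, hf, h0, h⟩ := h
  exact ⟨f, hf, h0, fun x hx => hpq x (h x hx)⟩

theorem self (h : Near 𝒜 x₀ p) : p x₀ := by
  obtain ⟨f, -, h0, h⟩ := h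
  exact h x₀ h0

theorem and (h : Near 𝒜 x₀ p) (h' : Near 𝒜 x₀ q) : Near 𝒜 x₀ fun x => p x ∧ q x := by
  obtain ⟨f, hf, h0, h⟩ := h
  obtain ⟨g, hg, g0, h'⟩ := h'
  exact ⟨f * g, mul_mem hf hg, mul_ne_zero h0 g0, fun x hx =>
    ⟨h x (left_ne_zero_of_mul hx), h' x (right_ne_zero_of_mul hx)⟩⟩

theorem mp (h : Near 𝒜 x₀ p) (h' : Near 𝒜 x₀ fun x => p x → q x) : Near 𝒜 x₀ q :=
  (h.and h').mono fun _ hx => hx.2 hx.1

theorem near (h : Near 𝒜 x₀ p) : Near 𝒜 x₀ fun x => Near 𝒜 x p := by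
  obtain ⟨f, hf, h0, h⟩ := h
  exact ⟨f, hf, h0, fun x hx => ⟨f, hf, hx, h⟩⟩

theorem finset {ι : Type*} (s : Finset ι) {p : ι → T → Prop} (h : ∀ i ∈ s, Near 𝒜 x₀ (p i)) :
    Near 𝒜 x₀ fun x => ∀ i ∈ s, p i x := by
  classical
  induction s using Finset.induction_on with
  | empty => exact of_forall (by simp)
  | insert a s _ ih =>
    refine ((h a (Finset.mem_insert_self _ _)).and
      (ih fun i hi => h i (Finset.mem_insert_of_mem hi))).mono fun x hx i hi => ?_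
    rcases Finset.mem_insert.1 hi with rfl | hi
    exacts [hx.1, hx.2 i hi]

theorem all {ι : Type*} [Finite ι] {p : ι → T → Prop} (h : ∀ i, Near 𝒜 x₀ (p i)) :
    Near 𝒜 x₀ fun x => ∀ i, p i x := by
  have := Fintype.ofFinite ι
  exact (finset Finset.univ fun i _ => h i).mono fun x hx i => hx i (Finset.mem_univ _)

theorem precomp {T' : Type} {𝒜' : Subalgebra ℂ (T' → ℂ)} (u : T' → T)
    (hu : ∀ f ∈ 𝒜, (fun y => f (u y)) ∈ 𝒜') {y₀ : T'} (h : Near 𝒜 (u y₀) p) :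
    Near 𝒜' y₀ fun y => p (u y) := by
  obtain ⟨f, hf, h0, h⟩ := h
  exact ⟨fun y => f (u y), hu f hf, h0, fun y hy => h _ hy⟩

end Near

/-! ### regular functions -/

theorem const_mem (c : ℂ) : (fun _ : T => c) ∈ 𝒜 := 𝒜.algebraMap_mem c

theorem fmul_mem {f g : T → ℂ} (hf : f ∈ 𝒜) (hg : g ∈ 𝒜) : (fun x => f x * g x) ∈ 𝒜 :=
  mul_mem hf hg

theorem fadd_mem {f g : T → ℂ} (hf : f ∈ 𝒜) (hg : g ∈ 𝒜) : (fun x => f x + g x) ∈ 𝒜 :=
  add_mem hf hg

theorem fsub_mem {f g : T → ℂ} (hf : f ∈ 𝒜) (hg : g ∈ 𝒜) : (fun x => f x - g x) ∈ 𝒜 :=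
  sub_mem hf hg

theorem fpow_mem {f : T → ℂ} (hf : f ∈ 𝒜) (k : ℕ) : (fun x => f x ^ k) ∈ 𝒜 := pow_mem hf k

theorem fsum_mem {ι : Type*} (s : Finset ι) {f : ι → T → ℂ} (h : ∀ i ∈ s, f i ∈ 𝒜) :
    (fun x => ∑ i ∈ s, f i x) ∈ 𝒜 := by
  have := sum_mem h
  convert this using 1
  funext x; simp

theorem fprod_mem {ι : Type*} (s : Finset ι) {f : ι → T → ℂ} (h : ∀ i ∈ s, f i ∈ 𝒜) :
    (fun x => ∏ i ∈ s, f i x) ∈ 𝒜 := by
  have := prod_mem h
  convert this using 1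
  funext x; simp

theorem det_mem {ι : Type*} [Fintype ι] [DecidableEq ι] {M : T → Matrix ι ι ℂ}
    (h : ∀ i j, (fun x => M x i j) ∈ 𝒜) : (fun x => (M x).det) ∈ 𝒜 := by
  simp only [Matrix.det_apply']
  exact fsum_mem _ fun σ _ => fmul_mem (const_mem _) (fprod_mem _ fun i _ => h _ _)

theorem adjugate_mem {ι : Type*} [Fintype ι] [DecidableEq ι] {M : T → Matrix ι ι ℂ}
    (h : ∀ i j, (fun x => M x i j) ∈ 𝒜) (i j : ι) : (fun x => (M x).adjugate i j) ∈ 𝒜 := by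
  simp only [Matrix.adjugate_apply]
  refine det_mem fun a b => ?_
  by_cases hab : a = j
  · subst hab; simp only [Matrix.updateRow_self]; exact const_mem _
  · simp only [Matrix.updateRow_ne hab]; exact h a b

/-! ### regular vectors -/

theorem regV_scalar {s : T → ℂ} : RegV 𝒜 s ↔ s ∈ 𝒜 := by
  refine ⟨fun h => h LinearMap.id, fun h ℓ => ?_⟩
  have : (fun x => ℓ (s x)) = fun x => s x * ℓ 1 := by
    funext x; rw [← smul_eq_mul, ← map_smul, smul_eq_mul, mul_one]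
  rw [this]; exact fmul_mem h (const_mem _)

namespace RegV
variable {s t : T → V}

theorem const (v : V) : RegV 𝒜 fun _ => v := fun _ => const_mem _

theorem zero : RegV 𝒜 fun _ => (0 : V) := const 0

theorem add (hs : RegV 𝒜 s) (ht : RegV 𝒜 t) : RegV 𝒜 fun x => s x + t x := fun ℓ => by
  simp only [map_add]; exact fadd_mem (hs ℓ) (ht ℓ)

theorem sub (hs : RegV 𝒜 s) (ht : RegV 𝒜 t) : RegV 𝒜 fun x => s x - t x := fun ℓ => by
  simp only [map_sub]; exact fsub_mem (hs ℓ) (ht ℓ)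

theorem smul {f : T → ℂ} (hf : f ∈ 𝒜) (hs : RegV 𝒜 s) : RegV 𝒜 fun x => f x • s x := fun ℓ => by
  simp only [map_smul, smul_eq_mul]; exact fmul_mem hf (hs ℓ)

theorem csmul (c : ℂ) (hs : RegV 𝒜 s) : RegV 𝒜 fun x => c • s x := hs.smul (const_mem c)

theorem neg (hs : RegV 𝒜 s) : RegV 𝒜 fun x => -s x := by
  simpa using hs.csmul (-1)

theorem sum {ι : Type*} (A : Finset ι) {s : ι → T → V} (h : ∀ i ∈ A, RegV 𝒜 (s i)) :
    RegV 𝒜 fun x => ∑ i ∈ A, s i x := fun ℓ => by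
  simp only [map_sum]; exact fsum_mem _ fun i hi => h i hi ℓ

theorem map (φ : V →ₗ[ℂ] W) (hs : RegV 𝒜 s) : RegV 𝒜 fun x => φ (s x) := fun ℓ => hs (ℓ ∘ₗ φ)

theorem prod {t : T → W} (hs : RegV 𝒜 s) (ht : RegV 𝒜 t) : RegV 𝒜 fun x => (s x, t x) := by
  have := (hs.map (LinearMap.inl ℂ V W)).add (ht.map (LinearMap.inr ℂ V W))
  simpa using this

theorem coord {ι : Type*} (b : Basis ι ℂ V) (hs : RegV 𝒜 s) (i : ι) :
    (fun x => b.repr (s x) i) ∈ 𝒜 := hs (b.coord i)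

theorem of_coord {ι : Type*} [Finite ι] (b : Basis ι ℂ V) (h : ∀ i, (fun x => b.repr (s x) i) ∈ 𝒜) :
    RegV 𝒜 s := by
  have := Fintype.ofFinite ι
  have e : s = fun x => ∑ i, b.repr (s x) i • b i := funext fun x => (b.sum_repr _).symm
  rw [e]; exact sum _ fun i _ => (const _).smul (h i)

/-- regularity can be tested after an injective linear map -/
theorem of_injective (φ : V →ₗ[ℂ] W) (hφ : Function.Injective φ) (h : RegV 𝒜 fun x => φ (s x)) :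
    RegV 𝒜 s := by
  obtain ⟨ψ, hψ⟩ := φ.exists_leftInverse_of_injective (LinearMap.ker_eq_bot.2 hφ)
  have e : s = fun x => ψ (φ (s x)) := funext fun x => (LinearMap.congr_fun hψ (s x)).symm
  rw [e]; exact h.map ψ

theorem subtype {N : Submodule ℂ V} (hs : RegV 𝒜 s) (h : ∀ x, s x ∈ N) :
    RegV 𝒜 fun x => (⟨s x, h x⟩ : N) := of_injective N.subtype N.injective_subtype hs

theorem bilin [FiniteDimensional ℂ V] (B : V →ₗ[ℂ] W →ₗ[ℂ] U) {t : T → W} (hs : RegV 𝒜 s)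
    (ht : RegV 𝒜 t) : RegV 𝒜 fun x => B (s x) (t x) := by
  let b := finBasis ℂ V
  have e : (fun x => B (s x) (t x)) = fun x => ∑ i, b.repr (s x) i • B (b i) (t x) := by
    funext x
    conv_lhs => rw [← b.sum_repr (s x)]
    simp only [map_sum, map_smul, LinearMap.sum_apply, LinearMap.smul_apply]
  rw [e]; exact sum _ fun i _ => (ht.map _).smul (hs.coord b i)

theorem multilinear {ι : Type*} [Finite ι] {M : ι → Type} [∀ i, AddCommGroup (M i)]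
    [∀ i, Module ℂ (M i)] [∀ i, FiniteDimensional ℂ (M i)] (m : MultilinearMap ℂ M W)
    {s : ∀ i, T → M i} (hs : ∀ i, RegV 𝒜 (s i)) : RegV 𝒜 fun x => m fun i => s i x := by
  classical
  have := Fintype.ofFinite ι
  let b := fun i => finBasis ℂ (M i)
  have e : (fun x => m fun i => s i x) = fun x => ∑ r : ∀ i, Fin (finrank ℂ (M i)),
      (∏ i, (b i).repr (s i x) (r i)) • m fun i => b i (r i) := by
    funext x
    have : (fun i => s i x) = fun i => ∑ j, (b i).repr (s i x) j • b i j :=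
      funext fun i => ((b i).sum_repr _).symm
    rw [this, m.map_sum]
    exact Finset.sum_congr rfl fun r _ => by rw [m.map_smul_univ]
  rw [e]
  exact sum _ fun r _ => (const _).smul (fprod_mem _ fun i _ => (hs i).coord (b i) _)

theorem precomp {T' : Type} {𝒜' : Subalgebra ℂ (T' → ℂ)} (u : T' → T)
    (hu : ∀ f ∈ 𝒜, (fun y => f (u y)) ∈ 𝒜') (hs : RegV 𝒜 s) : RegV 𝒜' fun y => s (u y) :=
  fun ℓ => hu _ (hs ℓ)

/-- non-vanishing is an open condition -/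
theorem near_ne (hs : RegV 𝒜 s) {x₀ : T} (h : s x₀ ≠ 0) : Near 𝒜 x₀ fun x => s x ≠ 0 := by
  obtain ⟨ℓ, hℓ⟩ := Module.Projective.exists_dual_ne_zero ℂ h
  exact ⟨_, hs ℓ, hℓ, fun x hx h0 => hx (by simp [h0])⟩

end RegV

theorem regV_iff_basis {ι : Type*} [Finite ι] (b : Basis ι ℂ V) {s : T → V} :
    RegV 𝒜 s ↔ ∀ i, (fun x => b.repr (s x) i) ∈ 𝒜 := ⟨fun h => h.coord b, RegV.of_coord b⟩

theorem regV_pi {ι : Type} [Finite ι] {s : T → ι → ℂ} :
    RegV 𝒜 s ↔ ∀ i, (fun x => s x i) ∈ 𝒜 := by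
  simpa using regV_iff_basis (𝒜 := 𝒜) (Pi.basisFun ℂ ι) (s := s)

/-! ### regular maps -/

namespace RegM
variable {φ ψ : T → V →ₗ[ℂ] W}

theorem const (φ : V →ₗ[ℂ] W) : RegM 𝒜 fun _ => φ := fun _ => RegV.const _

theorem id : RegM 𝒜 fun _ => (LinearMap.id : V →ₗ[ℂ] V) := const _

theorem add (hφ : RegM 𝒜 φ) (hψ : RegM 𝒜 ψ) : RegM 𝒜 fun x => φ x + ψ x :=
  fun v => (hφ v).add (hψ v)

theorem sub (hφ : RegM 𝒜 φ) (hψ : RegM 𝒜 ψ) : RegM 𝒜 fun x => φ x - ψ x :=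
  fun v => (hφ v).sub (hψ v)

theorem neg (hφ : RegM 𝒜 φ) : RegM 𝒜 fun x => -φ x := fun v => (hφ v).neg

theorem smul {f : T → ℂ} (hf : f ∈ 𝒜) (hφ : RegM 𝒜 φ) : RegM 𝒜 fun x => f x • φ x :=
  fun v => (hφ v).smul hf

theorem smul_id {f : T → ℂ} (hf : f ∈ 𝒜) :
    RegM 𝒜 fun x => f x • (LinearMap.id : V →ₗ[ℂ] V) := id.smul hf

theorem sum {ι : Type*} (A : Finset ι) {φ : ι → T → V →ₗ[ℂ] W} (h : ∀ i ∈ A, RegM 𝒜 (φ i)) :
    RegM 𝒜 fun x => ∑ i ∈ A, φ i x := fun v => by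
  simp only [LinearMap.sum_apply]; exact RegV.sum _ fun i hi => h i hi v

theorem of_basis {ι : Type*} [Finite ι] (b : Basis ι ℂ V) (h : ∀ i, RegV 𝒜 fun x => φ x (b i)) :
    RegM 𝒜 φ := fun v => by
  have := Fintype.ofFinite ι
  have e : (fun x => φ x v) = fun x => ∑ i, b.repr v i • φ x (b i) := by
    funext x
    conv_lhs => rw [← b.sum_repr v]
    simp only [map_sum, map_smul]
  rw [e]; exact RegV.sum _ fun i _ => (h i).csmul _

/-- regularity can be tested on a spanning set -/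
theorem of_span {S : Set V} (hS : Submodule.span ℂ S = ⊤) (h : ∀ v ∈ S, RegV 𝒜 fun x => φ x v) :
    RegM 𝒜 φ := fun v => by
  have hv : v ∈ Submodule.span ℂ S := hS ▸ Submodule.mem_top
  induction hv using Submodule.span_induction with
  | mem v hv => exact h v hv
  | zero => simpa using RegV.zero
  | add v w _ _ hv hw => simpa using hv.add hw
  | smul c v _ hv => simpa using hv.csmul c

theorem of_regV (h : RegV 𝒜 φ) : RegM 𝒜 φ := fun v => h.map (LinearMap.applyₗ v)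

theorem regV [FiniteDimensional ℂ V] (h : RegM 𝒜 φ) : RegV 𝒜 φ := by
  let b := finBasis ℂ V
  have e : φ = fun x => ∑ i, LinearMap.smulRightₗ (b.coord i) (φ x (b i)) := by
    funext x
    refine b.ext fun j => ?_
    simp [LinearMap.sum_apply, Finsupp.single_apply]
  rw [e]; exact RegV.sum _ fun i _ => (h (b i)).map _

theorem apply [FiniteDimensional ℂ V] (hφ : RegM 𝒜 φ) {s : T → V} (hs : RegV 𝒜 s) :
    RegV 𝒜 fun x => φ x (s x) :=
  RegV.bilin (LinearMap.applyₗ (R := ℂ) (M := V) (M₂ := W)) hs hφ.regV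

theorem comp [FiniteDimensional ℂ W] {χ : T → W →ₗ[ℂ] U} (hχ : RegM 𝒜 χ) (hφ : RegM 𝒜 φ) :
    RegM 𝒜 fun x => χ x ∘ₗ φ x := fun v => hχ.apply (hφ v)

theorem comp_const (hφ : RegM 𝒜 φ) (a : U →ₗ[ℂ] V) : RegM 𝒜 fun x => φ x ∘ₗ a :=
  fun u => hφ (a u)

theorem const_comp (a : W →ₗ[ℂ] U) (hφ : RegM 𝒜 φ) : RegM 𝒜 fun x => a ∘ₗ φ x :=
  fun v => (hφ v).map a

theorem prod {χ : T → V →ₗ[ℂ] U} (hφ : RegM 𝒜 φ) (hχ : RegM 𝒜 χ) :
    RegM 𝒜 fun x => (φ x).prod (χ x) := fun v => (hφ v).prod (hχ v)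

theorem coprod {χ : T → U →ₗ[ℂ] W} (hφ : RegM 𝒜 φ) (hχ : RegM 𝒜 χ) :
    RegM 𝒜 fun x => (φ x).coprod (χ x) := fun v => (hφ v.1).add (hχ v.2)

theorem prodMap {V' W' : Type} [AddCommGroup V'] [Module ℂ V'] [AddCommGroup W'] [Module ℂ W']
    {χ : T → V' →ₗ[ℂ] W'} (hφ : RegM 𝒜 φ) (hχ : RegM 𝒜 χ) :
    RegM 𝒜 fun x => (φ x).prodMap (χ x) := fun v => (hφ v.1).prod (hχ v.2)

theorem dualMap [FiniteDimensional ℂ V] (hφ : RegM 𝒜 φ) : RegM 𝒜 fun x => (φ x).dualMap :=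
  fun ℓ => regV (const_comp ℓ hφ)

theorem smulRight {ℓ : T → Dual ℂ V} {s : T → W} (hℓ : RegV 𝒜 ℓ) (hs : RegV 𝒜 s) :
    RegM 𝒜 fun x => LinearMap.smulRight (ℓ x) (s x) :=
  fun v => hs.smul (regV_scalar.1 (of_regV hℓ v))

theorem codRestrict {N : Submodule ℂ W} (hφ : RegM 𝒜 φ) (h : ∀ x v, φ x v ∈ N) :
    RegM 𝒜 fun x => (φ x).codRestrict N (h x) := fun v => (hφ v).subtype fun x => h x v

theorem linearCombination {ι : Type} [Fintype ι] {s : ι → T → V} (hs : ∀ i, RegV 𝒜 (s i)) :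
    RegM 𝒜 fun x => Fintype.linearCombination ℂ fun i => s i x := fun c => by
  simp only [Fintype.linearCombination_apply]
  exact RegV.sum _ fun i _ => (hs i).csmul _

theorem toMatrix {ι κ : Type*} [Fintype ι] [DecidableEq ι] [Finite κ] (b : Basis ι ℂ V)
    (c : Basis κ ℂ W) (hφ : RegM 𝒜 φ) (j : κ) (i : ι) :
    (fun x => LinearMap.toMatrix b c (φ x) j i) ∈ 𝒜 := by
  simp only [LinearMap.toMatrix_apply]; exact (hφ (b i)).coord c j

theorem of_toMatrix {ι κ : Type*} [Fintype ι] [DecidableEq ι] [Finite κ] (b : Basis ι ℂ V)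
    (c : Basis κ ℂ W) (h : ∀ j i, (fun x => LinearMap.toMatrix b c (φ x) j i) ∈ 𝒜) :
    RegM 𝒜 φ :=
  of_basis b fun i => RegV.of_coord c fun j => by simpa only [LinearMap.toMatrix_apply] using h j i

theorem toLin {ι κ : Type*} [Fintype ι] [DecidableEq ι] [Finite κ] (b : Basis ι ℂ V)
    (c : Basis κ ℂ W) {M : T → Matrix κ ι ℂ} (h : ∀ j i, (fun x => M x j i) ∈ 𝒜) :
    RegM 𝒜 fun x => Matrix.toLin b c (M x) :=
  of_toMatrix b c fun j i => by simpa only [LinearMap.toMatrix_toLin] using h j i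

theorem mulVecLin {ι κ : Type} [Fintype ι] [Finite κ] {M : T → Matrix κ ι ℂ}
    (h : ∀ j i, (fun x => M x j i) ∈ 𝒜) : RegM 𝒜 fun x => (M x).mulVecLin := fun v =>
  regV_pi.2 fun j => by
    simp only [Matrix.mulVecLin_apply, Matrix.mulVec, dotProduct]
    exact fsum_mem _ fun i _ => fmul_mem (h j i) (const_mem _)

theorem det [FiniteDimensional ℂ V] {φ : T → V →ₗ[ℂ] V} (hφ : RegM 𝒜 φ) :
    (fun x => LinearMap.det (φ x)) ∈ 𝒜 := by
  let b := finBasis ℂ V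
  simp only [← LinearMap.det_toMatrix b]
  exact det_mem (hφ.toMatrix b b)

theorem trace [FiniteDimensional ℂ V] {φ : T → V →ₗ[ℂ] V} (hφ : RegM 𝒜 φ) :
    (fun x => LinearMap.trace ℂ V (φ x)) ∈ 𝒜 := hφ.regV (LinearMap.trace ℂ V)

/-- minors of a regular family are regular functions -/
theorem minor {ι κ ν : Type*} [Fintype ι] [DecidableEq ι] [Finite κ] [Fintype ν] [DecidableEq ν]
    (b : Basis ι ℂ V) (c : Basis κ ℂ W) (hφ : RegM 𝒜 φ) (r : ν → κ) (e : ν → ι) :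
    (fun x => ((LinearMap.toMatrix b c (φ x)).submatrix r e).det) ∈ 𝒜 :=
  det_mem fun _ _ => hφ.toMatrix b c _ _

theorem precomp {T' : Type} {𝒜' : Subalgebra ℂ (T' → ℂ)} (u : T' → T)
    (hu : ∀ f ∈ 𝒜, (fun y => f (u y)) ∈ 𝒜') (hφ : RegM 𝒜 φ) : RegM 𝒜' fun y => φ (u y) :=
  fun v => (hφ v).precomp u hu

/-- the adjugate of a regular family of endomorphisms -/
theorem exists_adj [FiniteDimensional ℂ V] {φ : T → V →ₗ[ℂ] V} (hφ : RegM 𝒜 φ) :
    ∃ ψ : T → V →ₗ[ℂ] V, RegM 𝒜 ψ ∧ (∀ x v, ψ x (φ x v) = LinearMap.det (φ x) • v) ∧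
      ∀ x v, φ x (ψ x v) = LinearMap.det (φ x) • v := by
  let b := finBasis ℂ V
  refine ⟨fun x => Matrix.toLin b b (LinearMap.toMatrix b b (φ x)).adjugate,
    toLin b b (adjugate_mem (hφ.toMatrix b b)), fun x v => ?_, fun x v => ?_⟩
  · have := congrArg (fun M => Matrix.toLin b b M v)
      (Matrix.adjugate_mul (LinearMap.toMatrix b b (φ x)))
    simpa [Matrix.toLin_mul b b b] using this
  · have := congrArg (fun M => Matrix.toLin b b M v)
      (Matrix.mul_adjugate (LinearMap.toMatrix b b (φ x)))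
    simpa [Matrix.toLin_mul b b b] using this

/-- a family injective at `x₀` has a regular left quasi-inverse -/
theorem exists_left [FiniteDimensional ℂ V] (hφ : RegM 𝒜 φ) {x₀ : T}
    (h : Function.Injective (φ x₀)) : ∃ f ∈ 𝒜, f x₀ ≠ 0 ∧ ∃ σ : T → W →ₗ[ℂ] V, RegM 𝒜 σ ∧
      ∀ x v, σ x (φ x v) = f x • v := by
  obtain ⟨π, hπ⟩ := (φ x₀).exists_leftInverse_of_injective (LinearMap.ker_eq_bot.2 h)
  have hA := const_comp π hφ
  obtain ⟨ψ, hψ, h1, -⟩ := hA.exists_adj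
  exact ⟨_, hA.det, by simp [hπ], fun x => ψ x ∘ₗ π, hψ.comp_const π, fun x v => h1 x v⟩

/-- a family surjective at `x₀` has a regular right quasi-inverse -/
theorem exists_right [FiniteDimensional ℂ W] (hφ : RegM 𝒜 φ) {x₀ : T}
    (h : Function.Surjective (φ x₀)) : ∃ f ∈ 𝒜, f x₀ ≠ 0 ∧ ∃ σ : T → W →ₗ[ℂ] V, RegM 𝒜 σ ∧
      ∀ x w, φ x (σ x w) = f x • w := by
  obtain ⟨π, hπ⟩ := (φ x₀).exists_rightInverse_of_surjective (LinearMap.range_eq_top.2 h)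
  have hA := hφ.comp_const π
  obtain ⟨ψ, hψ, -, h1⟩ := hA.exists_adj
  exact ⟨_, hA.det, by simp [hπ], fun x => π ∘ₗ ψ x, const_comp π hψ, fun x v => h1 x v⟩

theorem near_injective [FiniteDimensional ℂ V] (hφ : RegM 𝒜 φ) {x₀ : T}
    (h : Function.Injective (φ x₀)) : Near 𝒜 x₀ fun x => Function.Injective (φ x) := by
  obtain ⟨f, hf, h0, σ, -, hσ⟩ := hφ.exists_left h
  refine ⟨f, hf, h0, fun x hx v w hvw => ?_⟩
  have := hσ x v
  rw [hvw, hσ x w] at this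
  exact (smul_right_injective V hx this).symm

theorem near_surjective [FiniteDimensional ℂ W] (hφ : RegM 𝒜 φ) {x₀ : T}
    (h : Function.Surjective (φ x₀)) : Near 𝒜 x₀ fun x => Function.Surjective (φ x) := by
  obtain ⟨f, hf, h0, σ, -, hσ⟩ := hφ.exists_right h
  refine ⟨f, hf, h0, fun x hx w => ⟨(f x)⁻¹ • σ x w, ?_⟩⟩
  rw [map_smul, hσ, smul_smul, inv_mul_cancel₀ hx, one_smul]

end RegM

theorem regM_iff_regV [FiniteDimensional ℂ V] {φ : T → V →ₗ[ℂ] W} : RegM 𝒜 φ ↔ RegV 𝒜 φ :=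
  ⟨RegM.regV, RegM.of_regV⟩

theorem regM_iff_toMatrix {ι κ : Type*} [Fintype ι] [DecidableEq ι] [Finite κ] (b : Basis ι ℂ V)
    (c : Basis κ ℂ W) {φ : T → V →ₗ[ℂ] W} :
    RegM 𝒜 φ ↔ ∀ j i, (fun x => LinearMap.toMatrix b c (φ x) j i) ∈ 𝒜 :=
  ⟨fun h => h.toMatrix b c, RegM.of_toMatrix b c⟩

/-- linear independence is an open condition -/
theorem near_linearIndependent {ι : Type} [Finite ι] {s : ι → T → V} (hs : ∀ i, RegV 𝒜 (s i))
    {x₀ : T} (h : LinearIndependent ℂ fun i => s i x₀) :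
    Near 𝒜 x₀ fun x => LinearIndependent ℂ fun i => s i x := by
  have := Fintype.ofFinite ι
  simp only [linearIndependent_iff_injective_fintypeLinearCombination] at *
  exact (RegM.linearCombination hs).near_injective h

end Crest.Agent.N265.Alg
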