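import Mathlib
import Crest.Agent.N265.K.Reg

/-!
# Row 265, layer K: bundle toolkit I (task K-ALG1, part 2: local theory; helper82)

Constant rank, image, kernel, annihilator, local frames, local liftings.
`AlgAt 𝒜 L x₀` is the local condition, `Alg 𝒜 L ↔ ∀ x₀, AlgAt 𝒜 L x₀` by definition.
-/

set_option autoImplicit false
set_option linter.dupNamespace false

noncomputable section

namespace Crest.Agent.N265.Alg

open Module

variable {T : Type} {𝒜 : Subalgebra ℂ (T → ℂ)}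
variable {V W U : Type} [AddCommGroup V] [Module ℂ V] [AddCommGroup W] [Module ℂ W]
  [AddCommGroup U] [Module ℂ U]

/-- the local condition in `Alg` -/
def AlgAt (𝒜 : Subalgebra ℂ (T → ℂ)) (L : T → Submodule ℂ V) (x₀ : T) : Prop :=
  ∃ f ∈ 𝒜, ∃ E : T → V →ₗ[ℂ] V, RegM 𝒜 E ∧ f x₀ ≠ 0 ∧
    ∀ x, LinearMap.range (E x) ≤ L x ∧ ∀ v ∈ L x, E x v = f x • v

theorem alg_iff {L : T → Submodule ℂ V} : Alg 𝒜 L ↔ ∀ x₀, AlgAt 𝒜 L x₀ := Iff.rfl

/-! ### ranks of regular maps -/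

namespace RegM
variable {φ : T → V →ₗ[ℂ] W}

/-- the rank is lower semicontinuous -/
theorem rank_lsc [FiniteDimensional ℂ V] (hφ : RegM 𝒜 φ) (x₀ : T) :
    Near 𝒜 x₀ fun x => finrank ℂ (LinearMap.range (φ x₀)) ≤ finrank ℂ (LinearMap.range (φ x)) := by
  obtain ⟨N, hN⟩ := (LinearMap.ker (φ x₀)).exists_isCompl
  have hS := hφ.comp_const N.subtype
  have h0 : Function.Injective (φ x₀ ∘ₗ N.subtype) := by
    rw [← LinearMap.ker_eq_bot, LinearMap.ker_comp, ← Submodule.disjoint_iff_comap_eq_bot]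
    exact hN.disjoint.symm
  refine (hS.near_injective h0).mono fun x hx => ?_
  have e1 := (φ x₀).finrank_range_add_finrank_ker
  have e2 := Submodule.finrank_add_eq_of_isCompl hN
  have e3 := LinearMap.finrank_range_of_inj hx
  have e4 := Submodule.finrank_mono (LinearMap.range_comp_le_range N.subtype (φ x))
  omega

/-- Cramer: where the rank does not jump there is a regular quasi-inverse -/
theorem quasi_inv [FiniteDimensional ℂ V] (hφ : RegM 𝒜 φ) {x₀ : T}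
    (h : Near 𝒜 x₀ fun x =>
      finrank ℂ (LinearMap.range (φ x)) ≤ finrank ℂ (LinearMap.range (φ x₀))) :
    ∃ f ∈ 𝒜, f x₀ ≠ 0 ∧ ∃ σ : T → W →ₗ[ℂ] V, RegM 𝒜 σ ∧
      ∀ x v, φ x (σ x (φ x v)) = f x • φ x v := by
  obtain ⟨N, hN⟩ := (LinearMap.ker (φ x₀)).exists_isCompl
  have hS := hφ.comp_const N.subtype
  have h0 : Function.Injective (φ x₀ ∘ₗ N.subtype) := by
    rw [← LinearMap.ker_eq_bot, LinearMap.ker_comp, ← Submodule.disjoint_iff_comap_eq_bot]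
    exact hN.disjoint.symm
  obtain ⟨f, hf, f0, τ, hτ, hfτ⟩ := hS.exists_left h0
  obtain ⟨g, hg, g0, hgx⟩ := (hS.near_injective h0).and h
  refine ⟨fun x => g x * f x, fmul_mem hg hf, mul_ne_zero g0 f0,
    fun x => g x • (N.subtype ∘ₗ τ x), (const_comp _ hτ).smul hg, fun x v => ?_⟩
  by_cases hx : g x = 0
  · simp [hx]
  obtain ⟨hi, hr⟩ := hgx x hx
  have e1 := (φ x₀).finrank_range_add_finrank_ker
  have e2 := Submodule.finrank_add_eq_of_isCompl hN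
  have e3 := LinearMap.finrank_range_of_inj hi
  have e : LinearMap.range (φ x ∘ₗ N.subtype) = LinearMap.range (φ x) :=
    Submodule.eq_of_le_of_finrank_le (LinearMap.range_comp_le_range _ _) (by omega)
  obtain ⟨u, hu⟩ : φ x v ∈ LinearMap.range (φ x ∘ₗ N.subtype) := e ▸ ⟨v, rfl⟩
  rw [← hu, LinearMap.smul_apply, LinearMap.comp_apply, hfτ, map_smul, map_smul, map_smul,
    smul_smul]
  rfl

end RegM

/-! ### the local theory -/

namespace AlgAt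
variable {L L' : T → Submodule ℂ V} {M : T → Submodule ℂ W} {x₀ : T} {φ : T → V →ₗ[ℂ] W}

/-- it is enough to have the projector near `x₀` -/
theorem of_near {f : T → ℂ} (hf : f ∈ 𝒜) {E : T → V →ₗ[ℂ] V} (hE : RegM 𝒜 E) (h0 : f x₀ ≠ 0)
    (h : Near 𝒜 x₀ fun x => (∀ v, E x v ∈ L x) ∧ ∀ v ∈ L x, E x v = f x • v) :
    AlgAt 𝒜 L x₀ := by
  obtain ⟨g, hg, g0, h⟩ := h
  refine ⟨fun x => g x * f x, fmul_mem hg hf, fun x => g x • E x, hE.smul hg, mul_ne_zero g0 h0,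
    fun x => ?_⟩
  by_cases hx : g x = 0
  · simp [hx]
  refine ⟨?_, fun v hv => by rw [LinearMap.smul_apply, (h x hx).2 v hv, smul_smul]⟩
  rintro _ ⟨v, rfl⟩
  exact (L x).smul_mem _ ((h x hx).1 v)

/-- a convenient form of the definition -/
theorem out (h : AlgAt 𝒜 L x₀) : ∃ f ∈ 𝒜, f x₀ ≠ 0 ∧ ∃ E : T → V →ₗ[ℂ] V, RegM 𝒜 E ∧
    (∀ x v, E x v ∈ L x) ∧ (∀ x, ∀ v ∈ L x, E x v = f x • v) ∧
    (∀ x, f x ≠ 0 → LinearMap.range (E x) = L x) ∧
    ∀ x, f x ≠ 0 → LinearMap.ker (f x • LinearMap.id - E x) = L x := by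
  obtain ⟨f, hf, E, hE, h0, h⟩ := h
  refine ⟨f, hf, h0, E, hE, fun x v => (h x).1 ⟨v, rfl⟩, fun x => (h x).2, fun x hx => ?_,
    fun x hx => ?_⟩
  · refine le_antisymm (h x).1 fun v hv => ⟨(f x)⁻¹ • v, ?_⟩
    rw [map_smul, (h x).2 v hv, smul_smul, inv_mul_cancel₀ hx, one_smul]
  · ext v
    simp only [LinearMap.mem_ker, LinearMap.sub_apply, LinearMap.smul_apply, LinearMap.id_apply,
      sub_eq_zero]
    refine ⟨fun hv => ?_, fun hv => ((h x).2 v hv).symm⟩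
    rw [← (L x).smul_mem_iff hx, hv]
    exact (h x).1 ⟨v, rfl⟩

theorem congr (h : AlgAt 𝒜 L x₀) (h' : Near 𝒜 x₀ fun x => L x = L' x) : AlgAt 𝒜 L' x₀ := by
  obtain ⟨f, hf, h0, E, hE, h1, h2, -⟩ := h.out
  exact of_near hf hE h0 (h'.mono fun x hx => hx ▸ ⟨h1 x, h2 x⟩)

theorem near (h : AlgAt 𝒜 L x₀) : Near 𝒜 x₀ fun x => AlgAt 𝒜 L x := by
  obtain ⟨f, hf, E, hE, h0, h⟩ := h
  exact ⟨f, hf, h0, fun x hx => ⟨f, hf, E, hE, hx, h⟩⟩

theorem const (N : Submodule ℂ V) : AlgAt 𝒜 (fun _ => N) x₀ := by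
  obtain ⟨N', hN⟩ := N.exists_isCompl
  refine of_near (const_mem 1) (RegM.const (N.subtype ∘ₗ N.projectionOnto N' hN)) one_ne_zero
    (Near.of_forall fun _ => ⟨fun v => (N.projectionOnto N' hN v).2, fun v hv => ?_⟩)
  have := Submodule.projectionOnto_apply_left hN ⟨v, hv⟩
  simpa using congrArg Subtype.val this

/-- every vector of the fibre extends to a regular section -/
theorem exists_section (h : AlgAt 𝒜 L x₀) {v : V} (hv : v ∈ L x₀) :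
    ∃ s : T → V, RegV 𝒜 s ∧ (∀ x, s x ∈ L x) ∧ s x₀ = v := by
  obtain ⟨f, -, h0, E, hE, h1, h2, -⟩ := h.out
  refine ⟨fun x => E x ((f x₀)⁻¹ • v), hE _, fun x => h1 x _, ?_⟩
  simp only [map_smul, h2 x₀ v hv, smul_smul, inv_mul_cancel₀ h0, one_smul]

/-- `s x ∈ L x` is a closed condition -/
theorem near_not_mem [FiniteDimensional ℂ V] (h : AlgAt 𝒜 L x₀) {s : T → V} (hs : RegV 𝒜 s)
    (h0 : s x₀ ∉ L x₀) : Near 𝒜 x₀ fun x => s x ∉ L x := by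
  obtain ⟨f, hf, f0, E, hE, -, -, -, h4⟩ := h.out
  have hr := ((RegM.smul_id hf).sub hE).apply hs
  rw [← h4 x₀ f0] at h0
  exact ((Near.of_ne hf f0).and (hr.near_ne h0)).mono fun x hx => h4 x hx.1 ▸ hx.2

theorem near_map_eq_range (h : AlgAt 𝒜 L x₀) : ∃ E : T → V →ₗ[ℂ] V, RegM 𝒜 E ∧
    Near 𝒜 x₀ fun x => ∀ φ : V →ₗ[ℂ] W, LinearMap.range (φ ∘ₗ E x) = (L x).map φ := by
  obtain ⟨f, hf, f0, E, hE, -, -, h3, -⟩ := h.out
  exact ⟨E, hE, f, hf, f0, fun x hx φ => by rw [LinearMap.range_comp, h3 x hx]⟩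

variable [FiniteDimensional ℂ V]

theorem rank_lsc (hφ : RegM 𝒜 φ) (h : AlgAt 𝒜 L x₀) :
    Near 𝒜 x₀ fun x => finrank ℂ ((L x₀).map (φ x₀)) ≤ finrank ℂ ((L x).map (φ x)) := by
  obtain ⟨E, hE, h⟩ := h.near_map_eq_range (W := W)
  refine (h.and ((hφ.comp hE).rank_lsc x₀)).mono fun x hx => ?_
  rw [← h.self, ← hx.1]; exact hx.2

theorem near_finrank (h : AlgAt 𝒜 L x₀) :
    Near 𝒜 x₀ fun x => finrank ℂ (L x) = finrank ℂ (L x₀) := by
  obtain ⟨f, hf, f0, E, hE, -, -, h3, h4⟩ := h.out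
  refine ((Near.of_ne hf f0).and ((hE.rank_lsc x₀).and
    (((RegM.smul_id hf).sub hE).rank_lsc x₀))).mono fun x hx => ?_
  obtain ⟨hx, h1, h2⟩ := hx
  have e1 := (f x₀ • LinearMap.id - E x₀).finrank_range_add_finrank_ker
  have e2 := (f x • LinearMap.id - E x).finrank_range_add_finrank_ker
  rw [h3 x hx, h3 x₀ f0] at h1
  rw [h4 x₀ f0] at e1
  rw [h4 x hx] at e2
  omega

end AlgAt

theorem finrank_map_add_inf_ker [FiniteDimensional ℂ V] (L : Submodule ℂ V) (φ : V →ₗ[ℂ] W) :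
    finrank ℂ (L.map φ) + finrank ℂ (L ⊓ LinearMap.ker φ : Submodule ℂ V) = finrank ℂ L := by
  have h := (φ ∘ₗ L.subtype).finrank_range_add_finrank_ker
  rw [LinearMap.range_comp, Submodule.range_subtype, LinearMap.ker_comp] at h
  rw [← h, ← Submodule.finrank_map_subtype_eq L (Submodule.comap _ _), Submodule.map_comap_subtype]

namespace AlgAt
variable {L L' : T → Submodule ℂ V} {M : T → Submodule ℂ W} {x₀ : T} {φ : T → V →ₗ[ℂ] W}
variable [FiniteDimensional ℂ V]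

/-- the kernel dimension is upper semicontinuous -/
theorem ker_usc (hφ : RegM 𝒜 φ) (h : AlgAt 𝒜 L x₀) :
    Near 𝒜 x₀ fun x => finrank ℂ (L x ⊓ LinearMap.ker (φ x) : Submodule ℂ V) ≤
      finrank ℂ (L x₀ ⊓ LinearMap.ker (φ x₀) : Submodule ℂ V) := by
  refine ((h.rank_lsc hφ).and h.near_finrank).mono fun x hx => ?_
  have e1 := finrank_map_add_inf_ker (L x) (φ x)
  have e2 := finrank_map_add_inf_ker (L x₀) (φ x₀)
  omega

/-- from the kernel form of the rank hypothesis to the image form -/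
theorem near_rank_of_ker (h : AlgAt 𝒜 L x₀)
    (hr : Near 𝒜 x₀ fun x => finrank ℂ (L x₀ ⊓ LinearMap.ker (φ x₀) : Submodule ℂ V) ≤
      finrank ℂ (L x ⊓ LinearMap.ker (φ x) : Submodule ℂ V)) :
    Near 𝒜 x₀ fun x => finrank ℂ ((L x).map (φ x)) ≤ finrank ℂ ((L x₀).map (φ x₀)) := by
  refine (hr.and h.near_finrank).mono fun x hx => ?_
  have e1 := finrank_map_add_inf_ker (L x) (φ x)
  have e2 := finrank_map_add_inf_ker (L x₀) (φ x₀)
  omega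

/-- The main lemma: local lifting, together with the projector of `L`. -/
theorem lift (h : AlgAt 𝒜 L x₀) (hφ : RegM 𝒜 φ)
    (hr : Near 𝒜 x₀ fun x => finrank ℂ ((L x).map (φ x)) ≤ finrank ℂ ((L x₀).map (φ x₀))) :
    ∃ f ∈ 𝒜, f x₀ ≠ 0 ∧ ∃ σ : T → W →ₗ[ℂ] V, RegM 𝒜 σ ∧ (∀ x w, σ x w ∈ L x) ∧
      ∀ x, ∀ w ∈ (L x).map (φ x), φ x (σ x w) = f x • w := by
  obtain ⟨f, hf, f0, E, hE, h1, h2, h3, -⟩ := h.out
  have e : ∀ x, f x ≠ 0 → LinearMap.range (φ x ∘ₗ E x) = (L x).map (φ x) := fun x hx => by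
    rw [LinearMap.range_comp, h3 x hx]
  obtain ⟨g, hg, g0, σ, hσ, hq⟩ := (hφ.comp hE).quasi_inv (x₀ := x₀)
    (((Near.of_ne hf f0).and hr).mono fun x hx => by rw [e x hx.1, e x₀ f0]; exact hx.2)
  refine ⟨fun x => f x * g x, fmul_mem hf hg, mul_ne_zero f0 g0, fun x => f x • (E x ∘ₗ σ x),
    (hE.comp hσ).smul hf, fun x w => (L x).smul_mem _ (h1 x _), ?_⟩
  rintro x _ ⟨v, hv, rfl⟩
  have := hq x v
  simp only [LinearMap.comp_apply, h2 x v hv, map_smul, smul_smul] at this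
  simp only [LinearMap.smul_apply, LinearMap.comp_apply, map_smul, this, mul_comm]

theorem map [FiniteDimensional ℂ W] (h : AlgAt 𝒜 L x₀) (hφ : RegM 𝒜 φ)
    (hr : Near 𝒜 x₀ fun x => finrank ℂ ((L x).map (φ x)) ≤ finrank ℂ ((L x₀).map (φ x₀))) :
    AlgAt 𝒜 (fun x => (L x).map (φ x)) x₀ := by
  obtain ⟨f, hf, f0, σ, hσ, h1, h2⟩ := h.lift hφ hr
  exact of_near hf (hφ.comp hσ) f0 (Near.of_forall fun x => ⟨fun w => ⟨_, h1 x w, rfl⟩, h2 x⟩)

theorem ker [FiniteDimensional ℂ W] (h : AlgAt 𝒜 L x₀) (hφ : RegM 𝒜 φ)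
    (hr : Near 𝒜 x₀ fun x => finrank ℂ ((L x).map (φ x)) ≤ finrank ℂ ((L x₀).map (φ x₀))) :
    AlgAt 𝒜 (fun x => L x ⊓ LinearMap.ker (φ x)) x₀ := by
  obtain ⟨g, hg, g0, σ, hσ, h1, h2⟩ := h.lift hφ hr
  obtain ⟨f, hf, f0, E, hE, e1, e2, -⟩ := h.out
  refine of_near (fmul_mem hg hf) ((hE.smul hg).sub (hσ.comp (hφ.comp hE))) (mul_ne_zero g0 f0)
    (Near.of_forall fun x => ⟨fun v => ⟨(L x).sub_mem ((L x).smul_mem _ (e1 x v)) (h1 x _), ?_⟩,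
      fun v hv => ?_⟩)
  · have := h2 x (φ x (E x v)) ⟨_, e1 x v, rfl⟩
    simp [this]
  · have : φ x v = 0 := hv.2
    simp [e2 x v hv.1, this, smul_smul]

theorem ker' [FiniteDimensional ℂ W] (h : AlgAt 𝒜 L x₀) (hφ : RegM 𝒜 φ)
    (hr : Near 𝒜 x₀ fun x => finrank ℂ (L x₀ ⊓ LinearMap.ker (φ x₀) : Submodule ℂ V) ≤
      finrank ℂ (L x ⊓ LinearMap.ker (φ x) : Submodule ℂ V)) :
    AlgAt 𝒜 (fun x => L x ⊓ LinearMap.ker (φ x)) x₀ := h.ker hφ (h.near_rank_of_ker hr)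

/-- `L ⊓ φ⁻¹ M` -/
theorem inf_comap [FiniteDimensional ℂ W] (h : AlgAt 𝒜 L x₀) (hM : AlgAt 𝒜 M x₀) (hφ : RegM 𝒜 φ)
    (hr : Near 𝒜 x₀ fun x => finrank ℂ (L x₀ ⊓ (M x₀).comap (φ x₀) : Submodule ℂ V) ≤
      finrank ℂ (L x ⊓ (M x).comap (φ x) : Submodule ℂ V)) :
    AlgAt 𝒜 (fun x => L x ⊓ (M x).comap (φ x)) x₀ := by
  obtain ⟨f, hf, f0, E, hE, -, -, -, h4⟩ := hM.out
  have e : ∀ x, f x ≠ 0 → LinearMap.ker ((f x • LinearMap.id - E x) ∘ₗ φ x) =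
      (M x).comap (φ x) := fun x hx => by rw [LinearMap.ker_comp, h4 x hx]
  refine (h.ker' (((RegM.smul_id hf).sub hE).comp hφ) (((Near.of_ne hf f0).and hr).mono
    fun x hx => ?_)).congr ((Near.of_ne hf f0).mono fun x hx => by rw [e x hx])
  rw [e x hx.1, e x₀ f0]; exact hx.2

/-- the dimension of `L ⊓ φ⁻¹ M` is upper semicontinuous -/
theorem inf_comap_usc [FiniteDimensional ℂ W] (h : AlgAt 𝒜 L x₀) (hM : AlgAt 𝒜 M x₀)
    (hφ : RegM 𝒜 φ) :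
    Near 𝒜 x₀ fun x => finrank ℂ (L x ⊓ (M x).comap (φ x) : Submodule ℂ V) ≤
      finrank ℂ (L x₀ ⊓ (M x₀).comap (φ x₀) : Submodule ℂ V) := by
  obtain ⟨f, hf, f0, E, hE, -, -, -, h4⟩ := hM.out
  have e : ∀ x, f x ≠ 0 → LinearMap.ker ((f x • LinearMap.id - E x) ∘ₗ φ x) =
      (M x).comap (φ x) := fun x hx => by rw [LinearMap.ker_comp, h4 x hx]
  refine ((Near.of_ne hf f0).and (h.ker_usc (((RegM.smul_id hf).sub hE).comp hφ))).mono
    fun x hx => ?_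
  rw [← e x hx.1, ← e x₀ f0]; exact hx.2

theorem perp (h : AlgAt 𝒜 L x₀) : AlgAt 𝒜 (fun x => (L x).dualAnnihilator) x₀ := by
  obtain ⟨f, hf, f0, E, hE, h1, h2, -⟩ := h.out
  refine of_near hf ((RegM.smul_id hf).sub hE).dualMap f0 (Near.of_forall fun x =>
    ⟨fun ℓ => ?_, fun ℓ hℓ => ?_⟩)
  · rw [Submodule.mem_dualAnnihilator]
    intro v hv
    simp [h2 x v hv]
  · rw [Submodule.mem_dualAnnihilator] at hℓ
    ext v
    simp [hℓ _ (h1 x v)]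

omit [FiniteDimensional ℂ V] in
theorem map_equiv (h : AlgAt 𝒜 L x₀) (e : V ≃ₗ[ℂ] W) :
    AlgAt 𝒜 (fun x => (L x).map e.toLinearMap) x₀ := by
  obtain ⟨f, hf, f0, E, hE, h1, h2, -⟩ := h.out
  refine of_near hf (RegM.const_comp e.toLinearMap (hE.comp_const e.symm.toLinearMap)) f0
    (Near.of_forall fun x => ⟨fun w => ⟨_, h1 x _, rfl⟩, ?_⟩)
  rintro _ ⟨v, hv, rfl⟩
  simp [h2 x v hv]

omit [FiniteDimensional ℂ V] in
theorem comap_equiv (h : AlgAt 𝒜 M x₀) (e : V ≃ₗ[ℂ] W) :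
    AlgAt 𝒜 (fun x => (M x).comap e.toLinearMap) x₀ := by
  simpa only [Submodule.comap_equiv_eq_map_symm] using h.map_equiv e.symm

theorem coperp {N : T → Submodule ℂ (Dual ℂ V)} (h : AlgAt 𝒜 N x₀) :
    AlgAt 𝒜 (fun x => (N x).dualCoannihilator) x₀ :=
  h.perp.comap_equiv (evalEquiv ℂ V)

omit [FiniteDimensional ℂ V] in
theorem prod (h : AlgAt 𝒜 L x₀) (hM : AlgAt 𝒜 M x₀) :
    AlgAt 𝒜 (fun x => (L x).prod (M x)) x₀ := by
  obtain ⟨f, hf, f0, E, hE, h1, h2, -⟩ := h.out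
  obtain ⟨g, hg, g0, F, hF, k1, k2, -⟩ := hM.out
  refine of_near (fmul_mem hf hg) ((hE.smul hg).prodMap (hF.smul hf)) (mul_ne_zero f0 g0)
    (Near.of_forall fun x => ⟨fun v => ⟨(L x).smul_mem _ (h1 x _), (M x).smul_mem _ (k1 x _)⟩,
      fun v hv => ?_⟩)
  ext
  · simp [h2 x _ hv.1, smul_smul, mul_comm]
  · simp [k2 x _ hv.2, smul_smul]

theorem sup (h : AlgAt 𝒜 L x₀) (h' : AlgAt 𝒜 L' x₀)
    (hr : Near 𝒜 x₀ fun x => finrank ℂ (L x ⊔ L' x : Submodule ℂ V) ≤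
      finrank ℂ (L x₀ ⊔ L' x₀ : Submodule ℂ V)) : AlgAt 𝒜 (fun x => L x ⊔ L' x) x₀ := by
  have e : ∀ x, ((L x).prod (L' x)).map ((LinearMap.id : V →ₗ[ℂ] V).coprod LinearMap.id) =
      L x ⊔ L' x := fun x => by simp
  simpa only [e] using (h.prod h').map (RegM.const (LinearMap.id.coprod LinearMap.id))
    (hr.mono fun x hx => by rw [e, e]; exact hx)

theorem inf (h : AlgAt 𝒜 L x₀) (h' : AlgAt 𝒜 L' x₀)
    (hr : Near 𝒜 x₀ fun x => finrank ℂ (L x₀ ⊓ L' x₀ : Submodule ℂ V) ≤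
      finrank ℂ (L x ⊓ L' x : Submodule ℂ V)) : AlgAt 𝒜 (fun x => L x ⊓ L' x) x₀ :=
  h.inf_comap h' RegM.id hr

/-- local frames -/
theorem frame (h : AlgAt 𝒜 L x₀) : ∃ s : Fin (finrank ℂ (L x₀)) → T → V,
    (∀ i, RegV 𝒜 (s i)) ∧ (∀ i x, s i x ∈ L x) ∧ Near 𝒜 x₀ fun x =>
      (LinearIndependent ℂ fun i => s i x) ∧ Submodule.span ℂ (Set.range fun i => s i x) = L x := by
  let b := finBasis ℂ (L x₀)
  choose s hs h1 h2 using fun i => h.exists_section (b i).2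
  have li : LinearIndependent ℂ fun i => s i x₀ := by
    simp only [h2]
    exact b.linearIndependent.map' (L x₀).subtype (Submodule.ker_subtype _)
  refine ⟨s, hs, h1, ((near_linearIndependent hs li).and h.near_finrank).mono fun x hx =>
    ⟨hx.1, Submodule.eq_of_le_of_finrank_le ?_ ?_⟩⟩
  · rw [Submodule.span_le]; rintro _ ⟨i, rfl⟩; exact h1 i x
  · rw [finrank_span_eq_card hx.1, hx.2, Fintype.card_fin]

omit [FiniteDimensional ℂ V] in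
theorem precomp {T' : Type} {𝒜' : Subalgebra ℂ (T' → ℂ)} (u : T' → T)
    (hu : ∀ f ∈ 𝒜, (fun y => f (u y)) ∈ 𝒜') {y₀ : T'} (h : AlgAt 𝒜 L (u y₀)) :
    AlgAt 𝒜' (fun y => L (u y)) y₀ := by
  obtain ⟨f, hf, E, hE, h0, h⟩ := h
  exact ⟨_, hu f hf, _, hE.precomp u hu, h0, fun y => h (u y)⟩

/-- injectivity on `L` is an open condition -/
theorem near_inj (h : AlgAt 𝒜 L x₀) (hφ : RegM 𝒜 φ) (h0 : L x₀ ⊓ LinearMap.ker (φ x₀) = ⊥) :
    Near 𝒜 x₀ fun x => L x ⊓ LinearMap.ker (φ x) = ⊥ :=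
  (h.ker_usc hφ).mono fun x hx => by
    rw [h0, finrank_bot, Nat.le_zero] at hx
    exact Submodule.finrank_eq_zero.1 hx

/-- surjectivity `L → M` is an open condition -/
theorem near_surj [FiniteDimensional ℂ W] (h : AlgAt 𝒜 L x₀) (hM : AlgAt 𝒜 M x₀) (hφ : RegM 𝒜 φ)
    (hle : Near 𝒜 x₀ fun x => (L x).map (φ x) ≤ M x) (h0 : (L x₀).map (φ x₀) = M x₀) :
    Near 𝒜 x₀ fun x => (L x).map (φ x) = M x :=
  (hle.and ((h.rank_lsc hφ).and hM.near_finrank)).mono fun x hx =>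
    Submodule.eq_of_le_of_finrank_le hx.1 (by rw [hx.2.2, ← h0]; exact hx.2.1)

/-- `φ L ≤ M` is a closed condition -/
theorem near_not_le [FiniteDimensional ℂ W] (h : AlgAt 𝒜 L x₀) (hM : AlgAt 𝒜 M x₀)
    (hφ : RegM 𝒜 φ) (h0 : ¬ (L x₀).map (φ x₀) ≤ M x₀) :
    Near 𝒜 x₀ fun x => ¬ (L x).map (φ x) ≤ M x := by
  obtain ⟨_, ⟨v, hv, rfl⟩, hw⟩ := SetLike.not_le_iff_exists.1 h0
  obtain ⟨s, hs, h1, rfl⟩ := h.exists_section hv
  exact (hM.near_not_mem (hφ.apply hs) hw).mono fun x hx hle => hx (hle ⟨_, h1 x, rfl⟩)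

end AlgAt

/-- the range of a regular map whose rank does not jump -/
theorem RegM.algAt_range [FiniteDimensional ℂ V] [FiniteDimensional ℂ W] {φ : T → V →ₗ[ℂ] W}
    (hφ : RegM 𝒜 φ) {x₀ : T} (hr : Near 𝒜 x₀ fun x =>
      finrank ℂ (LinearMap.range (φ x)) ≤ finrank ℂ (LinearMap.range (φ x₀))) :
    AlgAt 𝒜 (fun x => LinearMap.range (φ x)) x₀ := by
  simpa only [Submodule.map_top] using (AlgAt.const ⊤).map hφ
    (hr.mono fun x hx => by rw [Submodule.map_top, Submodule.map_top]; exact hx)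

theorem AlgAt.of_span [FiniteDimensional ℂ V] {ι : Type} [Finite ι] {s : ι → T → V}
    (hs : ∀ i, RegV 𝒜 (s i)) {L : T → Submodule ℂ V} {x₀ : T}
    (hL : Near 𝒜 x₀ fun x => L x = Submodule.span ℂ (Set.range fun i => s i x))
    (hr : Near 𝒜 x₀ fun x => finrank ℂ (L x) ≤ finrank ℂ (L x₀)) : AlgAt 𝒜 L x₀ := by
  have := Fintype.ofFinite ι
  refine ((RegM.linearCombination hs).algAt_range ((hL.and hr).mono fun x hx => ?_)).congr
    (hL.mono fun x hx => by rw [Fintype.range_linearCombination, hx])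
  rw [Fintype.range_linearCombination, Fintype.range_linearCombination, ← hx.1, ← hL.self]
  exact hx.2

end Crest.Agent.N265.Alg
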