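import Mathlib
import Crest.Agent.N265.K.Alg0

/-!
# Row 265, layer K: bundle toolkit I (task K-ALG1, part 3: global statements; helper82)

Constant rank, image, kernel, annihilator, local frames, local liftings.
`AlgAt 𝒜 L x₀` is the local condition, `Alg 𝒜 L ↔ ∀ x₀, AlgAt 𝒜 L x₀` by definition.
-/

set_option autoImplicit false
set_option linter.dupNamespace false

noncomputable section

namespace Crest.Agent.N265.Alg

open Module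

variable {T : Type} {𝒜 : Subalgebra ℂ (T → ℂ)}
variable {V W U : Type} [AddCommGroup V] [Module ℂ V] [AddCommGroup W] [Module ℂ W]
  [AddCommGroup U] [Module ℂ U]

/-! ### the global statements -/

/-- the rank is lower semicontinuous -/
theorem rank_lsc [FiniteDimensional ℂ V] {L : T → Submodule ℂ V} {φ : T → V →ₗ[ℂ] W}
    (hφ : RegM 𝒜 φ) (h : Alg 𝒜 L) (x₀ : T) :
    Near 𝒜 x₀ fun x => finrank ℂ ((L x₀).map (φ x₀)) ≤ finrank ℂ ((L x).map (φ x)) :=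
  AlgAt.rank_lsc hφ (h x₀)

namespace Alg
variable {L L' K : T → Submodule ℂ V} {M : T → Submodule ℂ W} {φ : T → V →ₗ[ℂ] W}

theorem algAt (h : Alg 𝒜 L) (x₀ : T) : AlgAt 𝒜 L x₀ := h x₀

theorem const (N : Submodule ℂ V) : Alg 𝒜 fun _ => N := fun _ => AlgAt.const N

theorem congr (h : Alg 𝒜 L) (e : ∀ x, L x = L' x) : Alg 𝒜 L' := funext e ▸ h

/-- being algebraic is a local condition -/
theorem of_local (h : ∀ x₀, ∃ L', Alg 𝒜 L' ∧ Near 𝒜 x₀ fun x => L' x = L x) : Alg 𝒜 L :=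
  fun x₀ => by
    obtain ⟨L', h1, h2⟩ := h x₀
    exact (h1.algAt x₀).congr h2

theorem map_equiv (h : Alg 𝒜 L) (e : V ≃ₗ[ℂ] W) : Alg 𝒜 fun x => (L x).map e.toLinearMap :=
  fun x₀ => (h.algAt x₀).map_equiv e

theorem comap_equiv (h : Alg 𝒜 M) (e : V ≃ₗ[ℂ] W) : Alg 𝒜 fun x => (M x).comap e.toLinearMap :=
  fun x₀ => (h.algAt x₀).comap_equiv e

theorem prod (h : Alg 𝒜 L) (hM : Alg 𝒜 M) : Alg 𝒜 fun x => (L x).prod (M x) :=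
  fun x₀ => (h.algAt x₀).prod (hM.algAt x₀)

theorem precomp {T' : Type} {𝒜' : Subalgebra ℂ (T' → ℂ)} (u : T' → T)
    (hu : ∀ f ∈ 𝒜, (fun y => f (u y)) ∈ 𝒜') (h : Alg 𝒜 L) : Alg 𝒜' fun y => L (u y) :=
  fun y₀ => (h.algAt (u y₀)).precomp u hu

theorem exists_section (h : Alg 𝒜 L) {x₀ : T} {v : V} (hv : v ∈ L x₀) :
    ∃ s : T → V, RegV 𝒜 s ∧ (∀ x, s x ∈ L x) ∧ s x₀ = v := (h.algAt x₀).exists_section hv

variable [FiniteDimensional ℂ V]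

theorem near_finrank (h : Alg 𝒜 L) (x₀ : T) :
    Near 𝒜 x₀ fun x => finrank ℂ (L x) = finrank ℂ (L x₀) := (h.algAt x₀).near_finrank

theorem perp (h : Alg 𝒜 L) : Alg 𝒜 fun x => (L x).dualAnnihilator := fun x₀ => (h.algAt x₀).perp

theorem coperp {N : T → Submodule ℂ (Dual ℂ V)} (h : Alg 𝒜 N) :
    Alg 𝒜 fun x => (N x).dualCoannihilator := fun x₀ => (h.algAt x₀).coperp

theorem frame (h : Alg 𝒜 L) (x₀ : T) : ∃ s : Fin (finrank ℂ (L x₀)) → T → V,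
    (∀ i, RegV 𝒜 (s i)) ∧ (∀ i x, s i x ∈ L x) ∧ Near 𝒜 x₀ fun x =>
      (LinearIndependent ℂ fun i => s i x) ∧ Submodule.span ℂ (Set.range fun i => s i x) = L x :=
  (h.algAt x₀).frame

theorem of_span {ι : Type} [Finite ι] {s : ι → T → V} (hs : ∀ i, RegV 𝒜 (s i))
    (hL : ∀ x, L x = Submodule.span ℂ (Set.range fun i => s i x))
    (hr : ∀ x₀, Near 𝒜 x₀ fun x => finrank ℂ (L x) ≤ finrank ℂ (L x₀)) : Alg 𝒜 L :=
  fun x₀ => AlgAt.of_span hs (Near.of_forall hL) (hr x₀)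

theorem sup (h : Alg 𝒜 L) (h' : Alg 𝒜 L')
    (hr : ∀ x₀, Near 𝒜 x₀ fun x => finrank ℂ (L x ⊔ L' x : Submodule ℂ V) ≤
      finrank ℂ (L x₀ ⊔ L' x₀ : Submodule ℂ V)) : Alg 𝒜 fun x => L x ⊔ L' x :=
  fun x₀ => (h.algAt x₀).sup (h'.algAt x₀) (hr x₀)

theorem inf (h : Alg 𝒜 L) (h' : Alg 𝒜 L')
    (hr : ∀ x₀, Near 𝒜 x₀ fun x => finrank ℂ (L x₀ ⊓ L' x₀ : Submodule ℂ V) ≤
      finrank ℂ (L x ⊓ L' x : Submodule ℂ V)) : Alg 𝒜 fun x => L x ⊓ L' x :=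
  fun x₀ => (h.algAt x₀).inf (h'.algAt x₀) (hr x₀)

theorem sup_of_finrank (h : Alg 𝒜 L) (h' : Alg 𝒜 L') {n : ℕ}
    (hr : ∀ x, finrank ℂ (L x ⊔ L' x : Submodule ℂ V) = n) : Alg 𝒜 fun x => L x ⊔ L' x :=
  h.sup h' fun x₀ => Near.of_forall fun x => by rw [hr, hr]

theorem inf_of_finrank (h : Alg 𝒜 L) (h' : Alg 𝒜 L') {n : ℕ}
    (hr : ∀ x, finrank ℂ (L x ⊓ L' x : Submodule ℂ V) = n) : Alg 𝒜 fun x => L x ⊓ L' x :=
  h.inf h' fun x₀ => Near.of_forall fun x => by rw [hr, hr]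

theorem inf_of_sup (h : Alg 𝒜 L) (h' : Alg 𝒜 L') (hs : Alg 𝒜 fun x => L x ⊔ L' x) :
    Alg 𝒜 fun x => L x ⊓ L' x :=
  h.inf h' fun x₀ => ((h.near_finrank x₀).and ((h'.near_finrank x₀).and
    (hs.near_finrank x₀))).mono fun x hx => by
      have e1 := Submodule.finrank_sup_add_finrank_inf_eq (L x) (L' x)
      have e2 := Submodule.finrank_sup_add_finrank_inf_eq (L x₀) (L' x₀)
      omega

theorem sup_of_inf (h : Alg 𝒜 L) (h' : Alg 𝒜 L') (hs : Alg 𝒜 fun x => L x ⊓ L' x) :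
    Alg 𝒜 fun x => L x ⊔ L' x :=
  h.sup h' fun x₀ => ((h.near_finrank x₀).and ((h'.near_finrank x₀).and
    (hs.near_finrank x₀))).mono fun x hx => by
      have e1 := Submodule.finrank_sup_add_finrank_inf_eq (L x) (L' x)
      have e2 := Submodule.finrank_sup_add_finrank_inf_eq (L x₀) (L' x₀)
      omega

/-- local lifting -/
theorem lift (h : Alg 𝒜 L) (hM : Alg 𝒜 M) [FiniteDimensional ℂ W] (hφ : RegM 𝒜 φ)
    (e : ∀ x, M x = (L x).map (φ x)) (x₀ : T) :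
    ∃ f ∈ 𝒜, f x₀ ≠ 0 ∧ ∃ σ : T → W →ₗ[ℂ] V, RegM 𝒜 σ ∧ (∀ x, LinearMap.range (σ x) ≤ L x) ∧
      ∀ x, ∀ w ∈ M x, φ x (σ x w) = f x • w := by
  obtain ⟨f, hf, f0, σ, hσ, h1, h2⟩ := (h.algAt x₀).lift hφ
    ((hM.near_finrank x₀).mono fun x hx => by rw [← e, ← e, hx])
  refine ⟨f, hf, f0, σ, hσ, fun x => ?_, fun x w hw => h2 x w (e x ▸ hw)⟩
  rintro _ ⟨w, rfl⟩; exact h1 x w

variable [FiniteDimensional ℂ W]

theorem map (h : Alg 𝒜 L) (hφ : RegM 𝒜 φ) (hr : ∀ x₀, Near 𝒜 x₀ fun x =>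
    finrank ℂ ((L x).map (φ x)) ≤ finrank ℂ ((L x₀).map (φ x₀))) :
    Alg 𝒜 fun x => (L x).map (φ x) := fun x₀ => (h.algAt x₀).map hφ (hr x₀)

theorem ker (h : Alg 𝒜 L) (hφ : RegM 𝒜 φ) (hr : ∀ x₀, Near 𝒜 x₀ fun x =>
    finrank ℂ ((L x).map (φ x)) ≤ finrank ℂ ((L x₀).map (φ x₀))) :
    Alg 𝒜 fun x => L x ⊓ LinearMap.ker (φ x) := fun x₀ => (h.algAt x₀).ker hφ (hr x₀)

theorem map_of_finrank (h : Alg 𝒜 L) (hφ : RegM 𝒜 φ) {n : ℕ}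
    (hr : ∀ x, finrank ℂ ((L x).map (φ x)) = n) : Alg 𝒜 fun x => (L x).map (φ x) :=
  h.map hφ fun x₀ => Near.of_forall fun x => by rw [hr, hr]

theorem ker_of_finrank (h : Alg 𝒜 L) (hφ : RegM 𝒜 φ) {n : ℕ}
    (hr : ∀ x, finrank ℂ ((L x).map (φ x)) = n) : Alg 𝒜 fun x => L x ⊓ LinearMap.ker (φ x) :=
  h.ker hφ fun x₀ => Near.of_forall fun x => by rw [hr, hr]

theorem ker_of_finrank_ker (h : Alg 𝒜 L) (hφ : RegM 𝒜 φ) {n : ℕ}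
    (hr : ∀ x, finrank ℂ (L x ⊓ LinearMap.ker (φ x) : Submodule ℂ V) = n) :
    Alg 𝒜 fun x => L x ⊓ LinearMap.ker (φ x) :=
  fun x₀ => (h.algAt x₀).ker' hφ (Near.of_forall fun x => by rw [hr, hr])

theorem map_of_finrank_ker (h : Alg 𝒜 L) (hφ : RegM 𝒜 φ) {n : ℕ}
    (hr : ∀ x, finrank ℂ (L x ⊓ LinearMap.ker (φ x) : Submodule ℂ V) = n) :
    Alg 𝒜 fun x => (L x).map (φ x) :=
  h.map hφ fun x₀ => (h.algAt x₀).near_rank_of_ker (Near.of_forall fun x => by rw [hr, hr])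

theorem ker_of_map (h : Alg 𝒜 L) (hM : Alg 𝒜 M) (hφ : RegM 𝒜 φ)
    (e : ∀ x, M x = (L x).map (φ x)) : Alg 𝒜 fun x => L x ⊓ LinearMap.ker (φ x) :=
  h.ker hφ fun x₀ => (hM.near_finrank x₀).mono fun x hx => by rw [← e, ← e, hx]

theorem map_of_ker (h : Alg 𝒜 L) (hK : Alg 𝒜 K) (hφ : RegM 𝒜 φ)
    (e : ∀ x, K x = L x ⊓ LinearMap.ker (φ x)) : Alg 𝒜 fun x => (L x).map (φ x) :=
  h.map hφ fun x₀ => (h.algAt x₀).near_rank_of_ker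
    ((hK.near_finrank x₀).mono fun x hx => by rw [← e, ← e, hx])

theorem map_of_inj (h : Alg 𝒜 L) (hφ : RegM 𝒜 φ) (e : ∀ x, L x ⊓ LinearMap.ker (φ x) = ⊥) :
    Alg 𝒜 fun x => (L x).map (φ x) := h.map_of_ker (const ⊥) hφ fun x => (e x).symm

theorem range (hφ : RegM 𝒜 φ) (hr : ∀ x₀, Near 𝒜 x₀ fun x =>
    finrank ℂ (LinearMap.range (φ x)) ≤ finrank ℂ (LinearMap.range (φ x₀))) :
    Alg 𝒜 fun x => LinearMap.range (φ x) := fun x₀ => hφ.algAt_range (hr x₀)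

theorem ker_top (hφ : RegM 𝒜 φ) (hr : ∀ x₀, Near 𝒜 x₀ fun x =>
    finrank ℂ (LinearMap.range (φ x)) ≤ finrank ℂ (LinearMap.range (φ x₀))) :
    Alg 𝒜 fun x => LinearMap.ker (φ x) := by
  simpa only [top_inf_eq] using (const ⊤).ker hφ fun x₀ => (hr x₀).mono fun x hx => by
    rw [Submodule.map_top, Submodule.map_top]; exact hx

theorem inf_comap (h : Alg 𝒜 L) (hM : Alg 𝒜 M) (hφ : RegM 𝒜 φ) (hr : ∀ x₀, Near 𝒜 x₀ fun x =>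
    finrank ℂ (L x₀ ⊓ (M x₀).comap (φ x₀) : Submodule ℂ V) ≤
      finrank ℂ (L x ⊓ (M x).comap (φ x) : Submodule ℂ V)) :
    Alg 𝒜 fun x => L x ⊓ (M x).comap (φ x) :=
  fun x₀ => (h.algAt x₀).inf_comap (hM.algAt x₀) hφ (hr x₀)

theorem comap (hM : Alg 𝒜 M) (hφ : RegM 𝒜 φ) (hr : ∀ x₀, Near 𝒜 x₀ fun x =>
    finrank ℂ ((M x₀).comap (φ x₀)) ≤ finrank ℂ ((M x).comap (φ x))) :
    Alg 𝒜 fun x => (M x).comap (φ x) := by
  simpa only [top_inf_eq] using (const ⊤).inf_comap hM hφ fun x₀ => (hr x₀).mono fun x hx => by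
    rw [top_inf_eq, top_inf_eq]; exact hx

theorem comap_of_finrank (hM : Alg 𝒜 M) (hφ : RegM 𝒜 φ) {n : ℕ}
    (hr : ∀ x, finrank ℂ ((M x).comap (φ x)) = n) : Alg 𝒜 fun x => (M x).comap (φ x) :=
  hM.comap hφ fun x₀ => Near.of_forall fun x => by rw [hr, hr]

theorem inf_comap_of_finrank (h : Alg 𝒜 L) (hM : Alg 𝒜 M) (hφ : RegM 𝒜 φ) {n : ℕ}
    (hr : ∀ x, finrank ℂ (L x ⊓ (M x).comap (φ x) : Submodule ℂ V) = n) :
    Alg 𝒜 fun x => L x ⊓ (M x).comap (φ x) :=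
  h.inf_comap hM hφ fun x₀ => Near.of_forall fun x => by rw [hr, hr]

end Alg

end Crest.Agent.N265.Alg
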