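import Mathlib
import Crest.Agent.N265.G.Grad
import Crest.Agent.N265.K.Alg1

/-!
# Row 265: bridge between `Core` (polynomial matrices) and the frame-free toolkit `Alg` (helper82)

* `Spc.fn X` : the regular functions on `X.pts`; `regV_iff_poly`, `regM_iff_mev`, `isAlg_iff`;
* `gd deg` : the torus element on `⊕ O(deg i)`; `isEqv_iff`, `MHmg.mev_gpt`;
* `mhc`, `exists_mhmg` : an equivariant regular map on a family is given
  by a polynomial matrix of degree zero.
-/

set_option autoImplicit false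

noncomputable section
open MvPolynomial

namespace Crest.Agent.N265

open Alg

/-! ### regular functions -/

/-- the regular functions on the point set of `X` -/
def Spc.fn (X : Spc) : Subalgebra ℂ (X.pts → ℂ) where
  carrier := {f | ∃ r : R, ∀ x, f x = eval x.1 r}
  mul_mem' := by
    rintro f g ⟨r, hr⟩ ⟨s, hs⟩; exact ⟨r * s, fun x => by rw [Pi.mul_apply, hr, hs, map_mul]⟩
  add_mem' := by
    rintro f g ⟨r, hr⟩ ⟨s, hs⟩; exact ⟨r + s, fun x => by rw [Pi.add_apply, hr, hs, map_add]⟩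
  algebraMap_mem' c := ⟨C c, fun x => by rw [eval_C]; rfl⟩

lemma Spc.mem_fn {X : Spc} {f : X.pts → ℂ} : f ∈ X.fn ↔ ∃ r : R, ∀ x, f x = eval x.1 r := Iff.rfl

lemma Spc.eval_mem_fn (X : Spc) (r : R) : (fun x : X.pts => eval x.1 r) ∈ X.fn :=
  Spc.mem_fn.2 ⟨r, fun _ => rfl⟩

lemma near_iff {X : Spc} {x₀ : X.pts} {p : X.pts → Prop} :
    Near X.fn x₀ p ↔ ∃ r : R, eval x₀.1 r ≠ 0 ∧ ∀ y : X.pts, eval y.1 r ≠ 0 → p y := by
  constructor
  · rintro ⟨f, hf, h0, h⟩
    obtain ⟨r, hr⟩ := Spc.mem_fn.1 hf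
    exact ⟨r, hr _ ▸ h0, fun y hy => h y (by rwa [hr])⟩
  · rintro ⟨r, h0, h⟩
    exact ⟨_, X.eval_mem_fn r, h0, h⟩

lemma regV_poly (X : Spc) {ι : Type} [Finite ι] (s : ι → R) :
    RegV X.fn fun x : X.pts => fun i => eval x.1 (s i) := regV_pi.2 fun i => X.eval_mem_fn (s i)

lemma regV_iff_poly {X : Spc} {ι : Type} [Finite ι] {s : X.pts → ι → ℂ} :
    RegV X.fn s ↔ ∃ r : ι → R, ∀ x i, s x i = eval x.1 (r i) := by
  rw [regV_pi]
  constructor
  · intro h
    choose r hr using fun i => Spc.mem_fn.1 (h i)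
    exact ⟨r, fun x i => hr i x⟩
  · rintro ⟨r, hr⟩ i
    exact Spc.mem_fn.2 ⟨r i, fun x => hr x i⟩

section mev
variable {ι κ ν : Type}

lemma mev_mul' [Fintype ι] [Fintype κ] (x : Pt) (Ψ : Matrix ν κ R) (Φ : Matrix κ ι R) :
    mev x (Ψ * Φ) = mev x Ψ ∘ₗ mev x Φ := by
  simp only [mev, Matrix.map_mul, Matrix.mulVecLin_mul]

lemma mev_one [Fintype ι] [DecidableEq ι] (x : Pt) : mev x (1 : Matrix ι ι R) = LinearMap.id := by
  simp only [mev, Matrix.map_one _ (map_zero _) (map_one _), Matrix.mulVecLin_one]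

lemma mev_zero [Fintype ι] (x : Pt) : mev x (0 : Matrix κ ι R) = 0 := by
  ext v j; simp [mev_apply]

lemma mev_add [Fintype ι] (x : Pt) (Φ Ψ : Matrix κ ι R) : mev x (Φ + Ψ) = mev x Φ + mev x Ψ := by
  refine LinearMap.ext fun v => funext fun j => ?_
  simp [mev_apply, add_mul, Finset.sum_add_distrib]

lemma mev_sub [Fintype ι] (x : Pt) (Φ Ψ : Matrix κ ι R) : mev x (Φ - Ψ) = mev x Φ - mev x Ψ := by
  refine LinearMap.ext fun v => funext fun j => ?_
  simp [mev_apply, sub_mul, Finset.sum_sub_distrib]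

lemma mev_smul [Fintype ι] (x : Pt) (r : R) (Φ : Matrix κ ι R) :
    mev x (r • Φ) = eval x r • mev x Φ := by
  refine LinearMap.ext fun v => funext fun j => ?_
  simp [mev_apply, Finset.mul_sum, mul_assoc]

lemma regM_mev (X : Spc) [Fintype ι] [Finite κ] (Φ : Matrix κ ι R) :
    RegM X.fn fun x : X.pts => mev x.1 Φ := RegM.mulVecLin fun j i => X.eval_mem_fn (Φ j i)

lemma regM_iff_mev {X : Spc} [Fintype ι] [Finite κ] {φ : X.pts → (ι → ℂ) →ₗ[ℂ] (κ → ℂ)} :
    RegM X.fn φ ↔ ∃ Φ : Matrix κ ι R, ∀ x, φ x = mev x.1 Φ := by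
  classical
  constructor
  · intro h
    choose r hr using fun i => regV_iff_poly.1 (h (Pi.single i 1))
    refine ⟨Matrix.of fun j i => r i j, fun x => (Pi.basisFun ℂ ι).ext fun i => funext fun j => ?_⟩
    simp [mev_apply, hr, Pi.single_apply]
  · rintro ⟨Φ, h⟩
    rw [funext h]; exact regM_mev X Φ

lemma isAlg_iff {X : Spc} [Fintype ι] {L : Pt → Submodule ℂ (ι → ℂ)} :
    IsAlg X L ↔ Alg X.fn fun x : X.pts => L x.1 := by
  constructor
  · intro h x₀
    obtain ⟨r, P, h0, h⟩ := h x₀.1 x₀.2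
    refine ⟨_, X.eval_mem_fn r, _, regM_mev X P, h0, fun y => ⟨?_, (h y.1 y.2).2⟩⟩
    rintro _ ⟨v, rfl⟩; exact (h y.1 y.2).1 v
  · intro h x hx
    obtain ⟨f, hf, E, hE, h0, h⟩ := h ⟨x, hx⟩
    obtain ⟨r, hr⟩ := Spc.mem_fn.1 hf
    obtain ⟨P, hP⟩ := regM_iff_mev.1 hE
    refine ⟨r, P, by rwa [hr] at h0, fun y hy => ⟨fun v => ?_, fun v hv => ?_⟩⟩
    · exact (h ⟨y, hy⟩).1 ⟨v, by rw [hP]⟩
    · have := (h ⟨y, hy⟩).2 v hv
      rwa [hP, hr] at this

end mev

lemma Bun.alg' {X : Spc} (A : Bun X) : Alg X.fn fun x : X.pts => A.L x.1 := isAlg_iff.1 A.alg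

/-- the map of point sets given by a projection -/
def Proj.pt {Y X : Spc} (h : Proj Y X) (y : Y.pts) : X.pts := ⟨restr X.B y.1, h.map y.1 y.2⟩

lemma Proj.fn_comp {Y X : Spc} (h : Proj Y X) : ∀ f ∈ X.fn, (fun y => f (h.pt y)) ∈ Y.fn := by
  intro f hf
  obtain ⟨r, hr⟩ := Spc.mem_fn.1 hf
  exact Spc.mem_fn.2 ⟨kill X.B r, fun y => by rw [hr, eval_kill]; rfl⟩

/-- the torus element acting on the points of `X` -/
def Spc.gp (X : Spc) (x : X.pts) : X.pts := ⟨gpt x.1, X.inv x.1 x.2⟩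

lemma Spc.fn_gp (X : Spc) : ∀ f ∈ X.fn, (fun x => f (X.gp x)) ∈ X.fn := by
  intro f hf
  obtain ⟨r, hr⟩ := Spc.mem_fn.1 hf
  exact Spc.mem_fn.2 ⟨gam r, fun y => by rw [hr, eval_gam]; rfl⟩

/-! ### homogeneous polynomials -/

lemma exists_sum_hc' (r : R) :
    ∃ S : Finset D, ∀ S' : Finset D, S ⊆ S' → ∑ d ∈ S', hc d r = r := by
  obtain ⟨S, h1, h2⟩ := exists_sum_hc r
  exact ⟨S, fun S' h => by rw [← Finset.sum_subset h fun d _ hd => h2 d hd, h1]⟩

/-- independence of the sequences `n ↦ chi d ^ n` -/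
lemma chi_indep {M : Type*} [AddCommGroup M] [Module ℂ M] (S : Finset D) (c : D → M)
    (h : ∀ n : ℕ, ∑ d ∈ S, chi d ^ n • c d = 0) : ∀ d ∈ S, c d = 0 := by
  classical
  induction S using Finset.induction_on generalizing c with
  | empty => simp
  | insert a S ha ih =>
    have h1 : ∀ d ∈ S, (chi d - chi a) • c d = 0 := by
      refine ih _ fun n => ?_
      have e1 := h (n + 1)
      have e2 := congrArg (chi a • ·) (h n)
      simp only [Finset.sum_insert ha, smul_add, smul_smul, smul_zero, Finset.smul_sum] at e1 e2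
      rw [← pow_succ'] at e2
      have := congrArg₂ (· - ·) e1 e2
      simp only [add_sub_add_left_eq_sub, sub_zero, ← Finset.sum_sub_distrib, ← sub_smul] at this
      rw [← this]
      exact Finset.sum_congr rfl fun d _ => by rw [smul_smul]; congr 1; ring
    have h2 : ∀ d ∈ S, c d = 0 := fun d hd =>
      (smul_eq_zero.1 (h1 d hd)).resolve_left fun h0 => ha (chi_inj (sub_eq_zero.1 h0) ▸ hd)
    intro d hd
    rcases Finset.mem_insert.1 hd with rfl | hd
    · have := h 0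
      rw [Finset.sum_insert ha, Finset.sum_eq_zero fun d hd => by rw [h2 d hd, smul_zero]] at this
      simpa using this
    · exact h2 d hd

lemma Hmg.eval_iter {d : D} {r : R} (hr : Hmg d r) (x : Pt) (n : ℕ) :
    eval (gpt^[n] x) r = chi d ^ n * eval x r := by
  induction n with
  | zero => simp
  | succ n ih => rw [Function.iterate_succ_apply', hr.eval_gpt, ih]; ring

lemma Spc.iter_mem (X : Spc) {x : Pt} (hx : x ∈ X.pts) (n : ℕ) : gpt^[n] x ∈ X.pts := by
  induction n with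
  | zero => exact hx
  | succ n ih => rw [Function.iterate_succ_apply']; exact X.inv _ ih

/-- a function that is semi-invariant on `X` is given by its homogeneous component -/
lemma Spc.eval_hc {X : Spc} {r : R} {d : D} (h : ∀ x ∈ X.pts, eval (gpt x) r = chi d * eval x r)
    {x : Pt} (hx : x ∈ X.pts) : eval x (hc d r) = eval x r := by
  classical
  obtain ⟨S, hS⟩ := exists_sum_hc' r
  have it : ∀ n, eval (gpt^[n] x) r = chi d ^ n * eval x r := fun n => by
    induction n with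
    | zero => simp
    | succ n ih => rw [Function.iterate_succ_apply', h _ (X.iter_mem hx n), ih]; ring
  have := chi_indep (insert d S) (fun e => eval x (hc e r) - if e = d then eval x r else 0)
    (fun n => ?_) d (Finset.mem_insert_self _ _)
  · simpa [sub_eq_zero] using this
  simp only [mul_sub, Finset.sum_sub_distrib, smul_eq_mul, mul_ite, mul_zero, Finset.sum_ite_eq',
    Finset.mem_insert_self, if_true, sub_eq_zero]
  rw [← it n]
  conv_rhs => rw [← hS _ (Finset.subset_insert d S), map_sum]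
  exact Finset.sum_congr rfl fun e _ => ((hc_hmg e r).eval_iter x n).symm

/-! ### equivariance -/

section eqv
variable {ι κ : Type}

/-- the torus element on `⊕ O(deg i)` -/
def gd (deg : ι → D) : (ι → ℂ) ≃ₗ[ℂ] (ι → ℂ) :=
  LinearEquiv.piCongrRight fun i => LinearEquiv.smulOfNeZero ℂ ℂ (chi (deg i)) (chi_ne _)

@[simp] lemma gd_apply (deg : ι → D) (v : ι → ℂ) (i : ι) : gd deg v i = chi (deg i) * v i := rfl

lemma gd_symm_apply (deg : ι → D) (v : ι → ℂ) (i : ι) :
    (gd deg).symm v i = chi (-deg i) * v i := by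
  have : gd deg (fun i => chi (-deg i) * v i) = v := by
    funext i; rw [gd_apply, ← mul_assoc, ← chi_add]; simp
  conv_lhs => rw [← this, LinearEquiv.symm_apply_apply]

lemma isEqv_iff' {X : Spc} {deg : ι → D} {L : Pt → Submodule ℂ (ι → ℂ)} :
    IsEqv X deg L ↔ ∀ x ∈ X.pts, ∀ v, v ∈ L x ↔ gd deg v ∈ L (gpt x) := Iff.rfl

lemma isEqv_iff {X : Spc} {deg : ι → D} {L : Pt → Submodule ℂ (ι → ℂ)} :
    IsEqv X deg L ↔ ∀ x ∈ X.pts, (L x).map (gd deg).toLinearMap = L (gpt x) := by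
  rw [isEqv_iff']
  refine forall₂_congr fun x _ => ⟨fun h => ?_, fun h v => ?_⟩
  · ext w
    rw [Submodule.mem_map_equiv, h, LinearEquiv.apply_symm_apply]
  · rw [← h, Submodule.mem_map_equiv, LinearEquiv.symm_apply_apply]

lemma MHmg.mev_gpt [Fintype ι] {a : ι → D} {b : κ → D} {Φ : Matrix κ ι R} (h : MHmg a b Φ)
    (x : Pt) (v : ι → ℂ) : mev (gpt x) Φ (gd a v) = gd b (mev x Φ v) := by
  funext j
  simp only [mev_apply, gd_apply, Finset.mul_sum]
  refine Finset.sum_congr rfl fun i _ => ?_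
  rw [(h j i).eval_gpt, chi_sub]
  have := chi_ne (a i)
  field_simp

/-- the degree zero part of a polynomial matrix -/
def mhc (a : ι → D) (b : κ → D) (Φ : Matrix κ ι R) : Matrix κ ι R :=
  Matrix.of fun j i => hc (b j - a i) (Φ j i)

lemma mhmg_mhc (a : ι → D) (b : κ → D) (Φ : Matrix κ ι R) : MHmg a b (mhc a b Φ) :=
  fun _ _ => hc_hmg _ _

/-- Averaging: a matrix that is equivariant on an equivariant family agrees there with its
degree zero part. -/
lemma mev_mhc [Fintype ι] {X : Spc} {a : ι → D} {b : κ → D} {L : Pt → Submodule ℂ (ι → ℂ)}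
    (hL : ∀ x ∈ X.pts, ∀ v ∈ L x, gd a v ∈ L (gpt x)) {Φ : Matrix κ ι R}
    (h : ∀ x ∈ X.pts, ∀ v ∈ L x, mev (gpt x) Φ (gd a v) = gd b (mev x Φ v))
    {x : Pt} (hx : x ∈ X.pts) {v : ι → ℂ} (hv : v ∈ L x) :
    mev x (mhc a b Φ) v = mev x Φ v := by
  classical
  funext j
  choose S hS using fun i => exists_sum_hc' (Φ j i)
  let S₀ : Finset D := insert 0 (Finset.univ.biUnion fun i => (S i).image fun d => d - (b j - a i))
  have it : ∀ n, (gd a)^[n] v ∈ L (gpt^[n] x) ∧
      mev (gpt^[n] x) Φ ((gd a)^[n] v) j = chi (b j) ^ n * mev x Φ v j := fun n => by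
    induction n with
    | zero => simpa using hv
    | succ n ih =>
      rw [Function.iterate_succ_apply', Function.iterate_succ_apply']
      refine ⟨hL _ (X.iter_mem hx n) _ ih.1, ?_⟩
      rw [h _ (X.iter_mem hx n) _ ih.1, gd_apply, ih.2]; ring
  have itv : ∀ n i, (gd a)^[n] v i = chi (a i) ^ n * v i := fun n i => by
    induction n with
    | zero => simp
    | succ n ih => rw [Function.iterate_succ_apply', gd_apply, ih]; ring
  have hsum : ∀ i, ∑ e ∈ S₀, hc (b j - a i + e) (Φ j i) = Φ j i := fun i => by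
    rw [← Finset.sum_image (s := S₀) (g := fun e => b j - a i + e) (f := fun d => hc d (Φ j i))
      fun _ _ _ _ h => add_left_cancel h]
    refine hS i _ fun d hd => Finset.mem_image.2 ⟨d - (b j - a i), ?_, by abel⟩
    exact Finset.mem_insert_of_mem (Finset.mem_biUnion.2 ⟨i, Finset.mem_univ _,
      Finset.mem_image_of_mem _ hd⟩)
  have := chi_indep S₀ (fun e => ∑ i, eval x (hc (b j - a i + e) (Φ j i)) * v i -
    if e = 0 then mev x Φ v j else 0) (fun n => ?_) 0 (Finset.mem_insert_self _ _)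
  · simpa [sub_eq_zero, mev_apply, mhc] using this
  have h0 : (0 : D) ∈ S₀ := Finset.mem_insert_self _ _
  simp only [mul_sub, Finset.sum_sub_distrib, smul_eq_mul, mul_ite, mul_zero, Finset.sum_ite_eq',
    h0, if_true, sub_eq_zero, chi_zero, one_pow, one_mul]
  refine mul_left_cancel₀ (pow_ne_zero n (chi_ne (b j))) ?_
  rw [← (it n).2, mev_apply]
  simp only [Finset.mul_sum]
  rw [Finset.sum_comm]
  refine Finset.sum_congr rfl fun i _ => ?_
  conv_rhs => rw [← hsum i, map_sum, Finset.sum_mul]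
  refine Finset.sum_congr rfl fun e _ => ?_
  rw [(hc_hmg _ _).eval_iter, itv, chi_add, chi_sub, mul_pow, mul_pow, inv_pow]
  have := chi_ne (a i)
  field_simp

/-- An equivariant regular map on an equivariant family comes from a matrix of degree zero. -/
lemma exists_mhmg [Fintype ι] [Finite κ] {X : Spc} {a : ι → D} {b : κ → D}
    {L : Pt → Submodule ℂ (ι → ℂ)} (hL : IsEqv X a L) {φ : X.pts → (ι → ℂ) →ₗ[ℂ] (κ → ℂ)}
    (hφ : RegM X.fn φ) (h : ∀ x : X.pts, ∀ v ∈ L x.1, φ (X.gp x) (gd a v) = gd b (φ x v)) :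
    ∃ Φ : Matrix κ ι R, MHmg a b Φ ∧ ∀ x : X.pts, ∀ v ∈ L x.1, mev x.1 Φ v = φ x v := by
  obtain ⟨Φ, hΦ⟩ := regM_iff_mev.1 hφ
  refine ⟨mhc a b Φ, mhmg_mhc a b Φ, fun x v hv => ?_⟩
  rw [hΦ]
  refine mev_mhc (fun y hy w hw => (hL y hy w).1 hw) (fun y hy w hw => ?_) x.2 hv
  have := h ⟨y, hy⟩ w hw
  rwa [hΦ, hΦ] at this

end eqv

end Crest.Agent.N265
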