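import Crest.Agent.N265.Sp.Basic
import Crest.Agent.N265.K.AlgCore

/-! # Task K1: algebraic families of subspaces (constant rank lemma, local splittings) -/

set_option autoImplicit false
set_option linter.unusedSectionVars false
noncomputable section
open MvPolynomial Module

namespace Crest.Agent.N265
open Alg
variable {X : Spc} {ι κ : Type} [Fintype ι] [Fintype κ]

/-- every vector of `L x` is the value of a polynomial section -/
def Gen (X : Spc) (L : Pt → Submodule ℂ (ι → ℂ)) : Prop := ∀ x ∈ X.pts, ∀ v ∈ L x,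
  ∃ s : ι → R, (fun i => eval x (s i)) = v ∧ ∀ y ∈ X.pts, (fun i => eval y (s i)) ∈ L y
/-- every covector killing `L x` is the value of a polynomial covector killing `L` -/
def Cogen (X : Spc) (L : Pt → Submodule ℂ (ι → ℂ)) : Prop := ∀ x ∈ X.pts, ∀ a : ι → ℂ,
  (∀ v ∈ L x, ∑ i, a i * v i = 0) → ∃ s : ι → R, (fun i => eval x (s i)) = a ∧
    ∀ y ∈ X.pts, ∀ v ∈ L y, ∑ i, eval y (s i) * v i = 0
/-- orthogonal complement for the standard pairing -/
def perp (U : Submodule ℂ (ι → ℂ)) : Submodule ℂ (ι → ℂ) where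
  carrier := {a | ∀ v ∈ U, ∑ i, a i * v i = 0}
  add_mem' := by
    intro a b ha hb v hv
    simp only [Pi.add_apply, add_mul, Finset.sum_add_distrib, ha v hv, hb v hv, add_zero]
  zero_mem' := by intro v _; simp
  smul_mem' := by
    intro c a ha v hv
    simp only [Pi.smul_apply, smul_eq_mul, mul_assoc, ← Finset.mul_sum, ha v hv, mul_zero]
lemma mem_perp {U : Submodule ℂ (ι → ℂ)} {a : ι → ℂ} :
    a ∈ perp U ↔ ∀ v ∈ U, ∑ i, a i * v i = 0 := Iff.rfl
lemma perp_eq [DecidableEq ι] (U : Submodule ℂ (ι → ℂ)) :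
    perp U = U.dualAnnihilator.comap (dotProductEquiv ℂ ι).toLinearMap := by
  ext a
  rw [Submodule.mem_comap, Submodule.mem_dualAnnihilator]
  rfl
lemma finrank_perp (U : Submodule ℂ (ι → ℂ)) :
    finrank ℂ (perp U) + finrank ℂ U = Fintype.card ι := by
  classical
  rw [perp_eq, Submodule.comap_equiv_eq_map_symm, LinearEquiv.finrank_map_eq, add_comm,
    Subspace.finrank_add_finrank_dualAnnihilator_eq, finrank_fintype_fun_eq_card]
lemma le_perp_perp (U : Submodule ℂ (ι → ℂ)) : U ≤ perp (perp U) := fun v hv a ha => by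
  simpa only [mul_comm] using ha v hv
lemma perp_perp (U : Submodule ℂ (ι → ℂ)) : perp (perp U) = U := by
  refine (Submodule.eq_of_le_of_finrank_le (le_perp_perp U) ?_).symm
  have h1 := finrank_perp U
  have h2 := finrank_perp (perp U)
  omega
lemma perp_anti {U U' : Submodule ℂ (ι → ℂ)} (h : U ≤ U') : perp U' ≤ perp U :=
  fun _ ha v hv => ha v (h hv)
lemma le_perp_comm {U U' : Submodule ℂ (ι → ℂ)} : U ≤ perp U' ↔ U' ≤ perp U :=
  ⟨fun h => (le_perp_perp U').trans (perp_anti h), fun h => (le_perp_perp U).trans (perp_anti h)⟩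
lemma perp_bot : perp (⊥ : Submodule ℂ (ι → ℂ)) = ⊤ := top_le_iff.1 (le_perp_comm.1 bot_le)
lemma perp_top : perp (⊤ : Submodule ℂ (ι → ℂ)) = ⊥ := by rw [← perp_bot, perp_perp]
lemma perp_inj : Function.Injective (perp : Submodule ℂ (ι → ℂ) → Submodule ℂ (ι → ℂ)) :=
  fun U U' h => by rw [← perp_perp U, h, perp_perp]
lemma perp_iSup {α : Sort*} (F : α → Submodule ℂ (ι → ℂ)) : perp (⨆ a, F a) = ⨅ a, perp (F a) :=
  eq_of_forall_le_iff fun U => by simp only [le_perp_comm (U := U), iSup_le_iff, le_iInf_iff]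
lemma perp_iInf {α : Sort*} (F : α → Submodule ℂ (ι → ℂ)) : perp (⨅ a, F a) = ⨆ a, perp (F a) :=
  perp_inj (by simp only [perp_perp, perp_iSup])
lemma perp_sup (U U' : Submodule ℂ (ι → ℂ)) : perp (U ⊔ U') = perp U ⊓ perp U' :=
  eq_of_forall_le_iff fun N => by simp only [le_perp_comm (U := N), sup_le_iff, le_inf_iff]
lemma perp_inf (U U' : Submodule ℂ (ι → ℂ)) : perp (U ⊓ U') = perp U ⊔ perp U' :=
  perp_inj (by simp only [perp_perp, perp_sup])
lemma pair_mev (x : Pt) (Φ : Matrix κ ι R) (a : κ → ℂ) (v : ι → ℂ) :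
    ∑ j, a j * mev x Φ v j = ∑ i, mev x Φ.transpose a i * v i := by
  simp only [mev_apply, Finset.mul_sum, Finset.sum_mul, Matrix.transpose_apply]
  rw [Finset.sum_comm]
  exact Finset.sum_congr rfl fun i _ => Finset.sum_congr rfl fun j _ => by ring
lemma perp_map (x : Pt) (Φ : Matrix κ ι R) (U : Submodule ℂ (ι → ℂ)) :
    perp (U.map (mev x Φ)) = (perp U).comap (mev x Φ.transpose) := by
  ext a
  simp only [mem_perp, Submodule.mem_comap, ← pair_mev]
  exact ⟨fun h v hv => h _ ⟨v, hv, rfl⟩, by rintro h _ ⟨v, hv, rfl⟩; exact h v hv⟩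
lemma perp_comap (x : Pt) (Φ : Matrix κ ι R) (U : Submodule ℂ (κ → ℂ)) :
    perp (U.comap (mev x Φ)) = (perp U).map (mev x Φ.transpose) :=
  perp_inj (by rw [perp_perp, perp_map, perp_perp, Matrix.transpose_transpose])

variable {L L' : Pt → Submodule ℂ (ι → ℂ)} {N : Pt → Submodule ℂ (κ → ℂ)}
lemma cogen_iff : Cogen X L ↔ Gen X fun x => perp (L x) := Iff.rfl
lemma gen_iff : Gen X L ↔ ∀ x : X.pts, ∀ v ∈ L x.1, ∃ s : X.pts → ι → ℂ,
    RegV X.fn s ∧ (∀ y, s y ∈ L y.1) ∧ s x = v := by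
  constructor
  · intro h x v hv
    obtain ⟨s, h1, h2⟩ := h x.1 x.2 v hv
    exact ⟨_, regV_poly X s, fun y => h2 y.1 y.2, h1⟩
  · intro h x hx v hv
    obtain ⟨s, hs, h1, h2⟩ := h ⟨x, hx⟩ v hv
    obtain ⟨r, hr⟩ := regV_iff_poly.1 hs
    refine ⟨r, ?_, fun y hy => ?_⟩
    · rw [← h2]; exact funext fun i => (hr ⟨x, hx⟩ i).symm
    · exact (funext (hr ⟨y, hy⟩) : s ⟨y, hy⟩ = _) ▸ h1 ⟨y, hy⟩
lemma usc_iff {f : Pt → ℤ} : X.USC f ↔ ∀ x : X.pts, Near X.fn x fun y => f y.1 ≤ f x.1 := by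
  simp only [near_iff, Spc.USC, Subtype.forall]
lemma lc_iff {α : Type*} {f : Pt → α} :
    X.LC f ↔ ∀ x : X.pts, Near X.fn x fun y => f y.1 = f x.1 := by
  simp only [near_iff, Spc.LC, Subtype.forall]
/-- sections extending a basis of the fibre -/
lemma Gen.frame (h : Gen X L) (x : X.pts) : ∃ s : Fin (finrank ℂ (L x.1)) → X.pts → ι → ℂ,
    (∀ i, RegV X.fn (s i)) ∧ (∀ y, Submodule.span ℂ (Set.range fun i => s i y) ≤ L y.1) ∧
      Near X.fn x fun y =>
        finrank ℂ (Submodule.span ℂ (Set.range fun i => s i y)) = finrank ℂ (L x.1) := by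
  let b := finBasis ℂ (L x.1)
  choose s hs h1 h2 using fun i => gen_iff.1 h x _ (b i).2
  have li : LinearIndependent ℂ fun i => s i x := by
    simp only [h2]
    exact b.linearIndependent.map' (L x.1).subtype (Submodule.ker_subtype _)
  refine ⟨s, hs, fun y => ?_, (near_linearIndependent hs li).mono fun y hy => ?_⟩
  · rw [Submodule.span_le]; rintro _ ⟨i, rfl⟩; exact h1 i y
  · rw [finrank_span_eq_card hy, Fintype.card_fin]
lemma IsAlg.gen (h : IsAlg X L) : Gen X L :=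
  gen_iff.2 fun _ _ hv => (isAlg_iff.1 h).exists_section hv
lemma IsAlg.perp (h : IsAlg X L) : IsAlg X fun x => perp (L x) := by
  classical
  simp only [perp_eq]
  exact isAlg_iff.2 ((isAlg_iff.1 h).perp.comap_equiv (dotProductEquiv ℂ ι))
lemma IsAlg.cogen (h : IsAlg X L) : Cogen X L := cogen_iff.2 h.perp.gen
lemma IsAlg.congr (h : IsAlg X L) (e : ∀ x ∈ X.pts, L x = L' x) : IsAlg X L' :=
  isAlg_iff.2 ((isAlg_iff.1 h).congr fun x => e x.1 x.2)
lemma Gen.congr (h : Gen X L) (e : ∀ x ∈ X.pts, L x = L' x) : Gen X L' := by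
  intro x hx v hv
  obtain ⟨s, h1, h2⟩ := h x hx v (e x hx ▸ hv)
  exact ⟨s, h1, fun y hy => e y hy ▸ h2 y hy⟩
lemma Cogen.congr (h : Cogen X L) (e : ∀ x ∈ X.pts, L x = L' x) : Cogen X L' :=
  cogen_iff.2 ((cogen_iff.1 h).congr fun x hx => by rw [e x hx])
lemma isAlg_const (U : Submodule ℂ (ι → ℂ)) : IsAlg X fun _ => U := isAlg_iff.2 (Alg.const U)
lemma Gen.usc (h : Gen X L) : X.USC fun x => -(finrank ℂ (L x) : ℤ) := usc_iff.2 fun x => by
  obtain ⟨s, -, h1, h2⟩ := h.frame x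
  refine h2.mono fun y hy => ?_
  have := Submodule.finrank_mono (h1 y)
  omega
lemma Cogen.usc (h : Cogen X L) : X.USC fun x => (finrank ℂ (L x) : ℤ) := usc_iff.2 fun x =>
  (usc_iff.1 (cogen_iff.1 h).usc x).mono fun y hy => by
    have h1 := finrank_perp (L x.1)
    have h2 := finrank_perp (L y.1)
    omega
lemma IsAlg.lc (h : IsAlg X L) : X.LC fun x => finrank ℂ (L x) :=
  lc_iff.2 fun x => (isAlg_iff.1 h).near_finrank x
/-- constant rank lemma -/
theorem Gen.isAlg (h : Gen X L) (hr : X.USC fun x => (finrank ℂ (L x) : ℤ)) : IsAlg X L :=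
  isAlg_iff.2 fun x => by
    obtain ⟨s, hs, h1, h2⟩ := h.frame x
    have hr' : Near X.fn x fun y => finrank ℂ (L y.1) ≤ finrank ℂ (L x.1) :=
      (usc_iff.1 hr x).mono fun y hy => by exact_mod_cast hy
    exact AlgAt.of_span hs ((h2.and hr').mono fun y hy =>
      (Submodule.eq_of_le_of_finrank_le (h1 y) (hy.2.trans hy.1.ge)).symm) hr'
theorem isAlg_of (h : Gen X L) (h' : Cogen X L) : IsAlg X L := h.isAlg h'.usc
theorem Cogen.isAlg (h : Cogen X L) (hr : X.USC fun x => -(finrank ℂ (L x) : ℤ)) : IsAlg X L := by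
  refine ((cogen_iff.1 h).isAlg (usc_iff.2 fun x => (usc_iff.1 hr x).mono fun y hy => ?_)).perp.congr
    fun x _ => perp_perp _
  have h1 := finrank_perp (L x.1)
  have h2 := finrank_perp (L y.1)
  omega
theorem Gen.isAlg_of_rk (h : Gen X L) {n : ℕ} (hr : ∀ x ∈ X.pts, finrank ℂ (L x) = n) :
    IsAlg X L :=
  h.isAlg (usc_iff.2 fun x => Near.of_forall fun y => by rw [hr _ x.2, hr _ y.2])
theorem Cogen.isAlg_of_rk (h : Cogen X L) {n : ℕ} (hr : ∀ x ∈ X.pts, finrank ℂ (L x) = n) :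
    IsAlg X L :=
  h.isAlg (usc_iff.2 fun x => Near.of_forall fun y => by rw [hr _ x.2, hr _ y.2])
lemma Gen.map (h : Gen X L) (Φ : Matrix κ ι R) : Gen X fun x => (L x).map (mev x Φ) :=
  gen_iff.2 fun x => by
    rintro _ ⟨v, hv, rfl⟩
    obtain ⟨s, hs, h1, rfl⟩ := gen_iff.1 h x v hv
    exact ⟨_, (regM_mev X Φ).apply hs, fun y => ⟨_, h1 y, rfl⟩, rfl⟩
lemma Cogen.comap (h : Cogen X N) (Φ : Matrix κ ι R) : Cogen X fun x => (N x).comap (mev x Φ) :=
  cogen_iff.2 (((cogen_iff.1 h).map Φ.transpose).congr fun x _ => (perp_comap x Φ _).symm)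
lemma Gen.sup (h : Gen X L) (h' : Gen X L') : Gen X fun x => L x ⊔ L' x :=
  gen_iff.2 fun x v hv => by
    obtain ⟨u, hu, w, hw, rfl⟩ := Submodule.mem_sup.1 hv
    obtain ⟨s, hs, h1, rfl⟩ := gen_iff.1 h x u hu
    obtain ⟨t, ht, h2, rfl⟩ := gen_iff.1 h' x w hw
    exact ⟨_, hs.add ht, fun y => Submodule.add_mem_sup (h1 y) (h2 y), rfl⟩
lemma Cogen.inf (h : Cogen X L) (h' : Cogen X L') : Cogen X fun x => L x ⊓ L' x :=
  cogen_iff.2 (((cogen_iff.1 h).sup (cogen_iff.1 h')).congr fun _ _ => (perp_inf _ _).symm)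
lemma Gen.iSup {α : Type} {F : α → Pt → Submodule ℂ (ι → ℂ)} (h : ∀ a, Gen X (F a)) :
    Gen X fun x => ⨆ a, F a x :=
  gen_iff.2 fun x v hv => by
    induction hv using Submodule.iSup_induction' with
    | mem a v hv =>
      obtain ⟨s, hs, h1, h2⟩ := gen_iff.1 (h a) x v hv
      exact ⟨s, hs, fun y => Submodule.mem_iSup_of_mem a (h1 y), h2⟩
    | zero => exact ⟨_, RegV.zero, fun _ => zero_mem _, rfl⟩
    | add u w _ _ hu hw =>
      obtain ⟨s, hs, h1, rfl⟩ := hu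
      obtain ⟨t, ht, h2, rfl⟩ := hw
      exact ⟨_, hs.add ht, fun y => add_mem (h1 y) (h2 y), rfl⟩
lemma Cogen.iInf {α : Type} {F : α → Pt → Submodule ℂ (ι → ℂ)} (h : ∀ a, Cogen X (F a)) :
    Cogen X fun x => ⨅ a, F a x :=
  cogen_iff.2 ((Gen.iSup fun a => cogen_iff.1 (h a)).congr fun _ _ => (perp_iInf _).symm)
lemma gen_span {α : Type} (s : α → ι → R) :
    Gen X fun x => Submodule.span ℂ (Set.range fun a => fun i => eval x (s a i)) :=
  gen_iff.2 fun x v hv => by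
    induction hv using Submodule.span_induction with
    | mem v hv =>
      obtain ⟨a, rfl⟩ := hv
      exact ⟨_, regV_poly X (s a), fun y => Submodule.subset_span ⟨a, rfl⟩, rfl⟩
    | zero => exact ⟨_, RegV.zero, fun _ => zero_mem _, rfl⟩
    | add u w _ _ hu hw =>
      obtain ⟨s, hs, h1, rfl⟩ := hu
      obtain ⟨t, ht, h2, rfl⟩ := hw
      exact ⟨_, hs.add ht, fun y => add_mem (h1 y) (h2 y), rfl⟩
    | smul c u _ hu =>
      obtain ⟨s, hs, h1, rfl⟩ := hu
      exact ⟨_, hs.csmul c, fun y => Submodule.smul_mem _ _ (h1 y), rfl⟩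
/-- being generated is local -/
lemma gen_of_local (h : ∀ x ∈ X.pts, ∀ v ∈ L x, ∃ (r : R) (s : ι → R), eval x r ≠ 0 ∧
    (fun i => eval x (s i)) = v ∧ ∀ y ∈ X.pts, eval y r ≠ 0 → (fun i => eval y (s i)) ∈ L y) :
    Gen X L :=
  gen_iff.2 fun x v hv => by
    obtain ⟨r, s, h0, h1, h2⟩ := h x.1 x.2 v hv
    refine ⟨_, ((regV_poly X s).smul (X.eval_mem_fn r)).csmul (eval x.1 r)⁻¹, fun y => ?_, ?_⟩
    · by_cases hy : eval y.1 r = 0
      · simp [hy]
      · exact Submodule.smul_mem _ _ (Submodule.smul_mem _ _ (h2 y.1 y.2 hy))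
    · simp only [h1, smul_smul, inv_mul_cancel₀ h0, one_smul]
lemma IsAlg.pull {Y : Spc} (p : Proj Y X) (h : IsAlg X L) : IsAlg Y fun y => L (restr X.B y) :=
  isAlg_iff.2 ((isAlg_iff.1 h).precomp p.pt p.fn_comp)
lemma Gen.pull {Y : Spc} (p : Proj Y X) (h : Gen X L) : Gen Y fun y => L (restr X.B y) :=
  gen_iff.2 fun y v hv => by
    obtain ⟨s, hs, h1, h2⟩ := gen_iff.1 h (p.pt y) v hv
    exact ⟨_, hs.precomp p.pt p.fn_comp, fun z => h1 (p.pt z), h2⟩
lemma Cogen.pull {Y : Spc} (p : Proj Y X) (h : Cogen X L) : Cogen Y fun y => L (restr X.B y) :=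
  cogen_iff.2 ((cogen_iff.1 h).pull p)
/-- if the kernel has lower semicontinuous rank or the image upper semicontinuous rank,
kernel and image of a map on an algebraic family are algebraic -/
theorem IsAlg.map_of_usc (h : IsAlg X L) (Φ : Matrix κ ι R)
    (hr : X.USC fun x => (finrank ℂ ((L x).map (mev x Φ)) : ℤ)) :
    IsAlg X (fun x => (L x).map (mev x Φ)) ∧ IsAlg X fun x => L x ⊓ LinearMap.ker (mev x Φ) := by
  have hr' : ∀ x : X.pts, Near X.fn x fun y => finrank ℂ ((L y.1).map (mev y.1 Φ)) ≤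
      finrank ℂ ((L x.1).map (mev x.1 Φ)) :=
    fun x => (usc_iff.1 hr x).mono fun y hy => by exact_mod_cast hy
  exact ⟨isAlg_iff.2 ((isAlg_iff.1 h).map (regM_mev X Φ) hr'),
    isAlg_iff.2 ((isAlg_iff.1 h).ker (regM_mev X Φ) hr')⟩
theorem IsAlg.map_of_inj (h : IsAlg X L) (Φ : Matrix κ ι R)
    (hr : ∀ x ∈ X.pts, L x ⊓ LinearMap.ker (mev x Φ) = ⊥) :
    IsAlg X fun x => (L x).map (mev x Φ) :=
  isAlg_iff.2 ((isAlg_iff.1 h).map_of_inj (regM_mev X Φ) fun x => hr x.1 x.2)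
theorem IsAlg.ker_of_surj (h : IsAlg X L) (hN : IsAlg X N) (Φ : Matrix κ ι R)
    (hr : ∀ x ∈ X.pts, (L x).map (mev x Φ) = N x) :
    IsAlg X fun x => L x ⊓ LinearMap.ker (mev x Φ) :=
  isAlg_iff.2 ((isAlg_iff.1 h).ker_of_map (isAlg_iff.1 hN) (regM_mev X Φ) fun x => (hr x.1 x.2).symm)
/-- local lifting in polynomial form; the extra condition `p` holds where `r` is not zero -/
theorem IsAlg.exists_lift (h : IsAlg X L) (Φ : Matrix κ ι R) (x : X.pts) {p : X.pts → Prop}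
    (hp : Near X.fn x p) (hr : Near X.fn x fun y => finrank ℂ ((L y.1).map (mev y.1 Φ)) ≤
      finrank ℂ ((L x.1).map (mev x.1 Φ))) : ∃ (r : R) (H : Matrix ι κ R), eval x.1 r ≠ 0 ∧
      ∀ y : X.pts, (eval y.1 r ≠ 0 → p y) ∧ (∀ w, mev y.1 H w ∈ L y.1) ∧
        ∀ w ∈ (L y.1).map (mev y.1 Φ), mev y.1 Φ (mev y.1 H w) = eval y.1 r • w := by
  obtain ⟨f, hf, f0, σ, hσ, h1, h2⟩ := ((isAlg_iff.1 h).algAt x).lift (regM_mev X Φ) hr
  obtain ⟨r, hr⟩ := Spc.mem_fn.1 hf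
  obtain ⟨H, hH⟩ := regM_iff_mev.1 hσ
  obtain ⟨c, c0, hc⟩ := near_iff.1 hp
  refine ⟨c * r, c • H, by rw [map_mul, ← hr]; exact mul_ne_zero c0 f0, fun y => ⟨fun hy =>
    hc y (left_ne_zero_of_mul (map_mul (eval y.1) c r ▸ hy)), fun w => ?_, fun w hw => ?_⟩⟩
  · rw [mev_smul, ← hH]; exact Submodule.smul_mem _ _ (h1 y w)
  · rw [mev_smul, ← hH, LinearMap.smul_apply, map_smul, h2 y w hw, smul_smul, map_mul, hr]
/-- local retraction of a map that is injective at `x` -/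
theorem IsAlg.exists_retr (h : IsAlg X L) (Φ : Matrix κ ι R) {x : Pt} (hx : x ∈ X.pts)
    (hi : L x ⊓ LinearMap.ker (mev x Φ) = ⊥) : ∃ (r : R) (H : Matrix ι κ R), eval x r ≠ 0 ∧
      ∀ y ∈ X.pts, (∀ w, mev y H w ∈ L y) ∧ ∀ v ∈ L y, mev y H (mev y Φ v) = eval y r • v := by
  have hA := (isAlg_iff.1 h).algAt ⟨x, hx⟩
  have hn := hA.near_inj (regM_mev X Φ) hi
  obtain ⟨r, H, r0, hH⟩ := h.exists_lift Φ ⟨x, hx⟩ hn
    (hA.near_rank_of_ker (Near.of_forall fun y => by rw [hi, finrank_bot]; exact Nat.zero_le _))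
  refine ⟨r * r, r • H, by rw [map_mul]; exact mul_ne_zero r0 r0, fun y hy => ⟨fun w => ?_,
    fun v hv => ?_⟩⟩
  · rw [mev_smul]; exact Submodule.smul_mem _ _ ((hH ⟨y, hy⟩).2.1 w)
  obtain ⟨h1, h2, h3⟩ := hH ⟨y, hy⟩
  rw [mev_smul, LinearMap.smul_apply, map_mul, mul_smul]
  by_cases hr : eval y r = 0
  · simp [hr]
  congr 1
  rw [← sub_eq_zero, ← Submodule.mem_bot ℂ, ← h1 hr]
  refine ⟨sub_mem (h2 _) (Submodule.smul_mem _ _ hv), ?_⟩
  simp only [SetLike.mem_coe, LinearMap.mem_ker, map_sub, map_smul]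
  rw [h3 _ ⟨v, hv, rfl⟩, sub_self]
/-- local section of a map that is onto at `x` -/
theorem IsAlg.exists_sect (h : IsAlg X L) (hN : IsAlg X N) (Φ : Matrix κ ι R)
    (hΦ : ∀ y ∈ X.pts, (L y).map (mev y Φ) ≤ N y) {x : Pt} (hx : x ∈ X.pts)
    (hs : (L x).map (mev x Φ) = N x) : ∃ (r : R) (H : Matrix ι κ R), eval x r ≠ 0 ∧
      ∀ y ∈ X.pts, (∀ w, mev y H w ∈ L y) ∧ ∀ w ∈ N y, mev y Φ (mev y H w) = eval y r • w := by
  have hB := (isAlg_iff.1 hN).algAt ⟨x, hx⟩
  have hn := ((isAlg_iff.1 h).algAt ⟨x, hx⟩).near_surj hB (regM_mev X Φ)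
    (Near.of_forall fun y => hΦ y.1 y.2) hs
  obtain ⟨r, H, r0, hH⟩ := h.exists_lift Φ ⟨x, hx⟩ hn
    ((hn.and hB.near_finrank).mono fun y hy => by rw [hy.1, hy.2, hs])
  refine ⟨r * r, r • H, by rw [map_mul]; exact mul_ne_zero r0 r0, fun y hy => ⟨fun w => ?_,
    fun w hw => ?_⟩⟩
  · rw [mev_smul]; exact Submodule.smul_mem _ _ ((hH ⟨y, hy⟩).2.1 w)
  obtain ⟨h1, -, h3⟩ := hH ⟨y, hy⟩
  rw [mev_smul, LinearMap.smul_apply, map_mul, mul_smul, map_smul]
  by_cases hr : eval y r = 0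
  · simp [hr]
  rw [h3 w (h1 hr ▸ hw)]
/-- local contracting homotopy of a complex `L → N → L₂` that is exact at `x` in the middle -/
theorem IsAlg.exists_homotopy {μ : Type} [Fintype μ] {L₂ : Pt → Submodule ℂ (μ → ℂ)}
    (h : IsAlg X L) (hN : IsAlg X N) (h₂ : IsAlg X L₂) (Φ : Matrix κ ι R) (Ψ : Matrix μ κ R)
    (hΦ : ∀ y ∈ X.pts, (L y).map (mev y Φ) ≤ N y ⊓ LinearMap.ker (mev y Ψ))
    (hΨ : ∀ y ∈ X.pts, (N y).map (mev y Ψ) ≤ L₂ y) {x : Pt} (hx : x ∈ X.pts)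
    (he : (L x).map (mev x Φ) = N x ⊓ LinearMap.ker (mev x Ψ)) :
    ∃ (r : R) (H : Matrix ι κ R) (H' : Matrix κ μ R), eval x r ≠ 0 ∧ ∀ y ∈ X.pts,
      (∀ w, mev y H w ∈ L y) ∧ (∀ w, mev y H' w ∈ N y) ∧
      ∀ v ∈ N y, mev y Φ (mev y H v) + mev y H' (mev y Ψ v) = eval y r • v := by
  classical
  have _ := h₂
  have _ := hΨ
  have hA := (isAlg_iff.1 h).algAt ⟨x, hx⟩
  have hB := (isAlg_iff.1 hN).algAt ⟨x, hx⟩
  have key : Near X.fn ⟨x, hx⟩ fun y =>
      (L y.1).map (mev y.1 Φ) = N y.1 ⊓ LinearMap.ker (mev y.1 Ψ) ∧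
      finrank ℂ ((L y.1).map (mev y.1 Φ)) ≤ finrank ℂ ((L x).map (mev x Φ)) ∧
      finrank ℂ ((N y.1).map (mev y.1 Ψ)) ≤ finrank ℂ ((N x).map (mev x Ψ)) := by
    refine ((hA.rank_lsc (regM_mev X Φ)).and ((hB.rank_lsc (regM_mev X Ψ)).and
      hB.near_finrank)).mono fun y hy => ?_
    obtain ⟨e1, e2, e3⟩ := hy
    have e4 := finrank_map_add_inf_ker (N y.1) (mev y.1 Ψ)
    have e5 := finrank_map_add_inf_ker (N x) (mev x Ψ)
    have e6 := Submodule.finrank_mono (hΦ y.1 y.2)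
    rw [← he] at e5
    dsimp only at e1 e2 e3
    exact ⟨Submodule.eq_of_le_of_finrank_le (hΦ y.1 y.2) (by omega), by omega, by omega⟩
  obtain ⟨f, H, f0, hH⟩ := h.exists_lift Φ ⟨x, hx⟩ key (key.mono fun _ hy => hy.2.1)
  obtain ⟨g, H', g0, hH'⟩ := hN.exists_lift Ψ ⟨x, hx⟩ key (key.mono fun _ hy => hy.2.2)
  refine ⟨f * f * g, f • (H * (g • 1 - H' * Ψ)), (f * f) • H', by
    simp only [map_mul]; exact mul_ne_zero (mul_ne_zero f0 f0) g0, fun y hy => ?_⟩
  obtain ⟨h1, h2', h3⟩ := hH ⟨y, hy⟩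
  obtain ⟨-, k2, k3⟩ := hH' ⟨y, hy⟩
  simp only [mev_smul, LinearMap.smul_apply, mev_mul, mev_sub, LinearMap.sub_apply, mev_one,
    LinearMap.id_apply, map_mul]
  refine ⟨fun w => Submodule.smul_mem _ _ (h2' _), fun w => Submodule.smul_mem _ _ (k2 _),
    fun v hv => ?_⟩
  by_cases hr : eval y f = 0
  · simp [hr]
  have hu : eval y g • v - mev y H' (mev y Ψ v) ∈ (L y).map (mev y Φ) := by
    rw [(h1 hr).1]
    refine ⟨sub_mem (Submodule.smul_mem _ _ hv) (k2 _), ?_⟩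
    simp only [SetLike.mem_coe, LinearMap.mem_ker, map_sub, map_smul]
    rw [k3 _ ⟨v, hv, rfl⟩, sub_self]
  rw [map_smul, h3 _ hu]
  module

/-! equivariance -/
variable {a : ι → D} {b : κ → D}
lemma IsEqv.map (h : IsEqv X a L) {Φ : Matrix κ ι R} (hΦ : MHmg a b Φ) :
    IsEqv X b fun x => (L x).map (mev x Φ) := isEqv_iff.2 fun x hx => by
  rw [← isEqv_iff.1 h x hx, ← Submodule.map_comp, ← Submodule.map_comp]
  congr 1
  exact LinearMap.ext fun v => (hΦ.mev_gpt x v).symm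
lemma IsEqv.comap (h : IsEqv X b N) {Φ : Matrix κ ι R} (hΦ : MHmg a b Φ) :
    IsEqv X a fun x => (N x).comap (mev x Φ) := isEqv_iff'.2 fun x hx v => by
  rw [Submodule.mem_comap, Submodule.mem_comap, hΦ.mev_gpt]
  exact isEqv_iff'.1 h x hx _
omit [Fintype ι] in
lemma IsEqv.inf (h : IsEqv X a L) (h' : IsEqv X a L') : IsEqv X a fun x => L x ⊓ L' x :=
  fun x hx v => and_congr (h x hx v) (h' x hx v)
omit [Fintype ι] in
lemma IsEqv.sup (h : IsEqv X a L) (h' : IsEqv X a L') : IsEqv X a fun x => L x ⊔ L' x :=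
  isEqv_iff.2 fun x hx => by rw [Submodule.map_sup, isEqv_iff.1 h x hx, isEqv_iff.1 h' x hx]
lemma pair_gd (a : ι → D) (u v : ι → ℂ) :
    ∑ i, gd (fun i => -a i) u i * gd a v i = ∑ i, u i * v i :=
  Finset.sum_congr rfl fun i _ => by
    rw [gd_apply, gd_apply, chi_neg]
    have := chi_ne (a i)
    field_simp
lemma IsEqv.perp (h : IsEqv X a L) : IsEqv X (fun i => -a i) fun x => perp (L x) :=
  isEqv_iff'.2 fun x hx u => by
    rw [← isEqv_iff.1 h x hx, mem_perp, mem_perp]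
    refine ⟨?_, fun hu v hv => pair_gd a u v ▸ hu _ ⟨v, hv, rfl⟩⟩
    rintro hu _ ⟨v, hv, rfl⟩
    exact (pair_gd a u v).trans (hu v hv)
omit [Fintype ι] in
lemma isEqv_top : IsEqv X a fun _ => ⊤ := fun _ _ _ => Iff.rfl
omit [Fintype ι] in
lemma isEqv_bot : IsEqv X a fun _ => ⊥ := isEqv_iff.2 fun _ _ => Submodule.map_bot _
omit [Fintype ι] in
lemma IsEqv.congr (h : IsEqv X a L) (e : ∀ x ∈ X.pts, L x = L' x) : IsEqv X a L' :=
  fun x hx v => by rw [← e x hx, ← e _ (X.inv x hx)]; exact h x hx v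
omit [Fintype ι] in
lemma IsEqv.finrank (h : IsEqv X a L) {x : Pt} (hx : x ∈ X.pts) :
    finrank ℂ (L (gpt x)) = finrank ℂ (L x) := by
  rw [← isEqv_iff.1 h x hx, LinearEquiv.finrank_map_eq]
lemma exists_sum_hc_sec (a : ι → D) (s : ι → R) : ∃ S : Finset D, ∀ S' : Finset D, S ⊆ S' →
    ∀ i, ∑ e ∈ S', hc (a i - e) (s i) = s i := by
  classical
  choose S hS using fun i => exists_sum_hc' (s i)
  refine ⟨Finset.univ.biUnion fun i => (S i).image fun d => a i - d, fun S' h i => ?_⟩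
  rw [← Finset.sum_image (s := S') (g := fun e => a i - e) (f := fun d => hc d (s i))
    fun _ _ _ _ h => sub_right_injective h]
  refine hS i _ fun d hd => Finset.mem_image.2 ⟨a i - d, h ?_, by abel⟩
  exact Finset.mem_biUnion.2 ⟨i, Finset.mem_univ _, Finset.mem_image_of_mem _ hd⟩
/-- the homogeneous components of a section of an equivariant family are sections -/
lemma IsEqv.hc_sec (he : IsEqv X a L) {s : ι → R}
    (hs : ∀ y ∈ X.pts, (fun i => eval y (s i)) ∈ L y) (e : D) {x : Pt} (hx : x ∈ X.pts) :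
    (fun i => eval x (hc (a i - e) (s i))) ∈ L x := by
  classical
  obtain ⟨S, hS⟩ := exists_sum_hc_sec a s
  have it : ∀ (n : ℕ) (v : ι → ℂ), (fun i => chi (a i) ^ n * v i) ∈ L (gpt^[n] x) → v ∈ L x := by
    intro n
    induction n with
    | zero => intro v hv; simpa using hv
    | succ n ih =>
      intro v hv
      refine ih v ((he _ (X.iter_mem hx n) _).2 ?_)
      rw [Function.iterate_succ_apply'] at hv
      convert hv using 2
      ring
  have := chi_indep ((insert e S).image fun d => -d)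
    (fun d => (L x).mkQ fun i => eval x (hc (a i + d) (s i))) (fun n => ?_) (-e)
    (Finset.mem_image_of_mem _ (Finset.mem_insert_self _ _))
  · simpa only [Submodule.mkQ_apply, Submodule.Quotient.mk_eq_zero, sub_eq_add_neg] using this
  simp only [← map_smul]
  rw [← map_sum, Submodule.mkQ_apply, Submodule.Quotient.mk_eq_zero]
  refine it n _ ?_
  convert hs _ (X.iter_mem hx n) using 2 with i
  rw [Finset.sum_image fun _ _ _ _ h => neg_injective h, Finset.sum_apply, Finset.mul_sum]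
  conv_rhs => rw [← hS _ (Finset.subset_insert e S) i, map_sum]
  refine Finset.sum_congr rfl fun d _ => ?_
  rw [(hc_hmg _ _).eval_iter, sub_eq_add_neg, chi_add, mul_pow, Pi.smul_apply, smul_eq_mul,
    mul_assoc]
/-- finitely many homogeneous sections span a generated equivariant family at every point -/
theorem Gen.exists_hmg (h : Gen X L) (he : IsEqv X a L) (ha : ∀ i, a i ∈ DS X.B) :
    ∃ (n : ℕ) (e : Fin n → D) (Φ : Matrix ι (Fin n) R), (∀ j, e j ∈ DS X.B) ∧ MHmg e a Φ ∧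
      ∀ x ∈ X.pts, LinearMap.range (mev x Φ) = L x := by
  classical
  let T : Set (ι → R ⧸ X.I) := {m | ∃ (e : D) (s : ι → R), e ∈ DS X.B ∧ (∀ i, Hmg (a i - e) (s i)) ∧
    (∀ y ∈ X.pts, (fun i => eval y (s i)) ∈ L y) ∧ m = fun i => Ideal.Quotient.mk X.I (s i)}
  obtain ⟨F, hF, hsp⟩ := (Submodule.fg_span_iff_fg_span_finset_subset (R := R ⧸ X.I) T).1
    (IsNoetherian.noetherian _)
  choose e s h1 h2 h3 h4 using fun j : Fin F.card => hF (F.equivFin.symm j).2
  refine ⟨F.card, e, Matrix.of fun i j => s j i, h1, fun i j => h2 j i, fun x hx => ?_⟩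
  have hcol : ∀ j, mev x (Matrix.of fun i j => s j i) (Pi.single j 1) = fun i => eval x (s j i) := by
    intro j; funext i; simp [mev_apply, Pi.single_apply]
  refine le_antisymm ?_ fun v hv => ?_
  · rw [← Submodule.map_top, ← (Pi.basisFun ℂ _).span_eq, Submodule.map_span, Submodule.span_le]
    rintro _ ⟨_, ⟨j, rfl⟩, rfl⟩
    rw [Pi.basisFun_apply, hcol]
    exact h3 j x hx
  let ev : R ⧸ X.I →+* ℂ := Ideal.Quotient.lift X.I (eval x) fun r hr => hr x hx
  have key : ∀ m ∈ Submodule.span (R ⧸ X.I) (F : Set (ι → R ⧸ X.I)),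
      (fun i => ev (m i)) ∈ LinearMap.range (mev x (Matrix.of fun i j => s j i)) := by
    intro m hm
    induction hm using Submodule.span_induction with
    | mem m hm =>
      have := h4 (F.equivFin ⟨m, hm⟩)
      rw [Equiv.symm_apply_apply] at this
      refine ⟨Pi.single (F.equivFin ⟨m, hm⟩) 1, (hcol _).trans (funext fun i => ?_)⟩
      exact (congrArg ev (congrFun this i)).symm
    | zero => simp only [Pi.zero_apply, map_zero]; exact zero_mem _
    | add m m' _ _ hm hm' => simp only [Pi.add_apply, map_add]; exact add_mem hm hm'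
    | smul c m _ hm =>
      simp only [Pi.smul_apply, smul_eq_mul, map_mul]; exact Submodule.smul_mem _ (ev c) hm
  obtain ⟨t, rfl, ht⟩ := h x hx v hv
  obtain ⟨S, hS⟩ := exists_sum_hc_sec a t
  have : (fun i => eval x (t i)) = ∑ d ∈ S, fun i => eval x (hc (a i - d) (t i)) := by
    funext i; rw [Finset.sum_apply, ← map_sum, hS S subset_rfl]
  rw [this]
  refine sum_mem fun d _ => ?_
  by_cases hd : d ∈ DS X.B
  · have hT : (fun i => Ideal.Quotient.mk X.I (hc (a i - d) (t i))) ∈ T :=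
      ⟨d, _, hd, fun i => hc_hmg _ _, fun y hy => he.hc_sec ht d hy, rfl⟩
    exact key _ (hsp ▸ Submodule.subset_span hT)
  · convert Submodule.zero_mem _ using 1
    funext i
    rw [← X.restr_eq hx, ← eval_kill, (hc_hmg _ _).kill_eq_zero, map_zero, Pi.zero_apply]
    exact fun h => hd (by simpa using sub_mem (ha i) h)
/-- finitely many homogeneous covectors cut out a cogenerated equivariant family -/
theorem Cogen.exists_hmg (h : Cogen X L) (he : IsEqv X a L) (ha : ∀ i, a i ∈ DS X.B) :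
    ∃ (n : ℕ) (e : Fin n → D) (Φ : Matrix (Fin n) ι R), (∀ j, e j ∈ DS X.B) ∧ MHmg a e Φ ∧
      ∀ x ∈ X.pts, LinearMap.ker (mev x Φ) = L x := by
  obtain ⟨n, e, Φ, h1, h2, h3⟩ := (cogen_iff.1 h).exists_hmg he.perp fun i => neg_mem (ha i)
  refine ⟨n, fun j => -e j, Φ.transpose, fun j => neg_mem (h1 j), fun j i => ?_, fun x hx => ?_⟩
  · have := h2 i j
    rwa [show -a i - e j = -e j - a i by abel] at this
  · rw [← Submodule.comap_bot, ← perp_top, ← perp_map, Submodule.map_top, h3 x hx, perp_perp]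
/-- equivariance under the whole torus -/
theorem Gen.tpt (h : Gen X L) (he : IsEqv X a L) (c : Tor) {x : Pt} (hx : x ∈ X.pts) {v : ι → ℂ}
    (hv : v ∈ L x) : (fun i => (c (Multiplicative.ofAdd (a i)) : ℂ) * v i) ∈ L (tpt c x) := by
  obtain ⟨t, rfl, ht⟩ := h x hx v hv
  obtain ⟨S, hS⟩ := exists_sum_hc_sec a t
  have : (fun i => (c (Multiplicative.ofAdd (a i)) : ℂ) * eval x (t i)) =
      ∑ d ∈ S, (c (Multiplicative.ofAdd d) : ℂ) •
        fun i => eval (N265.tpt c x) (hc (a i - d) (t i)) := by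
    funext i
    rw [Finset.sum_apply]
    conv_lhs => rw [← hS S subset_rfl i, map_sum, Finset.mul_sum]
    refine Finset.sum_congr rfl fun d _ => ?_
    rw [Pi.smul_apply, (hc_hmg _ _).eval_tpt, smul_eq_mul, ← mul_assoc, ← Units.val_mul, ← map_mul,
      ← ofAdd_add, add_sub_cancel]
  rw [this]
  exact sum_mem fun d _ => Submodule.smul_mem _ _ (he.hc_sec ht d (X.tpt_mem c hx))

end Crest.Agent.N265
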