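import Crest.Agent.N265.K.ABDefs
import Crest.Agent.N265.K.Alg

/-! # Task AB1: closure properties of `GV.In`, `IsRV`, `IsRM` -/

set_option autoImplicit false
noncomputable section
open MvPolynomial TensorProduct Module

namespace Crest.Agent.N265
open Alg _root_.Crest.Agent.N265.Pow
variable {X Y : Spc} {U V W V' W' : GV} {B : Finset ℕ}

lemma chiS_one : (1 : ℂ) ∈ chi '' (DS B : Set D) := ⟨0, zero_mem (DS B), chi_zero⟩
lemma chiS_mul : ∀ a ∈ chi '' (DS B : Set D), ∀ b ∈ chi '' (DS B : Set D),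
    a * b ∈ chi '' (DS B : Set D) := by
  rintro _ ⟨d, hd, rfl⟩ _ ⟨e, he, rfl⟩
  exact ⟨d + e, add_mem (S := AddSubgroup D) hd he, chi_add d e⟩
lemma chiS_inv : ∀ a ∈ chi '' (DS B : Set D), a⁻¹ ∈ chi '' (DS B : Set D) := by
  rintro _ ⟨d, hd, rfl⟩
  exact ⟨-d, neg_mem (S := AddSubgroup D) hd, chi_neg d⟩

namespace GV
lemma shift_g (V : GV) (d : D) (v : V.V) : (V.shift d).g v = chi d • V.g v := rfl
lemma In.mono {B' : Finset ℕ} (h : V.In B) (hB : B ⊆ B') : V.In B' :=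
  Diag.mono h (Set.image_mono (DS_mono hB))
lemma in_triv (M : Type) [AddCommGroup M] [Module ℂ M] [FiniteDimensional ℂ M] :
    (triv M).In B := diag_id chiS_one
lemma In.shift (h : V.In B) {d : D} (hd : d ∈ DS B) : (V.shift d).In B :=
  Diag.smul (a := chi d) h fun c hc => chiS_mul _ ⟨d, hd, rfl⟩ c hc
lemma in_line {d : D} (hd : d ∈ DS B) : (line d).In B := (in_triv ℂ).shift hd
lemma In.tens (h : V.In B) (h' : W.In B) : (V.tens W).In B := Diag.tmap h h' chiS_mul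
lemma In.dual (h : V.In B) : V.dual.In B := Diag.symm_dualMap h chiS_inv
lemma In.hom (h : V.In B) (h' : W.In B) : (V.hom W).In B :=
  Diag.arrowCongr h h' fun a ha b hb => chiS_mul _ (chiS_inv a ha) b hb
lemma In.prod (h : V.In B) (h' : W.In B) : (V.prod W).In B := Diag.prodMap h h'
lemma in_pi {ι : Type} [Fintype ι] {V : ι → GV} (h : ∀ i, (V i).In B) : (pi V).In B :=
  diag_pi (k := fun i => (V i).g.toLinearMap) h
lemma in_co {ι : Type} [Fintype ι] {deg : ι → D} (h : ∀ i, deg i ∈ DS B) : (co deg).In B := by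
  classical
  refine diag_of_basis (Pi.basisFun ℂ ι) fun i => ⟨_, ⟨deg i, h i, rfl⟩, funext fun j => ?_⟩
  change chi (deg j) * _ = _
  by_cases hj : j = i
  · subst hj; simp
  · simp [hj]
lemma In.lam (h : V.In B) (k : ℕ) : (lam k V).In B := Diag.lamM h chiS_one chiS_mul k
lemma In.of_inj (h : W.In B) {f : V.V →ₗ[ℂ] W.V} (hf : Deg0 V W f) (hi : Function.Injective f) :
    V.In B := Diag.of_injective h hi hf
lemma In.exists_basis (h : V.In B) : ∃ (n : ℕ) (b : Basis (Fin n) ℂ V.V) (deg : Fin n → D),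
    (∀ i, deg i ∈ DS B) ∧ ∀ i, V.g (b i) = chi (deg i) • b i := by
  obtain ⟨b, c, hc⟩ := Diag.exists_basis h
  choose deg h1 h2 using fun i => (hc i).1
  exact ⟨_, b, deg, h1, fun i => by rw [h2]; exact (hc i).2⟩
lemma In.exists_blk (h : V.In ∅) : Nonempty (Blk V) := by
  obtain ⟨n, b, deg, h1, h2⟩ := h.exists_basis
  refine ⟨⟨n, b, fun i => deg i none, fun i => ?_⟩⟩
  have : deg i none • eT = deg i := by
    ext j
    cases j with
    | none => simp [eT]
    | some j => simp [eT, h1 i j (Finset.notMem_empty j)]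
  rw [this, h2]
lemma Deg0.comp {f : V.V →ₗ[ℂ] W.V} {f' : W.V →ₗ[ℂ] U.V} (h' : Deg0 W U f') (h : Deg0 V W f) :
    Deg0 V U (f' ∘ₗ f) := fun v => by rw [LinearMap.comp_apply, h, h', LinearMap.comp_apply]
lemma deg0_id : Deg0 V V LinearMap.id := fun _ => rfl
lemma stab_of_le {M : Submodule ℂ V.V} (h : ∀ v ∈ M, V.g v ∈ M) : V.Stab M :=
  Submodule.eq_of_le_of_finrank_eq (Submodule.map_le_iff_le_comap.2 h)
    (LinearEquiv.finrank_map_eq V.g M)
lemma Stab.mem_iff {M : Submodule ℂ V.V} (h : V.Stab M) {v : V.V} : V.g v ∈ M ↔ v ∈ M := by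
  conv_lhs => rw [← h]
  rw [Submodule.mem_map_equiv, LinearEquiv.symm_apply_apply]
lemma mem_part {P : D → Prop} {d : D} (hd : P d) {v : V.V} (hv : V.g v = chi d • v) :
    v ∈ V.part P :=
  Submodule.mem_iSup_of_mem d (Submodule.mem_iSup_of_mem hd (Module.End.mem_eigenspace_iff.2 hv))
lemma part_le {P : D → Prop} {M : Submodule ℂ V.V}
    (h : ∀ d, P d → ∀ v, V.g v = chi d • v → v ∈ M) : V.part P ≤ M :=
  iSup₂_le fun d hd v hv => h d hd v (Module.End.mem_eigenspace_iff.1 hv)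
lemma stab_part (P : D → Prop) : V.Stab (V.part P) :=
  stab_of_le (part_le (M := (V.part P).comap V.g.toLinearMap) fun d hd v hv =>
    mem_part hd (by rw [LinearEquiv.coe_coe, hv, map_smul, hv]))
lemma Deg0.map_part {f : V.V →ₗ[ℂ] W.V} (h : Deg0 V W f) (P : D → Prop) :
    (V.part P).map f ≤ W.part P :=
  Submodule.map_le_iff_le_comap.2 (part_le fun d hd v hv =>
    mem_part hd (by rw [← h, hv, map_smul]))
lemma In.isCompl_part (h : V.In B) (P : D → Prop) :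
    IsCompl (V.part P) (V.part fun d => ¬ P d) := by
  refine ⟨?_, codisjoint_iff.2 (Diag.eq_top h ?_)⟩
  · have hi := (Module.End.eigenspaces_iSupIndep V.g.toLinearMap).comp chi_inj
    exact hi.disjoint_biSup_biSup (s := {d | P d}) (t := {d | ¬ P d})
      (Set.disjoint_left.2 fun d h1 h2 => h2 h1)
  · rintro _ ⟨d, -, rfl⟩ v hv
    by_cases hd : P d
    · exact Submodule.mem_sup_left (mem_part hd hv)
    · exact Submodule.mem_sup_right (mem_part hd hv)
/-- a stable subspace is graded -/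
lemma Stab.eq_part_sup (hV : V.In B) {M : Submodule ℂ V.V} (h : V.Stab M) (P : D → Prop) :
    M ⊓ V.part P ⊔ M ⊓ V.part (fun d => ¬ P d) = M := by
  refine le_antisymm (sup_le inf_le_left inf_le_left)
    (Diag.induction_sub hV (fun v hv => h.mem_iff.2 hv) ?_)
  rintro _ ⟨d, -, rfl⟩ v hvM hv
  by_cases hd : P d
  · exact Submodule.mem_sup_left ⟨hvM, mem_part hd hv⟩
  · exact Submodule.mem_sup_right ⟨hvM, mem_part hd hv⟩
lemma Stab.exists_compl (hV : V.In B) {M : Submodule ℂ V.V} (h : V.Stab M) :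
    ∃ N, V.Stab N ∧ IsCompl M N := by
  obtain ⟨q, h1, h2⟩ := Diag.exists_isCompl hV (p := M) fun v hv => h.mem_iff.2 hv
  exact ⟨q, stab_of_le h2, h1⟩
end GV
open GV

lemma repr_g {ι : Type} [Fintype ι] {b : Basis ι ℂ V.V} {deg : ι → D}
    (hb : ∀ i, V.g (b i) = chi (deg i) • b i) (v : V.V) (i : ι) :
    b.repr (V.g v) i = chi (deg i) * b.repr v i := by
  classical
  have : (b.coord i) ∘ₗ V.g.toLinearMap = chi (deg i) • b.coord i := b.ext fun j => by
    by_cases hj : j = i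
    · subst hj; simp [hb]
    · simp [hb, hj]
  exact LinearMap.congr_fun this v
lemma equivFun_g {ι : Type} [Fintype ι] {b : Basis ι ℂ V.V} {deg : ι → D}
    (hb : ∀ i, V.g (b i) = chi (deg i) • b i) (v : V.V) :
    b.equivFun (V.g v) = gd deg (b.equivFun v) := funext fun i => repr_g hb v i
lemma equivFun_symm_g {ι : Type} [Fintype ι] {b : Basis ι ℂ V.V} {deg : ι → D}
    (hb : ∀ i, V.g (b i) = chi (deg i) • b i) (c : ι → ℂ) :
    b.equivFun.symm (gd deg c) = V.g (b.equivFun.symm c) := by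
  rw [LinearEquiv.symm_apply_eq, equivFun_g hb, LinearEquiv.apply_symm_apply]

/-! ### vectors and maps -/
namespace IsRV
variable {s t : Pt → V.V}
lemma const {v : V.V} (h : V.g v = v) : IsRV X V fun _ => v :=
  ⟨RegV.const v, fun _ _ => h.symm⟩
lemma zero : IsRV X V fun _ => 0 := const (map_zero _)
lemma add (h : IsRV X V s) (h' : IsRV X V t) : IsRV X V fun x => s x + t x :=
  ⟨h.reg.add h'.reg, fun x hx => by rw [h.eqv x hx, h'.eqv x hx, map_add]⟩
lemma sub (h : IsRV X V s) (h' : IsRV X V t) : IsRV X V fun x => s x - t x :=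
  ⟨h.reg.sub h'.reg, fun x hx => by rw [h.eqv x hx, h'.eqv x hx, map_sub]⟩
lemma csmul (h : IsRV X V s) (c : ℂ) : IsRV X V fun x => c • s x :=
  ⟨h.reg.csmul c, fun x hx => by rw [h.eqv x hx, map_smul]⟩
lemma sum {ι : Type} (I : Finset ι) {s : ι → Pt → V.V} (h : ∀ i ∈ I, IsRV X V (s i)) :
    IsRV X V fun x => ∑ i ∈ I, s i x :=
  ⟨RegV.sum I fun i hi => (h i hi).reg, fun x hx => by
    rw [map_sum]; exact Finset.sum_congr rfl fun i hi => (h i hi).eqv x hx⟩
lemma smul (h : IsRV X V s) {d : D} {r : R} (hr : Hmg d r) :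
    IsRV X (V.shift d) fun x => eval x r • s x :=
  ⟨h.reg.smul (X.eval_mem_fn r), fun x hx => by
    rw [shift_g, h.eqv x hx, hr.eval_gpt, map_smul, smul_smul]⟩
lemma of_hmg {d : D} {r : R} (hr : Hmg d r) : IsRV X (line d) fun x => eval x r :=
  ⟨regV_scalar.2 (X.eval_mem_fn r), fun x _ => hr.eval_gpt x⟩
lemma lin (h : IsRV X V s) {f : V.V →ₗ[ℂ] W.V} (hf : Deg0 V W f) : IsRV X W fun x => f (s x) :=
  ⟨h.reg.map f, fun x hx => by rw [h.eqv x hx, hf]⟩
lemma bilin {t : Pt → W.V} (h : IsRV X V s) (h' : IsRV X W t) (β : V.V →ₗ[ℂ] W.V →ₗ[ℂ] U.V)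
    (hβ : ∀ v w, β (V.g v) (W.g w) = U.g (β v w)) : IsRV X U fun x => β (s x) (t x) :=
  ⟨RegV.bilin β h.reg h'.reg, fun x hx => by rw [h.eqv x hx, h'.eqv x hx, hβ]⟩
lemma tmul {t : Pt → W.V} (h : IsRV X V s) (h' : IsRV X W t) :
    IsRV X (V.tens W) fun x => s x ⊗ₜ[ℂ] t x :=
  h.bilin (U := V.tens W) h' (TensorProduct.mk ℂ V.V W.V) fun _ _ => rfl
lemma pair {t : Pt → W.V} (h : IsRV X V s) (h' : IsRV X W t) :
    IsRV X (V.prod W) fun x => (s x, t x) :=
  ⟨h.reg.prod h'.reg, fun x hx => by rw [h.eqv x hx, h'.eqv x hx]; rfl⟩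
lemma pi {ι : Type} [Fintype ι] {V : ι → GV} {s : ∀ i, Pt → (V i).V}
    (h : ∀ i, IsRV X (V i) (s i)) : IsRV X (GV.pi V) fun x i => s i x := by
  classical
  refine ⟨?_, fun x hx => funext fun i => (h i).eqv x hx⟩
  have e : (fun (x : X.pts) i => s i x.1) =
      fun x => ∑ i, LinearMap.single ℂ (fun i => (V i).V) i (s i x.1) := by
    funext x
    exact (Finset.univ_sum_single _).symm
  change RegV X.fn fun (x : X.pts) i => s i x.1
  rw [e]
  exact RegV.sum _ fun i _ => (h i).reg.map _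
lemma congr (h : IsRV X V s) (e : ∀ x ∈ X.pts, s x = t x) : IsRV X V t :=
  ⟨(funext fun x : X.pts => e x.1 x.2 : (fun x : X.pts => s x.1) = fun x => t x.1) ▸ h.reg,
    fun x hx => by rw [← e x hx, ← e _ (X.inv x hx), h.eqv x hx]⟩
lemma pull (h : IsRV X V s) (p : Proj Y X) : IsRV Y V fun y => s (restr X.B y) :=
  ⟨h.reg.precomp p.pt p.fn_comp, fun y hy => by rw [restr_gpt, h.eqv _ (p.map y hy)]⟩
lemma mono (h : IsRV X V s) (p : Y.Sub X) : IsRV Y V s :=
  (h.pull p.proj).congr fun y hy => by rw [X.restr_eq (p.2 hy)]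
/-- coordinates in an eigenbasis are homogeneous polynomials -/
lemma exists_poly (h : IsRV X V s) {ι : Type} [Fintype ι] (b : Basis ι ℂ V.V) {deg : ι → D}
    (hb : ∀ i, V.g (b i) = chi (deg i) • b i) : ∃ r : ι → R, (∀ i, Hmg (deg i) (r i)) ∧
      ∀ x ∈ X.pts, ∀ i, eval x (r i) = b.repr (s x) i := by
  choose r hr using fun i => Spc.mem_fn.1 (h.reg.coord b i)
  refine ⟨fun i => hc (deg i) (r i), fun i => hc_hmg _ _, fun x hx i => ?_⟩
  rw [Spc.eval_hc (fun y hy => ?_) hx, ← hr i ⟨x, hx⟩]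
  rw [← hr i ⟨_, X.inv y hy⟩, ← hr i ⟨y, hy⟩]
  change b.repr (s (gpt y)) i = chi (deg i) * b.repr (s y) i
  rw [h.eqv y hy, repr_g hb]
end IsRV
lemma Blk.isRV_vec (β : Blk V) (b : ℕ) : IsRV X (V.shift (eB b)) (β.vec b) := by
  refine ⟨?_, fun x _ => ?_⟩
  · change RegV X.fn fun x : X.pts => ∑ i, x.1 (β.var b i) • β.e i
    exact RegV.sum _ fun i _ => (RegV.const _).smul
      (Spc.mem_fn.2 ⟨MvPolynomial.X (β.var b i), fun x => by rw [eval_X]⟩)
  · rw [shift_g]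
    change ∑ i, gpt x (β.var b i) • β.e i = chi (eB b) • V.g (∑ i, x (β.var b i) • β.e i)
    rw [map_sum, Finset.smul_sum]
    refine Finset.sum_congr rfl fun i _ => ?_
    rw [map_smul, β.he, smul_smul, smul_smul]
    congr 1
    simp only [gpt, vdeg, Blk.var, chi_add]
    ring
lemma Blk.var_inj (β : Blk V) (b : ℕ) : Function.Injective (β.var b) := fun _ _ h =>
  Fin.ext (congrArg (fun v : Var => v.2.1) h)
lemma Blk.repr_vec' (β : Blk V) (b : ℕ) (y : Pt) (i : Fin β.n) :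
    β.e.repr (β.vec b y) i = y (β.var b i) := by
  change β.e.repr (∑ i, y (β.var b i) • β.e i) i = _
  rw [β.e.repr_sum_self]
lemma Blk.pt_var (β : Blk V) (b : ℕ) (v : V.V) (i : Fin β.n) :
    β.pt b v (β.var b i) = β.e.repr v i := by
  simp [Blk.pt, Finset.sum_apply, Pi.single_apply, (β.var_inj b).eq_iff]
lemma Blk.vec_pt (β : Blk V) (b : ℕ) (v : V.V) : β.vec b (β.pt b v) = v :=
  β.e.ext_elem fun i => by rw [β.repr_vec', β.pt_var]
lemma Blk.supp_pt (β : Blk V) (b : ℕ) (v : V.V) : β.Supp b (β.pt b v) := fun w hw => by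
  simp [Blk.pt, Finset.sum_apply, hw]
lemma Blk.pt_vec (β : Blk V) (b : ℕ) {y : Pt} (h : β.Supp b y) : β.pt b (β.vec b y) = y := by
  funext w
  by_cases hw : ∃ i, w = β.var b i
  · obtain ⟨i, rfl⟩ := hw
    rw [β.pt_var, β.repr_vec']
  · push Not at hw
    rw [β.supp_pt b _ w hw, h w hw]
lemma Blk.vec_restr (β : Blk V) {b : ℕ} (hb : b ∈ B) (y : Pt) :
    β.vec b (restr B y) = β.vec b y :=
  β.e.ext_elem fun i => by rw [β.repr_vec', β.repr_vec']; exact if_pos hb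
lemma Blk.repr_vec (β : Blk V) (b : ℕ) (y : Pt) (i : Fin β.n) :
    β.e.repr (β.vec b y) i = y (β.var b i) := β.repr_vec' b y i

lemma isRM_iff {φ : Pt → V.V →ₗ[ℂ] W.V} : IsRM X V W φ ↔ IsRV X (V.hom W) φ := by
  refine ⟨fun h => ⟨h.reg.regV, fun x hx => LinearMap.ext fun v => ?_⟩,
    fun h => ⟨RegM.of_regV h.reg, fun x hx => LinearMap.ext fun v => ?_⟩⟩
  · have := LinearMap.congr_fun (h.eqv x hx) (V.g.symm v)
    simpa using this
  · rw [h.eqv x hx]
    simp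
lemma IsRM.mk' {φ : Pt → V.V →ₗ[ℂ] W.V} (h : RegM X.fn fun x => φ x.1)
    (he : ∀ x ∈ X.pts, ∀ v, φ (gpt x) (V.g v) = W.g (φ x v)) : IsRM X V W φ :=
  ⟨h, fun x hx => LinearMap.ext (he x hx)⟩
namespace IsRM
variable {φ ψ : Pt → V.V →ₗ[ℂ] W.V}
lemma eqv_apply (h : IsRM X V W φ) {x : Pt} (hx : x ∈ X.pts) (v : V.V) :
    φ (gpt x) (V.g v) = W.g (φ x v) := LinearMap.congr_fun (h.eqv x hx) v
lemma const {f : V.V →ₗ[ℂ] W.V} (hf : Deg0 V W f) : IsRM X V W fun _ => f :=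
  mk' (RegM.const f) fun _ _ => hf
lemma id : IsRM X V V fun _ => LinearMap.id := const deg0_id
lemma zero : IsRM X V W fun _ => 0 := const fun _ => (map_zero _).symm
lemma add (h : IsRM X V W φ) (h' : IsRM X V W ψ) : IsRM X V W fun x => φ x + ψ x :=
  isRM_iff.2 ((isRM_iff.1 h).add (isRM_iff.1 h'))
lemma sub (h : IsRM X V W φ) (h' : IsRM X V W ψ) : IsRM X V W fun x => φ x - ψ x :=
  isRM_iff.2 ((isRM_iff.1 h).sub (isRM_iff.1 h'))
lemma csmul (h : IsRM X V W φ) (c : ℂ) : IsRM X V W fun x => c • φ x :=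
  isRM_iff.2 ((isRM_iff.1 h).csmul c)
lemma comp {χ : Pt → W.V →ₗ[ℂ] U.V} (h' : IsRM X W U χ) (h : IsRM X V W φ) :
    IsRM X V U fun x => χ x ∘ₗ φ x :=
  mk' (h'.reg.comp h.reg) fun x hx v => by
    rw [LinearMap.comp_apply, h.eqv_apply hx, h'.eqv_apply hx, LinearMap.comp_apply]
lemma app (h : IsRM X V W φ) {s : Pt → V.V} (hs : IsRV X V s) : IsRV X W fun x => φ x (s x) :=
  ⟨h.reg.apply hs.reg, fun x hx => by rw [hs.eqv x hx, h.eqv_apply hx]⟩
lemma smul (h : IsRM X V W φ) {d : D} {r : R} (hr : Hmg d r) :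
    IsRM X V (W.shift d) fun x => eval x r • φ x :=
  mk' (h.reg.smul (X.eval_mem_fn r)) fun x hx v => by
    rw [shift_g, LinearMap.smul_apply, h.eqv_apply hx, hr.eval_gpt, LinearMap.smul_apply, map_smul,
      smul_smul]
lemma shift (h : IsRM X V W φ) (d : D) : IsRM X (V.shift d) (W.shift d) φ :=
  mk' h.reg fun x hx v => by rw [shift_g, shift_g, map_smul, h.eqv_apply hx]
/-- moving a twist to the source -/
lemma unshift {d : D} {φ : Pt → V.V →ₗ[ℂ] W.V} (h : IsRM X V (W.shift d) φ) :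
    IsRM X (V.shift (-d)) W φ :=
  mk' h.reg fun x hx v => by
    rw [shift_g, map_smul, h.eqv_apply hx, shift_g, smul_smul, ← chi_add, neg_add_cancel, chi_zero,
      one_smul]
/-- only the scalar by which the automorphisms differ matters -/
lemma reshift {d e d' e' : D} {φ : Pt → V.V →ₗ[ℂ] W.V} (h : IsRM X (V.shift d) (W.shift e) φ)
    (hd : e - d = e' - d') : IsRM X (V.shift d') (W.shift e') φ :=
  mk' h.reg fun x hx v => by
    have h1 := h.eqv_apply hx v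
    rw [shift_g, shift_g, map_smul] at h1 ⊢
    have h2 : e' = d' - d + e := by
      rw [← sub_add_cancel e' d', ← hd]
      abel
    rw [h2, chi_add, mul_smul, ← h1, smul_smul, ← chi_add, sub_add_cancel]
lemma of_bilin {s : Pt → U.V} (hs : IsRV X U s) (β : U.V →ₗ[ℂ] V.V →ₗ[ℂ] W.V)
    (hβ : ∀ u v, β (U.g u) (V.g v) = W.g (β u v)) : IsRM X V W fun x => β (s x) :=
  mk' (RegM.of_regV (hs.reg.map β)) fun x hx v => by rw [hs.eqv x hx, hβ]
lemma tensor {χ : Pt → V'.V →ₗ[ℂ] W'.V} (h : IsRM X V W φ) (h' : IsRM X V' W' χ) :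
    IsRM X (V.tens V') (W.tens W') fun x => TensorProduct.map (φ x) (χ x) :=
  ⟨h.reg.tensor h'.reg, fun x hx => TensorProduct.ext' fun v w => by
    change φ (gpt x) (V.g v) ⊗ₜ[ℂ] χ (gpt x) (V'.g w) = W.g (φ x v) ⊗ₜ[ℂ] W'.g (χ x w)
    rw [h.eqv_apply hx, h'.eqv_apply hx]⟩
lemma symm_apply (h : IsRM X V W φ) {x : Pt} (hx : x ∈ X.pts) (v : V.V) :
    W.g.symm (φ (gpt x) v) = φ x (V.g.symm v) := by
  rw [LinearEquiv.symm_apply_eq, ← h.eqv_apply hx, LinearEquiv.apply_symm_apply]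
lemma homM {χ : Pt → V'.V →ₗ[ℂ] W'.V} (h : IsRM X V W φ) (h' : IsRM X V' W' χ) :
    IsRM X (W.hom V') (V.hom W') fun x => Alg.homM (φ x) (χ x) :=
  mk' (h.reg.homM h'.reg) fun x hx f => LinearMap.ext fun v => by
    change χ (gpt x) (V'.g (f (W.g.symm (φ (gpt x) v)))) = W'.g (χ x (f (φ x (V.g.symm v))))
    rw [h'.eqv_apply hx, h.symm_apply hx]
lemma dualMap (h : IsRM X V W φ) : IsRM X W.dual V.dual fun x => (φ x).dualMap :=
  mk' h.reg.dualMap fun x hx ℓ => LinearMap.ext fun v => by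
    change ℓ (W.g.symm (φ (gpt x) v)) = ℓ (φ x (V.g.symm v))
    rw [h.symm_apply hx]
lemma lamM (h : IsRM X V W φ) (k : ℕ) :
    IsRM X (lam k V) (lam k W) fun x => lamM k (φ x) :=
  ⟨h.reg.lamM k, fun x hx => by
    change Pow.lamM k (φ (gpt x)) ∘ₗ Pow.lamM k V.g.toLinearMap =
      Pow.lamM k W.g.toLinearMap ∘ₗ Pow.lamM k (φ x)
    rw [← exteriorPower.map_comp, ← exteriorPower.map_comp, h.eqv x hx]⟩
lemma prod {χ : Pt → V.V →ₗ[ℂ] U.V} (h : IsRM X V W φ) (h' : IsRM X V U χ) :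
    IsRM X V (W.prod U) fun x => (φ x).prod (χ x) :=
  mk' (h.reg.prod h'.reg) fun _ hx v => Prod.ext (h.eqv_apply hx v) (h'.eqv_apply hx v)
lemma coprod {χ : Pt → U.V →ₗ[ℂ] W.V} (h : IsRM X V W φ) (h' : IsRM X U W χ) :
    IsRM X (V.prod U) W fun x => (φ x).coprod (χ x) :=
  mk' (h.reg.coprod h'.reg) fun x hx v => by
    change φ (gpt x) (V.g v.1) + χ (gpt x) (U.g v.2) = W.g (φ x v.1 + χ x v.2)
    rw [h.eqv_apply hx, h'.eqv_apply hx, map_add]
lemma pi {ι : Type} [Fintype ι] {W : ι → GV} {φ : ∀ i, Pt → V.V →ₗ[ℂ] (W i).V}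
    (h : ∀ i, IsRM X V (W i) (φ i)) : IsRM X V (GV.pi W) fun x => LinearMap.pi fun i => φ i x := by
  classical
  refine mk' (fun v => ?_) fun x hx v => funext fun i => (h i).eqv_apply hx v
  have e : (fun x : X.pts => (LinearMap.pi fun i => φ i x.1) v) =
      fun x => ∑ i, LinearMap.single ℂ (fun i => (W i).V) i (φ i x.1 v) := by
    funext x
    exact (Finset.univ_sum_single _).symm
  rw [e]
  exact RegV.sum _ fun i _ => ((h i).reg v).map _
lemma toSpan {s : Pt → V.V} (hs : IsRV X V s) :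
    IsRM X (line 0) V fun x => LinearMap.toSpanSingleton ℂ V.V (s x) :=
  mk' (fun c => hs.reg.csmul c) fun x hx c => by
    change (chi 0 • c) • s (gpt x) = V.g (c • s x)
    rw [chi_zero, one_smul, hs.eqv x hx, map_smul]
lemma congr (h : IsRM X V W φ) (e : ∀ x ∈ X.pts, φ x = ψ x) : IsRM X V W ψ :=
  isRM_iff.2 ((isRM_iff.1 h).congr e)
lemma pull (h : IsRM X V W φ) (p : Proj Y X) : IsRM Y V W fun y => φ (restr X.B y) :=
  isRM_iff.2 ((isRM_iff.1 h).pull p)
lemma mono (h : IsRM X V W φ) (p : Y.Sub X) : IsRM Y V W φ := isRM_iff.2 ((isRM_iff.1 h).mono p)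
/-- averaging: a regular map that is equivariant on an equivariant family -/
lemma exists_of_eqv_on (hV : V.In B) (hW : W.In B) {L : Pt → Submodule ℂ V.V} (hL : Eqv X V L)
    (hφ : RegM X.fn fun x => φ x.1)
    (h : ∀ x ∈ X.pts, ∀ v ∈ L x, φ (gpt x) (V.g v) = W.g (φ x v)) :
    ∃ ψ, IsRM X V W ψ ∧ ∀ x ∈ X.pts, ∀ v ∈ L x, ψ x v = φ x v := by
  obtain ⟨n, b, a, -, hb⟩ := hV.exists_basis
  obtain ⟨m, c, e, -, hc⟩ := hW.exists_basis
  have hL' : IsEqv X a fun x => (L x).map b.equivFun.toLinearMap := by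
    refine isEqv_iff.2 fun x hx => ?_
    rw [← hL x hx, ← Submodule.map_comp, ← Submodule.map_comp]
    congr 1
    exact LinearMap.ext fun v => (equivFun_g hb v).symm
  obtain ⟨Φ, h1, h2⟩ := exists_mhmg (b := e) hL'
    (φ := fun x => c.equivFun.toLinearMap ∘ₗ (φ x.1 ∘ₗ b.equivFun.symm.toLinearMap))
    (RegM.const_comp _ (hφ.comp_const _)) (by
      rintro x _ ⟨v, hv, rfl⟩
      change c.equivFun (φ (gpt x.1) (b.equivFun.symm (gd a (b.equivFun v)))) =
        gd e (c.equivFun (φ x.1 (b.equivFun.symm (b.equivFun v))))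
      rw [equivFun_symm_g hb, LinearEquiv.symm_apply_apply, h x.1 x.2 v hv, equivFun_g hc])
  refine ⟨fun x => c.equivFun.symm.toLinearMap ∘ₗ (mev x Φ ∘ₗ b.equivFun.toLinearMap),
    mk' (RegM.const_comp _ ((regM_mev X Φ).comp_const _)) fun x _ v => ?_, fun x hx v hv => ?_⟩
  · change c.equivFun.symm (mev (gpt x) Φ (b.equivFun (V.g v))) =
      W.g (c.equivFun.symm (mev x Φ (b.equivFun v)))
    rw [equivFun_g hb, h1.mev_gpt, equivFun_symm_g hc]
  · change c.equivFun.symm (mev x Φ (b.equivFun v)) = _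
    rw [h2 ⟨x, hx⟩ (b.equivFun v) ⟨v, hv, rfl⟩]
    change c.equivFun.symm (c.equivFun (φ x (b.equivFun.symm (b.equivFun v)))) = _
    rw [LinearEquiv.symm_apply_apply, LinearEquiv.symm_apply_apply]
end IsRM
lemma isRM_mev {ι κ : Type} [Fintype ι] [Fintype κ] {a : ι → D} {b : κ → D} {Φ : Matrix κ ι R}
    (h : MHmg a b Φ) : IsRM X (co a) (co b) fun x => mev x Φ :=
  IsRM.mk' (regM_mev X Φ) fun x _ v => h.mev_gpt x v

end Crest.Agent.N265
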