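import Crest.Agent.N265.K.AB1

/-! # Task AB1b: closure properties of `Eqv`, `GenA`, `CogA`, `IsAB` -/

set_option autoImplicit false
set_option linter.unusedSectionVars false
noncomputable section
open MvPolynomial TensorProduct Module

namespace Crest.Agent.N265
open Alg _root_.Crest.Agent.N265.Pow GV
variable {X Y : Spc} {U V W V' W' : GV} {B : Finset ℕ}

/-! ### equivariance -/
namespace Eqv
variable {L L' : Pt → Submodule ℂ V.V} {M : Pt → Submodule ℂ W.V} {φ : Pt → V.V →ₗ[ℂ] W.V}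
lemma mem_iff (h : Eqv X V L) {x : Pt} (hx : x ∈ X.pts) {v : V.V} :
    V.g v ∈ L (gpt x) ↔ v ∈ L x := by
  rw [← h x hx, Submodule.mem_map_equiv, LinearEquiv.symm_apply_apply]
lemma of_mem_iff (h : ∀ x ∈ X.pts, ∀ v, V.g v ∈ L (gpt x) ↔ v ∈ L x) : Eqv X V L :=
  fun x hx => by
    ext w
    rw [Submodule.mem_map_equiv, ← h x hx, LinearEquiv.apply_symm_apply]
lemma const {N : Submodule ℂ V.V} (h : V.Stab N) : Eqv X V fun _ => N := fun _ _ => h
lemma map (h : Eqv X V L) (hφ : IsRM X V W φ) : Eqv X W fun x => (L x).map (φ x) :=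
  fun x hx => by
    dsimp only
    rw [← h x hx, ← Submodule.map_comp, ← Submodule.map_comp, hφ.eqv x hx]
lemma comap (h : Eqv X W M) (hφ : IsRM X V W φ) : Eqv X V fun x => (M x).comap (φ x) :=
  of_mem_iff fun x hx v => by
    rw [Submodule.mem_comap, Submodule.mem_comap, hφ.eqv_apply hx]
    exact h.mem_iff hx
lemma ker (hφ : IsRM X V W φ) : Eqv X V fun x => LinearMap.ker (φ x) :=
  (const (N := ⊥) (Submodule.map_bot _)).comap hφ
lemma range (hφ : IsRM X V W φ) : Eqv X W fun x => LinearMap.range (φ x) := fun x hx => by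
  dsimp only
  rw [← LinearMap.range_comp, ← hφ.eqv x hx, LinearMap.range_comp, LinearEquiv.range,
    Submodule.map_top]
lemma inf (h : Eqv X V L) (h' : Eqv X V L') : Eqv X V fun x => L x ⊓ L' x :=
  of_mem_iff fun _ hx _ => and_congr (h.mem_iff hx) (h'.mem_iff hx)
lemma sup (h : Eqv X V L) (h' : Eqv X V L') : Eqv X V fun x => L x ⊔ L' x := fun x hx => by
  dsimp only
  rw [Submodule.map_sup, h x hx, h' x hx]
lemma iSup {α : Type} {F : α → Pt → Submodule ℂ V.V} (h : ∀ a, Eqv X V (F a)) :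
    Eqv X V fun x => ⨆ a, F a x := fun x hx => by
  dsimp only
  rw [Submodule.map_iSup]
  exact iSup_congr fun a => h a x hx
lemma iInf {α : Type} {F : α → Pt → Submodule ℂ V.V} (h : ∀ a, Eqv X V (F a)) :
    Eqv X V fun x => ⨅ a, F a x := of_mem_iff fun _ hx _ => by
  rw [Submodule.mem_iInf, Submodule.mem_iInf]
  exact forall_congr' fun a => (h a).mem_iff hx
lemma tens (h : Eqv X V L) (h' : Eqv X W M) : Eqv X (V.tens W) fun x => tens (L x) (M x) :=
  fun x hx => by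
    dsimp only
    rw [← h x hx, ← h' x hx, ← tens_map]
    rfl
lemma shift (h : Eqv X V L) (d : D) : Eqv X (V.shift d) L := of_mem_iff fun x hx _ =>
  ((L (gpt x)).smul_mem_iff (chi_ne d)).trans (h.mem_iff hx)
lemma perp (h : Eqv X V L) : Eqv X V.dual fun x => (L x).dualAnnihilator :=
  of_mem_iff fun x hx ℓ => by
    rw [Submodule.mem_dualAnnihilator, Submodule.mem_dualAnnihilator, ← h x hx]
    constructor
    · intro H v hv
      simpa using H (V.g v) ⟨v, hv, rfl⟩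
    · rintro H _ ⟨v, hv, rfl⟩
      simpa using H v hv
lemma homMap (h : Eqv X V L) (h' : Eqv X W M) : Eqv X (V.hom W) fun x => homMap (L x) (M x) :=
  of_mem_iff fun x hx f => by
    rw [mem_homMap, mem_homMap, ← h x hx]
    constructor
    · intro H v hv
      rw [← h'.mem_iff hx]
      simpa using H (V.g v) ⟨v, hv, rfl⟩
    · rintro H _ ⟨v, hv, rfl⟩
      simpa using (h'.mem_iff hx).2 (H v hv)
lemma congr (h : Eqv X V L) (e : ∀ x ∈ X.pts, L x = L' x) : Eqv X V L' := fun x hx => by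
  rw [← e x hx, ← e _ (X.inv x hx)]; exact h x hx
lemma pull (h : Eqv X V L) (p : Proj Y X) : Eqv Y V fun y => L (restr X.B y) := fun y hy => by
  dsimp only
  rw [restr_gpt]; exact h _ (p.map y hy)
lemma finrank (h : Eqv X V L) {x : Pt} (hx : x ∈ X.pts) :
    finrank ℂ (L (gpt x)) = finrank ℂ (L x) := by
  rw [← h x hx, LinearEquiv.finrank_map_eq]
end Eqv

/-! ### generated and cogenerated families -/
section Gen
variable {M N : Type} [AddCommGroup M] [Module ℂ M] [FiniteDimensional ℂ M] [AddCommGroup N]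
  [Module ℂ N] [FiniteDimensional ℂ N] {L L' : Pt → Submodule ℂ M} {P : Pt → Submodule ℂ N}
  {φ : Pt → M →ₗ[ℂ] N}

/-- the values at `x` of the regular sections of `L` -/
def secs (X : Spc) (L : Pt → Submodule ℂ M) (x : X.pts) : Submodule ℂ M where
  carrier := {v | ∃ σ : X.pts → M, RegV X.fn σ ∧ (∀ y, σ y ∈ L y.1) ∧ σ x = v}
  add_mem' := by
    rintro _ _ ⟨s, h1, h2, rfl⟩ ⟨t, k1, k2, rfl⟩
    exact ⟨_, h1.add k1, fun y => add_mem (h2 y) (k2 y), rfl⟩
  zero_mem' := ⟨_, RegV.zero, fun _ => zero_mem _, rfl⟩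
  smul_mem' := by
    rintro c _ ⟨s, h1, h2, rfl⟩
    exact ⟨_, h1.csmul c, fun y => Submodule.smul_mem _ _ (h2 y), rfl⟩
omit [FiniteDimensional ℂ M] in
lemma genA_iff : GenA X L ↔ ∀ x : X.pts, L x.1 ≤ secs X L x := Iff.rfl
omit [FiniteDimensional ℂ M] in
lemma secs_mono (h : ∀ y : X.pts, L y.1 ≤ L' y.1) (x : X.pts) : secs X L x ≤ secs X L' x := by
  rintro _ ⟨s, h1, h2, rfl⟩
  exact ⟨s, h1, fun y => h y (h2 y), rfl⟩
omit [FiniteDimensional ℂ M] [FiniteDimensional ℂ N] in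
lemma ann_comap (f : M →ₗ[ℂ] N) (Q : Submodule ℂ N) :
    (Q.comap f).dualAnnihilator = Q.dualAnnihilator.map f.dualMap := by
  have e : Q.comap f = LinearMap.ker (Q.mkQ ∘ₗ f) := by rw [LinearMap.ker_comp, Submodule.ker_mkQ]
  rw [e, ← LinearMap.range_dualMap_eq_dualAnnihilator_ker, ← LinearMap.dualMap_comp_dualMap,
    LinearMap.range_comp, LinearMap.range_dualMap_eq_dualAnnihilator_ker, Submodule.ker_mkQ]
lemma ann_iInf {α : Type} (F : α → Submodule ℂ M) :
    (⨅ a, F a).dualAnnihilator = ⨆ a, (F a).dualAnnihilator := by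
  rw [← Subspace.dualCoannihilator_dualAnnihilator_eq (W := ⨆ a, (F a).dualAnnihilator),
    Submodule.dualCoannihilator_iSup_eq]
  simp only [Subspace.dualAnnihilator_dualCoannihilator_eq]
omit [FiniteDimensional ℂ N] in
lemma finrank_inf_comap_add [FiniteDimensional ℂ N] (A : Submodule ℂ M) (Q : Submodule ℂ N)
    (f : M →ₗ[ℂ] N) : finrank ℂ (A ⊓ Q.comap f : Submodule ℂ M) +
      finrank ℂ (A.map f ⊔ Q : Submodule ℂ N) = finrank ℂ A + finrank ℂ Q := by
  have h1 := finrank_map_add_inf_ker A (Q.mkQ ∘ₗ f)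
  have h2 := finrank_map_add_inf_ker (A.map f ⊔ Q) Q.mkQ
  rw [LinearMap.ker_comp, Submodule.ker_mkQ, Submodule.map_comp] at h1
  rw [Submodule.ker_mkQ, inf_eq_right.2 le_sup_right, Submodule.map_sup, Submodule.mkQ_map_self,
    sup_bot_eq] at h2
  omega

lemma genA_of_alg (h : Alg X.fn fun x => L x.1) : GenA X L := fun _ _ hv => h.exists_section hv
lemma cogA_of_alg (h : Alg X.fn fun x => L x.1) : CogA X L := genA_of_alg h.perp
/-- sections extending a basis of the fibre -/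
lemma GenA.frame (h : GenA X L) (x : X.pts) : ∃ s : Fin (finrank ℂ (L x.1)) → X.pts → M,
    (∀ i, RegV X.fn (s i)) ∧ (∀ y, Submodule.span ℂ (Set.range fun i => s i y) ≤ L y.1) ∧
      Near X.fn x fun y =>
        finrank ℂ (Submodule.span ℂ (Set.range fun i => s i y)) = finrank ℂ (L x.1) := by
  let b := finBasis ℂ (L x.1)
  choose s hs h1 h2 using fun i => h x _ (b i).2
  have li : LinearIndependent ℂ fun i => s i x := by
    simp only [h2]
    exact b.linearIndependent.map' (L x.1).subtype (Submodule.ker_subtype _)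
  refine ⟨s, hs, fun y => ?_, (near_linearIndependent hs li).mono fun y hy => ?_⟩
  · rw [Submodule.span_le]; rintro _ ⟨i, rfl⟩; exact h1 i y
  · rw [finrank_span_eq_card hy, Fintype.card_fin]
lemma GenA.usc (h : GenA X L) : X.USC fun x => -(finrank ℂ (L x) : ℤ) := usc_iff.2 fun x => by
  obtain ⟨s, -, h1, h2⟩ := h.frame x
  refine h2.mono fun y hy => ?_
  have := Submodule.finrank_mono (h1 y)
  omega
lemma CogA.usc (h : CogA X L) : X.USC fun x => (finrank ℂ (L x) : ℤ) := usc_iff.2 fun x =>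
  (usc_iff.1 (GenA.usc h) x).mono fun y hy => by
    have h1 := Subspace.finrank_add_finrank_dualAnnihilator_eq (L x.1)
    have h2 := Subspace.finrank_add_finrank_dualAnnihilator_eq (L y.1)
    omega
lemma GenA.alg_of_usc (h : GenA X L) (hr : X.USC fun x => (finrank ℂ (L x) : ℤ)) :
    Alg X.fn fun x => L x.1 := fun x => by
  obtain ⟨s, hs, h1, h2⟩ := h.frame x
  have hr' : Near X.fn x fun y => finrank ℂ (L y.1) ≤ finrank ℂ (L x.1) :=
    (usc_iff.1 hr x).mono fun y hy => by exact_mod_cast hy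
  exact AlgAt.of_span (L := fun x : X.pts => L x.1) hs ((h2.and hr').mono fun y hy =>
    (Submodule.eq_of_le_of_finrank_le (h1 y) (hy.2.trans hy.1.ge)).symm) hr'
lemma GenA.alg (h : GenA X L) (h' : CogA X L) : Alg X.fn fun x => L x.1 := h.alg_of_usc h'.usc
lemma CogA.alg_of_usc (h : CogA X L) (hr : X.USC fun x => -(finrank ℂ (L x) : ℤ)) :
    Alg X.fn fun x => L x.1 := by
  refine (GenA.alg_of_usc h (usc_iff.2 fun x => (usc_iff.1 hr x).mono fun y hy => ?_)).coperp.congr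
    fun x => Subspace.dualAnnihilator_dualCoannihilator_eq
  have h1 := Subspace.finrank_add_finrank_dualAnnihilator_eq (L x.1)
  have h2 := Subspace.finrank_add_finrank_dualAnnihilator_eq (L y.1)
  omega
lemma GenA.alg_of_rk (h : GenA X L) {n : ℕ} (hr : ∀ x ∈ X.pts, finrank ℂ (L x) = n) :
    Alg X.fn fun x => L x.1 :=
  h.alg_of_usc (usc_iff.2 fun x => Near.of_forall fun y => by rw [hr _ x.2, hr _ y.2])
lemma CogA.alg_of_rk (h : CogA X L) {n : ℕ} (hr : ∀ x ∈ X.pts, finrank ℂ (L x) = n) :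
    Alg X.fn fun x => L x.1 :=
  h.alg_of_usc (usc_iff.2 fun x => Near.of_forall fun y => by rw [hr _ x.2, hr _ y.2])
lemma GenA.congr (h : GenA X L) (e : ∀ x ∈ X.pts, L x = L' x) : GenA X L' := fun x v hv => by
  obtain ⟨s, h1, h2, h3⟩ := h x v (e x.1 x.2 ▸ hv)
  exact ⟨s, h1, fun y => e y.1 y.2 ▸ h2 y, h3⟩
lemma CogA.congr (h : CogA X L) (e : ∀ x ∈ X.pts, L x = L' x) : CogA X L' :=
  GenA.congr h fun x hx => by rw [e x hx]
lemma GenA.map (h : GenA X L) (hφ : RegM X.fn fun x => φ x.1) :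
    GenA X fun x => (L x).map (φ x) := by
  rintro x _ ⟨v, hv, rfl⟩
  obtain ⟨s, h1, h2, rfl⟩ := h x v hv
  exact ⟨_, hφ.apply h1, fun y => ⟨_, h2 y, rfl⟩, rfl⟩
lemma CogA.comap (h : CogA X P) (hφ : RegM X.fn fun x => φ x.1) :
    CogA X fun x => (P x).comap (φ x) :=
  (GenA.map (φ := fun x => (φ x).dualMap) h hφ.dualMap).congr fun _ _ => (ann_comap _ _).symm
lemma cogA_ker (hφ : RegM X.fn fun x => φ x.1) : CogA X fun x => LinearMap.ker (φ x) :=
  (cogA_of_alg (L := fun _ => ⊥) (Alg.const ⊥)).comap hφ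
lemma GenA.sup (h : GenA X L) (h' : GenA X L') : GenA X fun x => L x ⊔ L' x :=
  genA_iff.2 fun x => sup_le ((genA_iff.1 h x).trans (secs_mono (fun _ => le_sup_left) x))
    ((genA_iff.1 h' x).trans (secs_mono (fun _ => le_sup_right) x))
lemma CogA.inf (h : CogA X L) (h' : CogA X L') : CogA X fun x => L x ⊓ L' x :=
  (GenA.sup h h').congr fun _ _ => (Subspace.dualAnnihilator_inf_eq _ _).symm
lemma GenA.iSup {α : Type} {F : α → Pt → Submodule ℂ M} (h : ∀ a, GenA X (F a)) :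
    GenA X fun x => ⨆ a, F a x :=
  genA_iff.2 fun x => iSup_le fun a =>
    (genA_iff.1 (h a) x).trans (secs_mono (fun y => le_iSup (fun a => F a y.1) a) x)
lemma CogA.iInf {α : Type} {F : α → Pt → Submodule ℂ M} (h : ∀ a, CogA X (F a)) :
    CogA X fun x => ⨅ a, F a x :=
  (GenA.iSup (F := fun a x => (F a x).dualAnnihilator) h).congr fun _ _ => (ann_iInf _).symm
lemma GenA.tens (h : GenA X L) (h' : GenA X P) : GenA X fun x => tens (L x) (P x) :=
  genA_iff.2 fun x => tens_le.2 fun v hv w hw => by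
    obtain ⟨s, h1, h2, rfl⟩ := h x v hv
    obtain ⟨t, k1, k2, rfl⟩ := h' x w hw
    exact ⟨_, h1.tmul k1, fun y => tmul_mem (h2 y) (k2 y), rfl⟩
lemma GenA.pull (h : GenA X L) (p : Proj Y X) : GenA Y fun y => L (restr X.B y) := fun y v hv => by
  obtain ⟨s, h1, h2, h3⟩ := h (p.pt y) v hv
  exact ⟨fun z => s (p.pt z), h1.precomp p.pt p.fn_comp, fun z => h2 (p.pt z), h3⟩
lemma CogA.pull (h : CogA X L) (p : Proj Y X) : CogA Y fun y => L (restr X.B y) := GenA.pull h p
lemma alg_lc (h : Alg X.fn fun x => L x.1) : X.LC fun x => finrank ℂ (L x) :=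
  lc_iff.2 fun x => h.near_finrank x
end Gen

/-- maps of pairs `(L, L') → (M, M')` form a bundle -/
theorem alg_homMap_inf {T : Type} {𝒜 : Subalgebra ℂ (T → ℂ)} {M N : Type} [AddCommGroup M]
    [Module ℂ M] [FiniteDimensional ℂ M] [AddCommGroup N] [Module ℂ N] [FiniteDimensional ℂ N]
    {L L' : T → Submodule ℂ M} {P P' : T → Submodule ℂ N} (h : Alg 𝒜 L) (h₁ : Alg 𝒜 L')
    (h' : Alg 𝒜 P) (h₂ : Alg 𝒜 P') (hL : ∀ x, L' x ≤ L x) (hM : ∀ x, P' x ≤ P x) :
    Alg 𝒜 fun x => Alg.homMap (L x) (P x) ⊓ Alg.homMap (L' x) (P' x) := by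
  intro x₀
  obtain ⟨f, hf, f0, E, hE, e1, e2, -⟩ := (h.algAt x₀).out
  obtain ⟨f', hf', f0', E', hE', e1', e2', -⟩ := (h₁.algAt x₀).out
  obtain ⟨g, hg, g0, F, hF, k1, k2, -⟩ := (h'.algAt x₀).out
  obtain ⟨g', hg', g0', F', hF', k1', k2', -⟩ := (h₂.algAt x₀).out
  refine AlgAt.of_near (fmul_mem (fmul_mem hg hg') (fmul_mem hf hf'))
    (((((hE.compl' hf).smul hf').homM (RegM.smul_id (fmul_mem hg hg'))).add
      (((hE'.compl' hf').comp hE).homM (hF.smul hg'))).add ((hE'.comp hE).homM (hF'.smul hg)))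
    (mul_ne_zero (mul_ne_zero g0 g0') (mul_ne_zero f0 f0'))
    (Near.of_forall fun x => ⟨fun u => ⟨fun v hv => ?_, fun v hv => ?_⟩, fun u hu => ?_⟩)
  · simp only [LinearMap.add_apply, homM_apply, LinearMap.comp_apply, LinearMap.smul_apply,
      LinearMap.sub_apply, LinearMap.id_apply, e2 x v hv, sub_self, smul_zero, map_zero, zero_add]
    exact add_mem (Submodule.smul_mem _ _ (k1 x _)) (Submodule.smul_mem _ _ (hM x (k1' x _)))
  · simp only [LinearMap.add_apply, homM_apply, LinearMap.comp_apply, LinearMap.smul_apply,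
      LinearMap.sub_apply, LinearMap.id_apply, e2 x v (hL x hv), sub_self, smul_zero, map_zero,
      zero_add, e2' x _ (Submodule.smul_mem _ (f x) hv)]
    exact Submodule.smul_mem _ _ (k1' x _)
  · ext v
    have a1 := k2 x _ (hu.1 _ (sub_mem (Submodule.smul_mem _ (f' x) (e1 x v))
      (hL x (e1' x (E x v)))))
    have a2 := k2' x _ (hu.2 _ (e1' x (E x v)))
    simp only [LinearMap.add_apply, homM_apply, LinearMap.comp_apply, LinearMap.smul_apply,
      LinearMap.sub_apply, LinearMap.id_apply, a1, a2]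
    simp only [map_sub, map_smul]
    module

/-! ### bundles -/
namespace IsAB
variable {L L' : Pt → Submodule ℂ V.V} {M M' : Pt → Submodule ℂ W.V} {φ : Pt → V.V →ₗ[ℂ] W.V}
lemma eqv' (h : IsAB X V L) : Eqv X V L := h.eqv
lemma gen (h : IsAB X V L) : GenA X L := genA_of_alg h.alg
lemma cog (h : IsAB X V L) : CogA X L := cogA_of_alg h.alg
lemma lc (h : IsAB X V L) : X.LC fun x => finrank ℂ (L x) := alg_lc h.alg
lemma const (hV : V.In X.B) {N : Submodule ℂ V.V} (h : V.Stab N) : IsAB X V fun _ => N :=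
  ⟨hV, Alg.const N, Eqv.const h⟩
lemma top (hV : V.In X.B) : IsAB X V fun _ => ⊤ :=
  const hV (by rw [Stab, Submodule.map_top, LinearEquiv.range])
lemma bot (hV : V.In X.B) : IsAB X V fun _ => ⊥ := const hV (Submodule.map_bot _)
lemma congr (h : IsAB X V L) (e : ∀ x ∈ X.pts, L x = L' x) : IsAB X V L' :=
  ⟨h.hin, h.alg.congr fun x => e x.1 x.2, h.eqv'.congr e⟩
lemma pull (h : IsAB X V L) (p : Proj Y X) : IsAB Y V fun y => L (restr X.B y) :=
  ⟨h.hin.mono p.sub, h.alg.precomp p.pt p.fn_comp, h.eqv'.pull p⟩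
lemma mono (h : IsAB X V L) (p : Y.Sub X) : IsAB Y V L :=
  (h.pull p.proj).congr fun y hy => by rw [← p.1, Y.restr_eq hy]
lemma shift (h : IsAB X V L) {d : D} (hd : d ∈ DS X.B) : IsAB X (V.shift d) L :=
  ⟨h.hin.shift hd, h.alg, h.eqv'.shift d⟩
lemma tens (h : IsAB X V L) (h' : IsAB X W M) : IsAB X (V.tens W) fun x => tens (L x) (M x) :=
  ⟨h.hin.tens h'.hin, h.alg.tens h'.alg, h.eqv'.tens h'.eqv'⟩
lemma perp (h : IsAB X V L) : IsAB X V.dual fun x => (L x).dualAnnihilator :=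
  ⟨h.hin.dual, h.alg.perp, h.eqv'.perp⟩
lemma homTo (hV : V.In X.B) (h : IsAB X W M) : IsAB X (V.hom W) fun x => homTo V.V (M x) :=
  ⟨hV.hom h.hin, h.alg.homTo, ((top hV).eqv'.homMap h.eqv').congr fun _ _ => by
    ext f; simp [mem_homMap, mem_homTo]⟩
lemma homKill (h : IsAB X V L) (hW : W.In X.B) : IsAB X (V.hom W) fun x => homKill (L x) W.V :=
  ⟨h.hin.hom hW, h.alg.homKill, (h.eqv'.homMap (bot hW).eqv').congr fun _ _ => by
    ext f; simp [mem_homMap, mem_homKill]⟩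
lemma homMap (h : IsAB X V L) (h' : IsAB X W M) :
    IsAB X (V.hom W) fun x => homMap (L x) (M x) :=
  ⟨h.hin.hom h'.hin, h.alg.homMap h'.alg, h.eqv'.homMap h'.eqv'⟩
lemma homMap_inf (h : IsAB X V L) (h₁ : IsAB X V L') (h' : IsAB X W M) (h₂ : IsAB X W M')
    (hL : ∀ x ∈ X.pts, L' x ≤ L x) (hM : ∀ x ∈ X.pts, M' x ≤ M x) :
    IsAB X (V.hom W) fun x => Alg.homMap (L x) (M x) ⊓ Alg.homMap (L' x) (M' x) :=
  ⟨h.hin.hom h'.hin, alg_homMap_inf h.alg h₁.alg h'.alg h₂.alg (fun x => hL x.1 x.2)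
    (fun x => hM x.1 x.2), (h.eqv'.homMap h'.eqv').inf (h₁.eqv'.homMap h₂.eqv')⟩
lemma prod (h : IsAB X V L) (h' : IsAB X W M) : IsAB X (V.prod W) fun x => (L x).prod (M x) :=
  ⟨h.hin.prod h'.hin, h.alg.prod h'.alg, Eqv.of_mem_iff (V := V.prod W) fun _ hx _ =>
    and_congr (h.eqv'.mem_iff hx) (h'.eqv'.mem_iff hx)⟩
lemma pi {ι : Type} [Fintype ι] {V : ι → GV} {L : ∀ i, Pt → Submodule ℂ (V i).V}
    (h : ∀ i, IsAB X (V i) (L i)) :
    IsAB X (GV.pi V) fun x => Submodule.pi Set.univ fun i => L i x := by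
  classical
  have h1 : GenA X fun x => Submodule.pi Set.univ fun i => L i x :=
    (GenA.iSup fun i => (h i).gen.map (φ := fun _ => LinearMap.single ℂ (fun i => (V i).V) i)
      (RegM.const _)).congr fun x _ => Submodule.iSup_map_single (p := fun i => L i x)
  have h2 : CogA X fun x => Submodule.pi Set.univ fun i => L i x :=
    (CogA.iInf fun i => (h i).cog.comap
      (φ := fun _ => (LinearMap.proj i : (∀ i, (V i).V) →ₗ[ℂ] (V i).V))
      (RegM.const _)).congr fun x _ => Submodule.iInf_comap_proj (p := fun i => L i x)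
  refine ⟨in_pi fun i => (h i).hin, h1.alg h2, Eqv.of_mem_iff (V := GV.pi V) fun _ hx v => ?_⟩
  rw [Submodule.mem_pi, Submodule.mem_pi]
  exact forall₂_congr fun i _ => (h i).eqv'.mem_iff hx
lemma lamS (h : IsAB X V L) (k : ℕ) : IsAB X (lam k V) fun x => lamS k (L x) :=
  ⟨h.hin.lam k, h.alg.lamS k, fun x hx => by
    rw [← h.eqv x hx, ← lamS_map]
    rfl⟩
lemma span {s : Pt → V.V} (hV : V.In X.B) (hs : IsRV X V s) (h0 : ∀ x ∈ X.pts, s x ≠ 0) :
    IsAB X V fun x => Submodule.span ℂ {s x} := by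
  refine ⟨hV, GenA.alg_of_rk (L := fun x => Submodule.span ℂ {s x}) (genA_iff.2 fun x => ?_)
    (n := 1) fun x hx => finrank_span_singleton (h0 x hx), fun x hx => ?_⟩
  · exact (Submodule.span_singleton_le_iff_mem _ _).2
      ⟨_, hs.reg, fun y => Submodule.mem_span_singleton_self _, rfl⟩
  · rw [Submodule.map_span, Set.image_singleton, hs.eqv x hx]; rfl
lemma of_gen_cog (hV : V.In X.B) (he : Eqv X V L) (h : GenA X L) (h' : CogA X L) : IsAB X V L :=
  ⟨hV, h.alg h', he⟩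
lemma map_of_rk (h : IsAB X V L) (hW : W.In X.B) (hφ : IsRM X V W φ) {n : ℕ}
    (hr : ∀ x ∈ X.pts, finrank ℂ ((L x).map (φ x)) = n) : IsAB X W fun x => (L x).map (φ x) :=
  ⟨hW, h.alg.map_of_finrank hφ.reg fun x => hr x.1 x.2, h.eqv'.map hφ⟩
lemma map_of_inj (h : IsAB X V L) (hW : W.In X.B) (hφ : IsRM X V W φ)
    (hr : ∀ x ∈ X.pts, L x ⊓ LinearMap.ker (φ x) = ⊥) : IsAB X W fun x => (L x).map (φ x) :=
  ⟨hW, h.alg.map_of_inj hφ.reg fun x => hr x.1 x.2, h.eqv'.map hφ⟩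
lemma map_of_ker (h : IsAB X V L) (hW : W.In X.B) (hφ : IsRM X V W φ)
    (hk : IsAB X V fun x => L x ⊓ LinearMap.ker (φ x)) : IsAB X W fun x => (L x).map (φ x) :=
  ⟨hW, h.alg.map_of_ker hk.alg hφ.reg fun _ => rfl, h.eqv'.map hφ⟩
lemma ker_of_map (h : IsAB X V L) (hφ : IsRM X V W φ) (hm : IsAB X W fun x => (L x).map (φ x)) :
    IsAB X V fun x => L x ⊓ LinearMap.ker (φ x) :=
  ⟨h.hin, h.alg.ker_of_map hm.alg hφ.reg fun _ => rfl, h.eqv'.inf (Eqv.ker hφ)⟩
/-- preimage under a map that is onto modulo `M'` -/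
lemma comap_of_surj (h : IsAB X V L) (hM : IsAB X W M) (hM' : IsAB X W M') (hφ : IsRM X V W φ)
    (e : ∀ x ∈ X.pts, (L x).map (φ x) ⊔ M' x = M x) :
    IsAB X V fun x => L x ⊓ (M' x).comap (φ x) := by
  refine ⟨h.hin, h.alg.inf_comap hM'.alg hφ.reg fun x => ((h.alg.near_finrank x).and
    ((hM.alg.near_finrank x).and (hM'.alg.near_finrank x))).mono fun y hy => ?_,
    h.eqv'.inf (hM'.eqv'.comap hφ)⟩
  have h1 := finrank_inf_comap_add (L x.1) (M' x.1) (φ x.1)
  have h2 := finrank_inf_comap_add (L y.1) (M' y.1) (φ y.1)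
  rw [e _ x.2] at h1
  rw [e _ y.2] at h2
  omega
/-- image under a map that is injective modulo `L'`, `M'` -/
lemma map_sup_of_inj (h : IsAB X V L) (hL' : IsAB X V L') (hM' : IsAB X W M') (hφ : IsRM X V W φ)
    (e : ∀ x ∈ X.pts, L x ⊓ (M' x).comap (φ x) = L' x) :
    IsAB X W fun x => (L x).map (φ x) ⊔ M' x := by
  refine ⟨hM'.hin, ((h.gen.map hφ.reg).sup hM'.gen).alg_of_usc (usc_iff.2 fun x =>
    ((h.alg.near_finrank x).and ((hL'.alg.near_finrank x).and
      (hM'.alg.near_finrank x))).mono fun y hy => ?_), (h.eqv'.map hφ).sup hM'.eqv'⟩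
  have h1 := finrank_inf_comap_add (L x.1) (M' x.1) (φ x.1)
  have h2 := finrank_inf_comap_add (L y.1) (M' y.1) (φ y.1)
  rw [e _ x.2] at h1
  rw [e _ y.2] at h2
  omega
/-- the middle term of a complex that is exact in the middle -/
lemma of_exact {N' : Pt → Submodule ℂ U.V} {ψ : Pt → W.V →ₗ[ℂ] U.V} (h : IsAB X V L)
    (hM : IsAB X W M) (hM' : IsAB X W M') (hN' : IsAB X U N') (hφ : IsRM X V W φ)
    (hψ : IsRM X W U ψ)
    (e : ∀ x ∈ X.pts, (L x).map (φ x) ⊔ M' x = M x ⊓ (N' x).comap (ψ x)) :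
    IsAB X W fun x => M x ⊓ (N' x).comap (ψ x) :=
  of_gen_cog hM.hin (hM.eqv'.inf (hN'.eqv'.comap hψ)) (((h.gen.map hφ.reg).sup hM'.gen).congr e)
    (hM.cog.inf (hN'.cog.comap hψ.reg))
lemma inf_const (h : IsAB X V L) {N N' : Submodule ℂ V.V} (hN : V.Stab N) (hc : IsCompl N N')
    (e : ∀ x ∈ X.pts, L x ⊓ N ⊔ L x ⊓ N' = L x) : IsAB X V fun x => L x ⊓ N := by
  refine of_gen_cog h.hin (h.eqv'.inf (Eqv.const hN))
    ((h.gen.map (φ := fun _ => N.projection N' hc) (RegM.const _)).congr fun x hx => ?_)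
    (h.cog.inf (const h.hin hN).cog)
  apply le_antisymm
  · conv_lhs => rw [← e x hx]
    rw [Submodule.map_le_iff_le_comap]
    refine sup_le (fun v hv => ?_) fun v hv => ?_
    · rw [Submodule.mem_comap, Submodule.projection_apply_of_mem_left hc hv.2]; exact hv
    · rw [Submodule.mem_comap, (Submodule.projection_apply_eq_zero_iff hc).2 hv.2]
      exact zero_mem _
  · exact fun v hv => ⟨v, hv.1, Submodule.projection_apply_of_mem_left hc hv.2⟩
lemma comap_of_inj (h : IsAB X W M) (hV : V.In X.B) {f : V.V →ₗ[ℂ] W.V} (hf : Deg0 V W f)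
    (hi : Function.Injective f) (e : ∀ x ∈ X.pts, M x ≤ LinearMap.range f) :
    IsAB X V fun x => (M x).comap f := by
  obtain ⟨σ, hσ⟩ := f.exists_leftInverse_of_injective (LinearMap.ker_eq_bot.2 hi)
  have hσ' : ∀ v, σ (f v) = v := fun v => LinearMap.congr_fun hσ v
  refine of_gen_cog hV (h.eqv'.comap (IsRM.const hf))
    ((h.gen.map (φ := fun _ => σ) (RegM.const _)).congr fun x hx => ?_)
    (h.cog.comap (φ := fun _ => f) (RegM.const _))
  apply le_antisymm
  · rintro _ ⟨w, hw, rfl⟩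
    obtain ⟨v, rfl⟩ := e x hx hw
    rw [hσ']; exact hw
  · exact fun v hv => ⟨f v, hv, hσ' v⟩
lemma exists_range (h : IsAB X V L) : ∃ (W : GV) (ψ : Pt → W.V →ₗ[ℂ] V.V), W.In X.B ∧
    IsRM X W V ψ ∧ ∀ x ∈ X.pts, LinearMap.range (ψ x) = L x := by
  obtain ⟨n, b, deg, hd, hb⟩ := h.hin.exists_basis
  have d1 : Deg0 (co deg) V b.equivFun.symm.toLinearMap := fun c => by
    simp only [LinearEquiv.coe_coe, Basis.equivFun_symm_apply, map_sum, map_smul, hb, smul_smul,
      gd_apply, mul_comm]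
  have d2 : Deg0 V (co deg) b.equivFun.toLinearMap := fun v => by
    apply b.equivFun.symm.injective
    have := d1 (b.equivFun v)
    simp only [LinearEquiv.coe_coe, LinearEquiv.symm_apply_apply] at this ⊢
    exact this.symm
  obtain ⟨m, e, Φ, h1, h2, h3⟩ := Gen.exists_hmg (X := X) (a := deg)
    (L := fun x => (L x).map b.equivFun.toLinearMap)
    (gen_iff.2 (h.gen.map (φ := fun _ => b.equivFun.toLinearMap) (RegM.const _)))
    (isEqv_iff.2 (h.eqv'.map (IsRM.const d2))) hd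
  refine ⟨co e, fun x => b.equivFun.symm.toLinearMap ∘ₗ mev x Φ, in_co h1,
    (IsRM.const d1).comp (isRM_mev h2), fun x hx => ?_⟩
  rw [LinearMap.range_comp, h3 x hx, ← Submodule.map_comp]
  simp
/-- a regular map with kernel `L` near a point, and one with image `L` -/
lemma exists_ker (h : IsAB X V L) : ∃ (W : GV) (ψ : Pt → V.V →ₗ[ℂ] W.V), W.In X.B ∧
    IsRM X V W ψ ∧ ∀ x ∈ X.pts, LinearMap.ker (ψ x) = L x := by
  obtain ⟨W, ψ, h1, h2, h3⟩ := h.perp.exists_range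
  have d : Deg0 V V.dual.dual (Dual.eval ℂ V.V) := fun v => by
    ext ℓ
    simp
  refine ⟨W.dual, fun x => (ψ x).dualMap ∘ₗ Dual.eval ℂ V.V, h1.dual,
    h2.dualMap.comp (IsRM.const d), fun x hx => ?_⟩
  rw [LinearMap.ker_comp, LinearMap.ker_dualMap_eq_dualAnnihilator_range, h3 x hx,
    Subspace.comap_dualAnnihilator_dualAnnihilator]
end IsAB

end Crest.Agent.N265
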