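import Crest.Agent.N265.K.Tan0

/-! # Task K8, auxiliary file (helper60): tangent spaces and dimension of projective bundles -/

set_option autoImplicit false
noncomputable section
open MvPolynomial Module

namespace Crest.Agent.N265.TanAux
open Bun
variable {X P : Spc} {A : Bun X} {δ : D} {b : ℕ} {y : A.ι → Var}

lemma y_notMem (h : IsPSub P A δ b y) (i : A.ι) : (y i).1 ∉ X.B := by rw [h.blk]; exact h.new

/-- the linear form on the block `b` given by a polynomial covector -/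
def lin (X : Spc) {ι : Type} [Fintype ι] (y : ι → Var) (a : ι → R) : R :=
  ∑ i, kill X.B (a i) * MvPolynomial.X (y i)

lemma eval_lin {ι : Type} [Fintype ι] (y : ι → Var) (a : ι → R) (p : Pt) :
    eval p (lin X y a) = ∑ i, eval (restr X.B p) (a i) * p (y i) := by
  simp only [lin, map_sum, map_mul, eval_kill, eval_X]

lemma dAt_lin {ι : Type} [Fintype ι] (y : ι → Var) (a : ι → R) (p ξ : Pt) :
    dAt p ξ (lin X y a) = ∑ i, (dAt (restr X.B p) (restr X.B ξ) (a i) * p (y i) +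
      eval (restr X.B p) (a i) * ξ (y i)) := by
  simp only [lin, Jac.dAt_sum, dAt_mul, eval_kill, eval_X, dAt_X, dAt_kill]
  exact Finset.sum_congr rfl fun i _ => by ring

lemma lin_mem_I (h : IsPSub P A δ b y) {a : A.ι → R} (ha : A.IsCov a) : lin X y a ∈ P.I :=
  fun p hp => by
    rw [eval_lin]
    exact ha _ ((h.mem p).1 hp).1 _ ((h.mem p).1 hp).2.1

lemma X_mem_PI (h : IsPSub P A δ b y) {v : Var} (h1 : v.1 ∉ X.B) (h2 : v ∉ Set.range y) :
    (MvPolynomial.X v : R) ∈ P.I := fun p hp => by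
  rw [eval_X]
  by_contra hc
  exact (((h.mem p).1 hp).2.2.2 v hc).elim h1 h2

/-- the derivative of the local projector, applied to `w / r x` -/
def dP {ι : Type} [Fintype ι] (x : Pt) (Q : Matrix ι ι R) (w : ι → ℂ) : Pt →ₗ[ℂ] ι → ℂ where
  toFun ζ i := ∑ j, dAt x ζ (Q i j) * w j
  map_add' a b := by
    funext i; simp only [dAt_dir_add, add_mul, Finset.sum_add_distrib, Pi.add_apply]
  map_smul' c a := by
    funext i
    simp only [dAt_dir_smul, mul_assoc, ← Finset.mul_sum, Pi.smul_apply, smul_eq_mul,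
      RingHom.id_apply]

/-- differentiate `a ⬝ Q = 0` -/
lemma cov_dP {r : R} {Q : Matrix A.ι A.ι R}
    (hQ : ∀ x ∈ X.pts, (∀ v, mev x Q v ∈ A.L x) ∧ ∀ v ∈ A.L x, mev x Q v = eval x r • v)
    {x : Pt} (hx : x ∈ X.pts) (hr : eval x r ≠ 0) {w : A.ι → ℂ} (hw : w ∈ A.L x) {ζ : Pt}
    (hζ : ζ ∈ X.Tan x) {a : A.ι → R} (ha : A.IsCov a) :
    ∑ i, dAt x ζ (a i) * w i + ∑ i, eval x (a i) * dP x Q ((eval x r)⁻¹ • w) ζ i = 0 := by
  have h1 := hζ (∑ i, a i * ∑ j, Q i j * C (((eval x r)⁻¹ • w) j)) fun p hp => by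
    have := ha p hp _ ((hQ p hp).1 ((eval x r)⁻¹ • w))
    simp only [mev_apply] at this
    simpa only [map_sum, map_mul, eval_C] using this
  have h2 := (hQ x hx).2 _ (Submodule.smul_mem _ (eval x r)⁻¹ hw)
  rw [smul_smul, mul_inv_cancel₀ hr, one_smul] at h2
  rw [← h1, Jac.dAt_sum, ← Finset.sum_add_distrib]
  refine Finset.sum_congr rfl fun i _ => ?_
  have h3 : eval x (∑ j, Q i j * C (((eval x r)⁻¹ • w) j)) = w i := by
    rw [← congrFun h2 i, mev_apply]; simp only [map_sum, map_mul, eval_C]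
  rw [dAt_mul, h3, Jac.dAt_sum]
  simp only [dP, dAt_mul, dAt_C, eval_C, LinearMap.coe_mk, AddHom.coe_mk, mul_zero, zero_add]
  rw [add_comm, mul_comm (w i)]
  congr 2
  exact Finset.sum_congr rfl fun j _ => mul_comm _ _

lemma cond_iff {r : R} {Q : Matrix A.ι A.ι R}
    (hQ : ∀ x ∈ X.pts, (∀ v, mev x Q v ∈ A.L x) ∧ ∀ v ∈ A.L x, mev x Q v = eval x r • v)
    {x : Pt} (hx : x ∈ X.pts) (hr : eval x r ≠ 0) {w : A.ι → ℂ} (hw : w ∈ A.L x) {ζ : Pt}
    (hζ : ζ ∈ X.Tan x) (η : A.ι → ℂ) :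
    (∀ a : A.ι → R, A.IsCov a → ∑ i, (dAt x ζ (a i) * w i + eval x (a i) * η i) = 0) ↔
      η - dP x Q ((eval x r)⁻¹ • w) ζ ∈ A.L x := by
  constructor
  · intro h
    rw [← perp_perp (A.L x)]
    intro a0 ha0
    obtain ⟨a, rfl, ha⟩ := A.alg.cogen x hx a0 ha0
    have h1 := h a ha
    have h2 := cov_dP hQ hx hr hw hζ ha
    rw [Finset.sum_add_distrib] at h1
    simp only [Pi.sub_apply, mul_comm _ (eval x (a _))]
    simp only [mul_sub, Finset.sum_sub_distrib]
    linear_combination h1 - h2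
  · intro h a ha
    have h1 := ha x hx _ h
    have h2 := cov_dP hQ hx hr hw hζ ha
    simp only [Pi.sub_apply, mul_sub, Finset.sum_sub_distrib] at h1
    rw [Finset.sum_add_distrib]
    linear_combination h1 + h2

/-- the point with base `x` and fibre coordinate `u` -/
def mkPt {ι : Type} (y : ι → Var) (x : Pt) (u : ι → ℂ) : Pt := Function.extend y u x

lemma mkPt_y {ι : Type} {y : ι → Var} (hy : Function.Injective y) (x : Pt) (u : ι → ℂ) (i : ι) :
    mkPt y x u (y i) = u i := hy.extend_apply _ _ _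

lemma mkPt_ne {ι : Type} {y : ι → Var} (x : Pt) (u : ι → ℂ) {v : Var} (hv : v ∉ Set.range y) :
    mkPt y x u v = x v := Function.extend_apply' _ _ _ hv

lemma restr_mkPt (h : IsPSub P A δ b y) (x : Pt) (u : A.ι → ℂ) :
    restr X.B (mkPt y x u) = restr X.B x := by
  funext v
  by_cases hv : v.1 ∈ X.B
  · simp only [restr, hv, if_true]
    exact mkPt_ne _ _ (by rintro ⟨i, rfl⟩; exact y_notMem h i hv)
  · simp [restr, hv]

lemma supp_mkPt (x : Pt) (u : A.ι → ℂ) (v : Var) (hv : mkPt y (restr X.B x) u v ≠ 0) :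
    v.1 ∈ X.B ∨ v ∈ Set.range y := by
  by_contra hc
  push Not at hc
  rw [mkPt_ne _ _ hc.2] at hv
  simp [restr, hc.1] at hv

lemma eq_mkPt (h : IsPSub P A δ b y) {p : Pt} (hp : ∀ v, p v ≠ 0 → v.1 ∈ X.B ∨ v ∈ Set.range y) :
    mkPt y (restr X.B p) (fun i => p (y i)) = p := by
  funext v
  by_cases hv : v ∈ Set.range y
  · obtain ⟨i, rfl⟩ := hv; exact mkPt_y h.inj _ _ i
  · rw [mkPt_ne _ _ hv]
    by_cases h' : v.1 ∈ X.B
    · simp [restr, h']
    · have : p v = 0 := by by_contra hc; exact (hp v hc).elim h' hv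
      simp [restr, h', this]

theorem mem_tan (h : IsPSub P A δ b y) {z : Pt} (hz : z ∈ P.pts) {ξ : Pt} :
    ξ ∈ P.Tan z ↔ restr X.B ξ ∈ X.Tan (restr X.B z) ∧
      (∀ v, ξ v ≠ 0 → v.1 ∈ X.B ∨ v ∈ Set.range y) ∧ ∀ a : A.ι → R, A.IsCov a →
        ∑ i, (dAt (restr X.B z) (restr X.B ξ) (a i) * z (y i) +
          eval (restr X.B z) (a i) * ξ (y i)) = 0 := by
  refine ⟨fun hξ => ⟨fun r hr => ?_, fun v hv => ?_, fun a ha => ?_⟩, fun ⟨h1, h2, h3⟩ f hf => ?_⟩
  · rw [← dAt_kill]; exact hξ _ (h.proj.kill_mem hr)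
  · by_contra hc
    push Not at hc
    exact hv (by simpa using hξ _ (X_mem_PI h hc.1 hc.2))
  · rw [← dAt_lin]; exact hξ _ (lin_mem_I h ha)
  obtain ⟨hx, hw, hw0, hs⟩ := (h.mem z).1 hz
  obtain ⟨r, Q, hr, hQ⟩ := A.alg _ hx
  have hu := (cond_iff hQ hx hr hw h1 _).1 h3
  obtain ⟨i₀, hi₀⟩ := Function.ne_iff.1 hw0
  -- the retraction
  let F : Var → R := Function.extend y (fun i => lin X y (Q i)) fun v => kill X.B (MvPolynomial.X v)
  have hF : ∀ p, (fun v => eval p (F v)) =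
      mkPt y (restr X.B p) (mev (restr X.B p) Q fun i => p (y i)) := by
    intro p; funext v
    by_cases hv : v ∈ Set.range y
    · obtain ⟨i, rfl⟩ := hv
      simp only [F, h.inj.extend_apply, mkPt_y h.inj, eval_lin, mev_apply]
    · rw [mkPt_ne _ _ hv]
      simp only [F, Function.extend_apply' _ _ _ hv, eval_kill, eval_X]
  have hF' : ∀ p ζ, (fun v => dAt p ζ (F v)) = mkPt y (restr X.B ζ)
      (dP (restr X.B p) Q (fun i => p (y i)) (restr X.B ζ) +
        mev (restr X.B p) Q fun i => ζ (y i)) := by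
    intro p ζ; funext v
    by_cases hv : v ∈ Set.range y
    · obtain ⟨i, rfl⟩ := hv
      simp only [F, h.inj.extend_apply, mkPt_y h.inj, dAt_lin, mev_apply, Pi.add_apply, dP,
        LinearMap.coe_mk, AddHom.coe_mk, Finset.sum_add_distrib]
    · rw [mkPt_ne _ _ hv]
      simp only [F, Function.extend_apply' _ _ _ hv, dAt_kill, dAt_X]
  set x := restr X.B z with hxd
  have hxx : restr X.B x = x := restr_restr subset_rfl z
  have hξξ : restr X.B (restr X.B ξ) = restr X.B ξ := restr_restr subset_rfl ξ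
  let p := mkPt y x ((eval x r)⁻¹ • fun i => z (y i))
  let ζ := mkPt y (restr X.B ξ) ((eval x r)⁻¹ •
    ((fun i => ξ (y i)) - dP x Q ((eval x r)⁻¹ • fun i => z (y i)) (restr X.B ξ)))
  have hp : restr X.B p = x := (restr_mkPt h _ _).trans hxx
  have hζ : restr X.B ζ = restr X.B ξ := (restr_mkPt h _ _).trans hξξ
  have hp' : (fun i => p (y i)) = (eval x r)⁻¹ • fun i => z (y i) :=
    funext fun i => mkPt_y h.inj _ _ i
  have hζ' : (fun i => ζ (y i)) = (eval x r)⁻¹ •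
      ((fun i => ξ (y i)) - dP x Q ((eval x r)⁻¹ • fun i => z (y i)) (restr X.B ξ)) :=
    funext fun i => mkPt_y h.inj _ _ i
  have e1 : (fun v => eval p (F v)) = z := by
    rw [hF, hp, hp', map_smul, (hQ x hx).2 _ hw, smul_smul, inv_mul_cancel₀ hr, one_smul]
    exact eq_mkPt h hs
  have e2 : (fun v => dAt p ζ (F v)) = ξ := by
    rw [hF', hp, hp', hζ, hζ', map_smul, (hQ x hx).2 _ hu, smul_smul, inv_mul_cancel₀ hr, one_smul,
      add_sub_cancel]
    exact eq_mkPt h h2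
  have h4 := dAt_prod (X := X) (f := aeval F (MvPolynomial.X (y i₀) * f)) (p := p) (ξ := ζ)
    (fun q hq => by
      rw [eval_aeval, hF, map_mul, eval_X]
      by_cases h0 : mkPt y (restr X.B q) (mev (restr X.B q) Q fun i => q (y i)) (y i₀) = 0
      · rw [h0, zero_mul]
      · rw [hf _ ((h.mem _).2 ⟨?_, ?_, fun e => h0 (congrFun e i₀), supp_mkPt _ _⟩), mul_zero]
        · rwa [restr_mkPt h, restr_restr subset_rfl]
        · rw [restr_mkPt h, restr_restr subset_rfl]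
          simp only [mkPt_y h.inj]
          exact (hQ _ hq).1 _) (by rwa [hp]) (by rwa [hp, hζ])
  rw [dAt_aeval, e1, e2, dAt_mul, hf z hz, zero_mul, add_zero, eval_X] at h4
  exact (mul_eq_zero.1 h4).resolve_left hi₀

theorem finrank_tan (h : IsPSub P A δ b y) {z : Pt} (hz : z ∈ P.pts) :
    finrank ℂ (P.Tan z) = finrank ℂ (X.Tan (restr X.B z)) + finrank ℂ (A.L (restr X.B z)) := by
  obtain ⟨hx, hw, -, -⟩ := (h.mem z).1 hz
  obtain ⟨r, Q, hr, hQ⟩ := A.alg _ hx
  let ρ : Pt →ₗ[ℂ] Pt :=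
    { toFun := restr X.B
      map_add' := fun a b => by funext v; by_cases h : v.1 ∈ X.B <;> simp [restr, h]
      map_smul' := fun c a => by funext v; by_cases h : v.1 ∈ X.B <;> simp [restr, h] }
  let dd := dP (restr X.B z) Q ((eval (restr X.B z) r)⁻¹ • fun i => z (y i))
  let Φ : P.Tan z →ₗ[ℂ] X.Tan (restr X.B z) × A.L (restr X.B z) := LinearMap.prod
    ((ρ ∘ₗ (P.Tan z).subtype).codRestrict _ fun ξ => ((mem_tan h hz).1 ξ.2).1)
    (((LinearMap.funLeft ℂ ℂ y - dd ∘ₗ ρ) ∘ₗ (P.Tan z).subtype).codRestrict _ fun ξ =>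
      (cond_iff hQ hx hr hw ((mem_tan h hz).1 ξ.2).1 _).1 ((mem_tan h hz).1 ξ.2).2.2)
  rw [← finrank_prod]
  refine (LinearEquiv.ofBijective Φ ⟨(injective_iff_map_eq_zero _).2 fun ξ hξ => ?_,
    fun ⟨⟨ζ, hζ⟩, u, hu⟩ => ?_⟩).finrank_eq
  · have h1 : restr X.B ξ = 0 := congrArg (fun t => (t.1 : Pt)) hξ
    have h2 : (fun i => ξ.1 (y i)) - dd (restr X.B ξ) = 0 := congrArg (fun t => (t.2 : A.ι → ℂ)) hξ
    rw [h1, map_zero, sub_zero] at h2
    refine Subtype.ext (funext fun v => ?_)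
    by_contra hc
    rcases ((mem_tan h hz).1 ξ.2).2.1 v hc with h3 | ⟨i, rfl⟩
    · exact hc (by simpa [restr, h3] using congrFun h1 v)
    · exact hc (congrFun h2 i)
  · have h1 : restr X.B (mkPt y ζ (u + dd ζ)) = ζ := (restr_mkPt h _ _).trans (restr_tan hζ)
    have h2 : (fun i => mkPt y ζ (u + dd ζ) (y i)) = u + dd ζ := funext fun i => mkPt_y h.inj _ _ i
    refine ⟨⟨mkPt y ζ (u + dd ζ), (mem_tan h hz).2 ⟨by rwa [h1], ?_, ?_⟩⟩,
      Prod.ext (Subtype.ext h1) (Subtype.ext ?_)⟩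
    · rw [← restr_tan hζ]; exact supp_mkPt _ _
    · refine (cond_iff hQ hx hr hw (by rwa [h1]) _).2 ?_
      rw [h1, h2, add_sub_cancel_right]; exact hu
    · change (fun i => mkPt y ζ (u + dd ζ) (y i)) - dd (restr X.B (mkPt y ζ (u + dd ζ))) = u
      rw [h1, h2, add_sub_cancel_right]

theorem ldim_le (h : IsPSub P A δ b y) {z : Pt} (hz : z ∈ P.pts) :
    P.ldim z ≤ X.ldim (restr X.B z) + finrank ℂ (A.L (restr X.B z)) := by
  refine (Spc.ldim_le_fibre h.proj hz).trans (add_le_add_right ?_ _)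
  have hs : ∀ r ∈ {r : R | ∃ v : Var, v.1 ∈ X.B ∧ r = MvPolynomial.X v - C (z v)},
      eval z r = 0 := by rintro _ ⟨v, -, rfl⟩; simp
  refine (Jac.hq_le_tan ((Jac.finJ_I P).mono le_sup_left)
    (sup_le (Jac.I_le_mx hz) (Ideal.span_le.2 hs))).trans (Nat.cast_le.2 ?_)
  rw [Jac.TanI_sup]
  have h0 : ∀ ξ ∈ TanI P.I z ⊓ TanI (Ideal.span
      {r : R | ∃ v : Var, v.1 ∈ X.B ∧ r = MvPolynomial.X v - C (z v)}) z, restr X.B ξ = 0 := by
    intro ξ hξ; funext v
    by_cases hv : v.1 ∈ X.B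
    · simpa [restr, hv, Jac.dAt_sub] using (Jac.mem_TanI_span hs).1 hξ.2 _ ⟨v, hv, rfl⟩
    · simp [restr, hv]
  refine LinearMap.finrank_le_finrank_of_injective (f := (LinearMap.funLeft ℂ ℂ y ∘ₗ
    Submodule.subtype _).codRestrict _ fun ξ => ?_) ((injective_iff_map_eq_zero _).2 fun ξ hξ => ?_)
  · rw [← perp_perp (A.L _)]
    intro a0 ha0
    obtain ⟨a, rfl, ha⟩ := A.alg.cogen _ ((h.mem z).1 hz).1 a0 ha0
    have h1 := ((mem_tan h hz).1 ξ.2.1).2.2 a ha
    have h2 : ∀ r, dAt (restr X.B z) 0 r = 0 := fun r => (Jac.dL _ r).map_zero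
    rw [h0 _ ξ.2] at h1
    simpa [h2, mul_comm, LinearMap.funLeft_apply] using h1
  · refine Subtype.ext (funext fun v => ?_)
    by_contra hc
    rcases ((mem_tan h hz).1 ξ.2.1).2.1 v hc with h3 | ⟨i, rfl⟩
    · exact hc (by simpa [restr, h3] using congrFun (h0 _ ξ.2) v)
    · exact hc (congrFun (congrArg Subtype.val hξ) i)

/-- local equations of a bundle: as many covectors as the corank -/
lemma exists_eqs (A : Bun X) {x : Pt} (hx : x ∈ X.pts) : ∃ (m : ℕ) (a : Fin m → A.ι → R) (g : R),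
    m + finrank ℂ (A.L x) = Fintype.card A.ι ∧ (∀ k, A.IsCov (a k)) ∧ eval x g ≠ 0 ∧
      ∀ x' ∈ X.pts, eval x' g ≠ 0 → ∀ v : A.ι → ℂ,
        (∀ k, ∑ i, eval x' (a k i) * v i = 0) → v ∈ A.L x' := by
  let e := finBasis ℂ (perp (A.L x))
  choose a ha1 ha2 using fun k => A.alg.cogen x hx (e k) (e k).2
  obtain ⟨g₁, hg₁, h1⟩ := (gen_span (X := X) a).usc x hx
  obtain ⟨g₂, hg₂, h2⟩ := A.alg.lc x hx
  refine ⟨_, a, g₁ * g₂, finrank_perp _, ha2, by rw [map_mul]; exact mul_ne_zero hg₁ hg₂,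
    fun x' hx' hg v hv => ?_⟩
  rw [map_mul] at hg
  have h3 := h1 x' hx' (left_ne_zero_of_mul hg)
  have h4 := h2 x' hx' (right_ne_zero_of_mul hg)
  have h5 : Submodule.span ℂ (Set.range fun k i => eval x (a k i)) = perp (A.L x) := by
    rw [show (fun k i => eval x (a k i)) = fun k => (e k : A.ι → ℂ) from funext ha1]
    have := congrArg (Submodule.map (perp (A.L x)).subtype) e.span_eq
    rwa [Submodule.map_span, ← Set.range_comp, Submodule.map_subtype_top] at this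
  have h6 : Submodule.span ℂ (Set.range fun k i => eval x' (a k i)) = perp (A.L x') := by
    refine Submodule.eq_of_le_of_finrank_le
      (Submodule.span_le.2 (by rintro _ ⟨k, rfl⟩; exact ha2 k x' hx')) ?_
    have h7 := finrank_perp (A.L x)
    have h8 := finrank_perp (A.L x')
    have h9 := congrArg (fun U : Submodule ℂ (A.ι → ℂ) => finrank ℂ U) h5
    beta_reduce at h3 h4 h9
    omega
  rw [← perp_perp (A.L x'), ← h6]
  intro c hc
  refine Submodule.span_induction (p := fun c _ => ∑ i, v i * c i = 0) ?_ (by simp) ?_ ?_ hc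
  · rintro _ ⟨k, rfl⟩; simpa only [mul_comm] using hv k
  · intro c c' _ _ k1 k2
    simp only [Pi.add_apply, mul_add, Finset.sum_add_distrib, k1, k2, add_zero]
  · intro t c _ k1
    simp only [Pi.smul_apply, smul_eq_mul, mul_left_comm _ t, ← Finset.mul_sum, k1, mul_zero]

theorem le_ldim (h : IsPSub P A δ b y) {z : Pt} (hz : z ∈ P.pts) :
    X.ldim (restr X.B z) + finrank ℂ (A.L (restr X.B z)) ≤ P.ldim z := by
  obtain ⟨hx, -, -, -⟩ := (h.mem z).1 hz
  let e := (Fintype.equivFin A.ι).symm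
  obtain ⟨J, hfin, hJ, hd⟩ := exists_aff X (y ∘ e) (h.inj.comp e.injective)
    fun i => y_notMem h (e i)
  rw [e.surjective.range_comp] at hJ
  obtain ⟨m, a, g, hm, ha, hg, heq⟩ := exists_eqs A hx
  have hJP : J ≤ P.I := fun f hf p hp =>
    (hJ p).2 ⟨fun r hr => hr _ ((h.mem p).1 hp).1, ((h.mem p).1 hp).2.2.2⟩ hf
  have hJz : J ≤ mx z := hJP.trans (Jac.I_le_mx hz)
  have := hfin.noeth
  have h1 := Jac.hq_le_sup_add hJz (fun k => lin X y (a k)) fun k => lin_mem_I h (ha k) z hz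
  have h2 := Jac.ldim_eq_hq (J := J ⊔ Ideal.span (Set.range fun k => lin X y (a k)))
    (hfin.mono le_sup_left) hz (Jac.sup_span_le hJP fun k => lin_mem_I h (ha k))
    (g := kill X.B g) (by rwa [eval_kill]) fun p hp hg' hle => by
      obtain ⟨k1, k2⟩ := (hJ p).1 (le_sup_left.trans hle)
      have k3 : restr X.B p ∈ X.pts := X.closed _
        ((rel_restr subset_rfl).2 fun c hc => hp c (h.proj.sub hc)) k1
      refine (h.mem p).2 ⟨k3, heq _ k3 (by rwa [eval_kill] at hg') _ fun k => ?_, ?_, k2⟩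
      · rw [← eval_lin]
        exact hle (Ideal.mem_sup_right (Ideal.subset_span ⟨k, rfl⟩))
      · obtain ⟨v, hv, hv'⟩ := hp b (by rw [h.B]; exact Finset.mem_insert_self _ _)
        rcases k2 v hv' with k4 | ⟨i, rfl⟩
        · exact absurd (hv ▸ k4) h.new
        · exact fun e => hv' (congrFun e i)
  have h3 := (hd z hJz).trans h1
  rw [← h2, ← hm, Nat.cast_add, add_comm (m : ℕ∞), ← add_assoc] at h3
  exact (ENat.add_le_add_iff_right (ENat.natCast_ne_top m)).1 h3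

theorem conn (h : IsPSub P A δ b y) (hX : X.Conn) (hA : ∀ x ∈ X.pts, A.L x ≠ ⊥) : P.Conn := by
  refine Spc.conn_of_fibres h.proj hX fun x hx => ⟨?_, fun Z₁ Z₂ h₁ h₂ hc hd p hp q hq e1 e2 => ?_⟩
  · obtain ⟨v, hv, h0⟩ := (Submodule.ne_bot_iff _).1 (hA x hx)
    obtain ⟨z, hz, e, -⟩ := h.exists_pt hx hv h0
    exact ⟨z, hz, e⟩
  obtain ⟨-, p1, p2, p3⟩ := (h.mem p).1 (h₁.2 hp)
  obtain ⟨-, q1, -, q3⟩ := (h.mem q).1 (h₂.2 hq)
  obtain ⟨r₁, hr₁, k1⟩ := Spc.exists_notMem (Z := Z₁) (by rw [h₁.1, ← h₂.1]; exact Z₂.rel q hq)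
    fun k => Set.disjoint_left.1 hd k hq
  obtain ⟨r₂, hr₂, k2⟩ := Spc.exists_notMem (Z := Z₂) (by rw [h₂.1, ← h₁.1]; exact Z₁.rel p hp)
    fun k => Set.disjoint_left.1 hd hp k
  obtain ⟨i, hi⟩ := Function.ne_iff.1 p2
  have h1 : lineA p (q - p) (MvPolynomial.X (y i) * r₁ * r₂) = 0 := lineA_eq_zero fun t => by
    rw [map_mul, map_mul, eval_X]
    by_cases h0 : (p + t • (q - p)) (y i) = 0
    · rw [h0, zero_mul, zero_mul]
    have h2 : restr X.B (p + t • (q - p)) = x := by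
      funext v
      have k3 := congrFun e1 v
      have k4 := congrFun e2 v
      by_cases hv : v.1 ∈ X.B
      · simp only [restr, hv, if_true] at k3 k4 ⊢
        simp [k3, k4]
      · simp only [restr, hv, if_false] at k3 ⊢
        exact k3
    have h3 : p + t • (q - p) ∈ P.pts := by
      refine (h.mem _).2 ⟨h2 ▸ hx, ?_, fun e => h0 (congrFun e i), fun v hv => ?_⟩
      · rw [h2]
        rw [e1] at p1
        rw [e2] at q1
        exact add_mem p1 (Submodule.smul_mem _ t (sub_mem q1 p1))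
      · by_cases k3 : p v = 0
        · exact q3 v fun k4 => hv (by simp [k3, k4])
        · exact p3 v k3
    rcases hc h3 with k3 | k3
    · rw [hr₁ _ k3, mul_zero, zero_mul]
    · rw [hr₂ _ k3, mul_zero]
  rw [map_mul, map_mul, mul_eq_zero, mul_eq_zero] at h1
  rcases h1 with (h1 | h1) | h1
  · have := eval_lineA p (q - p) 0 (MvPolynomial.X (y i))
    rw [h1] at this
    exact hi (by simpa using this.symm)
  · have := eval_lineA p (q - p) 1 r₁
    rw [h1] at this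
    exact k1 (by simpa using this.symm)
  · have := eval_lineA p (q - p) 0 r₂
    rw [h1] at this
    exact k2 (by simpa using this.symm)

end Crest.Agent.N265.TanAux
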