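import Crest.Agent.N265.K.Tan0

/-! # Task K8, auxiliary file (helper60): Hartogs for line bundles -/

set_option autoImplicit false
noncomputable section
open MvPolynomial Module

namespace Crest.Agent.N265.TanAux
open Bun
variable {X Z : Spc} {n : ℕ}

/-- the complement of `Z` is dense -/
lemma dense (hX : X.Sm n) (hZ : Z.Sub X) (hc : ∀ z ∈ Z.pts, Z.ldim z + 2 ≤ n) {r : R}
    (h : ∀ y ∈ X.pts, y ∉ Z.pts → eval y r = 0) : r ∈ X.I := by
  intro x hx
  by_contra h0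
  have h1 : ∀ y ∈ X.pts, eval y r ≠ 0 → y ∈ Z.pts := fun y hy hr => by
    by_contra hn; exact hr (h y hy hn)
  have h2 := (Spc.ldim_local hZ (h1 x hx h0) h0 h1).1
  have h3 := hc x (h1 x hx h0)
  rw [h2, (hX x hx).2] at h3
  have h4 : n + 2 ≤ n := by exact_mod_cast h3
  omega

lemma minor {ι : Type} {U : Submodule ℂ (ι → ℂ)} [Module.Finite ℂ U] (h : finrank ℂ U ≤ 1)
    {v w : ι → ℂ} (hv : v ∈ U) (hw : w ∈ U) (k l : ι) : v k * w l = w k * v l := by
  obtain ⟨u, hu⟩ := finrank_le_one_iff.1 h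
  obtain ⟨c, hc⟩ := hu ⟨v, hv⟩
  obtain ⟨d, hd⟩ := hu ⟨w, hw⟩
  obtain rfl : c • (u : ι → ℂ) = v := congrArg Subtype.val hc
  obtain rfl : d • (u : ι → ℂ) = w := congrArg Subtype.val hd
  simp only [Pi.smul_apply, smul_eq_mul]; ring

lemma eval_mulVec {ι κ : Type} [Fintype ι] (x : Pt) (f : Matrix κ ι R) (s : ι → R) (k : κ) :
    eval x (f.mulVec s k) = mev x f (fun i => eval x (s i)) k := by
  simp only [mev_apply, Matrix.mulVec, dotProduct, map_sum, map_mul]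

/-- cancellation of a locally non-zero function -/
lemma cancel (hX : X.Sm n) {x : Pt} (hx : x ∈ X.pts) {ψ c : R}
    (hψ : ∀ r : R, eval x r ≠ 0 → r * ψ ∉ X.I) (h : c * ψ ∈ X.I) :
    ∃ r : R, eval x r ≠ 0 ∧ r * c ∈ X.I := by
  obtain ⟨r, hr, h1 | h1⟩ := (hX.smAt hx).domain hx h
  · exact ⟨r, hr, h1⟩
  · exact absurd h1 (hψ r hr)

lemma cancel' (hX : X.Sm n) {x : Pt} (hx : x ∈ X.pts) {ψ c : R}
    (hψ : ∀ r : R, eval x r ≠ 0 → r * ψ ∉ X.I) (h : c * ψ ∈ X.I) : eval x c = 0 := by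
  obtain ⟨r, hr, h1⟩ := cancel hX hx hψ h
  have := h1 x hx
  rw [map_mul] at this
  exact (mul_eq_zero.1 this).resolve_left hr

variable {κ : Type} [Fintype κ]

/-- off `Z` the image of a non-vanishing section does not vanish -/
lemma ne_of_sec {B : Bun X} (hB : B.Rk 1) (g : Matrix κ B.ι R) {β : B.ι → R} (hβ : B.IsSec β)
    {j : B.ι} {y : Pt} (hy : y ∈ X.pts) (h : (B.L y).map (mev y g) ≠ ⊥) (h0 : eval y (β j) ≠ 0) :
    ∃ k, eval y (g.mulVec β k) ≠ 0 := by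
  by_contra hc
  push Not at hc
  refine h ((Submodule.eq_bot_iff _).2 ?_)
  rintro _ ⟨v, hv, rfl⟩
  have h1 : eval y (β j) • v = v j • fun i => eval y (β i) := by
    funext i
    simpa [mul_comm] using minor (hB y hy).le (hβ y hy) hv j i
  have h2 : mev y g (fun i => eval y (β i)) = 0 := funext fun k => by
    rw [← eval_mulVec]; exact hc k
  have h3 := congrArg (mev y g) h1
  rw [map_smul, map_smul, h2, smul_zero] at h3
  exact (smul_eq_zero.1 h3).resolve_left h0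

lemma loc_ne (hX : X.Sm n) (hZ : Z.Sub X) (hc : ∀ z ∈ Z.pts, Z.ldim z + 2 ≤ n) {B : Bun X}
    (hB : B.Rk 1) (g : Matrix κ B.ι R)
    (h : ∀ y ∈ X.pts, y ∉ Z.pts → (B.L y).map (mev y g) ≠ ⊥) {β : B.ι → R} (hβ : B.IsSec β)
    {x : Pt} (hx : x ∈ X.pts) {j : B.ι} (h0 : eval x (β j) ≠ 0) :
    ∃ k, ∀ r : R, eval x r ≠ 0 → r * g.mulVec β k ∉ X.I := by
  by_contra hcon
  push Not at hcon
  choose r hr hr' using hcon
  have h1 := dense hX hZ hc (r := β j * ∏ k, r k) fun y hy hn => by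
    by_contra h2
    rw [map_mul, map_prod] at h2
    obtain ⟨k, hk⟩ := ne_of_sec hB g hβ hy (h y hy hn) (left_ne_zero_of_mul h2)
    have h3 := hr' k y hy
    rw [map_mul] at h3
    exact mul_ne_zero (Finset.prod_ne_zero_iff.1 (right_ne_zero_of_mul h2) k (Finset.mem_univ _))
      hk h3
  have h2 := h1 x hx
  rw [map_mul, map_prod] at h2
  exact mul_ne_zero h0 (Finset.prod_ne_zero_iff.2 fun k _ => hr k) h2

/-- one half of the extension -/
lemma half (hX : X.Sm n) (hZ : Z.Sub X) (hc : ∀ z ∈ Z.pts, Z.ldim z + 2 ≤ n) {φ ψ : κ → R} {u : R}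
    (hm : ∀ k l, ψ k * φ l - φ k * ψ l ∈ X.I)
    (hu : ∀ y ∈ X.pts, y ∉ Z.pts → eval y u ≠ 0 → ∃ k, eval y (ψ k) ≠ 0) {x : Pt}
    (hx : x ∈ X.pts) (hux : eval x u ≠ 0) {k₀ : κ}
    (hk : ∀ r : R, eval x r ≠ 0 → r * ψ k₀ ∉ X.I) :
    ∃ r a : R, eval x r ≠ 0 ∧ ∀ l, r * φ l - a * ψ l ∈ X.I := by
  classical
  obtain ⟨r, a, hr, h1⟩ := Spc.hartogs hX hZ hc hx (f := φ k₀) hux hk fun y hy hn hy' => by
    obtain ⟨k, hk⟩ := hu y hy hn hy'
    exact ⟨ψ k, φ k, hk, hm k k₀⟩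
  have h2 : ∀ l, ∃ ρ : R, eval x ρ ≠ 0 ∧ ρ * (r * φ l - a * ψ l) ∈ X.I := fun l =>
    cancel hX hx hk (by
      convert X.I.add_mem (X.I.mul_mem_left r (hm k₀ l)) (X.I.mul_mem_right (ψ l) h1) using 1
      ring)
  choose ρ hρ hρ' using h2
  refine ⟨(∏ l, ρ l) * r, (∏ l, ρ l) * a, ?_, fun l => ?_⟩
  · rw [map_mul, map_prod]
    exact mul_ne_zero (Finset.prod_ne_zero_iff.2 fun l _ => hρ l) hr
  · rw [← Finset.prod_erase_mul _ _ (Finset.mem_univ l)]
    convert X.I.mul_mem_left (∏ k ∈ Finset.univ.erase l, ρ k) (hρ' l) using 1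
    ring

variable {A B : Bun X}

/-- pairs of sections with the same image -/
def Pair (f : Matrix κ A.ι R) (g : Matrix κ B.ι R) (s : A.ι ⊕ B.ι → R) : Prop :=
  ∀ y ∈ X.pts, (fun i => eval y (s (.inl i))) ∈ A.L y ∧ (fun i => eval y (s (.inr i))) ∈ B.L y ∧
    mev y f (fun i => eval y (s (.inl i))) = mev y g fun i => eval y (s (.inr i))

/-- values of the pairs -/
def Gam (f : Matrix κ A.ι R) (g : Matrix κ B.ι R) (x : Pt) : Submodule ℂ (A.ι ⊕ B.ι → ℂ) where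
  carrier := {v | ∃ s, Pair f g s ∧ (fun i => eval x (s i)) = v}
  add_mem' := by
    rintro _ _ ⟨s, hs, rfl⟩ ⟨t, ht, rfl⟩
    refine ⟨s + t, fun y hy => ?_, by funext i; simp⟩
    obtain ⟨h1, h2, h3⟩ := hs y hy
    obtain ⟨k1, k2, k3⟩ := ht y hy
    simp only [Pi.add_apply, map_add]
    refine ⟨add_mem h1 k1, add_mem h2 k2, ?_⟩
    exact (map_add _ _ _).trans ((congrArg₂ (· + ·) h3 k3).trans (map_add _ _ _).symm)
  zero_mem' := ⟨0, fun y _ => by
    simp only [Pi.zero_apply, map_zero]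
    exact ⟨zero_mem _, zero_mem _, (map_zero _).trans (map_zero _).symm⟩, by funext i; simp⟩
  smul_mem' := by
    rintro c _ ⟨s, hs, rfl⟩
    refine ⟨fun i => C c * s i, fun y hy => ?_, by funext i; simp⟩
    obtain ⟨h1, h2, h3⟩ := hs y hy
    simp only [map_mul, eval_C]
    refine ⟨Submodule.smul_mem _ c h1, Submodule.smul_mem _ c h2, ?_⟩
    exact (map_smul _ c _).trans ((congrArg (c • ·) h3).trans (map_smul _ c _).symm)

omit [Fintype κ] in
lemma gen_Gam (f : Matrix κ A.ι R) (g : Matrix κ B.ι R) : Gen X (Gam f g) := by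
  rintro x _ _ ⟨s, hs, rfl⟩
  exact ⟨s, rfl, fun y _ => ⟨s, hs, rfl⟩⟩

omit [Fintype κ] in
lemma pair_iff {e : κ → D} {f : Matrix κ A.ι R} {g : Matrix κ B.ι R} (hf : MHmg A.deg e f)
    (hg : MHmg B.deg e g) {s t : A.ι ⊕ B.ι → R}
    (h : ∀ y i, eval (gpt y) (t i) = chi (Sum.elim A.deg B.deg i) * eval y (s i)) :
    Pair f g s ↔ Pair f g t := by
  have key : ∀ y ∈ X.pts, ((fun i => eval y (s (.inl i))) ∈ A.L y ∧
      (fun i => eval y (s (.inr i))) ∈ B.L y ∧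
      mev y f (fun i => eval y (s (.inl i))) = mev y g fun i => eval y (s (.inr i))) ↔
      ((fun i => eval (gpt y) (t (.inl i))) ∈ A.L (gpt y) ∧
      (fun i => eval (gpt y) (t (.inr i))) ∈ B.L (gpt y) ∧
      mev (gpt y) f (fun i => eval (gpt y) (t (.inl i))) =
        mev (gpt y) g fun i => eval (gpt y) (t (.inr i))) := by
    intro y hy
    simp only [h, Sum.elim_inl, Sum.elim_inr]
    rw [mev_gpt hf, mev_gpt hg, ← A.eqv y hy, ← B.eqv y hy]
    refine and_congr_right fun _ => and_congr_right fun _ => ⟨fun e => by rw [e], fun e => ?_⟩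
    exact funext fun j => mul_left_cancel₀ (chi_ne _) (congrFun e j)
  refine ⟨fun hs y hy => ?_, fun ht y hy => (key y hy).2 (ht _ (X.inv y hy))⟩
  obtain ⟨y, rfl⟩ := gpt_surj y
  exact (key y (X.mem_of_gpt hy)).1 (hs y (X.mem_of_gpt hy))

omit [Fintype κ] in
lemma eqv_Gam {e : κ → D} {f : Matrix κ A.ι R} {g : Matrix κ B.ι R} (hf : MHmg A.deg e f)
    (hg : MHmg B.deg e g) : IsEqv X (Sum.elim A.deg B.deg) (Gam f g) := by
  intro x _ v
  constructor
  · rintro ⟨s, hs, rfl⟩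
    have h : ∀ y i, eval (gpt y) (C (chi (Sum.elim A.deg B.deg i)) * Jac.gamInv (s i)) =
        chi (Sum.elim A.deg B.deg i) * eval y (s i) := fun y i => by
      rw [map_mul, eval_C, ← eval_gam, Jac.gam_gamInv]
    exact ⟨_, (pair_iff hf hg h).1 hs, funext (h x)⟩
  · rintro ⟨t, ht, e⟩
    have h : ∀ y i, eval (gpt y) (t i) = chi (Sum.elim A.deg B.deg i) *
        eval y (C (chi (Sum.elim A.deg B.deg i))⁻¹ * gam (t i)) := fun y i => by
      rw [map_mul, eval_C, eval_gam, mul_inv_cancel_left₀ (chi_ne _)]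
    refine ⟨_, (pair_iff hf hg h).2 ht, funext fun i => ?_⟩
    exact mul_left_cancel₀ (chi_ne _) ((h x i).symm.trans (congrFun e i))

lemma exists_sec (hA : A.Rk 1) {x : Pt} (hx : x ∈ X.pts) :
    ∃ (α : A.ι → R) (i : A.ι), A.IsSec α ∧ eval x (α i) ≠ 0 := by
  have h1 : A.L x ≠ ⊥ := fun e => by have := hA x hx; rw [e] at this; simp at this
  obtain ⟨v, hv, h0⟩ := (Submodule.ne_bot_iff _).1 h1
  obtain ⟨α, rfl, hα⟩ := A.alg.gen x hx v hv
  obtain ⟨i, hi⟩ := Function.ne_iff.1 h0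
  exact ⟨α, i, hα, hi⟩

/-- a pair with both components non-zero -/
lemma exists_pair (hX : X.Sm n) (hZ : Z.Sub X) (hc : ∀ z ∈ Z.pts, Z.ldim z + 2 ≤ n)
    (hA : A.Rk 1) (hB : B.Rk 1) (f : Matrix κ A.ι R) (g : Matrix κ B.ι R)
    (h : ∀ x ∈ X.pts, x ∉ Z.pts → (A.L x).map (mev x f) ≠ ⊥ ∧
      (A.L x).map (mev x f) = (B.L x).map (mev x g)) {x : Pt} (hx : x ∈ X.pts) :
    ∃ s i j, Pair f g s ∧ eval x (s (.inl i)) ≠ 0 ∧ eval x (s (.inr j)) ≠ 0 := by
  obtain ⟨α, i, hα, hi⟩ := exists_sec hA hx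
  obtain ⟨β, j, hβ, hj⟩ := exists_sec hB hx
  have hA' : ∀ y ∈ X.pts, y ∉ Z.pts → (A.L y).map (mev y f) ≠ ⊥ := fun y h1 h2 => (h y h1 h2).1
  have hB' : ∀ y ∈ X.pts, y ∉ Z.pts → (B.L y).map (mev y g) ≠ ⊥ := fun y h1 h2 =>
    (h y h1 h2).2 ▸ (h y h1 h2).1
  have hm : ∀ k l, g.mulVec β k * f.mulVec α l - f.mulVec α k * g.mulVec β l ∈ X.I :=
    fun k l => dense hX hZ hc fun y hy hn => by
      simp only [map_sub, map_mul, eval_mulVec]
      exact sub_eq_zero.2 (minor (U := (B.L y).map (mev y g))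
        ((Submodule.finrank_map_le _ _).trans (hB y hy).le) ⟨_, hβ y hy, rfl⟩
        ((h y hy hn).2 ▸ ⟨_, hα y hy, rfl⟩) k l)
  obtain ⟨k₁, hk₁⟩ := loc_ne hX hZ hc hB g hB' hβ hx hj
  obtain ⟨k₂, hk₂⟩ := loc_ne hX hZ hc hA f hA' hα hx hi
  obtain ⟨r, a, hr, h1⟩ := half hX hZ hc hm
    (fun y hy hn hu => ne_of_sec hB g hβ hy (hB' y hy hn) hu) hx hj hk₁
  obtain ⟨r', a', hr', h2⟩ := half hX hZ hc (φ := g.mulVec β) (ψ := f.mulVec α)
    (fun k l => by rw [← neg_mem_iff, neg_sub]; exact hm k l)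
    (fun y hy hn hu => ne_of_sec hA f hα hy (hA' y hy hn) hu) hx hi hk₂
  have h3 : eval x (r * r' - a * a') = 0 := cancel' hX hx hk₁ (by
    convert X.I.add_mem (X.I.mul_mem_left r (h2 k₁)) (X.I.mul_mem_left a' (h1 k₁)) using 1
    ring)
  have ha : eval x a ≠ 0 := fun e => by
    rw [map_sub, map_mul, map_mul, e, zero_mul, sub_zero] at h3
    exact mul_ne_zero hr hr' h3
  refine ⟨Sum.elim (fun i => r * α i) fun j => a * β j, i, j, fun y hy => ?_, ?_, ?_⟩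
  · simp only [Sum.elim_inl, Sum.elim_inr, map_mul]
    refine ⟨Submodule.smul_mem _ (eval y r) (hα y hy), Submodule.smul_mem _ (eval y a) (hβ y hy),
      (map_smul _ (eval y r) _).trans (Eq.trans ?_ (map_smul _ (eval y a) _).symm)⟩
    funext l
    have := h1 l y hy
    rw [map_sub, map_mul, map_mul, eval_mulVec, eval_mulVec, sub_eq_zero] at this
    exact this
  · simpa using ⟨hr, hi⟩
  · simpa using ⟨ha, hj⟩

omit [Fintype κ] in
lemma map_eq_of_rk (hA : A.Rk 1) {x : Pt} (hx : x ∈ X.pts) {U : Submodule ℂ (A.ι → ℂ)}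
    (h : U ≤ A.L x) {v : A.ι → ℂ} (hv : v ∈ U) (h0 : v ≠ 0) : U = A.L x := by
  refine Submodule.eq_of_le_of_finrank_le h ?_
  rw [hA x hx]
  exact Submodule.one_le_finrank_iff.2 fun e => h0 (by rwa [e, Submodule.mem_bot] at hv)

theorem kl_hartogs (hX : X.Sm n) (hZ : Z.Sub X) (hc : ∀ z ∈ Z.pts, Z.ldim z + 2 ≤ n)
    (hA : A.Rk 1) (hB : B.Rk 1) (e : κ → D)
    (f : Matrix κ A.ι R) (g : Matrix κ B.ι R) (hf : MHmg A.deg e f) (hg : MHmg B.deg e g)
    (h : ∀ x ∈ X.pts, x ∉ Z.pts → (A.L x).map (mev x f) ≠ ⊥ ∧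
      (A.L x).map (mev x f) = (B.L x).map (mev x g)) : A.kl = B.kl := by
  obtain ⟨m, d, Φ, hd, hΦ, hr⟩ := (gen_Gam f g).exists_hmg (eqv_Gam hf hg)
    (by rintro (i | i); exacts [A.hdeg i, B.hdeg i])
  refine sub_left_inj.1 (kl_corr (A' := Bun.zero X) (B' := Bun.zero X) (Γ := triv X d hd)
    (fun _ i => i.elim) (fun _ i => i.elim) (Φ.submatrix Sum.inl id) (Φ.submatrix Sum.inr id)
    (fun _ i => i.elim) (fun _ i => i.elim) (fun i j => hΦ (.inl i) j) (fun i j => hΦ (.inr i) j)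
    fun x hx => ?_)
  have : Subsingleton ((Bun.zero X).ι → ℂ) := ⟨fun a b => funext fun i => i.elim⟩
  have hb : (Bun.zero X).L x = ⊥ := Subsingleton.elim _ _
  have hv : ∀ v, ∃ s, Pair f g s ∧ (fun i => eval x (s i)) = mev x Φ v := fun v =>
    (hr x hx).le ⟨v, rfl⟩
  obtain ⟨s, i, j, hs, hi, hj⟩ := exists_pair hX hZ hc hA hB f g h hx
  obtain ⟨v₀, hv₀⟩ := (hr x hx).ge ⟨s, hs, rfl⟩
  simp only [hb, bot_inf_eq, Submodule.map_bot, bot_le, sup_bot_eq, Submodule.mem_bot, true_and]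
  refine ⟨map_eq_of_rk hA hx ?_ ⟨v₀, trivial, rfl⟩ fun k => hi ?_,
    map_eq_of_rk hB hx ?_ ⟨v₀, trivial, rfl⟩ fun k => hj ?_, fun v _ => ?_⟩
  · rintro _ ⟨v, -, rfl⟩
    obtain ⟨t, ht, k⟩ := hv v
    change (fun i => mev x Φ v (.inl i)) ∈ _
    rw [← k]; exact (ht x hx).1
  · exact (congrFun hv₀ (.inl i)).symm.trans (congrFun k i)
  · rintro _ ⟨v, -, rfl⟩
    obtain ⟨t, ht, k⟩ := hv v
    change (fun i => mev x Φ v (.inr i)) ∈ _
    rw [← k]; exact (ht x hx).2.1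
  · exact (congrFun hv₀ (.inr j)).symm.trans (congrFun k j)
  obtain ⟨t, ht, k⟩ := hv v
  change (fun i => mev x Φ v (.inl i)) = 0 ↔ (fun i => mev x Φ v (.inr i)) = 0
  rw [← k]
  obtain ⟨k₀, hk₀⟩ := loc_ne hX hZ hc hA f (fun y h1 h2 => (h y h1 h2).1)
    (fun y hy => (hs y hy).1) hx hi
  have h1 : eval x (s (.inr j) * t (.inl i) - s (.inl i) * t (.inr j)) = 0 :=
    cancel' hX hx hk₀ fun y hy => by
      obtain ⟨s1, s2, s3⟩ := hs y hy
      obtain ⟨t1, t2, t3⟩ := ht y hy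
      have a1 : eval y (s (.inl i)) • (fun l => eval y (t (.inl l))) =
          eval y (t (.inl i)) • fun l => eval y (s (.inl l)) :=
        funext fun l => minor (hA y hy).le s1 t1 i l
      have a2 : eval y (s (.inr j)) • (fun l => eval y (t (.inr l))) =
          eval y (t (.inr j)) • fun l => eval y (s (.inr l)) :=
        funext fun l => minor (hB y hy).le s2 t2 j l
      have b1 := congrFun (congrArg (mev y f) a1) k₀
      have b2 := congrFun (congrArg (mev y g) a2) k₀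
      rw [map_smul, map_smul] at b1 b2
      rw [← s3, ← t3] at b2
      simp only [Pi.smul_apply, smul_eq_mul] at b1 b2
      rw [map_mul, map_sub, map_mul, map_mul, eval_mulVec]
      linear_combination eval y (s (.inl i)) * b2 - eval y (s (.inr j)) * b1
  rw [map_sub, map_mul, map_mul, sub_eq_zero] at h1
  have h2 : ∀ l, eval x (s (.inl i)) * eval x (t (.inl l)) =
      eval x (t (.inl i)) * eval x (s (.inl l)) := minor (hA x hx).le (hs x hx).1 (ht x hx).1 i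
  have h3 : ∀ l, eval x (s (.inr j)) * eval x (t (.inr l)) =
      eval x (t (.inr j)) * eval x (s (.inr l)) :=
    minor (hB x hx).le (hs x hx).2.1 (ht x hx).2.1 j
  constructor
  · intro h4
    have h5 : eval x (t (.inl i)) = 0 := congrFun h4 i
    rw [h5, mul_zero] at h1
    have h6 := (mul_eq_zero.1 h1.symm).resolve_left hi
    funext l
    have h7 := h3 l
    rw [h6, zero_mul] at h7
    exact (mul_eq_zero.1 h7).resolve_left hj
  · intro h4
    have h5 : eval x (t (.inr j)) = 0 := congrFun h4 j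
    rw [h5, mul_zero] at h1
    have h6 := (mul_eq_zero.1 h1).resolve_left hj
    funext l
    have h7 := h2 l
    rw [h6, zero_mul] at h7
    exact (mul_eq_zero.1 h7).resolve_left hi

end Crest.Agent.N265.TanAux
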