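import Crest.Agent.N265.K.Lam
import Crest.Agent.N265.Sp.Dim
import Crest.Agent.N265.K.Tan1
import Crest.Agent.N265.K.Tan2

/-! # Task K8: tangent bundles, geometry of projective bundles, Hartogs for line bundles -/

set_option autoImplicit false
noncomputable section
open MvPolynomial Module

namespace Crest.Agent.N265
open Bun
variable {X Y Z P : Spc}

/-- extension by zero of a vector on the variables `V` -/
def extV (V : Finset Var) : (V → ℂ) →ₗ[ℂ] Pt where
  toFun u v := if h : v ∈ V then u ⟨v, h⟩ else 0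
  map_add' := by intro a b; funext v; by_cases h : v ∈ V <;> simp [h]
  map_smul' := by intro c a; funext v; by_cases h : v ∈ V <;> simp [h]
/-- `V` contains all variables of `X` -/
def Spc.Vars (X : Spc) (V : Finset Var) : Prop :=
  (∀ v ∈ V, v.1 ∈ X.B) ∧ ∀ x ∈ X.pts, ∀ v ∉ V, x v = 0
lemma extV_gpt (V : Finset Var) (u : V → ℂ) :
    extV V (fun i => chi (vdeg i.1) * u i) = gpt (extV V u) := by
  funext v; by_cases h : v ∈ V <;> simp [extV, gpt, h]
lemma Spc.Vars.tan_le {V : Finset Var} (hV : X.Vars V) (x : Pt) :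
    X.Tan x ≤ LinearMap.range (extV V) := fun ξ hξ =>
  ⟨_, Jac.ext0_restrict fun v hv => by
    simpa using hξ (MvPolynomial.X v) fun z hz => by rw [eval_X]; exact hV.2 z hz v hv⟩
lemma Spc.Vars.finrank_comap {V : Finset Var} (hV : X.Vars V) (x : Pt) :
    finrank ℂ ((X.Tan x).comap (extV V)) = finrank ℂ (X.Tan x) := by
  rw [(Submodule.equivMapOfInjective (extV V) (Jac.ext0_inj V) _).finrank_eq,
    Submodule.map_comap_eq_of_le (hV.tan_le x)]
lemma dAt_extV (V : Finset Var) (r : R) (x : Pt) (u : V → ℂ) :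
    dAt x (extV V u) r = ∑ v : V, eval x (pderiv v.1 r) * u v := by
  classical
  induction r using MvPolynomial.induction_on with
  | C c => simp
  | add p q hp hq => simp only [dAt_add, hp, hq, map_add, add_mul, Finset.sum_add_distrib]
  | mul_X p w hp =>
    have h1 : extV V u w = ∑ v : V, eval x (pderiv v.1 (MvPolynomial.X w : R)) * u v := by
      by_cases h : w ∈ V
      · rw [Finset.sum_eq_single ⟨w, h⟩ (fun v _ hv => by
          rw [pderiv_X_of_ne fun e => hv (Subtype.ext e.symm)]; simp) (by simp)]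
        simp [extV, h]
      · rw [Finset.sum_eq_zero fun v _ => by
          rw [pderiv_X_of_ne fun e : w = v.1 => h (e ▸ v.2)]; simp]
        simp [extV, h]
    rw [dAt_mul, hp, dAt_X, h1, Finset.mul_sum, Finset.mul_sum, ← Finset.sum_add_distrib]
    refine Finset.sum_congr rfl fun v _ => ?_
    rw [pderiv_mul, map_add, map_mul, map_mul]; ring
lemma cogen_tan (X : Spc) (V : Finset Var) : Cogen X fun x => (X.Tan x).comap (extV V) := by
  have h1 : ∀ r : {r : R // r ∈ X.I}, Cogen X fun x => (⊥ : Submodule ℂ (Unit → ℂ)).comap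
      (mev x (Matrix.of fun (_ : Unit) (v : V) => pderiv v.1 r.1)) := fun r =>
    (isAlg_const (X := X) (⊥ : Submodule ℂ (Unit → ℂ))).cogen.comap _
  refine (Cogen.iInf h1).congr fun x _ => ?_
  have h2 : ∀ (r : R) (u : V → ℂ) (i : Unit),
      mev x (Matrix.of fun (_ : Unit) (v : V) => pderiv v.1 r) u i = dAt x (extV V u) r := by
    intro r u i
    rw [mev_apply, dAt_extV]
    simp only [Matrix.of_apply]
  ext u
  simp only [Submodule.mem_iInf, Submodule.mem_comap, Submodule.mem_bot]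
  refine ⟨fun h r hr => ?_, fun h r => funext fun i => ?_⟩
  · rw [← h2 r u (), h ⟨r, hr⟩]; rfl
  · rw [h2]; exact h r.1 r.2
/-- the tangent bundle of the cone over a smooth space -/
def Bun.tan (X : Spc) (V : Finset Var) (hV : X.Vars V) (n : ℕ) (h : X.Sm n) : Bun X where
  ι := V
  deg := fun v => vdeg v.1
  hdeg := fun v => vdeg_mem (hV.1 v.1 v.2)
  L := fun x => (X.Tan x).comap (extV V)
  eqv := fun x _ u => by
    rw [Submodule.mem_comap, Submodule.mem_comap, extV_gpt, TanAux.gpt_mem_tan]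
  alg := (cogen_tan X V).isAlg_of_rk fun x hx => (hV.finrank_comap x).trans (h x hx).1
lemma Bun.rk_tan (V hV n h) : (Bun.tan X V hV n h).Rk n :=
  fun x hx => (hV.finrank_comap x).trans (h x hx).1
lemma Bun.map_tan (V hV n h) {x : Pt} (hx : x ∈ X.pts) :
    ((Bun.tan X V hV n h).L x).map (extV V) = X.Tan x := by
  have _ := hx
  exact Submodule.map_comap_eq_of_le (hV.tan_le x)
/-- Jacobian matrix -/
def jac (V : Finset Var) {ι : Type} (s : ι → R) : Matrix ι V R := fun i v => pderiv v.1 (s i)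
lemma mev_jac (V : Finset Var) {ι : Type} (s : ι → R) (x : Pt) (u : V → ℂ) (i : ι) :
    mev x (jac V s) u i = dAt x (extV V u) (s i) := by
  rw [mev_apply, dAt_extV]; rfl
lemma pderiv_gam (v : Var) (r : R) : pderiv v (gam r) = C (chi (vdeg v)) * gam (pderiv v r) := by
  classical
  induction r using MvPolynomial.induction_on with
  | C c => simp
  | add p q hp hq => simp only [map_add, hp, hq, mul_add]
  | mul_X p w hp =>
    simp only [map_mul, pderiv_mul, hp, gam_X, map_add, pderiv_C, zero_mul, zero_add]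
    by_cases h : w = v
    · subst h; simp only [pderiv_X_self, map_one]; ring
    · simp only [pderiv_X_of_ne h, map_zero]; ring
lemma Hmg.pderiv {d : D} {r : R} (h : Hmg d r) (v : Var) : Hmg (d - vdeg v) (pderiv v r) := by
  have h1 := pderiv_gam v r
  rw [show gam r = _ from h, pderiv_C_mul] at h1
  unfold Hmg
  rw [chi_sub, mul_comm (chi d), map_mul, mul_assoc, h1, ← mul_assoc, ← map_mul,
    inv_mul_cancel₀ (chi_ne _), map_one, one_mul]
lemma mhmg_jac (V : Finset Var) {ι : Type} {deg : ι → D} {s : ι → R} (h : ∀ i, Hmg (deg i) (s i)) :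
    MHmg (fun v : V => vdeg v.1) deg (jac V s) := fun i v => (h i).pderiv v.1
/-- derivative of a section at a zero lies in the bundle -/
lemma Bun.dAt_mem (A : Bun X) {s : A.ι → R} (hs : A.IsSec s) {x ξ : Pt} (hx : x ∈ X.pts)
    (h0 : ∀ i, eval x (s i) = 0) (hξ : ξ ∈ X.Tan x) : (fun i => dAt x ξ (s i)) ∈ A.L x := by
  rw [← perp_perp (A.L x)]
  intro a0 ha0
  obtain ⟨a, rfl, ha⟩ := A.alg.cogen x hx a0 ha0
  have h1 := hξ (∑ i, a i * s i) fun y hy => by
    simpa only [map_sum, map_mul] using ha y hy _ (hs y hy)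
  rw [Jac.dAt_sum] at h1
  simp only [dAt_mul, h0, zero_mul, add_zero] at h1
  simpa only [mul_comm] using h1

section PB
variable {A : Bun X} {δ : D} {b : ℕ} {y : A.ι → Var}
/-- tangent vectors of a projective bundle, in terms of the covectors killing `A` -/
theorem IsPSub.mem_tan (h : IsPSub P A δ b y) {z : Pt} (hz : z ∈ P.pts) {ξ : Pt} :
    ξ ∈ P.Tan z ↔ restr X.B ξ ∈ X.Tan (restr X.B z) ∧
      (∀ v, ξ v ≠ 0 → v.1 ∈ X.B ∨ v ∈ Set.range y) ∧ ∀ a : A.ι → R, A.IsCov a →
        ∑ i, (dAt (restr X.B z) (restr X.B ξ) (a i) * z (y i) +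
          eval (restr X.B z) (a i) * ξ (y i)) = 0 := TanAux.mem_tan h hz
theorem IsPSub.finrank_tan (h : IsPSub P A δ b y) {z : Pt} (hz : z ∈ P.pts) :
    finrank ℂ (P.Tan z) = finrank ℂ (X.Tan (restr X.B z)) + finrank ℂ (A.L (restr X.B z)) :=
  TanAux.finrank_tan h hz
theorem IsPSub.ldim (h : IsPSub P A δ b y) {z : Pt} (hz : z ∈ P.pts) :
    P.ldim z = X.ldim (restr X.B z) + finrank ℂ (A.L (restr X.B z)) :=
  le_antisymm (TanAux.ldim_le h hz) (TanAux.le_ldim h hz)
theorem IsPSub.sm (h : IsPSub P A δ b y) {n r : ℕ} (hX : X.Sm n) (hr : A.Rk r) : P.Sm (n + r) :=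
  fun z hz => by
    have hx := h.proj.map z hz
    rw [h.finrank_tan hz, h.ldim hz, (hX _ hx).1, (hX _ hx).2, hr _ hx]
    exact ⟨rfl, by push_cast; rfl⟩
theorem IsPSub.conn (h : IsPSub P A δ b y) (hX : X.Conn) (hA : ∀ x ∈ X.pts, A.L x ≠ ⊥) : P.Conn :=
  TanAux.conn h hX hA
end PB

/-- two line bundles with maps to a common ambient bundle that have the same non-zero image
outside codimension two are isomorphic -/
theorem kl_hartogs {n : ℕ} (hX : X.Sm n) (hZ : Z.Sub X) (hc : ∀ z ∈ Z.pts, Z.ldim z + 2 ≤ n)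
    {A B : Bun X} (hA : A.Rk 1) (hB : B.Rk 1) {κ : Type} [Fintype κ] (e : κ → D)
    (f : Matrix κ A.ι R) (g : Matrix κ B.ι R) (hf : MHmg A.deg e f) (hg : MHmg B.deg e g)
    (h : ∀ x ∈ X.pts, x ∉ Z.pts → (A.L x).map (mev x f) ≠ ⊥ ∧
      (A.L x).map (mev x f) = (B.L x).map (mev x g)) : A.kl = B.kl :=
  TanAux.kl_hartogs hX hZ hc hA hB e f g hf hg h

end Crest.Agent.N265
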