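import Crest.Agent.N265.K.AB1b
import Crest.Agent.N265.K.Tan

/-! # Task AB2: classes `kc` of basis-free bundles -/

set_option autoImplicit false
set_option backward.isDefEq.respectTransparency false
noncomputable section
open MvPolynomial TensorProduct Module

namespace Crest.Agent.N265
open Alg _root_.Crest.Agent.N265.Pow GV Bun
variable {X Y : Spc} {U V W V' W' : GV}
variable {L L' : Pt → Submodule ℂ V.V} {M M' : Pt → Submodule ℂ W.V} {N N' : Pt → Submodule ℂ U.V}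
  {φ : Pt → V.V →ₗ[ℂ] W.V} {ψ : Pt → W.V →ₗ[ℂ] U.V}

/-! ### presentations -/
/-- coordinates in an eigenbasis have degree zero -/
theorem GV.deg0_equivFun {ι : Type} [Fintype ι] (b : Basis ι ℂ V.V) {deg : ι → D}
    (hb : ∀ i, V.g (b i) = chi (deg i) • b i) : Deg0 V (co deg) b.equivFun.toLinearMap := by
  classical
  have : b.equivFun.toLinearMap ∘ₗ V.g.toLinearMap =
      (gd deg).toLinearMap ∘ₗ b.equivFun.toLinearMap := b.ext fun i => funext fun j => by
    by_cases h : i = j <;> simp [hb, h]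
  exact LinearMap.congr_fun this
theorem GV.deg0_equivFun_symm {ι : Type} [Fintype ι] (b : Basis ι ℂ V.V) {deg : ι → D}
    (hb : ∀ i, V.g (b i) = chi (deg i) • b i) : Deg0 (co deg) V b.equivFun.symm.toLinearMap :=
  fun v => b.equivFun.injective <| by
    have := deg0_equivFun b hb (b.equivFun.symm v)
    simp only [LinearEquiv.coe_coe, LinearEquiv.apply_symm_apply] at this ⊢
    exact this.symm
/-- the bundle of a family in an eigenbasis -/
def IsAB.toBun (h : IsAB X V L) {ι : Type} [Fintype ι] [DecidableEq ι]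
    (b : Basis ι ℂ V.V) (deg : ι → D) (hd : ∀ i, deg i ∈ DS X.B)
    (hb : ∀ i, V.g (b i) = chi (deg i) • b i) : Bun X where
  ι := ι
  deg := deg
  hdeg := hd
  L := fun x => (L x).map b.equivFun.toLinearMap
  eqv := isEqv_iff.2 (h.eqv'.map (IsRM.const (deg0_equivFun b hb)))
  alg := isAlg_iff.2 (h.alg.map_equiv b.equivFun)
theorem IsAB.presB_toBun (h : IsAB X V L) {ι : Type} [Fintype ι] [DecidableEq ι]
    (b : Basis ι ℂ V.V) (deg : ι → D) (hd : ∀ i, deg i ∈ DS X.B)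
    (hb : ∀ i, V.g (b i) = chi (deg i) • b i) : PresB (h.toBun b deg hd hb) V L b :=
  ⟨hb, fun _ _ => rfl⟩
theorem IsAB.exists_pres (h : IsAB X V L) : ∃ A : Bun X, Pres A V L := by
  obtain ⟨n, b, deg, hd, hb⟩ := h.hin.exists_basis
  exact ⟨h.toBun b deg hd hb, b, h.presB_toBun b deg hd hb⟩
theorem PresB.eq_map {A : Bun X} {b : Basis A.ι ℂ V.V} (h : PresB A V L b) {x : Pt}
    (hx : x ∈ X.pts) : (A.L x).map b.equivFun.symm.toLinearMap = L x := by
  rw [h.2 x hx, ← Submodule.map_comp, LinearEquiv.symm_comp, Submodule.map_id]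
theorem Pres.isAB {A : Bun X} (h : Pres A V L) : IsAB X V L := by
  obtain ⟨b, h⟩ := h
  refine ⟨diag_of_basis b fun i => ⟨_, ⟨_, A.hdeg i, rfl⟩, h.1 i⟩,
    (A.alg'.map_equiv b.equivFun.symm).congr fun x => h.eq_map x.2, ?_⟩
  exact (Eqv.map (V := co A.deg) (isEqv_iff.1 A.eqv) (IsRM.const (deg0_equivFun_symm b h.1))).congr
    fun x hx => h.eq_map hx
/-- a regular equivariant map is a degree zero matrix in eigenbases -/
theorem IsRM.exists_mat (h : IsRM X V W φ) {ι κ : Type} [Fintype ι] [Fintype κ]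
    (b : Basis ι ℂ V.V) (c : Basis κ ℂ W.V) {d : ι → D} {e : κ → D}
    (hb : ∀ i, V.g (b i) = chi (d i) • b i) (hc : ∀ j, W.g (c j) = chi (e j) • c j) :
    ∃ Φ : Matrix κ ι R, MHmg d e Φ ∧ ∀ x ∈ X.pts, ∀ v,
      mev x Φ (b.equivFun v) = c.equivFun (φ x v) := by
  have h' := (IsRM.const (deg0_equivFun c hc)).comp (h.comp (IsRM.const (deg0_equivFun_symm b hb)))
  obtain ⟨Φ, h1, h2⟩ := exists_mhmg (X := X) (a := d) (b := e) isEqv_top h'.reg
    fun x v _ => h'.eqv_apply x.2 v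
  exact ⟨Φ, h1, fun x hx v => by rw [h2 ⟨x, hx⟩ _ trivial]; simp⟩
section transfer
variable {E F E' F' : Type} [AddCommGroup E] [Module ℂ E] [AddCommGroup F] [Module ℂ F]
  [AddCommGroup E'] [Module ℂ E'] [AddCommGroup F'] [Module ℂ F'] {e : E ≃ₗ[ℂ] E'} {e' : F ≃ₗ[ℂ] F'}
  {f : E →ₗ[ℂ] F} {f' : E' →ₗ[ℂ] F'}
theorem AB.map_transfer (h : ∀ v, f' (e v) = e' (f v)) (P : Submodule ℂ E) :
    (P.map e.toLinearMap).map f' = (P.map f).map e'.toLinearMap := by
  rw [← Submodule.map_comp, ← Submodule.map_comp]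
  exact congrArg (Submodule.map · P) (LinearMap.ext h)
theorem AB.ker_transfer (h : ∀ v, f' (e v) = e' (f v)) (P : Submodule ℂ E) :
    P.map e.toLinearMap ⊓ LinearMap.ker f' = (P ⊓ LinearMap.ker f).map e.toLinearMap := by
  ext w
  obtain ⟨v, rfl⟩ := e.surjective w
  simp [h]
end transfer
/-- short exact sequences of families give short exact sequences of presentations -/
theorem Pres.ses {A B C : Bun X} (hA : Pres A V L) (hB : Pres B W M) (hC : Pres C U N)
    (hφ : IsRM X V W φ) (hψ : IsRM X W U ψ)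
    (e : ∀ x ∈ X.pts, L x ⊓ LinearMap.ker (φ x) = ⊥ ∧
      (L x).map (φ x) = M x ⊓ LinearMap.ker (ψ x) ∧ (M x).map (ψ x) = N x) : SES A B C := by
  obtain ⟨a, hA⟩ := hA
  obtain ⟨b, hB⟩ := hB
  obtain ⟨c, hC⟩ := hC
  obtain ⟨Φ, h1, h2⟩ := hφ.exists_mat a b hA.1 hB.1
  obtain ⟨Ψ, h3, h4⟩ := hψ.exists_mat b c hB.1 hC.1
  refine ⟨Φ, Ψ, h1, h3, fun x hx => ?_⟩
  rw [hA.2 x hx, hB.2 x hx, hC.2 x hx, AB.ker_transfer (h2 x hx), AB.map_transfer (h2 x hx),
    AB.ker_transfer (h4 x hx), AB.map_transfer (h4 x hx), (e x hx).1, (e x hx).2.1, (e x hx).2.2]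
  exact ⟨Submodule.map_bot _, rfl, rfl⟩
theorem Pres.kl_iso {A B : Bun X} (hA : Pres A V L) (hB : Pres B W M) (hφ : IsRM X V W φ)
    (e : ∀ x ∈ X.pts, L x ⊓ LinearMap.ker (φ x) = ⊥ ∧ (L x).map (φ x) = M x) : A.kl = B.kl := by
  obtain ⟨a, hA⟩ := hA
  obtain ⟨b, hB⟩ := hB
  obtain ⟨Φ, h1, h2⟩ := hφ.exists_mat a b hA.1 hB.1
  refine N265.kl_iso Φ h1 fun x hx => ?_
  rw [hA.2 x hx, hB.2 x hx, AB.ker_transfer (h2 x hx), AB.map_transfer (h2 x hx), (e x hx).1,
    (e x hx).2]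
  exact ⟨Submodule.map_bot _, rfl⟩
theorem Pres.kl {A : Bun X} (h : Pres A V L) : A.kl = kc X V L := by
  have hex : ∃ A : Bun X, Pres A V L := ⟨A, h⟩
  rw [kc, dif_pos hex]
  exact h.kl_iso hex.choose_spec IsRM.id fun x _ => by simp
theorem Pres.finrank {A : Bun X} (h : Pres A V L) {x : Pt} (hx : x ∈ X.pts) :
    finrank ℂ (A.L x) = finrank ℂ (L x) := by
  obtain ⟨b, h⟩ := h
  rw [h.2 x hx, LinearEquiv.finrank_map_eq]
theorem Pres.congr {A : Bun X} (h : Pres A V L) (e : ∀ x ∈ X.pts, L x = L' x) : Pres A V L' :=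
  h.imp fun _ h => ⟨h.1, fun x hx => e x hx ▸ h.2 x hx⟩
theorem Pres.pull {A : Bun X} (h : Pres A V L) (p : Proj Y X) :
    Pres (A.pull p) V fun y => L (restr X.B y) :=
  h.imp fun _ h => ⟨h.1, fun y hy => h.2 _ (p.map y hy)⟩
theorem Bun.pres (A : Bun X) : Pres A (co A.deg) A.L := by
  refine ⟨Pi.basisFun ℂ A.ι, fun i => funext fun j => ?_, fun x _ => ?_⟩
  · by_cases h : j = i <;> simp [h]
  · rw [Pi.basisFun_equivFun]; exact (Submodule.map_id _).symm
theorem Bun.isAB (A : Bun X) : IsAB X (co A.deg) A.L := A.pres.isAB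
theorem Bun.kl_eq_kc (A : Bun X) : A.kl = kc X (co A.deg) A.L := A.pres.kl
/-! ### classes -/
theorem kc_congr (e : ∀ x ∈ X.pts, L x = L' x) : kc X V L = kc X V L' := by
  by_cases h : ∃ A : Bun X, Pres A V L
  · obtain ⟨A, h⟩ := h
    rw [← h.kl, ← (h.congr e).kl]
  · rw [kc, kc, dif_neg h, dif_neg fun ⟨A, h'⟩ => h ⟨A, h'.congr fun x hx => (e x hx).symm⟩]
theorem kc_of_bot (e : ∀ x ∈ X.pts, L x = ⊥) : kc X V L = 0 := by
  by_cases h : ∃ A : Bun X, Pres A V L
  · obtain ⟨A, b, h⟩ := h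
    rw [← Pres.kl ⟨b, h⟩]
    exact kl_of_bot fun x hx => by rw [h.2 x hx, e x hx, Submodule.map_bot]
  · rw [kc, dif_neg h]
/-- short exact sequences -/
theorem kc_ses (h : IsAB X V L) (hM : IsAB X W M) (hN : IsAB X U N) (hφ : IsRM X V W φ)
    (hψ : IsRM X W U ψ) (e : ∀ x ∈ X.pts, L x ⊓ LinearMap.ker (φ x) = ⊥ ∧
      (L x).map (φ x) = M x ⊓ LinearMap.ker (ψ x) ∧ (M x).map (ψ x) = N x) :
    kc X W M = kc X V L + kc X U N := by
  obtain ⟨A, hA⟩ := h.exists_pres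
  obtain ⟨B, hB⟩ := hM.exists_pres
  obtain ⟨C, hC⟩ := hN.exists_pres
  rw [← hA.kl, ← hB.kl, ← hC.kl, kl_ses (hA.ses hB hC hφ hψ e)]
/-- kernel and image -/
theorem kc_map (h : IsAB X V L) (hφ : IsRM X V W φ) (hm : IsAB X W fun x => (L x).map (φ x)) :
    kc X V L = kc X V (fun x => L x ⊓ LinearMap.ker (φ x)) + kc X W fun x => (L x).map (φ x) :=
  kc_ses (h.ker_of_map hφ hm) h hm IsRM.id hφ fun x _ => by simp
theorem kc_iso (h : IsAB X V L) (hM : IsAB X W M) (hφ : IsRM X V W φ)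
    (e : ∀ x ∈ X.pts, L x ⊓ LinearMap.ker (φ x) = ⊥ ∧ (L x).map (φ x) = M x) :
    kc X V L = kc X W M := by
  obtain ⟨A, hA⟩ := h.exists_pres
  obtain ⟨B, hB⟩ := hM.exists_pres
  rw [← hA.kl, ← hB.kl, hA.kl_iso hB hφ e]
theorem kc_line {d : D} (hd : d ∈ DS X.B) : kc X (line d) (fun _ => ⊤) = lbK X d := by
  refine (Pres.kl (A := Bun.line X d) (V := GV.line d) ⟨Basis.singleton Unit ℂ, fun i => ?_, fun x _ => ?_⟩).symm
  · change chi d • Basis.singleton Unit ℂ i = chi (dpr X.B d) • Basis.singleton Unit ℂ i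
    rw [dpr_of_mem hd]
  · exact (Submodule.map_top _).trans (LinearEquiv.range _) |>.symm
theorem kc_shift (h : IsAB X V L) {d : D} (hd : d ∈ DS X.B) :
    kc X (V.shift d) L = lbK X d * kc X V L := by
  obtain ⟨A, b, hA⟩ := h.exists_pres
  rw [← Pres.kl ⟨b, hA⟩, ← kl_twist A d hd]
  refine (Pres.kl (A := A.twist d hd) (V := V.shift d) ⟨b, fun i => ?_, hA.2⟩).symm
  change chi d • V.g (b i) = chi (A.deg i + d) • b i
  rw [hA.1, smul_smul, chi_add, mul_comm]
theorem kc_top_basis {ι : Type} [Fintype ι] (b : Basis ι ℂ V.V) {deg : ι → D}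
    (hd : ∀ i, deg i ∈ DS X.B) (hb : ∀ i, V.g (b i) = chi (deg i) • b i) :
    kc X V (fun _ => ⊤) = ∑ i, lbK X (deg i) := by
  classical
  refine (Pres.kl (A := Bun.triv X deg hd) ⟨b, hb, fun x _ => ?_⟩).symm.trans (kl_triv deg hd)
  exact (Submodule.map_top _).trans (LinearEquiv.range _) |>.symm
theorem kc_triv (M : Type) [AddCommGroup M] [Module ℂ M] [FiniteDimensional ℂ M]
    (P : Submodule ℂ M) : kc X (GV.triv M) (fun _ => P) = (finrank ℂ P : K X) := by
  rw [← kc_iso (V := GV.triv P) (IsAB.top (in_triv P))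
    (IsAB.const (in_triv M) (Submodule.map_id P)) (IsRM.const (f := P.subtype) fun _ => rfl)
    fun x _ => by simp,
    kc_top_basis (V := GV.triv P) (finBasis ℂ P) (deg := fun _ => 0) (fun _ => zero_mem _)
      fun i => by simp]
  simp [lbK_zero]
theorem kc_tens (h : IsAB X V L) (h' : IsAB X W M) :
    kc X (V.tens W) (fun x => tens (L x) (M x)) = kc X V L * kc X W M := by
  obtain ⟨A, a, hA⟩ := h.exists_pres
  obtain ⟨B, b, hB⟩ := h'.exists_pres
  rw [← Pres.kl ⟨a, hA⟩, ← Pres.kl ⟨b, hB⟩, ← kl_tens]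
  refine (Pres.kl (A := A.tens B) (V := V.tens W) ⟨a.tensorProduct b, fun p => ?_, fun x hx => ?_⟩).symm
  · change TensorProduct.congr V.g W.g (a.tensorProduct b (p.1, p.2)) =
      chi (A.deg p.1 + B.deg p.2) • a.tensorProduct b (p.1, p.2)
    rw [Basis.tensorProduct_apply, TensorProduct.congr_tmul, hA.1, hB.1, chi_add, smul_tmul_smul]
  have key : ∀ v w, (a.tensorProduct b).equivFun (v ⊗ₜ[ℂ] w) =
      fun p => a.equivFun v p.1 * b.equivFun w p.2 := fun v w => funext fun p => by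
    rw [Basis.equivFun_apply, Basis.tensorProduct_repr_tmul_apply, smul_eq_mul, mul_comm]; rfl
  refine le_antisymm (Submodule.span_le.2 ?_) (Submodule.map_le_iff_le_comap.2 (tens_le.2 ?_))
  · rintro _ ⟨v, hv, w, hw, rfl⟩
    rw [hA.2 x hx] at hv
    rw [hB.2 x hx] at hw
    obtain ⟨v, hv, rfl⟩ := hv
    obtain ⟨w, hw, rfl⟩ := hw
    exact ⟨_, tmul_mem hv hw, key v w⟩
  · intro v hv w hw
    refine Submodule.subset_span ⟨_, ?_, _, ?_, key v w⟩
    · rw [hA.2 x hx]; exact ⟨v, hv, rfl⟩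
    · rw [hB.2 x hx]; exact ⟨w, hw, rfl⟩
theorem PresB.amb {A : Bun X} {b : Basis A.ι ℂ V.V} (h : PresB A V L b) :
    PresB A.amb V (fun _ => ⊤) b :=
  ⟨h.1, fun _ _ => (Submodule.map_top _).trans (LinearEquiv.range _) |>.symm⟩
theorem PresB.ann {A : Bun X} {b : Basis A.ι ℂ V.V} (h : PresB A V L b) :
    PresB A.ann V.dual (fun x => (L x).dualAnnihilator) b.dualBasis := by
  refine ⟨fun i => b.ext fun j => ?_, fun x hx => ?_⟩
  · change b.dualBasis i (V.g.symm (b j)) = chi (-A.deg i) * b.dualBasis i (b j)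
    have : V.g.symm (b j) = chi (-A.deg j) • b j := by
      rw [LinearEquiv.symm_apply_eq, map_smul, h.1, smul_smul, ← chi_add]; simp
    rw [this, map_smul, Basis.dualBasis_apply_self]
    split_ifs with e
    · rw [e]; rfl
    · simp
  have key : ∀ (ℓ : Dual ℂ V.V) v, ∑ i, b.dualBasis.equivFun ℓ i * b.equivFun v i = ℓ v := by
    intro ℓ v
    conv_rhs => rw [← b.sum_repr v, map_sum]
    exact Finset.sum_congr rfl fun i _ => by simp [mul_comm]
  change perp (A.L x) = _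
  ext a
  obtain ⟨ℓ, rfl⟩ := b.dualBasis.equivFun.surjective a
  rw [h.2 x hx, Submodule.mem_map_equiv, LinearEquiv.symm_apply_apply, mem_perp,
    Submodule.mem_dualAnnihilator]
  exact ⟨fun H v hv => key ℓ v ▸ H _ ⟨v, hv, rfl⟩,
    by rintro H _ ⟨v, hv, rfl⟩; exact (key ℓ v).trans (H v hv)⟩
theorem kc_perp (h : IsAB X V L) : kc X V.dual (fun x => (L x).dualAnnihilator) =
    K.dual X (kc X V (fun _ => ⊤) - kc X V L) := by
  obtain ⟨A, b, hA⟩ := h.exists_pres
  rw [← Pres.kl ⟨b, hA⟩, ← Pres.kl (A := A.amb) ⟨b, hA.amb⟩,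
    ← Pres.kl (A := A.ann) (V := V.dual) ⟨_, hA.ann⟩, map_sub, K.dual_kl, K.dual_kl,
    kl_of_bot (A := A.amb.ann) fun x _ => perp_top]
  change _ = A.ann.amb.kl - 0 - _
  abel
theorem kc_dual_top (hV : V.In X.B) :
    kc X V.dual (fun _ => ⊤) = K.dual X (kc X V fun _ => ⊤) := by
  have := kc_perp (IsAB.bot hV)
  rwa [Submodule.dualAnnihilator_bot, kc_of_bot (L := fun _ => ⊥) fun _ _ => rfl, sub_zero] at this
theorem kc_prod (h : IsAB X V L) (h' : IsAB X W M) :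
    kc X (V.prod W) (fun x => (L x).prod (M x)) = kc X V L + kc X W M :=
  kc_ses h (h.prod h') h' (IsRM.const (f := LinearMap.inl ℂ _ _) fun v => by simp)
    (IsRM.const (f := LinearMap.snd ℂ _ _) fun _ => rfl) fun x _ =>
      ⟨by simp [Submodule.ker_inl], by
        rw [Submodule.map_inl]
        exact Submodule.ext fun v => ⟨fun H => ⟨⟨H.1, (show v.2 = 0 from H.2) ▸ zero_mem _⟩, H.2⟩,
          fun H => ⟨H.1.1, H.2⟩⟩, by simp⟩
theorem kc_pi {ι : Type} [Fintype ι] {V : ι → GV} {L : ∀ i, Pt → Submodule ℂ (V i).V}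
    (h : ∀ i, IsAB X (V i) (L i)) :
    kc X (GV.pi V) (fun x => Submodule.pi Set.univ fun i => L i x) = ∑ i, kc X (V i) (L i) := by
  classical
  have hab : ∀ s : Finset ι, IsAB X (GV.pi V) fun x =>
      Submodule.pi Set.univ fun i => if i ∈ s then L i x else ⊥ := fun s =>
    IsAB.pi fun i => by
      split_ifs
      exacts [h i, IsAB.bot (h i).hin]
  suffices ∀ s : Finset ι, kc X (GV.pi V) (fun x =>
      Submodule.pi Set.univ fun i => if i ∈ s then L i x else ⊥) = ∑ i ∈ s, kc X (V i) (L i) by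
    simpa using this Finset.univ
  intro s
  induction s using Finset.induction_on with
  | empty => exact kc_of_bot fun x _ => by simp
  | insert a s ha ih =>
    rw [Finset.sum_insert ha, add_comm, ← ih]
    refine kc_ses (hab s) (hab _) (h a) IsRM.id (IsRM.const (f := LinearMap.proj a) fun _ => rfl)
      fun x _ => ⟨by simp, ?_, ?_⟩
    · ext v
      simp only [Submodule.map_id, Submodule.mem_pi, Set.mem_univ, true_imp_iff, Submodule.mem_inf,
        LinearMap.mem_ker, LinearMap.proj_apply]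
      refine ⟨fun H => ⟨fun i => ?_, by simpa [ha] using H a⟩, fun H i => ?_⟩
      · by_cases hi : i ∈ s
        · simpa [hi] using H i
        · rw [show v i = 0 by simpa [hi] using H i]; exact zero_mem _
      · by_cases hi : i = a
        · rw [hi, H.2]; exact zero_mem _
        · simpa [hi] using H.1 i
    · refine le_antisymm ?_ fun v hv => ⟨Pi.single a v, fun i _ => ?_, by simp⟩
      · rintro _ ⟨v, hv, rfl⟩
        simpa using hv a trivial
      · by_cases hi : i = a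
        · subst hi; simpa using hv
        · rw [Pi.single_eq_of_ne hi]; exact zero_mem _
theorem kc_span {s : Pt → V.V} (hV : V.In X.B) (hs : IsRV X V s) (h0 : ∀ x ∈ X.pts, s x ≠ 0) :
    kc X V (fun x => Submodule.span ℂ {s x}) = 1 := by
  rw [← kc_iso (IsAB.top (in_line (zero_mem _))) (IsAB.span hV hs h0) (IsRM.toSpan hs) fun x hx =>
    ⟨by rw [LinearMap.ker_toSpanSingleton _ (h0 x hx), inf_bot_eq], by
      rw [Submodule.map_top, LinearMap.span_singleton_eq_range]⟩, kc_line (zero_mem _), lbK_zero]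
theorem kc_pull (h : IsAB X V L) (p : Proj Y X) :
    K.pull p (kc X V L) = kc Y V fun y => L (restr X.B y) := by
  obtain ⟨A, hA⟩ := h.exists_pres
  rw [← hA.kl, K.pull_kl, (hA.pull p).kl]
theorem kc_sub (h : IsAB X V L) (p : Y.Sub X) : K.pull p.proj (kc X V L) = kc Y V L :=
  (kc_pull h p.proj).trans (kc_congr fun y hy => by rw [← p.1, Y.restr_eq hy])
theorem rk_kc (h : IsAB X V L) {x : Pt} (hx : x ∈ X.pts) :
    K.rk hx (kc X V L) = finrank ℂ (L x) := by
  obtain ⟨A, hA⟩ := h.exists_pres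
  rw [← hA.kl, K.rk_kl, hA.finrank hx]
theorem kc_sup (h : IsAB X V L) (h' : IsAB X V L') (hs : IsAB X V fun x => L x ⊔ L' x)
    (hi : IsAB X V fun x => L x ⊓ L' x) :
    kc X V (fun x => L x ⊔ L' x) + kc X V (fun x => L x ⊓ L' x) = kc X V L + kc X V L' := by
  rw [← kc_prod h h', add_comm]
  refine (kc_ses hi (h.prod h') hs (IsRM.id.prod (IsRM.id.csmul (-1))) (IsRM.id.coprod IsRM.id)
    fun x _ => ⟨by simp, ?_, by simp⟩).symm
  ext v
  simp only [Submodule.mem_map, Submodule.mem_inf, Submodule.mem_prod, LinearMap.mem_ker,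
    LinearMap.coprod_apply, LinearMap.id_apply]
  refine ⟨?_, fun H => ⟨v.1, ⟨H.1.1, ?_⟩, ?_⟩⟩
  · rintro ⟨u, hu, rfl⟩
    simpa using hu
  · rw [eq_neg_of_add_eq_zero_left H.2]; exact neg_mem H.1.2
  · ext <;> simp [neg_eq_of_add_eq_zero_right H.2]
/-- `φ` induces a map of subquotients `L/L' → M/M'` that is injective at `x` -/
def SqInj (L L' : Submodule ℂ V.V) (M' : Submodule ℂ W.V) (f : V.V →ₗ[ℂ] W.V) : Prop :=
  L ⊓ M'.comap f = L'
/-- exactness of `L → M/M' → ?/N'` -/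
def SqEx (L : Submodule ℂ V.V) (M M' : Submodule ℂ W.V) (N' : Submodule ℂ U.V)
    (f : V.V →ₗ[ℂ] W.V) (f' : W.V →ₗ[ℂ] U.V) : Prop := L.map f ⊔ M' = M ⊓ N'.comap f'
/-- `L → M/M'` is onto (and well defined) -/
def SqSurj (L : Submodule ℂ V.V) (M M' : Submodule ℂ W.V) (f : V.V →ₗ[ℂ] W.V) : Prop :=
  L.map f ⊔ M' = M
/-- isomorphic subquotients -/
theorem kq_iso (h : IsAB X V L) (h' : IsAB X V L') (hM : IsAB X W M) (hM' : IsAB X W M')
    (hφ : IsRM X V W φ)
    (e : ∀ x ∈ X.pts, SqInj (L x) (L' x) (M' x) (φ x) ∧ SqSurj (L x) (M x) (M' x) (φ x)) :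
    kc X V L - kc X V L' = kc X W M - kc X W M' := by
  have _ := h'
  obtain ⟨W₀, π, hW, hπ, hk⟩ := hM'.exists_ker
  have e1 : ∀ x ∈ X.pts, M x ⊓ LinearMap.ker (π x) = M' x := fun x hx => by
    rw [hk x hx, inf_eq_right, ← (e x hx).2]; exact le_sup_right
  have e2 : ∀ x ∈ X.pts, L x ⊓ LinearMap.ker (π x ∘ₗ φ x) = L' x := fun x hx => by
    rw [LinearMap.ker_comp, hk x hx]; exact (e x hx).1
  have e3 : ∀ x ∈ X.pts, (M x).map (π x) = (L x).map (π x ∘ₗ φ x) := fun x hx => by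
    rw [← (e x hx).2, Submodule.map_sup, Submodule.map_comp, ← hk x hx,
      LinearMap.le_ker_iff_map.1 le_rfl, sup_bot_eq]
  have hq := hM.map_of_ker hW hπ (hM'.congr fun x hx => (e1 x hx).symm)
  rw [kc_map hM hπ hq, kc_map h (hπ.comp hφ) (hq.congr e3), kc_congr e1, kc_congr e2, kc_congr e3]
  abel
/-- short exact sequence of subquotients -/
theorem kq3 (h : IsAB X V L) (h' : IsAB X V L') (hM : IsAB X W M) (hM' : IsAB X W M')
    (hN : IsAB X U N) (hN' : IsAB X U N') (hφ : IsRM X V W φ) (hψ : IsRM X W U ψ)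
    (e : ∀ x ∈ X.pts, SqInj (L x) (L' x) (M' x) (φ x) ∧
      SqEx (L x) (M x) (M' x) (N' x) (φ x) (ψ x) ∧ SqSurj (M x) (N x) (N' x) (ψ x)) :
    kc X W M - kc X W M' = (kc X V L - kc X V L') + (kc X U N - kc X U N') := by
  have h1 := h.of_exact hM hM' hN' hφ hψ fun x hx => (e x hx).2.1
  rw [kq_iso h h' h1 hM' hφ fun x hx => ⟨(e x hx).1, (e x hx).2.1⟩,
    ← kq_iso hM h1 hN hN' hψ fun x hx => ⟨rfl, (e x hx).2.2⟩]
  abel
/-- four term exact sequence of subquotients -/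
theorem kq4 {P P' : Pt → Submodule ℂ V'.V} {χ : Pt → U.V →ₗ[ℂ] V'.V}
    (h : IsAB X V L) (h' : IsAB X V L') (hM : IsAB X W M) (hM' : IsAB X W M')
    (hN : IsAB X U N) (hN' : IsAB X U N') (hP : IsAB X V' P) (hP' : IsAB X V' P')
    (hφ : IsRM X V W φ) (hψ : IsRM X W U ψ) (hχ : IsRM X U V' χ)
    (e : ∀ x ∈ X.pts, SqInj (L x) (L' x) (M' x) (φ x) ∧
      SqEx (L x) (M x) (M' x) (N' x) (φ x) (ψ x) ∧ SqEx (M x) (N x) (N' x) (P' x) (ψ x) (χ x) ∧
      SqSurj (N x) (P x) (P' x) (χ x)) :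
    (kc X V L - kc X V L') + (kc X U N - kc X U N') =
      (kc X W M - kc X W M') + (kc X V' P - kc X V' P') := by
  have h1 := h.of_exact hM hM' hN' hφ hψ fun x hx => (e x hx).2.1
  have h2 := hM.of_exact hN hN' hP' hψ hχ fun x hx => (e x hx).2.2.1
  have k1 := kq_iso h h' h1 hM' hφ fun x hx => ⟨(e x hx).1, (e x hx).2.1⟩
  have k2 := kq_iso hM h1 h2 hN' hψ fun x hx => ⟨rfl, (e x hx).2.2.1⟩
  have k3 := kq_iso hN h2 hP hP' hχ fun x hx => ⟨rfl, (e x hx).2.2.2⟩
  linear_combination k1 - k2 + k3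
/-- five term exact sequence of subquotients -/
theorem kq5 {P P' : Pt → Submodule ℂ V'.V} {χ : Pt → U.V →ₗ[ℂ] V'.V}
    {T T' : Pt → Submodule ℂ W'.V} {ω : Pt → V'.V →ₗ[ℂ] W'.V}
    (h : IsAB X V L) (h' : IsAB X V L') (hM : IsAB X W M) (hM' : IsAB X W M')
    (hN : IsAB X U N) (hN' : IsAB X U N') (hP : IsAB X V' P) (hP' : IsAB X V' P')
    (hT : IsAB X W' T) (hT' : IsAB X W' T')
    (hφ : IsRM X V W φ) (hψ : IsRM X W U ψ) (hχ : IsRM X U V' χ) (hω : IsRM X V' W' ω)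
    (e : ∀ x ∈ X.pts, SqInj (L x) (L' x) (M' x) (φ x) ∧
      SqEx (L x) (M x) (M' x) (N' x) (φ x) (ψ x) ∧ SqEx (M x) (N x) (N' x) (P' x) (ψ x) (χ x) ∧
      SqEx (N x) (P x) (P' x) (T' x) (χ x) (ω x) ∧ SqSurj (P x) (T x) (T' x) (ω x)) :
    (kc X V L - kc X V L') + (kc X U N - kc X U N') + (kc X W' T - kc X W' T') =
      (kc X W M - kc X W M') + (kc X V' P - kc X V' P') := by
  have h1 := h.of_exact hM hM' hN' hφ hψ fun x hx => (e x hx).2.1
  have h2 := hM.of_exact hN hN' hP' hψ hχ fun x hx => (e x hx).2.2.1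
  have h3 := hN.of_exact hP hP' hT' hχ hω fun x hx => (e x hx).2.2.2.1
  have k1 := kq_iso h h' h1 hM' hφ fun x hx => ⟨(e x hx).1, (e x hx).2.1⟩
  have k2 := kq_iso hM h1 h2 hN' hψ fun x hx => ⟨rfl, (e x hx).2.2.1⟩
  have k3 := kq_iso hN h2 h3 hP' hχ fun x hx => ⟨rfl, (e x hx).2.2.2.1⟩
  have k4 := kq_iso hP h3 hT hT' hω fun x hx => ⟨rfl, (e x hx).2.2.2.2⟩
  linear_combination k1 - k2 + k3 - k4
/-- if the last three families of an exact sequence `0 → L/L' → M/M' → N/N' → P/P' → 0` are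
bundles then so is the kernel -/
theorem IsAB.ker_of_exact {P P' : Pt → Submodule ℂ V'.V} {χ : Pt → U.V →ₗ[ℂ] V'.V}
    (hM : IsAB X W M) (hM' : IsAB X W M') (hN : IsAB X U N) (hN' : IsAB X U N')
    (hP : IsAB X V' P) (hP' : IsAB X V' P') (hψ : IsRM X W U ψ) (hχ : IsRM X U V' χ)
    (e : ∀ x ∈ X.pts, SqEx (M x) (N x) (N' x) (P' x) (ψ x) (χ x) ∧ SqSurj (N x) (P x) (P' x) (χ x)) :
    IsAB X W fun x => M x ⊓ (N' x).comap (ψ x) :=
  hM.comap_of_surj (hN.comap_of_surj hP hP' hχ fun x hx => (e x hx).2) hN' hψ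
    (have _ := hM'; fun x hx => (e x hx).1)
section hom
variable {E F : Type} [AddCommGroup E] [Module ℂ E] [AddCommGroup F] [Module ℂ F]
theorem AB.map_dualTensorHom [FiniteDimensional ℂ F] (P : Submodule ℂ E) (Q : Submodule ℂ F) :
    (tens P.dualAnnihilator Q).map (dualTensorHom ℂ E F) = homKill P F ⊓ homTo E Q := by
  refine le_antisymm (Submodule.map_le_iff_le_comap.2 (tens_le.2 fun ℓ hℓ w hw =>
    ⟨fun v hv => ?_, fun v => Q.smul_mem _ hw⟩)) fun f hf => ?_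
  · rw [dualTensorHom_apply, (Submodule.mem_dualAnnihilator ℓ).1 hℓ v hv, zero_smul]
  let c := finBasis ℂ Q
  refine ⟨∑ j, (c.coord j ∘ₗ f.codRestrict Q hf.2) ⊗ₜ[ℂ] (c j : F),
    Submodule.sum_mem _ fun j _ => tmul_mem ?_ (c j).2, LinearMap.ext fun v => ?_⟩
  · rw [Submodule.mem_dualAnnihilator]
    intro v hv
    rw [LinearMap.comp_apply, show f.codRestrict Q hf.2 v = 0 from Subtype.ext (hf.1 v hv), map_zero]
  · have := congrArg Q.subtype (c.sum_repr (f.codRestrict Q hf.2 v))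
    rw [map_sum] at this
    rw [map_sum, LinearMap.sum_apply]
    exact this
theorem AB.homMap_sup {P P' : Submodule ℂ E} {Q Q' : Submodule ℂ F} (hP : P' ≤ P) (hQ : Q' ≤ Q) :
    homMap P Q ⊔ homMap P' Q' = homMap P' Q := by
  refine le_antisymm (sup_le (fun f hf v hv => hf v (hP hv)) fun f hf v hv => hQ (hf v hv))
    fun f hf => ?_
  obtain ⟨C, hC⟩ := P'.exists_isCompl
  let π := P'.subtype ∘ₗ P'.projectionOnto C hC
  refine Submodule.mem_sup.2 ⟨f ∘ₗ π, fun v _ => hf _ (P'.projectionOnto C hC v).2, f - f ∘ₗ π,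
    fun v hv => ?_, add_sub_cancel _ _⟩
  have : π v = v := congrArg Subtype.val (Submodule.projectionOnto_apply_left hC ⟨v, hv⟩)
  rw [LinearMap.sub_apply, LinearMap.comp_apply, this, sub_self]
  exact zero_mem _
theorem AB.homMap_bot (P : Submodule ℂ E) : homMap P (⊥ : Submodule ℂ F) = homKill P F := rfl
theorem AB.homMap_top (Q : Submodule ℂ F) : homMap (⊤ : Submodule ℂ E) Q = homTo E Q :=
  Submodule.ext fun _ => ⟨fun h v => h v trivial, fun h v _ => h v⟩
end hom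
theorem IsAB.homKill_inf_homTo (h : IsAB X V L) (hM : IsAB X W M) :
    IsAB X (V.hom W) fun x => Alg.homKill (L x) W.V ⊓ Alg.homTo V.V (M x) :=
  ⟨h.hin.hom hM.hin, h.alg.homKill_inf_homTo hM.alg,
    (h.homKill hM.hin).eqv'.inf (IsAB.homTo h.hin hM).eqv'⟩
/-- `Hom(V/L, M)` -/
theorem kc_homKill_inf (h : IsAB X V L) (hM : IsAB X W M) :
    kc X (V.hom W) (fun x => homKill (L x) W.V ⊓ homTo V.V (M x)) =
      K.dual X (kc X V (fun _ => ⊤) - kc X V L) * kc X W M := by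
  rw [← kc_perp h, ← kc_tens h.perp hM]
  refine (kc_iso (h.perp.tens hM) (h.homKill_inf_homTo hM)
    (IsRM.const (f := dualTensorHom ℂ V.V W.V) fun z => ?_) fun x _ =>
      ⟨?_, AB.map_dualTensorHom _ _⟩).symm
  · induction z using TensorProduct.induction_on with
    | zero => simp
    | tmul ℓ w => ext v; simp
    | add a b ha hb => simp only [map_add, ha, hb]
  · rw [LinearMap.ker_eq_bot.2 (show Function.Injective (dualTensorHom ℂ V.V W.V) from
      (dualTensorHomEquiv ℂ V.V W.V).injective), inf_bot_eq]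
/-- the maps sending `L` to `M` -/
theorem kc_homMap (h : IsAB X V L) (hM : IsAB X W M) :
    kc X (V.hom W) (fun x => homMap (L x) (M x)) =
      K.dual X (kc X V fun _ => ⊤) * kc X W (fun _ => ⊤) -
        K.dual X (kc X V L) * (kc X W (fun _ => ⊤) - kc X W M) := by
  have e : ∀ x ∈ X.pts, homMap (L x) (M x) = homTo V.V (M x) ⊔ homKill (L x) W.V := fun x _ => by
    rw [← AB.homMap_top, ← AB.homMap_bot, AB.homMap_sup le_top bot_le]
  have k := kc_sup (IsAB.homTo h.hin hM) (h.homKill hM.hin) ((h.homMap hM).congr e)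
    ((h.homKill_inf_homTo hM).congr fun x _ => inf_comm _ _)
  have k1 := kc_homKill_inf h hM
  have k2 := kc_homKill_inf (IsAB.bot h.hin) hM
  have k3 := kc_homKill_inf h (IsAB.top hM.hin)
  rw [kc_congr (V := V.hom W) (L' := fun x => homTo V.V (M x) ⊓ homKill (L x) W.V) fun x _ => inf_comm _ _] at k1
  rw [kc_congr (V := V.hom W) (L' := fun x => homTo V.V (M x)) fun x _ => inf_eq_right.2 fun f _ v hv => by
    rw [(Submodule.mem_bot ℂ).1 hv, map_zero], kc_of_bot (L := fun _ => ⊥) fun _ _ => rfl] at k2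
  rw [kc_congr (V := V.hom W) (L' := fun x => homKill (L x) W.V) fun x _ =>
    inf_eq_left.2 fun f _ v => trivial] at k3
  rw [kc_congr e]
  simp only [map_sub, sub_zero] at k1 k2 k3
  linear_combination k - k1 + k2 + k3
/-- `Hom(L/L', M/M')` -/
theorem kq_hom (h : IsAB X V L) (h' : IsAB X V L') (hM : IsAB X W M) (hM' : IsAB X W M')
    (hL : ∀ x ∈ X.pts, L' x ≤ L x) (hle : ∀ x ∈ X.pts, M' x ≤ M x) :
    kc X (V.hom W) (fun x => homMap (L x) (M x) ⊓ homMap (L' x) (M' x)) -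
      kc X (V.hom W) (fun x => homMap (L x) (M' x)) =
      K.dual X (kc X V L - kc X V L') * (kc X W M - kc X W M') := by
  have e : ∀ x ∈ X.pts, homMap (L' x) (M x) = homMap (L x) (M x) ⊔ homMap (L' x) (M' x) :=
    fun x hx => (AB.homMap_sup (hL x hx) (hle x hx)).symm
  have k := kc_sup (h.homMap hM) (h'.homMap hM') ((h'.homMap hM).congr e)
    (h.homMap_inf h' hM hM' hL hle)
  rw [← kc_congr e, kc_homMap h' hM, kc_homMap h hM, kc_homMap h' hM'] at k
  rw [kc_homMap h hM', map_sub]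
  linear_combination k
/-- `Hom(L, W/M')` -/
theorem kq_hom_top (h : IsAB X V L) (hM' : IsAB X W M') :
    kc X (V.hom W) (fun _ => ⊤) - kc X (V.hom W) (fun x => homMap (L x) (M' x)) =
      K.dual X (kc X V L) * (kc X W (fun _ => ⊤) - kc X W M') := by
  have k := kc_homMap h (IsAB.top hM'.hin)
  rw [kc_congr (V := V.hom W) (L := fun x => homMap (L x) ⊤) (L' := fun _ => ⊤) fun x _ =>
    top_le_iff.1 fun f _ v _ => trivial] at k
  rw [k, kc_homMap h hM']
  ring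
/-- subquotients are honest: `L/L'` embeds in a trivial bundle -/
theorem IsAB.exists_sq (h : IsAB X V L) (h' : IsAB X V L') (hL : ∀ x ∈ X.pts, L' x ≤ L x) :
    ∃ (W : GV) (φ : Pt → V.V →ₗ[ℂ] W.V), IsRM X V W φ ∧ (IsAB X W fun x => (L x).map (φ x)) ∧
      (∀ x ∈ X.pts, LinearMap.ker (φ x) = L' x) ∧
      kc X W (fun x => (L x).map (φ x)) = kc X V L - kc X V L' := by
  obtain ⟨W, π, hW, hπ, hk⟩ := h'.exists_ker
  have e1 : ∀ x ∈ X.pts, L x ⊓ LinearMap.ker (π x) = L' x := fun x hx => by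
    rw [hk x hx, inf_eq_right.2 (hL x hx)]
  have hq := h.map_of_ker hW hπ (h'.congr fun x hx => (e1 x hx).symm)
  exact ⟨W, π, hπ, hq, hk, by rw [kc_map h hπ hq, kc_congr e1]; abel⟩
theorem IsAB.exists_bun_sq (h : IsAB X V L) (h' : IsAB X V L') (hL : ∀ x ∈ X.pts, L' x ≤ L x) :
    ∃ A : Bun X, A.kl = kc X V L - kc X V L' ∧
      ∀ x ∈ X.pts, finrank ℂ (A.L x) + finrank ℂ (L' x) = finrank ℂ (L x) := by
  obtain ⟨W, π, -, hq, hk, e⟩ := h.exists_sq h' hL
  obtain ⟨A, hA⟩ := hq.exists_pres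
  refine ⟨A, hA.kl.trans e, fun x hx => ?_⟩
  rw [hA.finrank hx, ← finrank_map_add_inf_ker (L x) (π x), hk x hx, inf_eq_right.2 (hL x hx)]
/-- Plücker coordinates on `Λ^r V` -/
def AB.plkM {E ι : Type} [AddCommGroup E] [Module ℂ E] (r : ℕ) (e : E →ₗ[ℂ] ι → ℂ) :
    Pow.Lam r E →ₗ[ℂ] (Fin r → ι) → ℂ :=
  LinearMap.pi fun t => exteriorPower.alternatingMapLinearEquiv
    (Matrix.detRowAlternating.compLinearMap (LinearMap.funLeft ℂ ℂ t ∘ₗ e))
theorem AB.plkM_ιMulti {E ι : Type} [AddCommGroup E] [Module ℂ E] (r : ℕ) (e : E →ₗ[ℂ] ι → ℂ)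
    (v : Fin r → E) : AB.plkM r e (exteriorPower.ιMulti ℂ r v) = plk fun i => e (v i) := by
  funext t
  rw [AB.plkM, LinearMap.pi_apply, exteriorPower.alternatingMapLinearEquiv_apply_ιMulti]
  rfl
theorem AB.map_plkM {E ι : Type} [AddCommGroup E] [Module ℂ E] (r : ℕ) (e : E →ₗ[ℂ] ι → ℂ)
    (P : Submodule ℂ E) : (lamS r P).map (AB.plkM r e) = plkSub r (P.map e) := by
  rw [lamS_eq_span, Submodule.map_span, plkSub]
  congr 1
  ext p
  constructor
  · rintro ⟨_, ⟨v, hv, rfl⟩, rfl⟩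
    exact ⟨_, fun i => ⟨v i, hv i, rfl⟩, AB.plkM_ιMulti r e v⟩
  · rintro ⟨w, hw, rfl⟩
    choose v hv e' using hw
    exact ⟨_, ⟨v, hv, rfl⟩, by rw [AB.plkM_ιMulti, funext e']⟩
/-- the determinant -/
theorem Pres.kl_det {A : Bun X} (h : Pres A V L) {r : ℕ} (hr : A.Rk r) :
    (A.det r hr).kl = kc X (lam r V) fun x => lamS r (L x) := by
  have hL := h.isAB
  have hrk : ∀ x ∈ X.pts, Module.finrank ℂ (L x) = r := fun x hx => (h.finrank hx).symm.trans (hr x hx)
  obtain ⟨b, h⟩ := h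
  have hm : ∀ x ∈ X.pts, (lamS r (L x)).map (AB.plkM r b.equivFun.toLinearMap) =
      (A.det r hr).L x := fun x hx => by rw [AB.map_plkM, ← h.2 x hx]; rfl
  rw [Bun.kl_eq_kc]
  refine (kc_iso (hL.lamS r) (A.det r hr).isAB (IsRM.const (f := AB.plkM r b.equivFun.toLinearMap)
    ?_) fun x hx => ⟨?_, hm x hx⟩).symm
  · have : AB.plkM r b.equivFun.toLinearMap ∘ₗ lamM r V.g.toLinearMap =
        (gd (A.det r hr).deg).toLinearMap ∘ₗ AB.plkM r b.equivFun.toLinearMap := by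
      refine exteriorPower.linearMap_ext (AlternatingMap.ext fun v => ?_)
      funext t
      have e := fun i => deg0_equivFun b h.1 (v i)
      change AB.plkM r b.equivFun.toLinearMap (lamM r V.g.toLinearMap (exteriorPower.ιMulti ℂ r v)) t =
        chi (∑ j, A.deg (t j)) * AB.plkM r b.equivFun.toLinearMap (exteriorPower.ιMulti ℂ r v) t
      rw [exteriorPower.map_apply_ιMulti, AB.plkM_ιMulti, AB.plkM_ιMulti]
      change plk (fun i => b.equivFun.toLinearMap (V.g (v i))) t = _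
      simp only [e, Pol.chi_sum]
      exact Matrix.det_mul_row (fun j => chi (A.deg (t j)))
        (Matrix.of fun i j => b.equivFun (v i) (t j))
    exact LinearMap.congr_fun this
  · have e := finrank_map_add_inf_ker (lamS r (L x)) (AB.plkM r b.equivFun.toLinearMap)
    rw [AB.map_plkM, ← h.2 x hx, finrank_plkSub (hr x hx), finrank_lamS, hrk x hx,
      Nat.choose_self] at e
    exact Submodule.finrank_eq_zero.1 (Nat.add_eq_left.1 e)
/-- determinants only depend on the class (in the operator ring) -/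
theorem op_det_add_add {A B C E : Bun X} {a b c e : ℕ} (hA : A.Rk a) (hB : B.Rk b) (hC : C.Rk c)
    (hE : E.Rk e) (h : A.kl + B.kl = C.kl + E.kl) (hr : a + b = c + e) :
    op X ((A.det a hA).kl * (B.det b hB).kl) = op X ((C.det c hC).kl * (E.det e hE).kl) := by
  have k := congrArg (Polynomial.coeff · 0) (chp_add_add hA hB hC hE hr h)
  simp only [Polynomial.mul_coeff_zero, chp_coeff_zero hA, chp_coeff_zero hB, chp_coeff_zero hC,
    chp_coeff_zero hE] at k
  rw [mul_mul_mul_comm, mul_mul_mul_comm ((-1) ^ c), ← pow_add, ← pow_add, hr] at k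
  rw [map_mul, map_mul]
  exact (isUnit_neg_one.pow _).mul_left_cancel k

end Crest.Agent.N265
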