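import Crest.Agent.N265.K.AB2

/-! # Task AB3: first order calculus (`Spc.pd`, `dV`, `IsVar`), tangent bundle of a one-block space -/

set_option autoImplicit false
noncomputable section
open MvPolynomial TensorProduct Module

namespace Crest.Agent.N265
open Alg _root_.Crest.Agent.N265.Pow GV Bun

section abstract
variable {T : Type} {𝒜 : Subalgebra ℂ (T → ℂ)} {x₀ : T} {δ : (T → ℂ) →ₗ[ℂ] ℂ}
variable {M N P : Type} [AddCommGroup M] [Module ℂ M] [FiniteDimensional ℂ M] [AddCommGroup N]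
  [Module ℂ N] [FiniteDimensional ℂ N] [AddCommGroup P] [Module ℂ P] [FiniteDimensional ℂ P]
variable {σ τ : T → M}
omit [FiniteDimensional ℂ M] in
lemma dual_ext {a b : M} (h : ∀ ℓ : Dual ℂ M, ℓ a = ℓ b) : a = b :=
  sub_eq_zero.1 ((Module.forall_dual_apply_eq_zero_iff ℂ _).1 fun ℓ => by rw [map_sub, h, sub_self])
/-- `dV` as a linear map -/
def dVL (δ : (T → ℂ) →ₗ[ℂ] ℂ) : (T → M) →ₗ[ℂ] M where
  toFun := dV δ
  map_add' σ τ := dual_ext fun ℓ => by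
    simp only [dV_spec, map_add, Pi.add_apply]; rw [← map_add]; rfl
  map_smul' c σ := dual_ext fun ℓ => by
    simp only [dV_spec, map_smul, Pi.smul_apply, RingHom.id_apply]; rw [← map_smul]; rfl
lemma dVL_apply (σ : T → M) : dVL δ σ = dV δ σ := rfl
lemma dV_add (σ τ : T → M) : dV δ (fun x => σ x + τ x) = dV δ σ + dV δ τ :=
  (dVL δ).map_add σ τ
lemma dV_sub (σ τ : T → M) : dV δ (fun x => σ x - τ x) = dV δ σ - dV δ τ :=
  (dVL δ).map_sub σ τ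
lemma dV_neg (σ : T → M) : dV δ (fun x => -σ x) = -dV δ σ := (dVL δ).map_neg σ
lemma dV_csmul (c : ℂ) (σ : T → M) : dV δ (fun x => c • σ x) = c • dV δ σ :=
  (dVL δ).map_smul c σ
lemma dV_zero : dV δ (fun _ => (0 : M)) = 0 := (dVL δ).map_zero
lemma dV_sum {ι : Type} (I : Finset ι) (σ : ι → T → M) :
    dV δ (fun x => ∑ i ∈ I, σ i x) = ∑ i ∈ I, dV δ (σ i) := by
  rw [← Finset.sum_fn]; exact map_sum (dVL δ) σ I
lemma dV_lin (F : M →ₗ[ℂ] N) (σ : T → M) : dV δ (fun x => F (σ x)) = F (dV δ σ) :=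
  dual_ext fun ℓ => (dV_spec δ _ ℓ).trans (dV_spec δ σ (ℓ ∘ₗ F)).symm
lemma dV_scalar (f : T → ℂ) : dV δ f = δ f := dV_spec δ f LinearMap.id
lemma dV_apply (φ : T → M →ₗ[ℂ] N) (v : M) : dV δ φ v = dV δ fun x => φ x v :=
  (dV_lin (LinearMap.applyₗ v) φ).symm
lemma dV_smul_const (f : T → ℂ) (v : M) : dV δ (fun x => f x • v) = δ f • v := by
  rw [← dV_scalar]; exact dV_lin (LinearMap.toSpanSingleton ℂ M v) f
lemma dV_prod (σ : T → M) (ρ : T → N) : dV δ (fun x => (σ x, ρ x)) = (dV δ σ, dV δ ρ) :=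
  Prod.ext (dV_lin (LinearMap.fst ℂ M N) _).symm (dV_lin (LinearMap.snd ℂ M N) _).symm
lemma dV_mem_const {U : Submodule ℂ M} (h : ∀ x, σ x ∈ U) : dV δ σ ∈ U :=
  (Subspace.forall_mem_dualAnnihilator_apply_eq_zero_iff U _).1 fun ℓ hℓ => by
    rw [dV_spec, show (fun x => ℓ (σ x)) = 0 from
      funext fun x => (Submodule.mem_dualAnnihilator ℓ).1 hℓ _ (h x), map_zero]
lemma PDer.one (h : PDer 𝒜 x₀ δ) : δ 1 = 0 := by
  have := h 1 (one_mem _) 1 (one_mem _)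
  simpa using this
lemma PDer.dV_const (h : PDer 𝒜 x₀ δ) (v : M) : dV δ (fun _ => v) = 0 := by
  have := dV_smul_const (δ := δ) 1 v
  simpa [h.one] using this
lemma PDer.dV_smul (h : PDer 𝒜 x₀ δ) {f : T → ℂ} (hf : f ∈ 𝒜) (hσ : RegV 𝒜 σ) :
    dV δ (fun x => f x • σ x) = δ f • σ x₀ + f x₀ • dV δ σ := dual_ext fun ℓ => by
  simp only [dV_spec, map_smul, map_add, smul_eq_mul]
  rw [show (fun x => f x * ℓ (σ x)) = f * fun x => ℓ (σ x) from rfl, h f hf _ (hσ ℓ)]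
  ring
lemma PDer.dV_bilin (h : PDer 𝒜 x₀ δ) (β : M →ₗ[ℂ] N →ₗ[ℂ] P) {ρ : T → N} (hσ : RegV 𝒜 σ)
    (hρ : RegV 𝒜 ρ) :
    dV δ (fun x => β (σ x) (ρ x)) = β (dV δ σ) (ρ x₀) + β (σ x₀) (dV δ ρ) := by
  let b := Module.finBasis ℂ M
  have e : ∀ (v : M) (u : N), β v u = ∑ i, b.coord i v • β (b i) u := fun v u => by
    conv_lhs => rw [← b.sum_repr v]
    simp only [map_sum, map_smul, LinearMap.sum_apply, LinearMap.smul_apply, Basis.coord_apply]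
  rw [funext fun x => e (σ x) (ρ x), dV_sum, e (dV δ σ), e (σ x₀), ← Finset.sum_add_distrib]
  refine Finset.sum_congr rfl fun i _ => ?_
  rw [h.dV_smul (hσ (b.coord i)) (hρ.map (β (b i))), dV_lin, dV_spec]
lemma PDer.dV_app (h : PDer 𝒜 x₀ δ) {φ : T → M →ₗ[ℂ] N} (hφ : RegM 𝒜 φ) (hσ : RegV 𝒜 σ) :
    dV δ (fun x => φ x (σ x)) = dV δ φ (σ x₀) + φ x₀ (dV δ σ) :=
  h.dV_bilin (LinearMap.id : (M →ₗ[ℂ] N) →ₗ[ℂ] M →ₗ[ℂ] N) hφ.regV hσ
lemma PDer.dV_comp (h : PDer 𝒜 x₀ δ) {φ : T → M →ₗ[ℂ] N} {ψ : T → N →ₗ[ℂ] P} (hφ : RegM 𝒜 φ)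
    (hψ : RegM 𝒜 ψ) :
    dV δ (fun x => ψ x ∘ₗ φ x) = dV δ ψ ∘ₗ φ x₀ + ψ x₀ ∘ₗ dV δ φ := LinearMap.ext fun v => by
  rw [dV_apply, LinearMap.add_apply, LinearMap.comp_apply, LinearMap.comp_apply, dV_apply φ]
  exact h.dV_app hψ (hφ v)
lemma PDer.dV_local (h : PDer 𝒜 x₀ δ) (hσ : RegV 𝒜 σ) (hτ : RegV 𝒜 τ)
    (e : Near 𝒜 x₀ fun x => σ x = τ x) : dV δ σ = dV δ τ := by
  obtain ⟨f, hf, h0, e⟩ := e
  have : (fun x => f x • σ x) = fun x => f x • τ x := funext fun x => by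
    by_cases hx : f x = 0
    · simp [hx]
    · rw [e x hx]
  have h1 := h.dV_smul hf hσ
  rw [this, h.dV_smul hf hτ, e x₀ h0, add_right_inj] at h1
  exact (smul_right_injective M h0 h1).symm
variable {L L' : T → Submodule ℂ M} {K : T → Submodule ℂ N} {φ φ' : M →ₗ[ℂ] M}
lemma PDer.dV_mem (h : PDer 𝒜 x₀ δ) (hL : Alg 𝒜 L) (hσ : RegV 𝒜 σ) (hm : ∀ x, σ x ∈ L x)
    (h0 : σ x₀ = 0) : dV δ σ ∈ L x₀ := by
  obtain ⟨f, hf, f0, E, hE, h1, h2, -⟩ := (hL.algAt x₀).out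
  have e := h.dV_app hE hσ
  rw [funext fun x => h2 x _ (hm x), h.dV_smul hf hσ, h0, smul_zero, map_zero, zero_add,
    zero_add] at e
  exact ((L x₀).smul_mem_iff f0).1 (e ▸ h1 x₀ _)
theorem PDer.exists_isVar (h : PDer 𝒜 x₀ δ) (hL : Alg 𝒜 L) : ∃ φ, IsVar 𝒜 x₀ δ L φ := by
  obtain ⟨f, hf, f0, E, hE, h1, h2, -⟩ := (hL.algAt x₀).out
  refine ⟨(f x₀)⁻¹ • dV δ E, fun σ hσ hm => ((L x₀).smul_mem_iff f0).1 ?_⟩
  have e := h.dV_app hE hσ
  rw [funext fun x => h2 x _ (hm x), h.dV_smul hf hσ] at e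
  rw [LinearMap.smul_apply, smul_sub, smul_inv_smul₀ f0,
    show f x₀ • dV δ σ - dV δ E (σ x₀) = E x₀ (dV δ σ) - δ f • σ x₀ by
      rw [sub_eq_sub_iff_add_eq_add, add_comm, e, add_comm]]
  exact (L x₀).sub_mem (h1 _ _) ((L x₀).smul_mem _ (hm x₀))
/-- sections that lie in `L` only near `x₀` -/
lemma IsVar.near (h : PDer 𝒜 x₀ δ) (hφ : IsVar 𝒜 x₀ δ L φ) (hσ : RegV 𝒜 σ)
    (hm : Near 𝒜 x₀ fun x => σ x ∈ L x) : dV δ σ - φ (σ x₀) ∈ L x₀ := by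
  obtain ⟨f, hf, h0, e⟩ := hm
  have := hφ _ (hσ.smul hf) fun x => by
    by_cases hx : f x = 0
    · simp [hx]
    · exact (L x).smul_mem _ (e x hx)
  rw [h.dV_smul hf hσ, map_smul, add_sub_assoc, ← smul_sub,
    (L x₀).add_mem_iff_right ((L x₀).smul_mem _ (e x₀ h0))] at this
  exact ((L x₀).smul_mem_iff h0).1 this
lemma IsVar.congr (hφ : IsVar 𝒜 x₀ δ L φ) (e : ∀ v ∈ L x₀, φ v - φ' v ∈ L x₀) :
    IsVar 𝒜 x₀ δ L φ' := fun σ hσ hm => by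
  simpa using (L x₀).add_mem (hφ σ hσ hm) (e _ (hm x₀))
lemma IsVar.le (hL' : Alg 𝒜 L') (hle : ∀ x, L' x ≤ L x) (hφ : IsVar 𝒜 x₀ δ L φ)
    (hφ' : IsVar 𝒜 x₀ δ L' φ') : ∀ v ∈ L' x₀, φ v - φ' v ∈ L x₀ := fun v hv => by
  obtain ⟨σ, hσ, hm, rfl⟩ := hL'.exists_section hv
  simpa using (L x₀).sub_mem (hle _ (hφ' σ hσ hm)) (hφ σ hσ fun x => hle x (hm x))
lemma IsVar.unique (hL : Alg 𝒜 L) (hφ : IsVar 𝒜 x₀ δ L φ) (hφ' : IsVar 𝒜 x₀ δ L φ') :
    ∀ v ∈ L x₀, φ v - φ' v ∈ L x₀ := IsVar.le hL (fun _ => le_rfl) hφ hφ'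
lemma isVar_const (U : Submodule ℂ M) : IsVar 𝒜 x₀ δ (fun _ => U) 0 :=
  fun _ _ hm => by simpa using dV_mem_const hm
/-- naturality under a regular map `ψ : L → K` -/
lemma IsVar.map (h : PDer 𝒜 x₀ δ) (hL : Alg 𝒜 L) {ψ : T → M →ₗ[ℂ] N} (hψ : RegM 𝒜 ψ)
    (hm : ∀ x, (L x).map (ψ x) ≤ K x) {χ : N →ₗ[ℂ] N} (hφ : IsVar 𝒜 x₀ δ L φ)
    (hχ : IsVar 𝒜 x₀ δ K χ) : ∀ v ∈ L x₀, dV δ ψ v + ψ x₀ (φ v) - χ (ψ x₀ v) ∈ K x₀ := fun v hv => by
  obtain ⟨σ, hσ, hs, rfl⟩ := hL.exists_section hv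
  have h1 := hχ _ (hψ.apply hσ) fun x => hm x ⟨_, hs x, rfl⟩
  have h2 : ψ x₀ (dV δ σ - φ (σ x₀)) ∈ K x₀ := hm x₀ ⟨_, hφ σ hσ hs, rfl⟩
  rw [h.dV_app hψ hσ] at h1
  convert (K x₀).sub_mem h1 h2 using 1
  rw [map_sub]; abel
/-- a regular map killing `L` -/
lemma IsVar.kill (h : PDer 𝒜 x₀ δ) (hL : Alg 𝒜 L) {ψ : T → M →ₗ[ℂ] N} (hψ : RegM 𝒜 ψ)
    (hm : ∀ x, ∀ v ∈ L x, ψ x v = 0) (hφ : IsVar 𝒜 x₀ δ L φ) :
    ∀ v ∈ L x₀, dV δ ψ v + ψ x₀ (φ v) = 0 := fun v hv => by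
  simpa using IsVar.map h hL hψ (K := fun _ => ⊥)
    (fun x => by rintro _ ⟨u, hu, rfl⟩; exact hm x u hu) hφ (isVar_const ⊥) v hv
/-- a regular map with values in `L` -/
lemma IsVar.into {ψ : T → N →ₗ[ℂ] M} (hψ : RegM 𝒜 ψ) (hm : ∀ x v, ψ x v ∈ L x)
    (hφ : IsVar 𝒜 x₀ δ L φ) (v : N) : dV δ ψ v - φ (ψ x₀ v) ∈ L x₀ := by
  rw [dV_apply]; exact hφ _ (hψ v) fun x => hm x v
end abstract

variable {X Y Z : Spc} {x ξ η : Pt}
variable {M : Type} [AddCommGroup M] [Module ℂ M] [FiniteDimensional ℂ M]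
lemma Spc.pd_spec (hξ : ξ ∈ X.Tan x) (r : R) :
    X.pd x ξ (fun y => eval y.1 r) = dAt x ξ r := by
  have : ∃ δ : (X.pts → ℂ) →ₗ[ℂ] ℂ, ∀ r : R, δ (fun y => eval y.1 r) = dAt x ξ r := by
    let f : R →ₗ[ℂ] X.pts → ℂ := LinearMap.pi fun y => (aeval y.1 : R →ₐ[ℂ] ℂ).toLinearMap
    have : (Jac.dL x).flip ξ ∈ LinearMap.range f.dualMap := by
      rw [LinearMap.range_dualMap_eq_dualAnnihilator_ker, Submodule.mem_dualAnnihilator]
      exact fun r hr => hξ r fun y hy => congrFun (LinearMap.mem_ker.1 hr) ⟨y, hy⟩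
    obtain ⟨δ, hδ⟩ := this
    exact ⟨δ, fun r => LinearMap.congr_fun hδ r⟩
  rw [Spc.pd, dif_pos this]
  exact this.choose_spec r
lemma Spc.pd_of_eq (hξ : ξ ∈ X.Tan x) {f : X.pts → ℂ} {r : R} (h : ∀ y, f y = eval y.1 r) :
    X.pd x ξ f = dAt x ξ r := by rw [funext h, Spc.pd_spec hξ]
lemma Spc.pder_pd (hx : x ∈ X.pts) (hξ : ξ ∈ X.Tan x) : PDer X.fn ⟨x, hx⟩ (X.pd x ξ) := by
  rintro f ⟨r, hr⟩ g ⟨s, hs⟩
  rw [Spc.pd_of_eq hξ hr, Spc.pd_of_eq hξ hs, hr, hs, ← dAt_mul]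
  exact Spc.pd_of_eq hξ fun y => by rw [Pi.mul_apply, hr, hs, map_mul]
lemma Spc.tan_supp (hξ : ξ ∈ X.Tan x) {v : Var} (h : ∀ y ∈ X.pts, y v = 0) : ξ v = 0 := by
  simpa using hξ (MvPolynomial.X v) fun y hy => by rw [eval_X, h y hy]
/-- evaluation along a polynomial curve -/
lemma eval_curve (F : Var → Polynomial ℂ) (t : ℂ) (r : R) :
    (aeval F r).eval t = eval (fun v => (F v).eval t) r := by
  induction r using MvPolynomial.induction_on with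
  | C c => simp
  | add p q hp hq => simp only [map_add, Polynomial.eval_add, hp, hq]
  | mul_X p v hp => simp only [map_mul, Polynomial.eval_mul, hp, aeval_X, eval_X]
lemma dAt_curve (F : Var → Polynomial ℂ) (t : ℂ) (r : R) :
    (aeval F r).derivative.eval t =
      dAt (fun v => (F v).eval t) (fun v => (F v).derivative.eval t) r := by
  induction r using MvPolynomial.induction_on with
  | C c => simp
  | add p q hp hq => simp only [map_add, Polynomial.eval_add, dAt_add, hp, hq]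
  | mul_X p v hp =>
    simp only [map_mul, Polynomial.derivative_mul, Polynomial.eval_add, Polynomial.eval_mul, hp,
      aeval_X, dAt_mul, dAt_X, eval_X, eval_curve]
    ring
/-- the velocity of a polynomial curve in `X` is a tangent vector -/
lemma Spc.tan_of_curve (F : Var → Polynomial ℂ) {A : Set ℂ} (hA : A.Infinite)
    (h : ∀ t ∈ A, (fun v => (F v).eval t) ∈ X.pts) (t : ℂ) :
    (fun v => (F v).derivative.eval t) ∈ X.Tan fun v => (F v).eval t := fun r hr => by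
  have : aeval F r = 0 := Polynomial.eq_zero_of_infinite_isRoot _ (hA.mono fun t ht => by
    rw [Set.mem_ofPred_eq, Polynomial.IsRoot, eval_curve]; exact hr _ (h t ht))
  rw [← dAt_curve, this]; simp
lemma Spc.Sub.tan_le (h : Z.Sub X) (x : Pt) : Z.Tan x ≤ X.Tan x := TanI_anti h.I_le x
lemma Spc.euler_mem (hx : x ∈ X.pts) (B : Finset ℕ) : restr B x ∈ X.Tan x := by
  have := Spc.tan_of_curve (X := X)
    (fun v => if v.1 ∈ B then Polynomial.C (x v) * Polynomial.X else Polynomial.C (x v))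
    (Set.finite_singleton (0 : ℂ)).infinite_compl (fun t ht => by
      convert Sp.bsc_mem (c := fun b => if b ∈ B then t else 1) hx
        (fun b _ => by split_ifs; exacts [ht, one_ne_zero]) using 1
      funext v
      rw [Sp.bsc]
      split_ifs
      · rw [Polynomial.eval_mul, Polynomial.eval_C, Polynomial.eval_X, mul_comm]
      · rw [Polynomial.eval_C, one_mul]) 1
  convert this using 1
  · congr 1; funext v; split_ifs <;> simp
  · funext v; rw [restr]; split_ifs <;> simp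
lemma dV_pd_poly (hξ : ξ ∈ X.Tan x) {ι : Type} [Fintype ι] (r : ι → R) (v : ι → M) :
    dV (X.pd x ξ) (fun y => ∑ i, eval y.1 (r i) • v i) = ∑ i, dAt x ξ (r i) • v i := by
  rw [dV_sum]
  exact Finset.sum_congr rfl fun i _ => by rw [dV_smul_const, Spc.pd_spec hξ]
lemma dV_pd_add (hξ : ξ ∈ X.Tan x) (hη : η ∈ X.Tan x) {σ : X.pts → M} (hσ : RegV X.fn σ) :
    dV (X.pd x (ξ + η)) σ = dV (X.pd x ξ) σ + dV (X.pd x η) σ := dual_ext fun ℓ => by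
  obtain ⟨r, hr⟩ := hσ ℓ
  simp only [map_add, dV_spec, Spc.pd_of_eq hξ hr, Spc.pd_of_eq hη hr,
    Spc.pd_of_eq (add_mem hξ hη) hr, dAt_dir_add]
lemma dV_pd_smul (hξ : ξ ∈ X.Tan x) (c : ℂ) {σ : X.pts → M} (hσ : RegV X.fn σ) :
    dV (X.pd x (c • ξ)) σ = c • dV (X.pd x ξ) σ := dual_ext fun ℓ => by
  obtain ⟨r, hr⟩ := hσ ℓ
  simp only [map_smul, dV_spec, Spc.pd_of_eq hξ hr,
    Spc.pd_of_eq (Submodule.smul_mem _ c hξ) hr, dAt_dir_smul, smul_eq_mul]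
/-- the differential of a regular vector -/
def Spc.dS (X : Spc) (x : Pt) (σ : X.pts → M) (hσ : RegV X.fn σ) : X.Tan x →ₗ[ℂ] M where
  toFun ξ := dV (X.pd x ξ.1) σ
  map_add' ξ η := dV_pd_add ξ.2 η.2 hσ
  map_smul' c ξ := dV_pd_smul ξ.2 c hσ
lemma dV_pd_pull (p : Proj Y X) (hξ : ξ ∈ Y.Tan x) {σ : Pt → M}
    (hσ : RegV X.fn fun y => σ y.1) : dV (Y.pd x ξ) (fun y => σ (restr X.B y.1)) =
      dV (X.pd (restr X.B x) (restr X.B ξ)) fun y => σ y.1 := dual_ext fun ℓ => by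
  obtain ⟨r, hr⟩ := hσ ℓ
  rw [dV_spec, dV_spec, Spc.pd_of_eq (p.tan hξ) hr, ← Sp.dAt_kill]
  exact Spc.pd_of_eq hξ fun y => by rw [eval_kill]; exact hr (p.pt y)
lemma dV_pd_sub (p : Z.Sub X) (hξ : ξ ∈ Z.Tan x) {σ : Pt → M} (hσ : RegV X.fn fun y => σ y.1) :
    dV (Z.pd x ξ) (fun y => σ y.1) = dV (X.pd x ξ) fun y => σ y.1 := dual_ext fun ℓ => by
  obtain ⟨r, hr⟩ := hσ ℓ
  rw [dV_spec, dV_spec, Spc.pd_of_eq (p.tan_le x hξ) hr]
  exact Spc.pd_of_eq hξ fun y => hr ⟨y.1, p.2 y.2⟩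
lemma dV_pd_eq_zero (p : Z.Sub X) (hξ : ξ ∈ Z.Tan x) {σ : Pt → M}
    (hσ : RegV X.fn fun y => σ y.1) (h0 : ∀ z ∈ Z.pts, σ z = 0) :
    dV (X.pd x ξ) (fun y => σ y.1) = 0 := by
  rw [← dV_pd_sub p hξ hσ, funext fun y : Z.pts => h0 y.1 y.2, dV_zero]
/-- functions on the points of a space extend to all points -/
lemma Spc.exists_ext {α : Type*} [Zero α] (τ : X.pts → α) : ∃ τ' : Pt → α, τ = fun y => τ' y.1 := by
  classical
  exact ⟨fun z => if h : z ∈ X.pts then τ ⟨z, h⟩ else 0, funext fun y => by simp⟩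
lemma IsVar.pull (p : Proj Y X) (hx : x ∈ Y.pts) (hξ : ξ ∈ Y.Tan x) {L : Pt → Submodule ℂ M}
    (hL : Alg X.fn fun y => L y.1) {φ : M →ₗ[ℂ] M}
    (h : IsVar X.fn ⟨_, p.map x hx⟩ (X.pd (restr X.B x) (restr X.B ξ)) (fun y => L y.1) φ) :
    IsVar Y.fn ⟨x, hx⟩ (Y.pd x ξ) (fun y => L (restr X.B y.1)) φ := by
  obtain ⟨φ', h'⟩ := (Spc.pder_pd hx hξ).exists_isVar (hL.precomp p.pt p.fn_comp)
  refine IsVar.congr h' fun v hv => ?_
  obtain ⟨τ, hτ, hm, e⟩ := hL.exists_section (x₀ := p.pt ⟨x, hx⟩) hv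
  obtain ⟨τ', rfl⟩ := Spc.exists_ext τ
  have h1 := h _ hτ hm
  have h2 := h' _ (hτ.precomp p.pt p.fn_comp) fun y => hm (p.pt y)
  rw [← dV_pd_pull p hξ hτ] at h1
  have h3 := Submodule.sub_mem _ h1 h2
  rw [← e]
  convert h3 using 1
  exact (sub_sub_sub_cancel_left _ _ _).symm
lemma IsVar.sub (p : Z.Sub X) (hx : x ∈ Z.pts) (hξ : ξ ∈ Z.Tan x) {L : Pt → Submodule ℂ M}
    (hL : Alg X.fn fun y => L y.1) {φ : M →ₗ[ℂ] M}
    (h : IsVar X.fn ⟨x, p.2 hx⟩ (X.pd x ξ) (fun y => L y.1) φ) :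
    IsVar Z.fn ⟨x, hx⟩ (Z.pd x ξ) (fun y => L y.1) φ := by
  have hc : ∀ f ∈ X.fn, (fun y : Z.pts => f ⟨y.1, p.2 y.2⟩) ∈ Z.fn :=
    fun f ⟨r, hr⟩ => ⟨r, fun y => hr _⟩
  obtain ⟨φ', h'⟩ := (Spc.pder_pd hx hξ).exists_isVar (hL.precomp _ hc)
  refine IsVar.congr h' fun v hv => ?_
  obtain ⟨τ, hτ, hm, e⟩ := hL.exists_section (x₀ := ⟨x, p.2 hx⟩) hv
  obtain ⟨τ', rfl⟩ := Spc.exists_ext τ
  have h1 := h _ hτ hm
  have h2 := h' _ (hτ.precomp _ hc) fun y => hm _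
  rw [← dV_pd_sub p hξ hτ] at h1
  have h3 := Submodule.sub_mem _ h1 h2
  rw [← e]
  convert h3 using 1
  exact (sub_sub_sub_cancel_left _ _ _).symm
lemma Blk.dV_vec {V : GV} (β : Blk V) (b : ℕ) (hξ : ξ ∈ X.Tan x) :
    dV (X.pd x ξ) (fun y => β.vec b y.1) = β.vec b ξ := by
  simpa [Blk.vec] using dV_pd_poly hξ (fun i => MvPolynomial.X (β.var b i)) β.e
/-- the variables of a block -/
def Blk.vars {V : GV} (β : Blk V) (b : ℕ) : Finset Var := Finset.univ.image (β.var b)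
lemma Blk.spc_vars {V : GV} (β : Blk V) {b : ℕ} (hb : b ∈ X.B) (h : ∀ y ∈ X.pts, β.Supp b y) :
    X.Vars (β.vars b) :=
  ⟨fun v hv => by obtain ⟨i, -, rfl⟩ := Finset.mem_image.1 hv; exact hb,
    fun y hy v hv => h y hy v fun i e => hv (Finset.mem_image.2 ⟨i, Finset.mem_univ _, e.symm⟩)⟩
lemma Blk.supp_tan {V : GV} (β : Blk V) {b : ℕ} (h : ∀ y ∈ X.pts, β.Supp b y) (hξ : ξ ∈ X.Tan x) :
    β.Supp b ξ := fun v hv => Spc.tan_supp hξ fun y hy => h y hy v hv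
lemma Blk.vec_inj {V : GV} (β : Blk V) {b : ℕ} (hξ : β.Supp b ξ) (hη : β.Supp b η)
    (h : β.vec b ξ = β.vec b η) : ξ = η := by rw [← β.pt_vec b hξ, h, β.pt_vec b hη]
lemma Blk.in_shift {V : GV} (β : Blk V) {b : ℕ} {B : Finset ℕ} (hb : b ∈ B) :
    (V.shift (eB b)).In B := by
  refine GV.In.shift (GV.In.of_inj (W := co fun i => β.w i • eT)
    (in_co fun i => zsmul_mem (eT_mem B) _) (f := β.e.equivFun.toLinearMap) (fun v => ?_)
    β.e.equivFun.injective) (eB_mem hb)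
  have : β.e.equivFun.toLinearMap ∘ₗ V.g.toLinearMap =
      (gd fun i => β.w i • eT).toLinearMap ∘ₗ β.e.equivFun.toLinearMap :=
    β.e.ext fun i => funext fun j => by
      by_cases e : i = j <;> simp [β.he, e]
  exact LinearMap.congr_fun this v
/-- the tangent bundle of a one-block space -/
theorem Blk.kc_tan {V : GV} (β : Blk V) {b : ℕ} (hb : b ∈ X.B) (h : ∀ y ∈ X.pts, β.Supp b y)
    {n : ℕ} (hs : X.Sm n) (Vs : Finset Var) (hV : X.Vars Vs) :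
    (IsAB X (V.shift (eB b)) fun x => (X.Tan x).map (β.vec b)) ∧
      kc X (V.shift (eB b)) (fun x => (X.Tan x).map (β.vec b)) = (Bun.tan X Vs hV n hs).kl := by
  have hφ : IsRM X (co fun v : Vs => vdeg v.1) (V.shift (eB b)) fun _ => β.vec b ∘ₗ extV Vs := by
    refine IsRM.const fun u => ?_
    have h1 : extV Vs (gd (fun v : Vs => vdeg v.1) u) = gpt (extV Vs u) := funext fun v => by
      by_cases hv : v ∈ Vs <;> simp [extV, gpt, hv]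
    change β.vec b (extV Vs (gd (fun v : Vs => vdeg v.1) u)) = _
    rw [h1]
    simp [Blk.vec, gpt, β.he, Blk.var, vdeg, chi_add, smul_smul, mul_comm]
  have hi : ∀ x ∈ X.pts, (Bun.tan X Vs hV n hs).L x ⊓ LinearMap.ker (β.vec b ∘ₗ extV Vs) = ⊥ := by
    refine fun x _ => eq_bot_iff.2 fun u ⟨h1, h2⟩ => ?_
    have := β.vec_inj (β.supp_tan h h1) (fun _ _ => rfl) (η := 0) (by rw [map_zero]; exact h2)
    funext v
    exact (dif_pos v.2).symm.trans (congrFun this v.1)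
  have hm : ∀ x ∈ X.pts, ((Bun.tan X Vs hV n hs).L x).map (β.vec b ∘ₗ extV Vs) =
      (X.Tan x).map (β.vec b) := fun x hx => by
    rw [← Bun.map_tan Vs hV n hs hx]; exact Submodule.map_comp _ _ _
  have h1 := ((Bun.tan X Vs hV n hs).isAB.map_of_inj (β.in_shift hb) hφ hi).congr hm
  exact ⟨h1, ((Bun.kl_eq_kc _).trans
    (kc_iso (Bun.tan X Vs hV n hs).isAB h1 hφ fun x hx => ⟨hi x hx, hm x hx⟩)).symm⟩
/-- weights of tangent vectors: on a `T`-fixed point of block weight `w`, the coordinates of weight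
`w` are the weight zero part -/
lemma Blk.vec_mem_part {V : GV} (β : Blk V) (b : ℕ) (w : ℕ → ℤ) {B : Finset ℕ} (hb : b ∈ B)
    (hξ : β.Supp b ξ) : β.vec b ξ ∈ (V.shift (eB b)).part (fun d => nwt B w d = 0) ↔
      ∀ v : Var, ξ v ≠ 0 → v.2.2 = w b := by
  have hg : ∀ i, (V.shift (eB b)).g (β.e i) = chi (vdeg (β.var b i)) • β.e i := fun i => by
    simp [β.he, Blk.var, vdeg, chi_add, smul_smul, mul_comm]
  have hn : ∀ i, nwt B w (vdeg (β.var b i)) = β.w i - w b := fun i => nwt_vdeg w hb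
  refine ⟨fun h v hv => ?_, fun h => (show ∑ i, ξ (β.var b i) • β.e i ∈ _ from
    Submodule.sum_mem _ fun i _ => ?_)⟩
  · obtain ⟨i, rfl⟩ : ∃ i, v = β.var b i := by_contra fun h' => hv (hξ v (by simpa using h'))
    by_contra hne
    apply hv
    rw [← β.repr_vec b ξ i]
    have hc : β.e.coord i ∘ₗ (V.shift (eB b)).g.toLinearMap = chi (vdeg (β.var b i)) • β.e.coord i :=
      β.e.ext fun j => by
        rw [LinearMap.comp_apply, LinearEquiv.coe_coe, hg]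
        by_cases e : j = i <;> simp [e]
    have : (V.shift (eB b)).part (fun d => nwt B w d = 0) ≤ LinearMap.ker (β.e.coord i) := by
      refine iSup₂_le fun d hd u hu => ?_
      have h1 := LinearMap.congr_fun hc u
      rw [LinearMap.comp_apply, Module.End.mem_eigenspace_iff.1 hu, map_smul, LinearMap.smul_apply,
        smul_eq_mul, smul_eq_mul] at h1
      refine (mul_eq_mul_right_iff.1 h1).resolve_left fun e => hne ?_
      have := hn i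
      rw [← chi_inj e, hd] at this
      exact (sub_eq_zero.1 this.symm)
    exact this h
  · by_cases h0 : ξ (β.var b i) = 0
    · simp [h0]
    · refine Submodule.smul_mem _ _ (Submodule.mem_iSup_of_mem (vdeg (β.var b i))
        (Submodule.mem_iSup_of_mem ((hn i).trans (sub_eq_zero.2 (h _ h0))) ?_))
      exact Module.End.mem_eigenspace_iff.2 (hg i)

end Crest.Agent.N265
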