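import Crest.Agent.N265.K.AB3
import Crest.Agent.N265.K.Wt

/-! # Task AB4: weights in `K X`, cones -/

set_option autoImplicit false
noncomputable section
open MvPolynomial TensorProduct Module

namespace Crest.Agent.N265
open Alg _root_.Crest.Agent.N265.Pow GV Bun
variable {X Y : Spc} {U V W V' W' : GV}
variable {L L' : Pt → Submodule ℂ V.V} {M M' : Pt → Submodule ℂ W.V} {N N' : Pt → Submodule ℂ U.V}
  {φ : Pt → V.V →ₗ[ℂ] W.V} {ψ : Pt → W.V →ₗ[ℂ] U.V}

/-! ### weights on `T`-trivial spaces -/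
section wt
variable {w : ℕ → ℤ}
namespace AB4
/-- coordinates of the vectors of `V.part P` -/
lemma mem_part_iff {ι : Type} [Fintype ι] (b : Basis ι ℂ V.V) {deg : ι → D}
    (hb : ∀ i, V.g (b i) = chi (deg i) • b i) {P : D → Prop} {v : V.V} :
    v ∈ V.part P ↔ ∀ i, ¬ P (deg i) → b.repr v i = 0 := by
  constructor
  · intro hv
    have key : V.part P ≤ (suppOn fun i => P (deg i)).comap b.equivFun.toLinearMap := by
      refine iSup_le fun d => iSup_le fun hd u hu i hi => ?_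
      have h1 : V.g u = chi d • u := Module.End.mem_eigenspace_iff.1 hu
      have h2 : (b.coord i) ∘ₗ V.g.toLinearMap = chi (deg i) • b.coord i := b.ext fun j => by
        by_cases e : j = i
        · subst e; simp [hb]
        · simp [hb, e]
      have h3 := LinearMap.congr_fun h2 u
      simp only [LinearMap.comp_apply, LinearEquiv.coe_coe, h1, map_smul, Basis.coord_apply,
        LinearMap.smul_apply, smul_eq_mul] at h3
      have h4 : chi d ≠ chi (deg i) := fun e => hi (show P (deg i) from chi_inj e ▸ hd)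
      exact (mul_eq_mul_right_iff.1 h3).resolve_left h4
    exact key hv
  · intro h
    rw [← b.sum_repr v]
    refine Submodule.sum_mem _ fun i _ => ?_
    by_cases e : P (deg i)
    · exact Submodule.smul_mem _ _ (Submodule.mem_iSup_of_mem (deg i)
        (Submodule.mem_iSup_of_mem e (Module.End.mem_eigenspace_iff.2 (hb i))))
    · rw [h i e, zero_smul]; exact zero_mem _
lemma entry_zero (hw : X.TTriv w) {ι κ : Type} {a : ι → D} {b : κ → D} {Φ : Matrix κ ι R}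
    (h : MHmg a b Φ) {x : Pt} (hx : x ∈ X.pts) {p : ℤ → Prop} {i : ι} {j : κ}
    (e : ¬ (p (nwt X.B w (a i)) ↔ p (nwt X.B w (b j)))) : eval x (Φ j i) = 0 :=
  by_contra fun h0 => e (by rw [h.nwt_eq hw hx h0])
end AB4
open AB4
theorem IsAB.eq_part_sup (h : IsAB X V L) (hw : X.TTriv w) (p : ℤ → Prop) {x : Pt}
    (hx : x ∈ X.pts) : L x ⊓ V.part (fun d => p (nwt X.B w d)) ⊔
      L x ⊓ V.part (fun d => ¬ p (nwt X.B w d)) = L x := by
  classical
  refine le_antisymm (sup_le inf_le_left inf_le_left) fun v hv => ?_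
  obtain ⟨A, b, hb, hA⟩ := h.exists_pres
  have h1 : b.equivFun v ∈ A.L x := hA x hx ▸ ⟨v, hv, rfl⟩
  have h2 := A.wt_proj_mem hw p hx h1
  rw [hA x hx] at h2
  obtain ⟨u, hu, e⟩ := h2
  have e' : ∀ i, b.repr u i = if p (nwt X.B w (A.deg i)) then b.repr v i else 0 := congrFun e
  rw [← add_sub_cancel u v]
  refine Submodule.add_mem_sup ⟨hu, (mem_part_iff b hb).2 fun i hi => ?_⟩
    ⟨sub_mem hv hu, (mem_part_iff b hb).2 fun i hi => ?_⟩
  · rw [e', if_neg hi]
  · rw [map_sub, Finsupp.sub_apply, e', if_pos (not_not.1 hi), sub_self]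
theorem IsAB.inf_part (h : IsAB X V L) (hw : X.TTriv w) (p : ℤ → Prop) :
    IsAB X V fun x => L x ⊓ V.part fun d => p (nwt X.B w d) :=
  h.inf_const (stab_part _) (h.hin.isCompl_part _) fun _ hx => h.eq_part_sup hw p hx
theorem IsRM.map_part (h : IsRM X V W φ) (hV : V.In X.B) (hW : W.In X.B) (hw : X.TTriv w)
    (p : ℤ → Prop) {x : Pt} (hx : x ∈ X.pts) :
    (V.part fun d => p (nwt X.B w d)).map (φ x) ≤ W.part fun d => p (nwt X.B w d) := by
  obtain ⟨n, b, d, -, hb⟩ := hV.exists_basis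
  obtain ⟨m, c, e, -, hc⟩ := hW.exists_basis
  obtain ⟨Φ, hΦ, hm⟩ := h.exists_mat b c hb hc
  rintro _ ⟨v, hv, rfl⟩
  refine (mem_part_iff c hc).2 fun j hj => (congrFun (hm x hx v) j).symm.trans ?_
  rw [mev_apply]
  refine Finset.sum_eq_zero fun i _ => ?_
  by_cases hi : p (nwt X.B w (d i))
  · rw [entry_zero hw hΦ hx (p := p) fun e => hj (e.1 hi), zero_mul]
  · rw [Basis.equivFun_apply, (mem_part_iff b hb).1 hv i hi, mul_zero]
theorem K.wt_kc (hw : X.TTriv w) (p : ℤ → Prop) [DecidablePred p] (h : IsAB X V L) :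
    K.wt hw p (kc X V L) = kc X V fun x => L x ⊓ V.part fun d => p (nwt X.B w d) := by
  obtain ⟨A, b, hb, hA⟩ := h.exists_pres
  rw [← Pres.kl ⟨b, hb, hA⟩, K.wt_kl, Bun.kl_eq_kc]
  let f : V.V →ₗ[ℂ] (co (A.wt w hw p).deg).V :=
    LinearMap.funLeft ℂ ℂ Subtype.val ∘ₗ b.equivFun.toLinearMap
  have hf : Deg0 V (co (A.wt w hw p).deg) f := by
    have : f ∘ₗ V.g.toLinearMap = (gd (A.wt w hw p).deg).toLinearMap ∘ₗ f := b.ext fun j => by
      funext i
      change b.repr (V.g (b j)) i.1 = chi (A.deg i.1) * b.repr (b j) i.1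
      by_cases e : j = i.1
      · rw [hb, e]; simp
      · simp [hb, e]
    exact LinearMap.congr_fun this
  refine (kc_iso (h.inf_part hw p) (A.wt w hw p).isAB (IsRM.const hf) fun x hx =>
    ⟨eq_bot_iff.2 fun v hv => b.repr.map_eq_zero_iff.1 (Finsupp.ext fun i => ?_), ?_⟩).symm
  · by_cases hi : p (nwt X.B w (A.deg i))
    · exact congrFun hv.2 ⟨i, hi⟩
    · exact (mem_part_iff b hb).1 hv.1.2 i hi
  · have e : (A.wt w hw p).L x = (L x).map f :=
      (congrArg _ (hA x hx)).trans (Submodule.map_comp _ _ _).symm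
    rw [e]
    conv_rhs => rw [← h.eq_part_sup hw p hx, Submodule.map_sup]
    refine (sup_eq_left.2 ?_).symm
    rintro _ ⟨v, hv, rfl⟩
    have : f v = 0 := funext fun i => (mem_part_iff b hb).1 hv.2 i.1 (not_not.2 i.2)
    exact this ▸ zero_mem _
variable {hw : X.TTriv w} {k : ℤ}
theorem K.pure_kc (h : IsAB X V L)
    (e : ∀ x ∈ X.pts, L x ≤ V.part fun d => nwt X.B w d = k) : K.Pure hw k (kc X V L) :=
  (K.wt_kc hw (· = k) h).trans (kc_congr fun x hx => inf_eq_left.2 (e x hx))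
end wt

/-! ### cones -/
theorem ACone.exists_cone {Z Q : Spc} {E : Pt → Submodule ℂ V.V} {s : Pt → V.V}
    (h : ACone Z Q V E s) : ∃ (A : Bun Q) (b : Basis A.ι ℂ V.V) (s' : A.ι → R),
      PresB A V E b ∧ Cone Z Q A s' ∧ ∀ x ∈ Z.pts, ∀ i, eval x (s' i) = b.repr (s x) i := by
  obtain ⟨A, b, hb, hA⟩ := h.ab.exists_pres
  obtain ⟨s', h1, h2⟩ := h.rv.exists_poly b hb
  refine ⟨A, b, s', ⟨hb, hA⟩, ⟨h.sub, h1, fun x hx => (h.zero x hx).trans ?_,
    fun x hx a ha => ?_⟩, h2⟩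
  · simp only [h2 x hx]
    exact ⟨fun e i => by simp [e], fun e => b.repr.map_eq_zero_iff.1 (Finsupp.ext e)⟩
  · have ha' : b.constr ℂ a ∈ (E x).dualAnnihilator := by
      refine (Submodule.mem_dualAnnihilator _).2 fun v hv => ?_
      rw [Basis.constr_apply_fintype, ← ha (b.equivFun v) (hA x hx ▸ ⟨v, hv, rfl⟩)]
      exact Finset.sum_congr rfl fun i _ => mul_comm _ _
    obtain ⟨μ, hμ, e, h0⟩ := h.syz x hx _ ha'
    choose r hr using fun i => Spc.mem_fn.1 (regV_scalar.1 (RegM.of_regV hμ (b i)))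
    refine ⟨r, fun i => ?_, fun y hy => ?_⟩
    · rw [← hr i ⟨x, h.sub.2 hx⟩, e, Basis.constr_basis]
    · rw [← h0 y hy, ← b.sum_repr (s y), map_sum, map_sum]
      refine Finset.sum_congr rfl fun i _ => ?_
      rw [map_mul, ← hr i ⟨y, hy⟩, h2 y hy, map_smul, smul_eq_mul, mul_comm]
/-- Nullstellensatz for the zero set of a regular vector -/
theorem ACone.exists_cov {Z Q : Spc} {E : Pt → Submodule ℂ V.V} {s : Pt → V.V}
    (h : ACone Z Q V E s) {f : R} (hf : ∀ y, ¬ Rel Z.B y → eval y f = 0)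
    (hQ : ∀ y ∈ Q.pts, eval y f = 0) : ∃ n : ℕ, ∀ m ≥ n, ∃ τ : Pt → Module.Dual ℂ V.V,
      RegV Z.fn (fun y => τ y.1) ∧ ∀ y ∈ Z.pts, τ y (s y) = eval y f ^ m := by
  obtain ⟨A, b, s', -, hc, h2⟩ := h.exists_cone
  obtain ⟨Vs, -, hV⟩ := Z.exists_V
  obtain ⟨n, hn⟩ := nss (Ideal.span (Set.range s') ⊔ Z.I) Vs
    (fun v hv => Ideal.mem_sup_right (hV v hv)) (r := f) fun y hy => by
      by_cases hr : Rel Z.B y
      · have hZ := Z.closed y hr fun r hr => hy r (Ideal.mem_sup_right hr)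
        exact hQ y ((hc.zero y hZ).2 fun i =>
          hy _ (Ideal.mem_sup_left (Ideal.subset_span ⟨i, rfl⟩)))
      · exact hf y hr
  refine ⟨n, fun m hm => ?_⟩
  obtain ⟨u, hu, z, hz, e⟩ := Submodule.mem_sup.1 (Ideal.pow_mem_of_pow_mem _ hn hm)
  obtain ⟨ν, rfl⟩ := Ideal.mem_span_range_iff_exists_fun.1 hu
  refine ⟨fun y => ∑ i, eval y (ν i) • b.coord i,
    RegV.sum _ fun i _ => (RegV.const _).smul (Z.eval_mem_fn _), fun y hy => ?_⟩
  rw [← map_pow, ← e, map_add, hz y hy, add_zero, map_sum, LinearMap.sum_apply]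
  exact Finset.sum_congr rfl fun i _ => by rw [map_mul, h2 y hy]; rfl
theorem AB4.syz_aux {Z : Spc} {M ι : Type} [AddCommGroup M] [Module ℂ M] [FiniteDimensional ℂ M]
    [Fintype ι] {s : Pt → M} {G : ι → R} {ρ : R} {x : Pt} (hG : ∀ j, eval x (G j) = 0)
    (hρ : eval x ρ ≠ 0) {τ : ι → Pt → Module.Dual ℂ M} (hτ : ∀ j, RegV Z.fn fun y => τ j y.1)
    (hτs : ∀ j, ∀ y ∈ Z.pts, τ j y (s y) = eval y (ρ * G j)) {a : Module.Dual ℂ (M × (ι → ℂ))}
    {μ : Pt → Module.Dual ℂ M} (hμ : RegV Z.fn fun y => μ y.1)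
    (e : μ x = a ∘ₗ LinearMap.inl ℂ _ _) (hμs : ∀ y ∈ Z.pts, μ y (s y) = 0) :
    ∃ ν : Pt → Module.Dual ℂ (M × (ι → ℂ)), RegV Z.fn (fun y => ν y.1) ∧ ν x = a ∧
      ∀ y ∈ Z.pts, ν y (s y, fun j => eval y (G j * G j)) = 0 := by
  classical
  obtain ⟨a2, ha2⟩ : ∃ a2, a2 = a ∘ₗ LinearMap.inr ℂ M (ι → ℂ) := ⟨_, rfl⟩
  obtain ⟨κ, hκ⟩ : ∃ κ, κ * eval x ρ = 1 := ⟨_, inv_mul_cancel₀ hρ⟩
  have h1 : RegV Z.fn fun y => μ y.1 - ∑ j, eval y.1 (C (κ * a2 (Pi.single j 1)) * G j) • τ j y.1 :=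
    hμ.sub (RegV.sum _ fun j _ => (hτ j).smul (Z.eval_mem_fn _))
  have h2 : RegM Z.fn fun y => eval y.1 (C κ * ρ) • a2 := (RegM.const _).smul (Z.eval_mem_fn _)
  refine ⟨fun y => (μ y - ∑ j, eval y (C (κ * a2 (Pi.single j 1)) * G j) • τ j y).coprod
    (eval y (C κ * ρ) • a2), ((RegM.of_regV h1).coprod h2).regV, ?_, fun y hy => ?_⟩
  · simp only [map_mul (eval x), eval_C, hκ, one_smul, hG, mul_zero, zero_smul,
      Finset.sum_const_zero, sub_zero, e]
    rw [ha2]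
    exact LinearMap.coprod_comp_inl_inr a
  · have h3 : a2 (fun j => eval y (G j * G j)) =
        ∑ j, eval y (G j * G j) * a2 (Pi.single j 1) := by
      rw [LinearMap.pi_apply_eq_sum_univ]
      exact Finset.sum_congr rfl fun j _ => by
        rw [smul_eq_mul]; congr 2; funext i; simp [Pi.single_apply, eq_comm]
    rw [LinearMap.coprod_apply, LinearMap.sub_apply, hμs y hy, LinearMap.sum_apply,
      LinearMap.smul_apply, h3, smul_eq_mul, Finset.mul_sum, zero_sub, neg_add_eq_zero]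
    refine Finset.sum_congr rfl fun j _ => ?_
    rw [LinearMap.smul_apply, hτs j y hy]
    simp only [map_mul, eval_C, smul_eq_mul]
    ring
/-- restriction of a cone to an open and closed piece `Q'` of `Q`: add high powers of equations
`g_j` of `Q'` in `Q` (they lie in `(s) + I_Z` near `Q'`, their squares give the new syzygies) -/
theorem ACone.level {Z Q Q' Q'' : Spc} {E : Pt → Submodule ℂ V.V} {s : Pt → V.V}
    (h : ACone Z Q V E s) (h' : Q'.Sub Q) (h'' : Q''.Sub Q) (hc : Q.pts ⊆ Q'.pts ∪ Q''.pts)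
    (hd : Disjoint Q'.pts Q''.pts) : ∃ (V' : GV) (g : Pt → V'.V),
      ACone Z Q' (V.prod V') (fun x => (E x).prod ⊥) (fun x => (s x, g x)) ∧
      ∀ x ∈ Q'.pts, ∀ ξ ∈ Z.Tan x,
        dV (Z.pd x ξ) (fun y : Z.pts => g y.1) = 0 := by
  classical
  choose! d hdm g hg hgh hg0 using fun y (hy : y ∈ Q''.pts) =>
    h'.exists_hmg (h''.2 hy) fun a => Set.disjoint_left.1 hd a hy
  obtain ⟨t, ht, hcov⟩ := Q''.exists_finite_cover g hg0
  have hr : ∀ x ∈ Q'.pts, ∃ r : R, eval x r ≠ 0 ∧ (∀ y, ¬ Rel Z.B y → eval y r = 0) ∧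
      ∀ y ∈ Q''.pts, eval y r = 0 := fun x hx => by
    obtain ⟨_, -, r, h1, -, h2⟩ := h''.exists_hmg (h'.2 hx) (Set.disjoint_left.1 hd hx)
    obtain ⟨_, -, ρ, -, h3, h4⟩ := Sp.exists_rel_poly (Z.rel x (h.sub.2 (h'.2 hx)))
    refine ⟨r * ρ, by rw [map_mul]; exact mul_ne_zero h2 h3, fun y hy => ?_, fun y hy => ?_⟩
    · rw [map_mul, by_contra fun a => hy (h4 y a), mul_zero]
    · rw [map_mul, h1 y hy, zero_mul]
  choose! r hr0 hr1 hr2 using hr
  obtain ⟨t', ht', hcov'⟩ := Q'.exists_finite_cover r hr0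
  choose n hn using fun (x : t') (j : t) => h.exists_cov (f := r x * g j)
    (fun y hy => by rw [map_mul, hr1 _ (ht' x.2) y hy, zero_mul]) fun y hy => by
      rcases hc hy with a | a
      · rw [map_mul, hg _ (ht j.2) y a, mul_zero]
      · rw [map_mul, hr2 _ (ht' x.2) y a, zero_mul]
  obtain ⟨m, hm⟩ : ∃ m, ∀ x j, n x j ≤ m + 1 :=
    ⟨Finset.univ.sup fun p : t' × t => n p.1 p.2, fun x j =>
      (Finset.le_sup (f := fun p : t' × t => n p.1 p.2) (Finset.mem_univ (x, j))).trans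
        (Nat.le_succ _)⟩
  have hz : ∀ x ∈ Q'.pts, ∀ j : t, eval x (g j ^ (m + 1)) = 0 := fun x hx j => by
    rw [map_pow, hg _ (ht j.2) x hx, zero_pow (Nat.succ_ne_zero m)]
  have hin : (co fun j : t => (m + 1) • d j + (m + 1) • d j).In Q'.B :=
    in_co fun j => h'.1 ▸ add_mem (nsmul_mem (hdm _ (ht j.2)) _) (nsmul_mem (hdm _ (ht j.2)) _)
  refine ⟨co fun j : t => (m + 1) • d j + (m + 1) • d j,
    fun x j => eval x (g j ^ (m + 1) * g j ^ (m + 1)),
    ⟨h'.trans h.sub, (h.ab.mono h').prod (IsAB.bot hin), h.rv.pair ⟨regV_poly Z _, fun x _ =>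
      funext fun j => (((hgh _ (ht j.2)).pow _).mul ((hgh _ (ht j.2)).pow _)).eval_gpt x⟩,
      fun x hx => ⟨fun a => Prod.ext ((h.zero x hx).1 (h'.2 a)) (funext fun j => ?_), fun a => ?_⟩,
      fun x hx a ha => ?_⟩, fun x hx ξ hξ => ?_⟩
  · change eval x _ = 0
    rw [map_mul, hz x a, zero_mul]
  · refine (hc ((h.zero x hx).2 (congrArg Prod.fst a))).resolve_right fun b => ?_
    obtain ⟨j, hj, h0⟩ := hcov x b
    have : eval x _ = 0 := congrFun (congrArg Prod.snd a) ⟨j, hj⟩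
    rw [map_mul, map_pow, mul_self_eq_zero] at this
    exact h0 (pow_eq_zero_iff (Nat.succ_ne_zero m) |>.1 this)
  · obtain ⟨x', hx', h0⟩ := hcov' x hx
    choose τ hτ hτs using fun j => hn ⟨x', hx'⟩ j (m + 1) (hm _ j)
    obtain ⟨μ, hμ, e, hμs⟩ := h.syz x (h'.2 hx) (a ∘ₗ LinearMap.inl ℂ _ _)
      ((Submodule.mem_dualAnnihilator _).2 fun v hv =>
        (Submodule.mem_dualAnnihilator _).1 ha _ ⟨hv, rfl⟩)
    refine AB4.syz_aux (G := fun j : t => g j ^ (m + 1)) (ρ := r x' ^ (m + 1)) (hz x hx)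
      (by rw [map_pow]; exact pow_ne_zero _ h0) hτ (fun j y hy => ?_) hμ e hμs
    rw [hτs j y hy, ← map_pow, mul_pow]
  · have := dV_pd_poly hξ (fun j : t => g j ^ (m + 1) * g j ^ (m + 1))
      fun j => (Pi.single j 1 : t → ℂ)
    rw [Finset.sum_eq_zero fun j _ => by
      rw [dAt_mul, hz x hx, zero_mul, add_zero, zero_smul]] at this
    rw [← this]
    congr 1
    funext y i
    simp [Finset.sum_apply, Pi.single_apply]

end Crest.Agent.N265
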