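import Mathlib
import Crest.Agent.N265.K.Pow

/-!
# Row 265, K-KOS part 1: the Koszul differential on `Λ V ⊗ S V` and its homotopy (helper40)
-/

set_option autoImplicit false

noncomputable section

namespace Crest.Agent.N265.Pow.Ks

open TensorProduct

variable {V W : Type} [AddCommGroup V] [Module ℂ V] [AddCommGroup W] [Module ℂ W]

abbrev EA (V : Type) [AddCommGroup V] [Module ℂ V] : Type := ExteriorAlgebra ℂ V
abbrev SA (V : Type) [AddCommGroup V] [Module ℂ V] : Type := SymmetricAlgebra ℂ V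
abbrev iE : V →ₗ[ℂ] EA V := ExteriorAlgebra.ι ℂ
abbrev iS : V →ₗ[ℂ] SA V := SymmetricAlgebra.ι ℂ V

/-- contraction -/
def ct (φ : Module.Dual ℂ V) : EA V →ₗ[ℂ] EA V := CliffordAlgebra.contractLeft φ

lemma ct_ι_mul (φ : Module.Dual ℂ V) (v : V) (w : EA V) :
    ct φ (iE v * w) = φ v • w - iE v * ct φ w := CliffordAlgebra.contractLeft_ι_mul _ _ _
lemma ct_alg (φ : Module.Dual ℂ V) (c : ℂ) : ct φ (algebraMap ℂ (EA V) c) = 0 :=
  CliffordAlgebra.contractLeft_algebraMap _ _ _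

lemma EA_ind {P : EA V → Prop} (h0 : ∀ c : ℂ, P (algebraMap ℂ _ c))
    (ha : ∀ x y, P x → P y → P (x + y)) (hm : ∀ x v, P x → P (iE v * x)) : ∀ x, P x :=
  CliffordAlgebra.left_induction (0 : QuadraticForm ℂ V) h0 ha hm

lemma SA_ind {P : SA V → Prop} (h0 : ∀ c : ℂ, P (algebraMap ℂ _ c))
    (ha : ∀ x y, P x → P y → P (x + y)) (hm : ∀ x v, P x → P (iS v * x)) : ∀ x, P x := by
  have key : ∀ f : SA V, ∀ x, (∀ c : ℂ, P (c • x)) → ∀ c : ℂ, P (c • (f * x)) := by
    intro f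
    induction f using SymmetricAlgebra.induction with
    | algebraMap r => intro x hx c; rw [← Algebra.smul_def, smul_smul]; exact hx _
    | ι v => intro x hx c; rw [← mul_smul_comm]; exact hm _ v (hx c)
    | mul a b ha' hb => intro x hx; rw [mul_assoc]; exact ha' _ (hb x hx)
    | add a b ha' hb =>
      intro x hx c; rw [add_mul, smul_add]; exact ha _ _ (ha' x hx c) (hb x hx c)
  intro x
  have := key x 1 (fun c => by rw [← Algebra.algebraMap_eq_smul_one]; exact h0 c) 1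
  simpa using this

/-- the lift to the dual numbers -/
def derA (φ : Module.Dual ℂ V) : SA V →ₐ[ℂ] TrivSqZeroExt (SA V) (SA V) :=
  SymmetricAlgebra.lift
    ((TrivSqZeroExt.inlAlgHom ℂ (SA V) (SA V)).toLinearMap ∘ₗ iS +
      ((TrivSqZeroExt.inrHom (SA V) (SA V)).restrictScalars ℂ) ∘ₗ (Algebra.linearMap ℂ (SA V)) ∘ₗ φ)

lemma fst_derA (φ : Module.Dual ℂ V) (f : SA V) : (derA φ f).fst = f := by
  have : (TrivSqZeroExt.fstHom ℂ (SA V) (SA V)).comp (derA φ) = AlgHom.id ℂ _ := by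
    apply SymmetricAlgebra.algHom_ext
    ext v
    simp [derA]
  exact DFunLike.congr_fun this f

/-- the derivation `∂_φ` of the symmetric algebra -/
def der (φ : Module.Dual ℂ V) : SA V →ₗ[ℂ] SA V :=
  ((TrivSqZeroExt.sndHom (SA V) (SA V)).restrictScalars ℂ) ∘ₗ (derA φ).toLinearMap

lemma der_ι_mul (φ : Module.Dual ℂ V) (v : V) (f : SA V) :
    der φ (iS v * f) = φ v • f + iS v * der φ f := by
  have h1 : (derA φ (iS v)).snd = algebraMap ℂ _ (φ v) := by
    simp [derA, Algebra.algebraMap_eq_smul_one]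
  simp only [der, LinearMap.comp_apply, LinearMap.restrictScalars_apply, AlgHom.toLinearMap_apply,
    map_mul, TrivSqZeroExt.sndHom_apply, TrivSqZeroExt.snd_mul, fst_derA, h1, smul_eq_mul,
    op_smul_eq_mul, Algebra.smul_def]
  ring
lemma der_alg (φ : Module.Dual ℂ V) (c : ℂ) : der φ (algebraMap ℂ (SA V) c) = 0 := by
  simp [der, TrivSqZeroExt.algebraMap_eq_inl']

/-- the big space `Λ V ⊗ S V` -/
abbrev TT (V : Type) [AddCommGroup V] [Module ℂ V] : Type := EA V ⊗[ℂ] SA V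

/-- `v ∧ ·` -/
def Wd (v : V) : TT V →ₗ[ℂ] TT V := LinearMap.rTensor _ (LinearMap.mulLeft ℂ (iE v))
/-- `v · ` on the symmetric factor -/
def Ml (v : V) : TT V →ₗ[ℂ] TT V := LinearMap.lTensor _ (LinearMap.mulLeft ℂ (iS v))
@[simp] lemma Wd_tmul (v : V) (w : EA V) (f : SA V) : Wd v (w ⊗ₜ f) = (iE v * w) ⊗ₜ f := rfl
@[simp] lemma Ml_tmul (v : V) (w : EA V) (f : SA V) : Ml v (w ⊗ₜ f) = w ⊗ₜ (iS v * f) := rfl

section fd
variable [FiniteDimensional ℂ V]

/-- a basis -/
abbrev bs (V : Type) [AddCommGroup V] [Module ℂ V] [FiniteDimensional ℂ V] := Module.finBasis ℂ V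

lemma sum_bs {U : Type} [AddCommGroup U] [Module ℂ U] (f : V →ₗ[ℂ] U) (v : V) :
    ∑ i, (bs V).coord i v • f (bs V i) = f v := by
  conv_rhs => rw [← (bs V).sum_repr v, map_sum]
  simp only [map_smul, Module.Basis.coord_apply]

/-- the Koszul differential -/
def dB : TT V →ₗ[ℂ] TT V :=
  ∑ i, TensorProduct.map (ct ((bs V).coord i)) (LinearMap.mulLeft ℂ (iS (bs V i)))

lemma dB_tmul (w : EA V) (f : SA V) :
    dB (w ⊗ₜ f) = ∑ i, ct ((bs V).coord i) w ⊗ₜ (iS (bs V i) * f) := by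
  simp [dB, LinearMap.sum_apply]

lemma dB_alg (c : ℂ) (f : SA V) : dB (algebraMap ℂ (EA V) c ⊗ₜ f) = 0 := by
  simp [dB_tmul, ct_alg]

lemma dB_ι_mul (v : V) (w : EA V) (f : SA V) :
    dB ((iE v * w) ⊗ₜ f) = w ⊗ₜ (iS v * f) - Wd v (dB (w ⊗ₜ f)) := by
  simp only [dB_tmul, ct_ι_mul, sub_tmul, Finset.sum_sub_distrib, map_sum, Wd_tmul]
  congr 1
  rw [← sum_bs iS v, Finset.sum_mul, tmul_sum]
  refine Finset.sum_congr rfl fun i _ => ?_
  rw [smul_tmul, smul_mul_assoc]

lemma dB_Wd (v : V) (z : TT V) : dB (Wd v z) = Ml v z - Wd v (dB z) := by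
  induction z using TensorProduct.induction_on with
  | zero => simp
  | tmul w f => simp [dB_ι_mul]
  | add a b ha hb => simp only [map_add, ha, hb]; abel

lemma dB_Ml (v : V) (z : TT V) : dB (Ml v z) = Ml v (dB z) := by
  induction z using TensorProduct.induction_on with
  | zero => simp
  | tmul w f => simp [dB_tmul, map_sum, mul_left_comm]
  | add a b ha hb => simp only [map_add, ha, hb]

omit [FiniteDimensional ℂ V] in
lemma TT_ind {P : TT V → Prop} (h0 : ∀ (c : ℂ) (f : SA V), P (algebraMap ℂ _ c ⊗ₜ f))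
    (ha : ∀ x y, P x → P y → P (x + y)) (hm : ∀ x v, P x → P (Wd v x)) : ∀ x, P x := by
  intro z
  induction z using TensorProduct.induction_on with
  | zero => simpa using h0 0 0
  | tmul w f =>
    induction w using EA_ind with
    | h0 c => exact h0 c f
    | ha x y hx hy => rw [add_tmul]; exact ha _ _ hx hy
    | hm x v hx => exact hm _ v hx
  | add a b h1 h2 => exact ha _ _ h1 h2

lemma dB_dB (z : TT V) : dB (dB z) = 0 := by
  induction z using TT_ind with
  | h0 c f => simp [dB_alg]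
  | ha x y hx hy => simp [hx, hy]
  | hm x v hx => simp [dB_Wd, dB_Ml, hx]

/-- functoriality on the big space -/
def PhiT (φ : V →ₗ[ℂ] V) : TT V →ₗ[ℂ] TT V :=
  TensorProduct.map (ExteriorAlgebra.map φ).toLinearMap (symA φ).toLinearMap

omit [FiniteDimensional ℂ V] in
lemma PhiT_Wd (φ : V →ₗ[ℂ] V) (v : V) (z : TT V) : PhiT φ (Wd v z) = Wd (φ v) (PhiT φ z) := by
  induction z using TensorProduct.induction_on with
  | zero => simp
  | tmul w f => simp [PhiT]
  | add a b ha hb => simp only [map_add, ha, hb]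

omit [FiniteDimensional ℂ V] in
lemma PhiT_Ml (φ : V →ₗ[ℂ] V) (v : V) (z : TT V) : PhiT φ (Ml v z) = Ml (φ v) (PhiT φ z) := by
  induction z using TensorProduct.induction_on with
  | zero => simp
  | tmul w f => simp [PhiT]
  | add a b ha hb => simp only [map_add, ha, hb]

lemma dB_PhiT (φ : V →ₗ[ℂ] V) (z : TT V) : dB (PhiT φ z) = PhiT φ (dB z) := by
  induction z using TT_ind with
  | h0 c f => simp [PhiT, dB_alg]
  | ha x y hx hy => simp [hx, hy]
  | hm x v hx => simp [dB_Wd, PhiT_Wd, PhiT_Ml, hx]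

/-! ### the homotopy attached to an endomorphism `p` -/

/-- `κ = ∑ p(b_i) ∧ ⊗ ∂_i` -/
def kap (p : V →ₗ[ℂ] V) : TT V →ₗ[ℂ] TT V :=
  ∑ i, Wd (p (bs V i)) ∘ₗ LinearMap.lTensor _ (der ((bs V).coord i))
/-- the derivation of `S V` extending `p` -/
def DS (p : V →ₗ[ℂ] V) : SA V →ₗ[ℂ] SA V :=
  ∑ i, LinearMap.mulLeft ℂ (iS (p (bs V i))) ∘ₗ der ((bs V).coord i)
/-- the derivation of `Λ V` extending `p` -/
def DE (p : V →ₗ[ℂ] V) : EA V →ₗ[ℂ] EA V :=
  ∑ i, LinearMap.mulLeft ℂ (iE (p (bs V i))) ∘ₗ ct ((bs V).coord i)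

lemma DS_alg (p : V →ₗ[ℂ] V) (c : ℂ) : DS p (algebraMap ℂ _ c) = 0 := by
  simp [DS, LinearMap.sum_apply, der_alg]
lemma DE_alg (p : V →ₗ[ℂ] V) (c : ℂ) : DE p (algebraMap ℂ _ c) = 0 := by
  simp [DE, LinearMap.sum_apply, ct_alg]
lemma DS_ι_mul (p : V →ₗ[ℂ] V) (v : V) (f : SA V) :
    DS p (iS v * f) = iS (p v) * f + iS v * DS p f := by
  simp only [DS, LinearMap.sum_apply, LinearMap.comp_apply, LinearMap.mulLeft_apply, der_ι_mul,
    mul_add, Finset.sum_add_distrib, Finset.mul_sum]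
  congr 1
  · rw [← LinearMap.comp_apply iS p, ← sum_bs (iS ∘ₗ p) v, Finset.sum_mul]
    simp
  · exact Finset.sum_congr rfl fun i _ => mul_left_comm _ _ _
lemma DE_ι_mul (p : V →ₗ[ℂ] V) (v : V) (w : EA V) :
    DE p (iE v * w) = iE (p v) * w + iE v * DE p w := by
  simp only [DE, LinearMap.sum_apply, LinearMap.comp_apply, LinearMap.mulLeft_apply, ct_ι_mul,
    Finset.mul_sum, sub_eq_add_neg, mul_add, Finset.sum_add_distrib]
  congr 1
  · rw [← LinearMap.comp_apply iE p, ← sum_bs (iE ∘ₗ p) v, Finset.sum_mul]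
    simp
  · refine Finset.sum_congr rfl fun i _ => ?_
    rw [mul_neg, ← mul_assoc, ← mul_assoc, ← neg_mul,
      neg_eq_of_add_eq_zero_right (ExteriorAlgebra.ι_add_mul_swap _ _)]

lemma der_dB (φ : Module.Dual ℂ V) (z : TT V) :
    LinearMap.lTensor _ (der φ) (dB z) =
      dB (LinearMap.lTensor _ (der φ) z) + LinearMap.rTensor _ (ct φ) z := by
  induction z using TensorProduct.induction_on with
  | zero => simp
  | tmul w f =>
    simp only [dB_tmul, map_sum, LinearMap.lTensor_tmul, der_ι_mul, tmul_add,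
      Finset.sum_add_distrib, LinearMap.rTensor_tmul]
    rw [add_comm]
    congr 1
    have : φ = ∑ i, φ (bs V i) • (bs V).coord i := by
      ext v
      rw [← sum_bs φ v]
      simp only [LinearMap.sum_apply, LinearMap.smul_apply, smul_eq_mul, mul_comm]
    conv_rhs => rw [this]
    simp only [ct, map_sum, map_smul, LinearMap.sum_apply, LinearMap.smul_apply, sum_tmul]
    exact Finset.sum_congr rfl fun i _ => by rw [smul_tmul]
  | add a b ha hb => simp only [map_add, ha, hb]; abel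

/-- the homotopy formula -/
lemma homotopy (p : V →ₗ[ℂ] V) (z : TT V) :
    dB (kap p z) + kap p (dB z) = LinearMap.lTensor _ (DS p) z + LinearMap.rTensor _ (DE p) z := by
  simp only [kap, LinearMap.sum_apply, LinearMap.comp_apply, map_sum, dB_Wd, der_dB, map_add,
    ← Finset.sum_add_distrib, DS, DE]
  rw [← LinearMap.coe_lTensorHom, ← LinearMap.coe_rTensorHom, map_sum, map_sum]
  simp only [LinearMap.coe_lTensorHom, LinearMap.coe_rTensorHom, LinearMap.sum_apply,
    ← Finset.sum_add_distrib]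
  refine Finset.sum_congr rfl fun i _ => ?_
  rw [LinearMap.lTensor_comp, LinearMap.rTensor_comp]
  simp only [LinearMap.comp_apply, Wd, Ml]
  abel

end fd

end Crest.Agent.N265.Pow.Ks
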