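import Mathlib
import Crest.Agent.N265.K.Kos1

/-!
# Row 265, K-KOS: the relative Koszul complex (helper40)
-/

set_option autoImplicit false

noncomputable section

namespace Crest.Agent.N265.Pow

open TensorProduct

namespace Ks

variable {V W : Type} [AddCommGroup V] [Module ℂ V] [AddCommGroup W] [Module ℂ W]

/-- `Λ^i K ⊗ S^j L` inside the big space -/
def PP (i : ℕ) (K : Submodule ℂ V) (j : ℕ) (L : Submodule ℂ V) : Submodule ℂ (TT V) :=
  Submodule.map₂ (TensorProduct.mk ℂ _ _) ((K.map iE) ^ i) ((L.map iS) ^ j)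

lemma tmul_mem_PP {i j : ℕ} {K L : Submodule ℂ V} {w : EA V} {f : SA V}
    (hw : w ∈ (K.map iE) ^ i) (hf : f ∈ (L.map iS) ^ j) : w ⊗ₜ[ℂ] f ∈ PP i K j L :=
  Submodule.apply_mem_map₂ (TensorProduct.mk ℂ _ _) hw hf

lemma PP_le {i j : ℕ} {K L : Submodule ℂ V} {U : Type} [AddCommGroup U] [Module ℂ U]
    (F : TT V →ₗ[ℂ] U) (Q : Submodule ℂ U)
    (h : ∀ w ∈ (K.map iE) ^ i, ∀ f ∈ (L.map iS) ^ j, F (w ⊗ₜ f) ∈ Q) :
    ∀ z ∈ PP i K j L, F z ∈ Q :=
  (Submodule.map₂_le.2 h : PP i K j L ≤ Q.comap F)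

lemma pow_ind {A : Type} [Ring A] [Algebra ℂ A] (M : Submodule ℂ A) {P : ℕ → A → Prop}
    (h0 : ∀ c : ℂ, P 0 (algebraMap ℂ A c)) (ha : ∀ n x y, P n x → P n y → P n (x + y))
    (hm : ∀ n, ∀ m ∈ M, ∀ x ∈ M ^ n, P n x → P (n + 1) (m * x)) :
    ∀ n, ∀ x ∈ M ^ n, P n x := by
  intro n x hx
  induction hx using Submodule.pow_induction_on_left' with
  | algebraMap r => exact h0 r
  | add x y i hx hy h1 h2 => exact ha _ _ _ h1 h2
  | mem_mul m hm' i x hx h1 => exact hm _ m hm' x hx h1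

lemma mul_mem_pow {A : Type} [Ring A] [Algebra ℂ A] {M : Submodule ℂ A} {n : ℕ} {m x : A}
    (hm : m ∈ M) (hx : x ∈ M ^ n) : m * x ∈ M ^ (n + 1) := by
  rcases n with _ | n
  · rw [pow_zero, Submodule.mem_one] at hx
    obtain ⟨c, rfl⟩ := hx
    rw [zero_add, pow_one, ← Algebra.commutes, ← Algebra.smul_def]
    exact M.smul_mem _ hm
  · rw [pow_succ']; exact Submodule.mul_mem_mul hm hx

lemma ct_mem (φ : Module.Dual ℂ V) (K : Submodule ℂ V) :
    ∀ n, ∀ w ∈ (K.map iE) ^ n, (n = 0 → ct φ w = 0) ∧ ct φ w ∈ (K.map iE) ^ (n - 1) := by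
  refine pow_ind _ (fun c => by simp [ct_alg]) (fun n x y hx hy => ?_) ?_
  · exact ⟨fun h => by simp [hx.1 h, hy.1 h], by rw [map_add]; exact add_mem hx.2 hy.2⟩
  · rintro n _ ⟨v, hv, rfl⟩ x hx h
    refine ⟨by simp, ?_⟩
    rw [ct_ι_mul, Nat.add_sub_cancel]
    refine sub_mem (Submodule.smul_mem _ _ hx) ?_
    rcases n with _ | n
    · simp [h.1 rfl]
    · exact mul_mem_pow ⟨v, hv, rfl⟩ h.2

lemma der_mem (φ : Module.Dual ℂ V) (L : Submodule ℂ V) :
    ∀ n, ∀ f ∈ (L.map iS) ^ n, (n = 0 → der φ f = 0) ∧ der φ f ∈ (L.map iS) ^ (n - 1) := by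
  refine pow_ind _ (fun c => by simp [der_alg]) (fun n x y hx hy => ?_) ?_
  · exact ⟨fun h => by simp [hx.1 h, hy.1 h], by rw [map_add]; exact add_mem hx.2 hy.2⟩
  · rintro n _ ⟨v, hv, rfl⟩ x hx h
    refine ⟨by simp, ?_⟩
    rw [der_ι_mul, Nat.add_sub_cancel]
    refine add_mem (Submodule.smul_mem _ _ hx) ?_
    rcases n with _ | n
    · simp [h.1 rfl]
    · exact mul_mem_pow ⟨v, hv, rfl⟩ h.2

lemma Wd_mem {i j : ℕ} {K L : Submodule ℂ V} {v : V} (hv : v ∈ K) :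
    ∀ z ∈ PP i K j L, Wd v z ∈ PP (i + 1) K j L :=
  PP_le _ _ fun _ hw _ hf => tmul_mem_PP (mul_mem_pow ⟨v, hv, rfl⟩ hw) hf

lemma surj_of_inj {U : Type} [AddCommGroup U] [Module ℂ U] (Z : Submodule ℂ U)
    [FiniteDimensional ℂ Z] (F : U →ₗ[ℂ] U) (hm : ∀ y ∈ Z, F y ∈ Z)
    (hi : ∀ y ∈ Z, F y = 0 → y = 0) : ∀ z ∈ Z, ∃ y ∈ Z, F y = z := by
  intro z hz
  have hinj : Function.Injective (F.restrict hm) := by
    rw [← LinearMap.ker_eq_bot, eq_bot_iff]
    rintro ⟨y, hy⟩ h0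
    exact Subtype.ext (hi y hy (congrArg Subtype.val h0))
  obtain ⟨⟨y, hy⟩, h1⟩ := LinearMap.injective_iff_surjective.1 hinj ⟨z, hz⟩
  exact ⟨y, hy, congrArg Subtype.val h1⟩

section fd
variable [FiniteDimensional ℂ V]

lemma dB_mem' {K L : Submodule ℂ V} (hKL : K ≤ L) {j : ℕ} {f : SA V} (hf : f ∈ (L.map iS) ^ j) :
    ∀ n, ∀ w ∈ (K.map iE) ^ n, (n = 0 → dB (w ⊗ₜ f) = 0) ∧
      dB (w ⊗ₜ f) ∈ PP (n - 1) K (j + 1) L := by
  refine pow_ind _ (fun c => by simp [dB_alg]) (fun n x y hx hy => ?_) ?_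
  · rw [add_tmul, map_add]
    exact ⟨fun h => by simp [hx.1 h, hy.1 h], add_mem hx.2 hy.2⟩
  · rintro n _ ⟨v, hv, rfl⟩ x hx h
    refine ⟨by simp, ?_⟩
    rw [dB_ι_mul, Nat.add_sub_cancel]
    refine sub_mem (tmul_mem_PP hx (mul_mem_pow ⟨v, hKL hv, rfl⟩ hf)) ?_
    rcases n with _ | n
    · simp [h.1 rfl]
    · exact Wd_mem hv _ h.2

lemma dB_mem {K L : Submodule ℂ V} (hKL : K ≤ L) (i j : ℕ) :
    ∀ z ∈ PP (i + 1) K j L, dB z ∈ PP i K (j + 1) L :=
  PP_le _ _ fun w hw _ hf => (dB_mem' hKL hf _ w hw).2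

lemma kap_mem {K L : Submodule ℂ V} {p : V →ₗ[ℂ] V} (hp : ∀ v, p v ∈ K) (i j : ℕ) :
    ∀ z ∈ PP i K (j + 1) L, kap p z ∈ PP (i + 1) K j L :=
  PP_le _ _ fun w hw f hf => by
    simp only [kap, LinearMap.sum_apply, LinearMap.comp_apply, LinearMap.lTensor_tmul]
    exact Submodule.sum_mem _ fun l _ => Wd_mem (hp _) _ (tmul_mem_PP hw (der_mem _ L _ f hf).2)

lemma kap_zero {K L : Submodule ℂ V} (p : V →ₗ[ℂ] V) (i : ℕ) :
    ∀ z ∈ PP i K 0 L, kap p z = 0 :=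
  PP_le (kap p) ⊥ fun w _ f hf => by
    simp [kap, LinearMap.sum_apply, (der_mem _ L _ f hf).1 rfl]

lemma DE_eq {K : Submodule ℂ V} {p : V →ₗ[ℂ] V} (hp : ∀ v ∈ K, p v = v) :
    ∀ n : ℕ, ∀ w ∈ (K.map iE) ^ n, DE p w = (n : ℂ) • w := by
  refine pow_ind _ (fun c => by simp [DE_alg]) (fun n x y hx hy => by simp [hx, hy]) ?_
  rintro n _ ⟨v, hv, rfl⟩ x _ h
  rw [DE_ι_mul, h, hp v hv, Nat.cast_succ, add_smul, one_smul, mul_smul_comm, add_comm]

lemma DS_diag {p : V →ₗ[ℂ] V} (hp : ∀ v, p (p v) = p v) (f : SA V) :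
    f ∈ ⨆ a : ℕ, Module.End.eigenspace (DS p) (a : ℂ) := by
  induction f using SA_ind with
  | h0 c =>
    exact Submodule.mem_iSup_of_mem 0 (by simp [DS_alg])
  | ha x y hx hy => exact add_mem hx hy
  | hm x v hx =>
    induction hx using Submodule.iSup_induction' with
    | zero => simp
    | add x y _ _ hx hy => rw [mul_add]; exact add_mem hx hy
    | mem a x hx =>
      rw [Module.End.mem_eigenspace_iff] at hx
      have : iS v * x = iS (p v) * x + iS (v - p v) * x := by rw [← add_mul, ← map_add]; simp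
      rw [this]
      refine add_mem (Submodule.mem_iSup_of_mem (a + 1) ?_) (Submodule.mem_iSup_of_mem a ?_)
      · rw [Module.End.mem_eigenspace_iff, DS_ι_mul, hx, hp, Nat.cast_succ, add_smul, one_smul,
          mul_smul_comm, add_comm]
      · rw [Module.End.mem_eigenspace_iff, DS_ι_mul, hx, map_sub, hp, sub_self, map_zero, zero_mul,
          zero_add, mul_smul_comm]

lemma lDS_inj {p : V →ₗ[ℂ] V} (hp : ∀ v, p (p v) = p v) (i : ℕ) (z : TT V)
    (hz : LinearMap.lTensor _ (DS p) z + ((i + 1 : ℕ) : ℂ) • z = 0) : z = 0 := by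
  set F : Module.End ℂ (TT V) := LinearMap.lTensor _ (DS p) with hF
  have h1 : ∀ z : TT V, z ∈ ⨆ a : ℕ, F.eigenspace (a : ℂ) := by
    intro z
    induction z using TensorProduct.induction_on with
    | zero => simp
    | add a b ha hb => exact add_mem ha hb
    | tmul w f =>
      have hf := DS_diag hp f
      induction hf using Submodule.iSup_induction' with
      | zero => simp
      | add x y _ _ hx hy => rw [tmul_add]; exact add_mem hx hy
      | mem a x hx =>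
        refine Submodule.mem_iSup_of_mem a ?_
        rw [Module.End.mem_eigenspace_iff] at hx ⊢
        rw [hF, LinearMap.lTensor_tmul, hx, tmul_smul]
  have h2 : z ∈ F.eigenspace (-((i + 1 : ℕ) : ℂ)) := by
    rw [Module.End.mem_eigenspace_iff, neg_smul]
    exact eq_neg_of_add_eq_zero_left hz
  have h3 := F.eigenspaces_iSupIndep (-((i + 1 : ℕ) : ℂ))
  refine (Submodule.disjoint_def.1 h3) z h2 ?_
  refine (iSup_le fun a => ?_ : (⨆ a : ℕ, F.eigenspace (a : ℂ)) ≤ _) (h1 z)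
  refine le_iSup₂_of_le (f := fun (c : ℂ) (_ : c ≠ -((i + 1 : ℕ) : ℂ)) => F.eigenspace c) a ?_ le_rfl
  intro h
  have : ((a + (i + 1) : ℕ) : ℂ) = 0 := by rw [Nat.cast_add, h]; ring
  have := Nat.cast_eq_zero.1 this
  omega

lemma homotopy_PP {K L : Submodule ℂ V} {p : V →ₗ[ℂ] V} (hp : ∀ v ∈ K, p v = v) {i j : ℕ}
    {z : TT V} (hz : z ∈ PP i K j L) :
    dB (kap p z) + kap p (dB z) = LinearMap.lTensor _ (DS p) z + (i : ℂ) • z := by
  rw [homotopy]
  congr 1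
  have := PP_le (i := i) (j := j) (K := K) (L := L)
    (LinearMap.rTensor _ (DE p) - (i : ℂ) • LinearMap.id) ⊥ (fun w hw f _ => by
      simp [DE_eq hp _ w hw, smul_tmul']) z hz
  simpa [sub_eq_zero] using this

omit [FiniteDimensional ℂ V] in
lemma exists_proj (K : Submodule ℂ V) :
    ∃ p : V →ₗ[ℂ] V, (∀ v, p v ∈ K) ∧ ∀ v ∈ K, p v = v := by
  obtain ⟨g, hg⟩ := K.subtype.exists_leftInverse_of_injective K.ker_subtype
  exact ⟨K.subtype ∘ₗ g, fun v => (g v).2, fun v hv =>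
    congrArg Subtype.val (LinearMap.congr_fun hg (⟨v, hv⟩ : K))⟩

lemma PP_inj (K L : Submodule ℂ V) (i : ℕ) {z : TT V} (hz : z ∈ PP (i + 1) K 0 L)
    (h : dB z = 0) : z = 0 := by
  obtain ⟨p, hp1, hp2⟩ := exists_proj K
  have := homotopy_PP hp2 hz
  rw [kap_zero p _ z hz, h, map_zero, map_zero, add_zero] at this
  exact lDS_inj (fun v => hp2 _ (hp1 v)) i z this.symm

instance PP_fd (i : ℕ) (K : Submodule ℂ V) (j : ℕ) (L : Submodule ℂ V) :
    FiniteDimensional ℂ (PP i K j L) := by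
  refine Module.Finite.iff_fg.2 (Submodule.FG.map₂ _ (Submodule.FG.pow ?_ _) (Submodule.FG.pow ?_ _))
  · exact (Module.Finite.iff_fg.1 inferInstance : K.FG).map _
  · exact (Module.Finite.iff_fg.1 inferInstance : L.FG).map _

lemma PP_mid {K L : Submodule ℂ V} (hKL : K ≤ L) (i j : ℕ) {z : TT V}
    (hz : z ∈ PP (i + 1) K (j + 1) L) (h : dB z = 0) : ∃ y ∈ PP (i + 2) K j L, dB y = z := by
  obtain ⟨p, hp1, hp2⟩ := exists_proj K
  set Z : Submodule ℂ (TT V) := PP (i + 1) K (j + 1) L ⊓ LinearMap.ker dB with hZ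
  have : FiniteDimensional ℂ Z := Submodule.finiteDimensional_of_le inf_le_left
  have hm : ∀ y ∈ Z, (dB ∘ₗ kap p) y ∈ Z := fun y hy =>
    ⟨dB_mem hKL _ _ _ (kap_mem hp1 _ _ y hy.1), dB_dB _⟩
  obtain ⟨y, hy, h1⟩ := surj_of_inj Z (dB ∘ₗ kap p) hm (fun y hy h0 => by
    have h1 : dB (kap p y) = 0 := h0
    have := homotopy_PP hp2 hy.1
    rw [h1, show dB y = 0 from hy.2, map_zero, add_zero] at this
    exact lDS_inj (fun v => hp2 _ (hp1 v)) i y this.symm) z ⟨hz, h⟩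
  exact ⟨kap p y, kap_mem hp1 _ _ y hy.1, h1⟩

end fd

/-! ### the end of the complex -/

lemma symA_comp {U : Type} [AddCommGroup U] [Module ℂ U] (φ : V →ₗ[ℂ] W) (ψ : W →ₗ[ℂ] U)
    (f : SA V) : symA ψ (symA φ f) = symA (ψ ∘ₗ φ) f := by
  have : (symA ψ).comp (symA φ) = symA (ψ ∘ₗ φ) := by
    apply SymmetricAlgebra.algHom_ext
    ext v
    simp
  exact DFunLike.congr_fun this f

lemma symA_sub_mem {K L : Submodule ℂ V} (hKL : K ≤ L) {q : V →ₗ[ℂ] V}
    (hq : ∀ v ∈ L, q v - v ∈ K) :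
    ∀ n, ∀ f ∈ (L.map iS) ^ n, (n = 0 → symA q f - f = 0) ∧
      symA q f - f ∈ K.map iS * (L.map iS) ^ (n - 1) := by
  refine pow_ind _ (fun c => by simp) (fun n x y hx hy => ?_) ?_
  · have : symA q (x + y) - (x + y) = (symA q x - x) + (symA q y - y) := by rw [map_add]; ring
    rw [this]
    exact ⟨fun h => by simp [hx.1 h, hy.1 h], add_mem hx.2 hy.2⟩
  · rintro n _ ⟨v, hv, rfl⟩ x hx h
    refine ⟨by simp, ?_⟩
    have : symA q (iS v * x) - iS v * x = iS (q v - v) * x + iS (q v) * (symA q x - x) := by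
      rw [map_mul, symA_ι, map_sub]; ring
    rw [this, Nat.add_sub_cancel]
    refine add_mem (Submodule.mul_mem_mul ⟨_, hq v hv, rfl⟩ hx) ?_
    rcases n with _ | n
    · simp [h.1 rfl]
    · have hqv : q v ∈ L := by simpa using add_mem (hKL (hq v hv)) hv
      have h2 := h.2
      rw [Nat.add_sub_cancel] at h2
      rw [pow_succ', mul_left_comm]
      exact Submodule.mul_mem_mul ⟨_, hqv, rfl⟩ h2

lemma exists_sec (ψ : V →ₗ[ℂ] W) (L : Submodule ℂ V) :
    ∃ σ : W →ₗ[ℂ] V, ∀ v ∈ L, σ (ψ v) - v ∈ L ⊓ LinearMap.ker ψ := by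
  obtain ⟨g, hg⟩ := (ψ ∘ₗ L.subtype).rangeRestrict.exists_rightInverse_of_surjective
    (LinearMap.range_rangeRestrict _)
  obtain ⟨σ, hσ⟩ := (L.subtype ∘ₗ g).exists_extend
  refine ⟨σ, fun v hv => ?_⟩
  have h1 : σ (ψ v) = (g ⟨ψ v, ⟨v, hv⟩, rfl⟩ : V) :=
    LinearMap.congr_fun hσ (⟨ψ v, ⟨v, hv⟩, rfl⟩ : LinearMap.range (ψ ∘ₗ L.subtype))
  have h2 : ψ (g ⟨ψ v, ⟨v, hv⟩, rfl⟩ : V) = ψ v :=
    congrArg Subtype.val
      (LinearMap.congr_fun hg (⟨ψ v, ⟨v, hv⟩, rfl⟩ : LinearMap.range (ψ ∘ₗ L.subtype)))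
  refine ⟨sub_mem (h1 ▸ (g _).2) hv, ?_⟩
  rw [SetLike.mem_coe, LinearMap.mem_ker, map_sub, h1, h2, sub_self]

lemma sym_ker (ψ : V →ₗ[ℂ] W) (L : Submodule ℂ V) (j : ℕ) {f : SA V}
    (hf : f ∈ (L.map iS) ^ (j + 1)) (h : symA ψ f = 0) :
    f ∈ (L ⊓ LinearMap.ker ψ).map iS * (L.map iS) ^ j := by
  obtain ⟨σ, hσ⟩ := exists_sec ψ L
  have := (symA_sub_mem (q := σ ∘ₗ ψ) inf_le_left hσ _ f hf).2
  rw [← symA_comp, h, map_zero, zero_sub, Nat.add_sub_cancel] at this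
  simpa using this

/-! ### graded pieces -/

/-- the inclusion of a graded piece -/
def inc (i j : ℕ) : (Lam i V ⊗[ℂ] Sy j V) →ₗ[ℂ] TT V :=
  TensorProduct.map (Lam i V).subtype (Sy j V).subtype

lemma inc_inj (i j : ℕ) : Function.Injective (inc (V := V) i j) :=
  TensorProduct.map_injective_of_flat_flat _ _ (Submodule.injective_subtype _)
    (Submodule.injective_subtype _)

lemma map_inc (i j : ℕ) (K L : Submodule ℂ V) :
    (tens (lamS i K) (symS j L)).map (inc i j) = PP i K j L := by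
  have h1 : (lamS i K).map (Lam i V).subtype = (K.map iE) ^ i := by
    rw [lamS, Submodule.map_comap_subtype, inf_eq_right]
    exact pow_le_pow_left' LinearMap.map_le_range i
  have h2 : (symS j L).map (Sy j V).subtype = (L.map iS) ^ j := by
    rw [symS, Submodule.map_comap_subtype, inf_eq_right]
    exact pow_le_pow_left' LinearMap.map_le_range j
  rw [PP, ← h1, ← h2, Submodule.map₂_map_map, tens, Submodule.map_map₂]
  rfl

lemma mem_tens {i j : ℕ} {K L : Submodule ℂ V} {z : Lam i V ⊗[ℂ] Sy j V} :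
    z ∈ tens (lamS i K) (symS j L) ↔ inc i j z ∈ PP i K j L := by
  rw [← map_inc]
  constructor
  · exact fun h => ⟨z, h, rfl⟩
  · rintro ⟨y, hy, h⟩
    rwa [← inc_inj i j h]

lemma range_inc (i j : ℕ) : LinearMap.range (inc (V := V) i j) = PP i ⊤ j ⊤ := by
  rw [← map_inc, ← Submodule.map_top]
  congr 1
  have h1 : lamS i (⊤ : Submodule ℂ V) = ⊤ := by
    rw [lamS, Submodule.map_top, Submodule.comap_subtype_self]
  have h2 : symS j (⊤ : Submodule ℂ V) = ⊤ := by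
    rw [symS, Submodule.map_top, Submodule.comap_subtype_self]
  rw [h1, h2, tens, TensorProduct.map₂_mk_top_top_eq_top]

lemma inc_map (φ : V →ₗ[ℂ] V) (i j : ℕ) (z : Lam i V ⊗[ℂ] Sy j V) :
    inc i j (TensorProduct.map (lamM i φ) (symM j φ) z) = PhiT φ (inc i j z) := by
  have h1 : (Lam i V).subtype ∘ₗ lamM i φ =
      (ExteriorAlgebra.map φ).toLinearMap ∘ₗ (Lam i V).subtype := by
    apply exteriorPower.linearMap_ext
    ext m
    simp
  induction z using TensorProduct.induction_on with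
  | zero => simp
  | add a b ha hb => simp only [map_add, ha, hb]
  | tmul w f =>
    have := LinearMap.congr_fun h1 w
    simp only [inc, PhiT, TensorProduct.map_tmul]
    congr 1

section fd
variable [FiniteDimensional ℂ V]

/-- the graded Koszul differential -/
def dG (i j : ℕ) : (Lam (i + 1) V ⊗[ℂ] Sy j V) →ₗ[ℂ] (Lam i V ⊗[ℂ] Sy (j + 1) V) :=
  (LinearEquiv.ofInjective (inc i (j + 1)) (inc_inj i (j + 1))).symm.toLinearMap ∘ₗ
    (dB ∘ₗ inc (i + 1) j).codRestrict (LinearMap.range (inc i (j + 1))) fun z => by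
      rw [range_inc]
      exact dB_mem le_rfl i j _ (range_inc (V := V) (i + 1) j ▸ LinearMap.mem_range_self _ z)

lemma inc_dG (i j : ℕ) (z : Lam (i + 1) V ⊗[ℂ] Sy j V) :
    inc i (j + 1) (dG i j z) = dB (inc (i + 1) j z) := by
  simp [dG, LinearEquiv.ofInjective_symm_apply]

end fd

lemma aug_eq (ψ : V →ₗ[ℂ] W) (k : ℕ) (z : Lam 0 V ⊗[ℂ] Sy k V) :
    ∃ f : Sy k V, inc 0 k z = (1 : EA V) ⊗ₜ (f : SA V) ∧ aug k ψ z = symM k ψ f := by
  refine ⟨TensorProduct.lid ℂ _ (TensorProduct.map (exteriorPower.zeroEquiv ℂ V).toLinearMap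
    LinearMap.id z), ?_, rfl⟩
  induction z using TensorProduct.induction_on with
  | zero => simp
  | add a b ha hb => simp only [map_add, ha, hb, Submodule.coe_add, tmul_add]
  | tmul w f =>
    obtain ⟨c, rfl⟩ := (exteriorPower.zeroEquiv ℂ V).symm.surjective w
    simp only [inc, TensorProduct.map_tmul, LinearEquiv.coe_coe, LinearEquiv.apply_symm_apply,
      LinearMap.id_apply, TensorProduct.lid_tmul, Submodule.coe_smul, Submodule.subtype_apply]
    simp [exteriorPower.zeroEquiv_symm_apply, smul_tmul]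

lemma one_tmul_mem {K L : Submodule ℂ V} {k : ℕ} {f : SA V} (h : (1 : EA V) ⊗ₜ[ℂ] f ∈ PP 0 K k L) :
    f ∈ (L.map iS) ^ k := by
  have := PP_le (i := 0) (j := k) (K := K) (L := L)
    ((TensorProduct.lid ℂ (SA V)).toLinearMap ∘ₗ
      LinearMap.rTensor _ (ExteriorAlgebra.algebraMapInv (R := ℂ) (M := V)).toLinearMap)
    ((L.map iS) ^ k) (fun w _ f hf => by simpa using Submodule.smul_mem _ _ hf) _ h
  simpa using this

end Ks

open Ks in
/-- task K-KOS -/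
theorem kos : KosStmt := by
  refine ⟨⟨fun V _ _ _ i j => dG i j, ?_, ?_, ?_, ?_⟩⟩
  · intro V _ _ _ φ i j
    refine LinearMap.ext fun z => ?_
    apply inc_inj
    simp only [LinearMap.comp_apply, inc_dG, inc_map, dB_PhiT]
  · intro V _ _ _ K L _ i
    rw [eq_bot_iff]
    rintro z ⟨hz, h0⟩
    have h1 : dB (inc (i + 1) 0 z) = 0 := by rw [← inc_dG, show dG i 0 z = 0 from h0, map_zero]
    exact inc_inj _ _ ((PP_inj K L i (mem_tens.1 hz) h1).trans (map_zero _).symm)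
  · intro V _ _ _ K L hKL i j
    apply le_antisymm
    · rintro _ ⟨z, hz, rfl⟩
      refine ⟨mem_tens.2 ?_, ?_⟩
      · rw [inc_dG]; exact dB_mem hKL _ _ _ (mem_tens.1 hz)
      · apply inc_inj
        rw [inc_dG, inc_dG, dB_dB, map_zero]
    · rintro z ⟨hz, h0⟩
      have h1 : dB (inc (i + 1) (j + 1) z) = 0 := by
        rw [← inc_dG, show dG i (j + 1) z = 0 from h0, map_zero]
      obtain ⟨y, hy, h2⟩ := PP_mid hKL i j (mem_tens.1 hz) h1
      rw [← map_inc] at hy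
      obtain ⟨y, hy, rfl⟩ := hy
      exact ⟨y, hy, inc_inj _ _ (by rw [inc_dG, h2])⟩
  · intro V W _ _ _ _ _ ψ L j
    set K := L ⊓ LinearMap.ker ψ with hK
    have hd : ∀ v : V, ∀ f : SA V, dB (iE v ⊗ₜ f) = (1 : EA V) ⊗ₜ (iS v * f) := fun v f => by
      have := dB_ι_mul v (algebraMap ℂ (EA V) 1) f
      rw [dB_alg] at this
      simpa using this
    apply le_antisymm
    · rintro _ ⟨z, hz, rfl⟩
      refine ⟨mem_tens.2 ?_, ?_⟩
      · rw [inc_dG]; exact dB_mem inf_le_left _ _ _ (mem_tens.1 hz)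
      · obtain ⟨f, h1, h2⟩ := aug_eq ψ (j + 1) (dG 0 j z)
        rw [SetLike.mem_coe, LinearMap.mem_ker, h2]
        rw [inc_dG] at h1
        let F : TT V →ₗ[ℂ] SA W := (symA ψ).toLinearMap ∘ₗ (TensorProduct.lid ℂ (SA V)).toLinearMap ∘ₗ
          LinearMap.rTensor _ (ExteriorAlgebra.algebraMapInv (R := ℂ) (M := V)).toLinearMap
        have hF : ∀ g : SA V, F ((1 : EA V) ⊗ₜ g) = symA ψ g := fun g => by simp [F]
        have := PP_le (i := 1) (j := j) (K := K) (L := L) (F ∘ₗ dB) ⊥ (fun w hw g _ => by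
          rw [pow_one] at hw
          obtain ⟨v, hv, rfl⟩ := hw
          have : ψ v = 0 := hv.2
          simp [hd, hF, this]) _ (mem_tens.1 hz)
        rw [LinearMap.comp_apply, h1, hF] at this
        exact Subtype.ext this
    · rintro z ⟨hz, h0⟩
      obtain ⟨f, h1, h2⟩ := aug_eq ψ (j + 1) z
      have hf : (f : SA V) ∈ (L.map iS) ^ (j + 1) := one_tmul_mem (h1 ▸ mem_tens.1 hz)
      have h3 : symA ψ f = 0 := congrArg Subtype.val (h2.symm.trans h0)
      have h4 := sym_ker ψ L j hf h3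
      have h5 : ∀ g ∈ K.map iS * (L.map iS) ^ j, ∃ y ∈ PP 1 K j L, dB y = (1 : EA V) ⊗ₜ g := by
        intro g hg
        induction hg using Submodule.mul_induction_on' with
        | mem_mul_mem m hm n hn =>
          obtain ⟨v, hv, rfl⟩ := hm
          exact ⟨_, tmul_mem_PP (by rw [pow_one]; exact ⟨v, hv, rfl⟩) hn, hd v n⟩
        | add x _ y _ hx hy =>
          obtain ⟨a, ha, h6⟩ := hx
          obtain ⟨b, hb, h7⟩ := hy
          exact ⟨a + b, add_mem ha hb, by rw [map_add, h6, h7, tmul_add]⟩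
      obtain ⟨y, hy, h6⟩ := h5 _ h4
      rw [← map_inc] at hy
      obtain ⟨y, hy, rfl⟩ := hy
      exact ⟨y, hy, inc_inj _ _ (by rw [inc_dG, h6, h1])⟩

end Crest.Agent.N265.Pow
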