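import Mathlib
import Crest.Agent.N265.K.Alg1
import Crest.Agent.N265.K.Kos
import Crest.Agent.N265.K.PowB

/-!
# Row 265, K-ALG2: tensor, exterior, symmetric powers and Hom of algebraic families (helper40)

Primed names are local copies of small closure lemmas (K-ALG1, K-POW).
-/

set_option autoImplicit false
set_option linter.dupNamespace false

noncomputable section

namespace Crest.Agent.N265.Alg

open TensorProduct _root_.Crest.Agent.N265.Pow _root_.Crest.Agent.N265.Pow.Ks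

variable {T : Type} {𝒜 : Subalgebra ℂ (T → ℂ)}
variable {V W U V' W' : Type} [AddCommGroup V] [Module ℂ V] [AddCommGroup W] [Module ℂ W]
  [AddCommGroup U] [Module ℂ U] [AddCommGroup V'] [Module ℂ V'] [AddCommGroup W'] [Module ℂ W']

/-! ### closure properties -/

lemma regV_const' (v : V) : RegV 𝒜 fun _ : T => v := fun ℓ => 𝒜.algebraMap_mem (ℓ v)
lemma RegV.add' {s t : T → V} (hs : RegV 𝒜 s) (ht : RegV 𝒜 t) : RegV 𝒜 fun x => s x + t x :=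
  fun ℓ => by simp only [map_add]; exact 𝒜.add_mem (hs ℓ) (ht ℓ)
lemma RegV.sub' {s t : T → V} (hs : RegV 𝒜 s) (ht : RegV 𝒜 t) : RegV 𝒜 fun x => s x - t x :=
  fun ℓ => by simp only [map_sub]; exact 𝒜.sub_mem (hs ℓ) (ht ℓ)
lemma RegV.smul' {f : T → ℂ} (hf : f ∈ 𝒜) {s : T → V} (hs : RegV 𝒜 s) :
    RegV 𝒜 fun x => f x • s x :=
  fun ℓ => by simp only [map_smul, smul_eq_mul]; exact 𝒜.mul_mem hf (hs ℓ)
lemma RegV.lin' (F : V →ₗ[ℂ] W) {s : T → V} (hs : RegV 𝒜 s) : RegV 𝒜 fun x => F (s x) :=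
  fun ℓ => hs (ℓ ∘ₗ F)
lemma regV_sum' {ι : Type} (I : Finset ι) {s : ι → T → V} (hs : ∀ i ∈ I, RegV 𝒜 (s i)) :
    RegV 𝒜 fun x => ∑ i ∈ I, s i x := fun ℓ => by
  have := 𝒜.sum_mem (t := I) (f := fun i x => ℓ (s i x)) fun i hi => hs i hi ℓ
  convert this using 1
  funext x
  simp [map_sum]

/-- a regular family of maps applied to a regular family of vectors -/
lemma RegM.app' [FiniteDimensional ℂ V] {φ : T → V →ₗ[ℂ] W} (hφ : RegM 𝒜 φ) {s : T → V}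
    (hs : RegV 𝒜 s) : RegV 𝒜 fun x => φ x (s x) := by
  have : (fun x => φ x (s x)) = fun x => ∑ i, (bs V).coord i (s x) • φ x (bs V i) :=
    funext fun x => (sum_bs _ _).symm
  rw [this]
  exact regV_sum' _ fun i _ => RegV.smul' (hs _) (hφ _)

lemma regM_const' (φ : V →ₗ[ℂ] W) : RegM 𝒜 fun _ : T => φ := fun v => regV_const' (φ v)
lemma RegM.add' {φ ψ : T → V →ₗ[ℂ] W} (h : RegM 𝒜 φ) (h' : RegM 𝒜 ψ) :
    RegM 𝒜 fun x => φ x + ψ x := fun v => RegV.add' (h v) (h' v)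
lemma RegM.sub' {φ ψ : T → V →ₗ[ℂ] W} (h : RegM 𝒜 φ) (h' : RegM 𝒜 ψ) :
    RegM 𝒜 fun x => φ x - ψ x := fun v => RegV.sub' (h v) (h' v)
lemma RegM.smul' {f : T → ℂ} (hf : f ∈ 𝒜) {φ : T → V →ₗ[ℂ] W} (h : RegM 𝒜 φ) :
    RegM 𝒜 fun x => f x • φ x := fun v => RegV.smul' hf (h v)
lemma RegM.comp' [FiniteDimensional ℂ W] {φ : T → V →ₗ[ℂ] W} {ψ : T → W →ₗ[ℂ] U}
    (hψ : RegM 𝒜 ψ) (hφ : RegM 𝒜 φ) : RegM 𝒜 fun x => ψ x ∘ₗ φ x := fun v => hψ.app' (hφ v)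
/-- the complementary projector `f - E` -/
lemma RegM.compl' {f : T → ℂ} (hf : f ∈ 𝒜) {E : T → V →ₗ[ℂ] V} (h : RegM 𝒜 E) :
    RegM 𝒜 fun x => f x • LinearMap.id - E x :=
  (RegM.smul' hf (regM_const' LinearMap.id)).sub' h

/-- regularity inside a subspace is regularity in the ambient space -/
lemma regV_subtype (P : Submodule ℂ V) {s : T → P} : RegV 𝒜 s ↔ RegV 𝒜 fun x => (s x : V) := by
  refine ⟨fun h => RegV.lin' P.subtype h, fun h ℓ => ?_⟩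
  obtain ⟨g, hg⟩ := LinearMap.exists_extend ℓ
  have := h g
  rw [← hg]
  exact this

/-- regularity can be tested after an injective linear map -/
lemma regV_of_injective (F : V →ₗ[ℂ] W) (hF : Function.Injective F) {s : T → V}
    (h : RegV 𝒜 fun x => F (s x)) : RegV 𝒜 s := by
  obtain ⟨g, hg⟩ := F.exists_leftInverse_of_injective (LinearMap.ker_eq_bot.2 hF)
  have := RegV.lin' g h
  simpa only [← LinearMap.comp_apply, hg, LinearMap.id_apply] using this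

/-- a family of linear maps is regular as a family of vectors of `Hom` -/
lemma regV_hom [FiniteDimensional ℂ V] {φ : T → V →ₗ[ℂ] W} : RegV 𝒜 φ ↔ RegM 𝒜 φ := by
  refine ⟨fun h v => RegV.lin' (LinearMap.applyₗ v) h, fun h => ?_⟩
  have : φ = fun x => ∑ i, LinearMap.smulRightₗ ((bs V).coord i) (φ x (bs V i)) := by
    funext x
    ext v
    simp only [LinearMap.sum_apply, LinearMap.smulRightₗ_apply]
    exact (sum_bs _ _).symm
  rw [this]
  exact regV_sum' _ fun i _ => RegV.lin' _ (h _)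

/-! ### regular families of vectors -/

lemma RegV.tmul [FiniteDimensional ℂ V] {s : T → V} {t : T → W} (hs : RegV 𝒜 s) (ht : RegV 𝒜 t) :
    RegV 𝒜 fun x => s x ⊗ₜ[ℂ] t x := RegV.bilin (TensorProduct.mk ℂ V W) hs ht

lemma RegV.iE_mul [FiniteDimensional ℂ V] {s : T → V} {w : T → EA V} (hs : RegV 𝒜 s)
    (hw : RegV 𝒜 w) : RegV 𝒜 fun x => iE (s x) * w x :=
  RegV.bilin ((LinearMap.mul ℂ (EA V)) ∘ₗ iE) hs hw

lemma RegV.iS_mul [FiniteDimensional ℂ V] {s : T → V} {w : T → SA V} (hs : RegV 𝒜 s)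
    (hw : RegV 𝒜 w) : RegV 𝒜 fun x => iS (s x) * w x :=
  RegV.bilin ((LinearMap.mul ℂ (SA V)) ∘ₗ iS) hs hw

lemma regV_ιMultiE [FiniteDimensional ℂ V] : ∀ (k : ℕ) {s : Fin k → T → V},
    (∀ i, RegV 𝒜 (s i)) → RegV 𝒜 fun x => ExteriorAlgebra.ιMulti ℂ k fun i => s i x
  | 0, _, _ => by simpa using regV_const' (1 : EA V)
  | k + 1, s, hs => by
    simp only [ExteriorAlgebra.ιMulti_succ_apply]
    exact RegV.iE_mul (hs 0) (regV_ιMultiE k (s := fun i => s i.succ) fun i => hs _)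

lemma regV_ιMulti [FiniteDimensional ℂ V] (k : ℕ) {s : Fin k → T → V} (hs : ∀ i, RegV 𝒜 (s i)) :
    RegV 𝒜 fun x => (exteriorPower.ιMulti ℂ k fun i => s i x : Lam k V) :=
  (regV_subtype _).2 (regV_ιMultiE k hs)

lemma regV_prod_iS [FiniteDimensional ℂ V] {ι : Type} (I : Finset ι) {s : ι → T → V}
    (hs : ∀ i ∈ I, RegV 𝒜 (s i)) : RegV 𝒜 fun x => ∏ i ∈ I, iS (s i x) := by
  classical
  induction I using Finset.induction_on with
  | empty => simpa using regV_const' (1 : SA V)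
  | insert a I ha ih =>
    simp only [Finset.prod_insert ha]
    exact RegV.iS_mul (hs a (Finset.mem_insert_self _ _))
      (ih fun i hi => hs i (Finset.mem_insert_of_mem hi))

/-- products of regular families in graded pieces of the symmetric algebra -/
lemma RegV.sy_mul [FiniteDimensional ℂ V] {k : ℕ} {s : T → Sy k V} {w : T → SA V} (hs : RegV 𝒜 s)
    (hw : RegV 𝒜 w) : RegV 𝒜 fun x => (s x : SA V) * w x :=
  RegV.bilin ((LinearMap.mul ℂ (SA V)) ∘ₗ (Sy k V).subtype) hs hw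

/-- products of regular families in graded pieces of the exterior algebra -/
lemma RegV.lam_mul [FiniteDimensional ℂ V] {k : ℕ} {s : T → Lam k V} {w : T → EA V}
    (hs : RegV 𝒜 s) (hw : RegV 𝒜 w) : RegV 𝒜 fun x => (s x : EA V) * w x :=
  RegV.bilin ((LinearMap.mul ℂ (EA V)) ∘ₗ (Lam k V).subtype) hs hw

/-! ### regular families of maps -/

lemma RegM.tensor [FiniteDimensional ℂ W] {φ : T → V →ₗ[ℂ] W} {ψ : T → V' →ₗ[ℂ] W'}
    (hφ : RegM 𝒜 φ) (hψ : RegM 𝒜 ψ) : RegM 𝒜 fun x => TensorProduct.map (φ x) (ψ x) := by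
  intro z
  induction z using TensorProduct.induction_on with
  | zero => simpa using regV_const' (0 : W ⊗[ℂ] W')
  | tmul v w => exact RegV.tmul (hφ v) (hψ w)
  | add a b ha hb => simpa only [map_add] using ha.add' hb

lemma lamM_coe' (k : ℕ) (φ : V →ₗ[ℂ] W) (z : Lam k V) :
    (lamM k φ z : EA W) = ExteriorAlgebra.map φ z := by
  have h1 : (Lam k W).subtype ∘ₗ lamM k φ =
      (ExteriorAlgebra.map φ).toLinearMap ∘ₗ (Lam k V).subtype := by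
    apply exteriorPower.linearMap_ext
    ext m
    simp
  exact LinearMap.congr_fun h1 z

lemma RegM.extA [FiniteDimensional ℂ W] {φ : T → V →ₗ[ℂ] W} (hφ : RegM 𝒜 φ) (z : EA V) :
    RegV 𝒜 fun x => ExteriorAlgebra.map (φ x) z := by
  induction z using EA_ind with
  | h0 c => simpa using regV_const' (algebraMap ℂ (EA W) c)
  | ha a b ha hb => simpa only [map_add] using ha.add' hb
  | hm a v ha => simpa using RegV.iE_mul (hφ v) ha

lemma RegM.symA [FiniteDimensional ℂ W] {φ : T → V →ₗ[ℂ] W} (hφ : RegM 𝒜 φ) (z : SA V) :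
    RegV 𝒜 fun x => symA (φ x) z := by
  induction z using SA_ind with
  | h0 c => simpa using regV_const' (algebraMap ℂ (SA W) c)
  | ha a b ha hb => simpa only [map_add] using ha.add' hb
  | hm a v ha => simpa using RegV.iS_mul (hφ v) ha

lemma RegM.lamM [FiniteDimensional ℂ W] {φ : T → V →ₗ[ℂ] W} (hφ : RegM 𝒜 φ) (k : ℕ) :
    RegM 𝒜 fun x => lamM k (φ x) := fun z =>
  (regV_subtype _).2 (by simpa only [lamM_coe'] using hφ.extA z)

lemma RegM.symM [FiniteDimensional ℂ W] {φ : T → V →ₗ[ℂ] W} (hφ : RegM 𝒜 φ) (k : ℕ) :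
    RegM 𝒜 fun x => symM k (φ x) := fun z => (regV_subtype _).2 (hφ.symA z)

lemma RegM.aug [FiniteDimensional ℂ W] {ψ : T → V →ₗ[ℂ] W} (hψ : RegM 𝒜 ψ) (k : ℕ) :
    RegM 𝒜 (V := Lam 0 V ⊗[ℂ] Sy k V) (W := Sy k W) fun x => aug k (ψ x) := fun _ => hψ.symM k _

/-- `h ↦ ψ ∘ h ∘ φ` -/
def homM (φ : V →ₗ[ℂ] V') (ψ : W' →ₗ[ℂ] W) : (V' →ₗ[ℂ] W') →ₗ[ℂ] (V →ₗ[ℂ] W) :=
  LinearMap.llcomp ℂ V W' W ψ ∘ₗ LinearMap.lcomp ℂ W' φ
@[simp] lemma homM_apply (φ : V →ₗ[ℂ] V') (ψ : W' →ₗ[ℂ] W) (h : V' →ₗ[ℂ] W') :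
    homM φ ψ h = ψ ∘ₗ h ∘ₗ φ := rfl

lemma RegM.homM [FiniteDimensional ℂ V] [FiniteDimensional ℂ W'] {φ : T → V →ₗ[ℂ] V'}
    {ψ : T → W' →ₗ[ℂ] W} (hφ : RegM 𝒜 φ) (hψ : RegM 𝒜 ψ) :
    RegM 𝒜 fun x => homM (φ x) (ψ x) := fun h =>
  regV_hom.2 fun v => hψ.app' (RegV.lin' h (hφ v))

/-! ### projectors -/

lemma lamM_scalar' {E : V →ₗ[ℂ] V} {L : Submodule ℂ V} {f : ℂ} (h : ∀ v ∈ L, E v = f • v) (k : ℕ) :
    ∀ z ∈ lamS k L, lamM k E z = f ^ k • z := by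
  have key : ∀ n : ℕ, ∀ w ∈ (L.map iE) ^ n, ExteriorAlgebra.map E w = f ^ n • w := by
    refine pow_ind _ (fun c => by simp) (fun n x y hx hy => by simp [hx, hy]) ?_
    rintro n _ ⟨v, hv, rfl⟩ x _ hx
    rw [map_mul, ExteriorAlgebra.map_apply_ι, hx, h v hv, map_smul, smul_mul_smul_comm, pow_succ']
  exact fun z hz => Subtype.ext ((lamM_coe' k E z).trans (key k z hz))

lemma symM_scalar' {E : V →ₗ[ℂ] V} {L : Submodule ℂ V} {f : ℂ} (h : ∀ v ∈ L, E v = f • v) (k : ℕ) :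
    ∀ z ∈ symS k L, symM k E z = f ^ k • z := by
  have key : ∀ n : ℕ, ∀ w ∈ (L.map iS) ^ n, symA E w = f ^ n • w := by
    refine pow_ind _ (fun c => by simp) (fun n x y hx hy => by simp [hx, hy]) ?_
    rintro n _ ⟨v, hv, rfl⟩ x _ hx
    rw [map_mul, symA_ι, hx, h v hv, map_smul, smul_mul_smul_comm, pow_succ']
  exact fun z hz => Subtype.ext (key k z hz)

lemma tens_scalar' {E : V →ₗ[ℂ] V} {L : Submodule ℂ V} {f : ℂ} (h : ∀ v ∈ L, E v = f • v)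
    {E' : W →ₗ[ℂ] W} {L' : Submodule ℂ W} {f' : ℂ} (h' : ∀ v ∈ L', E' v = f' • v) :
    ∀ z ∈ tens L L', TensorProduct.map E E' z = (f * f') • z := by
  have : tens L L' ≤ LinearMap.ker (TensorProduct.map E E' - (f * f') • LinearMap.id) :=
    Submodule.map₂_le.2 fun v hv w hw => by
      simp [h v hv, h' w hw, smul_tmul', mul_smul, smul_comm f f']
  intro z hz
  simpa [sub_eq_zero] using this hz

lemma lamM_range' {E : V →ₗ[ℂ] W} {L : Submodule ℂ W} (h : LinearMap.range E ≤ L) (k : ℕ) :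
    LinearMap.range (lamM k E) ≤ lamS k L := by
  have key : ∀ n : ℕ, ∀ w ∈ (LinearMap.range (iE (V := V))) ^ n,
      ExteriorAlgebra.map E w ∈ (L.map iE) ^ n := by
    refine pow_ind _ (fun c => by simp) (fun n x y hx hy => by simpa using add_mem hx hy) ?_
    rintro n _ ⟨v, rfl⟩ x _ hx
    rw [map_mul, ExteriorAlgebra.map_apply_ι]
    exact mul_mem_pow ⟨_, h ⟨v, rfl⟩, rfl⟩ hx
  rintro _ ⟨z, rfl⟩
  change (lamM k E z : EA W) ∈ (L.map iE) ^ k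
  rw [lamM_coe']
  exact key k z z.2

lemma symM_range' {E : V →ₗ[ℂ] W} {L : Submodule ℂ W} (h : LinearMap.range E ≤ L) (k : ℕ) :
    LinearMap.range (symM k E) ≤ symS k L := by
  have key : ∀ n : ℕ, ∀ w ∈ (LinearMap.range (iS (V := V))) ^ n, symA E w ∈ (L.map iS) ^ n := by
    refine pow_ind _ (fun c => by simp) (fun n x y hx hy => by simpa using add_mem hx hy) ?_
    rintro n _ ⟨v, rfl⟩ x _ hx
    rw [map_mul, symA_ι]
    exact mul_mem_pow ⟨_, h ⟨v, rfl⟩, rfl⟩ hx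
  rintro _ ⟨z, rfl⟩
  exact key k z z.2

lemma tens_range' {E : V →ₗ[ℂ] W} {L : Submodule ℂ W} (h : LinearMap.range E ≤ L)
    {E' : V' →ₗ[ℂ] W'} {L' : Submodule ℂ W'} (h' : LinearMap.range E' ≤ L') :
    LinearMap.range (TensorProduct.map E E') ≤ tens L L' := by
  rintro _ ⟨z, rfl⟩
  induction z using TensorProduct.induction_on with
  | zero => simp
  | tmul v w => exact Submodule.apply_mem_map₂ (TensorProduct.mk ℂ W W') (h ⟨v, rfl⟩) (h' ⟨w, rfl⟩)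
  | add a b ha hb => simpa only [map_add] using add_mem ha hb

/-! ### algebraic families -/

theorem Alg.tens [FiniteDimensional ℂ V] {L : T → Submodule ℂ V} {L' : T → Submodule ℂ W}
    (h : Alg 𝒜 L) (h' : Alg 𝒜 L') : Alg 𝒜 fun x => tens (L x) (L' x) := by
  intro x₀
  obtain ⟨f, hf, E, hE, h0, hL⟩ := h x₀
  obtain ⟨f', hf', E', hE', h0', hL'⟩ := h' x₀
  exact ⟨f * f', 𝒜.mul_mem hf hf', _, hE.tensor hE', mul_ne_zero h0 h0', fun x =>
    ⟨tens_range' (hL x).1 (hL' x).1, tens_scalar' (hL x).2 (hL' x).2⟩⟩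

theorem Alg.lamS [FiniteDimensional ℂ V] {L : T → Submodule ℂ V} (h : Alg 𝒜 L) (k : ℕ) :
    Alg 𝒜 fun x => lamS k (L x) := by
  intro x₀
  obtain ⟨f, hf, E, hE, h0, hL⟩ := h x₀
  exact ⟨f ^ k, 𝒜.pow_mem hf k, _, hE.lamM k, pow_ne_zero k h0, fun x =>
    ⟨lamM_range' (hL x).1 k, lamM_scalar' (hL x).2 k⟩⟩

theorem Alg.symS [FiniteDimensional ℂ V] {L : T → Submodule ℂ V} (h : Alg 𝒜 L) (k : ℕ) :
    Alg 𝒜 fun x => symS k (L x) := by
  intro x₀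
  obtain ⟨f, hf, E, hE, h0, hL⟩ := h x₀
  exact ⟨f ^ k, 𝒜.pow_mem hf k, _, hE.symM k, pow_ne_zero k h0, fun x =>
    ⟨symM_range' (hL x).1 k, symM_scalar' (hL x).2 k⟩⟩

/-- `Hom(V, L')` -/
def homTo (V : Type) [AddCommGroup V] [Module ℂ V] (L' : Submodule ℂ W) :
    Submodule ℂ (V →ₗ[ℂ] W) where
  carrier := {h | ∀ v, h v ∈ L'}
  add_mem' := fun ha hb v => add_mem (ha v) (hb v)
  zero_mem' := fun _ => zero_mem _
  smul_mem' := fun c _ ha v => L'.smul_mem c (ha v)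
/-- `Hom(V / L, W)` -/
def homKill (L : Submodule ℂ V) (W : Type) [AddCommGroup W] [Module ℂ W] :
    Submodule ℂ (V →ₗ[ℂ] W) where
  carrier := {h | ∀ v ∈ L, h v = 0}
  add_mem' := fun ha hb v hv => by simp [ha v hv, hb v hv]
  zero_mem' := fun _ _ => rfl
  smul_mem' := fun c _ ha v hv => by simp [ha v hv]
/-- the maps sending `L` to `L'` -/
def homMap (L : Submodule ℂ V) (L' : Submodule ℂ W) : Submodule ℂ (V →ₗ[ℂ] W) where
  carrier := {h | ∀ v ∈ L, h v ∈ L'}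
  add_mem' := fun ha hb v hv => add_mem (ha v hv) (hb v hv)
  zero_mem' := fun _ _ => zero_mem _
  smul_mem' := fun c _ ha v hv => L'.smul_mem c (ha v hv)

lemma mem_homTo {L' : Submodule ℂ W} {h : V →ₗ[ℂ] W} : h ∈ homTo V L' ↔ ∀ v, h v ∈ L' := Iff.rfl
lemma mem_homTo' {L' : Submodule ℂ W} {h : V →ₗ[ℂ] W} :
    h ∈ homTo V L' ↔ LinearMap.range h ≤ L' :=
  ⟨fun H _ ⟨v, e⟩ => e ▸ H v, fun H v => H ⟨v, rfl⟩⟩
lemma mem_homKill {L : Submodule ℂ V} {h : V →ₗ[ℂ] W} :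
    h ∈ homKill L W ↔ ∀ v ∈ L, h v = 0 := Iff.rfl
lemma mem_homKill' {L : Submodule ℂ V} {h : V →ₗ[ℂ] W} :
    h ∈ homKill L W ↔ L ≤ LinearMap.ker h := Iff.rfl
lemma mem_homMap {L : Submodule ℂ V} {L' : Submodule ℂ W} {h : V →ₗ[ℂ] W} :
    h ∈ homMap L L' ↔ ∀ v ∈ L, h v ∈ L' := Iff.rfl
lemma mem_homMap' {L : Submodule ℂ V} {L' : Submodule ℂ W} {h : V →ₗ[ℂ] W} :
    h ∈ homMap L L' ↔ L.map h ≤ L' := Submodule.map_le_iff_le_comap.symm

section hom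
variable [FiniteDimensional ℂ V] [FiniteDimensional ℂ W]

theorem Alg.homTo {L' : T → Submodule ℂ W} (h' : Alg 𝒜 L') : Alg 𝒜 fun x => homTo V (L' x) := by
  intro x₀
  obtain ⟨f', hf', E', hE', h0', hL'⟩ := h' x₀
  refine ⟨f', hf', _, (regM_const' LinearMap.id).homM hE', h0', fun x => ⟨?_, fun h hh => ?_⟩⟩
  · rintro _ ⟨h, rfl⟩ v
    exact (hL' x).1 ⟨_, rfl⟩
  · ext v
    exact (hL' x).2 _ (hh v)

theorem Alg.homKill {L : T → Submodule ℂ V} (h : Alg 𝒜 L) : Alg 𝒜 fun x => homKill (L x) W := by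
  intro x₀
  obtain ⟨f, hf, E, hE, h0, hL⟩ := h x₀
  refine ⟨f, hf, _, (hE.compl' hf).homM (regM_const' LinearMap.id), h0,
    fun x => ⟨?_, fun h hh => ?_⟩⟩
  · rintro _ ⟨h, rfl⟩ v hv
    simp [(hL x).2 v hv]
  · ext v
    simp [hh _ ((hL x).1 ⟨v, rfl⟩)]

theorem Alg.homMap {L : T → Submodule ℂ V} {L' : T → Submodule ℂ W} (h : Alg 𝒜 L)
    (h' : Alg 𝒜 L') : Alg 𝒜 fun x => homMap (L x) (L' x) := by
  intro x₀
  obtain ⟨f, hf, E, hE, h0, hL⟩ := h x₀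
  obtain ⟨f', hf', E', hE', h0', hL'⟩ := h' x₀
  refine ⟨f * f', 𝒜.mul_mem hf hf', _,
    (RegM.smul' hf' ((hE.compl' hf).homM (regM_const' LinearMap.id))).add' (hE.homM hE'),
    mul_ne_zero h0 h0', fun x => ⟨?_, fun h hh => ?_⟩⟩
  · rintro _ ⟨h, rfl⟩ v hv
    simpa [(hL x).2 v hv] using (L' x).smul_mem (f x) ((hL' x).1 ⟨h v, rfl⟩)
  · ext v
    simp [(hL' x).2 _ (hh _ ((hL x).1 ⟨v, rfl⟩)), smul_sub, mul_smul, smul_comm (f x) (f' x)]

/-- `Hom(V / L, L')` -/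
theorem Alg.homKill_inf_homTo {L : T → Submodule ℂ V} {L' : T → Submodule ℂ W} (h : Alg 𝒜 L)
    (h' : Alg 𝒜 L') : Alg 𝒜 fun x =>
      _root_.Crest.Agent.N265.Alg.homKill (L x) W ⊓ _root_.Crest.Agent.N265.Alg.homTo V (L' x) := by
  intro x₀
  obtain ⟨f, hf, E, hE, h0, hL⟩ := h x₀
  obtain ⟨f', hf', E', hE', h0', hL'⟩ := h' x₀
  refine ⟨f * f', 𝒜.mul_mem hf hf', _, (hE.compl' hf).homM hE',
    mul_ne_zero h0 h0', fun x => ⟨?_, fun h hh => ?_⟩⟩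
  · rintro _ ⟨h, rfl⟩
    exact ⟨fun v hv => by simp [(hL x).2 v hv], fun v => (hL' x).1 ⟨_, rfl⟩⟩
  · ext v
    simp [(hL' x).2 _ (hh.2 _), hh.1 _ ((hL x).1 ⟨v, rfl⟩), mul_smul]

end hom

end Crest.Agent.N265.Alg
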