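import Crest.Agent.N265.K.PowB

/-!
# Row 265, layer K: diagonalisable operators (`Alg.Diag`; task K-POW; helper96)
-/

set_option autoImplicit false

noncomputable section

namespace Crest.Agent.N265.Alg

open TensorProduct Module Crest.Agent.N265.Pow

variable {V W : Type} [AddCommGroup V] [Module ℂ V] [AddCommGroup W] [Module ℂ W]
variable {S S' S'' : Set ℂ} {g : V →ₗ[ℂ] V} {h : W →ₗ[ℂ] W}

theorem diag_iff : Diag S g ↔
    ∀ p : Submodule ℂ V, (∀ c ∈ S, ∀ v, g v = c • v → v ∈ p) → p = ⊤ := by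
  constructor
  · intro H p hp
    rw [eq_top_iff, ← H]
    exact iSup₂_le fun c hc v hv => hp c hc v (Module.End.mem_eigenspace_iff.1 hv)
  · intro H
    exact H _ fun c hc v hv =>
      Submodule.mem_iSup_of_mem c (Submodule.mem_iSup_of_mem hc (Module.End.mem_eigenspace_iff.2 hv))

theorem diag_iff_span : Diag S g ↔ Submodule.span ℂ {v | ∃ c ∈ S, g v = c • v} = ⊤ := by
  rw [diag_iff]
  constructor
  · intro H
    exact H _ fun c hc v hv => Submodule.subset_span ⟨c, hc, hv⟩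
  · intro H p hp
    rw [eq_top_iff, ← H, Submodule.span_le]
    rintro v ⟨c, hc, hv⟩
    exact hp c hc v hv

theorem Diag.eq_top (H : Diag S g) {p : Submodule ℂ V} (hp : ∀ c ∈ S, ∀ v, g v = c • v → v ∈ p) :
    p = ⊤ := diag_iff.1 H p hp

theorem Diag.mem (H : Diag S g) {p : Submodule ℂ V} (hp : ∀ c ∈ S, ∀ v, g v = c • v → v ∈ p)
    (v : V) : v ∈ p := H.eq_top hp ▸ Submodule.mem_top

/-- induction over eigenvectors -/
theorem Diag.induction (H : Diag S g) {P : V → Prop} (h0 : P 0)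
    (hadd : ∀ v w, P v → P w → P (v + w)) (he : ∀ c ∈ S, ∀ v, g v = c • v → P v) (v : V) : P v := by
  have hv : v ∈ ⨆ c ∈ S, Module.End.eigenspace g c := H ▸ Submodule.mem_top
  refine Submodule.iSup_induction _ (motive := P) hv (fun c w hw => ?_) h0 hadd
  by_cases hc : c ∈ S
  · rw [iSup_pos hc] at hw
    exact he c hc w (Module.End.mem_eigenspace_iff.1 hw)
  · rw [iSup_neg hc] at hw
    exact (Submodule.mem_bot ℂ).1 hw ▸ h0

/-- linear maps agreeing on eigenvectors are equal -/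
theorem Diag.ext (H : Diag S g) {f f' : V →ₗ[ℂ] W} (he : ∀ c ∈ S, ∀ v, g v = c • v → f v = f' v) :
    f = f' :=
  LinearMap.ext (H.mem (p := LinearMap.eqLocus f f') he)

theorem diag_of_span {s : Set V} (hs : Submodule.span ℂ s = ⊤)
    (he : ∀ v ∈ s, ∃ c ∈ S, g v = c • v) : Diag S g :=
  diag_iff_span.2 (eq_top_iff.2 (hs ▸ Submodule.span_mono he))

theorem diag_of_basis {ι : Type} (b : Basis ι ℂ V) (he : ∀ i, ∃ c ∈ S, g (b i) = c • b i) :
    Diag S g :=
  diag_of_span b.span_eq (by rintro _ ⟨i, rfl⟩; exact he i)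

theorem Diag.mono (H : Diag S g) (hS : S ⊆ S') : Diag S' g :=
  diag_iff.2 fun _ hp => H.eq_top fun c hc => hp c (hS hc)

theorem diag_smul_id {c : ℂ} (hc : c ∈ S) : Diag S (c • LinearMap.id : V →ₗ[ℂ] V) :=
  diag_iff.2 fun _ hp => eq_top_iff.2 fun v _ => hp c hc v rfl

theorem diag_id (h1 : (1 : ℂ) ∈ S) : Diag S (LinearMap.id : V →ₗ[ℂ] V) := by
  simpa using diag_smul_id (V := V) h1

theorem diag_of_subsingleton [Subsingleton V] : Diag S g :=
  Subsingleton.elim _ _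

theorem Diag.smul (H : Diag S g) {a : ℂ} (hS : ∀ c ∈ S, a * c ∈ S') : Diag S' (a • g) :=
  diag_iff.2 fun _ hp => H.eq_top fun c hc v hv =>
    hp _ (hS c hc) v (by rw [LinearMap.smul_apply, hv, smul_smul])

/-- every vector is a finite sum of eigenvectors with distinct eigenvalues -/
theorem Diag.exists_sum (H : Diag S g) (v : V) : ∃ (s : Finset ℂ) (u : ℂ → V), ↑s ⊆ S ∧
    (∀ c, g (u c) = c • u c) ∧ (∀ c, c ∉ s → u c = 0) ∧ ∑ c ∈ s, u c = v := by
  classical
  induction v using H.induction with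
  | h0 => exact ⟨∅, 0, by simp, by simp, by simp, by simp⟩
  | hadd v w h1 h2 =>
    obtain ⟨s, u, hs, hu, hu0, rfl⟩ := h1
    obtain ⟨s', u', hs', hu', hu0', rfl⟩ := h2
    refine ⟨s ∪ s', u + u', by simpa using ⟨hs, hs'⟩, fun c => by simp [hu, hu'], fun c hc => ?_, ?_⟩
    · rw [Finset.mem_union, not_or] at hc
      simp [hu0 c hc.1, hu0' c hc.2]
    · simp only [Pi.add_apply, Finset.sum_add_distrib]
      rw [Finset.sum_subset Finset.subset_union_left fun c _ hc => hu0 c hc,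
        Finset.sum_subset Finset.subset_union_right fun c _ hc => hu0' c hc]
  | he c hc v hv =>
    refine ⟨{c}, Pi.single c v, by simpa using hc, fun c' => ?_, fun c' hc' => ?_, by simp⟩
    · by_cases hc' : c' = c
      · subst hc'
        simpa using hv
      · simp [hc']
    · rw [Finset.mem_singleton] at hc'
      simp [hc']

/-- a `g`-stable submodule contains the eigencomponents of its elements -/
theorem mem_of_sum_mem {p : Submodule ℂ V} (hp : ∀ v ∈ p, g v ∈ p) (s : Finset ℂ) :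
    ∀ u : ℂ → V, (∀ c ∈ s, g (u c) = c • u c) → ∑ c ∈ s, u c ∈ p → ∀ c ∈ s, u c ∈ p := by
  classical
  induction s using Finset.induction_on with
  | empty => simp
  | insert a s ha ih =>
    intro u hu hs
    have h1 : ∑ c ∈ s, (c - a) • u c ∈ p := by
      have h2 := p.sub_mem (hp _ hs) (p.smul_mem a hs)
      rw [map_sum, Finset.smul_sum, ← Finset.sum_sub_distrib, Finset.sum_insert ha,
        hu a (Finset.mem_insert_self _ _), sub_self, zero_add] at h2
      convert h2 using 2 with c hc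
      rw [hu c (Finset.mem_insert_of_mem hc), sub_smul]
    have h3 : ∀ c ∈ s, u c ∈ p := fun c hc => by
      have h4 := ih _ (fun c hc => by
        rw [map_smul, hu c (Finset.mem_insert_of_mem hc), smul_comm]) h1 c hc
      have hne : c - a ≠ 0 := sub_ne_zero.2 fun h => ha (h ▸ hc)
      exact (p.smul_mem_iff hne).1 h4
    intro c hc
    rcases Finset.mem_insert.1 hc with rfl | hc
    · rw [Finset.sum_insert ha] at hs
      exact (p.add_mem_iff_left (p.sum_mem h3)).1 hs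
    · exact h3 c hc

/-- elements of a stable submodule are sums of eigenvectors in the submodule -/
theorem Diag.induction_sub (H : Diag S g) {p : Submodule ℂ V} (hp : ∀ v ∈ p, g v ∈ p)
    {q : Submodule ℂ V} (he : ∀ c ∈ S, ∀ v ∈ p, g v = c • v → v ∈ q) : p ≤ q := by
  intro v hv
  obtain ⟨s, u, hs, hu, -, rfl⟩ := H.exists_sum v
  exact q.sum_mem fun c hc =>
    he c (hs hc) _ (mem_of_sum_mem hp s u (fun c _ => hu c) hv c hc) (hu c)

/-- injective equivariant maps reflect `Diag` -/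
theorem Diag.of_injective (H : Diag S h) {f : V →ₗ[ℂ] W} (hf : Function.Injective f)
    (hc : ∀ v, f (g v) = h (f v)) : Diag S g := by
  refine diag_iff.2 fun p hp => eq_top_iff.2 fun v _ => ?_
  have h1 : LinearMap.range f ≤ p.map f := by
    refine H.induction_sub ?_ ?_
    · rintro _ ⟨v, rfl⟩
      exact ⟨g v, hc v⟩
    · rintro c hcS _ ⟨v, rfl⟩ hv
      exact ⟨v, hp c hcS v (hf (by rw [hc, hv, map_smul])), rfl⟩
  obtain ⟨w, hw, hwv⟩ := h1 ⟨v, rfl⟩
  exact hf hwv ▸ hw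

theorem Diag.restrict (H : Diag S g) {p : Submodule ℂ V} (hp : ∀ v ∈ p, g v ∈ p) :
    Diag S (g.restrict hp) :=
  H.of_injective p.injective_subtype fun _ => rfl

/-- surjective equivariant maps preserve `Diag` -/
theorem Diag.of_surjective (H : Diag S g) {f : V →ₗ[ℂ] W} (hf : Function.Surjective f)
    (hc : ∀ v, f (g v) = h (f v)) : Diag S h := by
  refine diag_iff.2 fun p hp => eq_top_iff.2 fun w _ => ?_
  obtain ⟨v, rfl⟩ := hf w
  exact H.mem (p := p.comap f) (fun c hcS v hv => hp c hcS _ (by rw [← hc, hv, map_smul])) v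

theorem Diag.mapQ (H : Diag S g) {p : Submodule ℂ V} (hp : p ≤ p.comap g) :
    Diag S (p.mapQ p g hp) :=
  H.of_surjective p.mkQ_surjective fun _ => rfl

theorem Diag.conj (H : Diag S g) (e : V ≃ₗ[ℂ] W) : Diag S (e.conj g) :=
  H.of_surjective (f := e.toLinearMap) e.surjective fun v => by simp [LinearEquiv.conj_apply]

/-- two stable pieces that span -/
theorem diag_of_iSup {ι : Type} {U : ι → Type} [∀ i, AddCommGroup (U i)] [∀ i, Module ℂ (U i)]
    {k : ∀ i, U i →ₗ[ℂ] U i} (H : ∀ i, Diag S (k i)) (f : ∀ i, U i →ₗ[ℂ] V)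
    (hf : ⨆ i, LinearMap.range (f i) = ⊤) (hc : ∀ i u, f i (k i u) = g (f i u)) : Diag S g := by
  refine diag_iff.2 fun p hp => eq_top_iff.2 (hf ▸ iSup_le fun i => ?_)
  rintro _ ⟨u, rfl⟩
  exact (H i).mem (p := p.comap (f i))
    (fun c hcS v hv => hp c hcS _ (by rw [← hc, hv, map_smul])) u

theorem Diag.prodMap (H : Diag S g) (H' : Diag S h) : Diag S (g.prodMap h) := by
  refine diag_iff.2 fun p hp => eq_top_iff.2 fun z _ => ?_
  rw [show z = LinearMap.inl ℂ V W z.1 + LinearMap.inr ℂ V W z.2 by simp]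
  exact p.add_mem
    (H.mem (p := p.comap (LinearMap.inl ℂ V W)) (fun c hc v hv => hp c hc _ (by simp [hv])) _)
    (H'.mem (p := p.comap (LinearMap.inr ℂ V W)) (fun c hc v hv => hp c hc _ (by simp [hv])) _)

theorem diag_pi {ι : Type} [Finite ι] {U : ι → Type} [∀ i, AddCommGroup (U i)]
    [∀ i, Module ℂ (U i)] {k : ∀ i, U i →ₗ[ℂ] U i} (H : ∀ i, Diag S (k i)) :
    Diag S (LinearMap.piMap k) := by
  classical
  refine diag_of_iSup H (fun i => LinearMap.single ℂ U i) (LinearMap.iSup_range_single ℂ U)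
    fun i u => ?_
  ext j
  by_cases hj : j = i
  · subst hj
    simp
  · simp [hj]

/-- bilinear maps whose values span -/
theorem Diag.bilin {U : Type} [AddCommGroup U] [Module ℂ U] {k : U →ₗ[ℂ] U} (H : Diag S g)
    (H' : Diag S' h) (hS : ∀ a ∈ S, ∀ b ∈ S', a * b ∈ S'') (B : V →ₗ[ℂ] W →ₗ[ℂ] U)
    (hB : Submodule.map₂ B ⊤ ⊤ = ⊤) (hc : ∀ v w, k (B v w) = B (g v) (h w)) : Diag S'' k := by
  refine diag_iff.2 fun p hp => eq_top_iff.2 (hB ▸ Submodule.map₂_le.2 fun v _ w _ => ?_)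
  refine H.mem (p := p.comap (B.flip w)) (fun a ha v hv => ?_) v
  refine H'.mem (p := p.comap (B v)) (fun b hb w hw => hp _ (hS a ha b hb) _ ?_) w
  rw [hc, hv, hw]
  simp [smul_smul, mul_comm]

theorem Diag.tmap (H : Diag S g) (H' : Diag S' h) (hS : ∀ a ∈ S, ∀ b ∈ S', a * b ∈ S'') :
    Diag S'' (TensorProduct.map g h) :=
  H.bilin H' hS (TensorProduct.mk ℂ V W) (TensorProduct.map₂_mk_top_top_eq_top ℂ V W)
    fun _ _ => rfl

/-- multilinear maps whose values span -/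
theorem Diag.multilin {U : Type} [AddCommGroup U] [Module ℂ U] {k : U →ₗ[ℂ] U} {n : ℕ}
    (H : Diag S g) (hS : ∀ c : Fin n → ℂ, (∀ i, c i ∈ S) → ∏ i, c i ∈ S')
    (m : MultilinearMap ℂ (fun _ : Fin n => V) U) (hm : Submodule.span ℂ (Set.range m) = ⊤)
    (hc : ∀ v, k (m v) = m (g ∘ v)) : Diag S' k := by
  classical
  refine diag_iff.2 fun p hp => eq_top_iff.2 (hm ▸ Submodule.span_le.2 ?_)
  rintro _ ⟨v, rfl⟩
  have key : ∀ s : Finset (Fin n), ∀ v : Fin n → V, (∀ i, i ∉ s → ∃ c ∈ S, g (v i) = c • v i) →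
      m v ∈ p := by
    intro s
    induction s using Finset.induction_on with
    | empty =>
      intro v hv
      choose c hc1 hc2 using fun i => hv i (by simp)
      refine hp _ (hS c hc1) _ ?_
      rw [hc, ← m.map_smul_univ]
      congr 1
      funext i
      exact hc2 i
    | insert a s ha ih =>
      intro v hv
      rw [← Function.update_eq_self a v]
      refine H.mem (p := p.comap (m.toLinearMap v a)) (fun c hcS w hw => ih _ fun i hi => ?_) (v a)
      by_cases hia : i = a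
      · subst hia
        exact ⟨c, hcS, by simpa using hw⟩
      · simpa [Function.update_of_ne hia] using hv i (by simp [hia, hi])
  exact key Finset.univ v (by simp)

theorem prod_mem_of_mul (h1 : (1 : ℂ) ∈ S) (hS : ∀ a ∈ S, ∀ b ∈ S, a * b ∈ S) {ι : Type}
    (s : Finset ι) (c : ι → ℂ) (hc : ∀ i ∈ s, c i ∈ S) : ∏ i ∈ s, c i ∈ S :=
  Finset.prod_induction c (· ∈ S) (fun a b ha hb => hS a ha b hb) h1 hc

theorem Diag.lamM' (H : Diag S g) (k : ℕ)
    (hS : ∀ c : Fin k → ℂ, (∀ i, c i ∈ S) → ∏ i, c i ∈ S') : Diag S' (lamM k g) :=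
  H.multilin hS (exteriorPower.ιMulti ℂ k).toMultilinearMap (span_ιMulti k)
    fun v => exteriorPower.map_apply_ιMulti g v

theorem Diag.symM' (H : Diag S g) (k : ℕ)
    (hS : ∀ c : Fin k → ℂ, (∀ i, c i ∈ S) → ∏ i, c i ∈ S') : Diag S' (symM k g) :=
  H.multilin hS (symML k) (span_symP k) fun v => symM_symP k g v

theorem Diag.lamM (H : Diag S g) (h1 : (1 : ℂ) ∈ S) (hS : ∀ a ∈ S, ∀ b ∈ S, a * b ∈ S) (k : ℕ) :
    Diag S (lamM k g) :=
  H.lamM' k fun c hc => prod_mem_of_mul h1 hS _ c fun i _ => hc i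

theorem Diag.symM (H : Diag S g) (h1 : (1 : ℂ) ∈ S) (hS : ∀ a ∈ S, ∀ b ∈ S, a * b ∈ S) (k : ℕ) :
    Diag S (symM k g) :=
  H.symM' k fun c hc => prod_mem_of_mul h1 hS _ c fun i _ => hc i

/-- an eigenbasis (any dimension) -/
theorem Diag.exists_basis' (H : Diag S g) :
    ∃ (s : Set V) (b : Basis s ℂ V) (c : s → ℂ), ∀ i, c i ∈ S ∧ g (b i) = c i • b i := by
  obtain ⟨s, hs, hsp, hli⟩ := exists_linearIndependent ℂ {v | ∃ c ∈ S, g v = c • v}
  rw [diag_iff_span.1 H] at hsp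
  choose c hc using fun i : s => hs i.2
  exact ⟨s, Basis.mk hli (by simp [hsp]), c, fun i => by simpa using hc i⟩

/-- an eigenbasis indexed by `Fin (finrank V)` -/
theorem Diag.exists_basis [FiniteDimensional ℂ V] (H : Diag S g) :
    ∃ (b : Basis (Fin (finrank ℂ V)) ℂ V) (c : Fin (finrank ℂ V) → ℂ),
      ∀ i, c i ∈ S ∧ g (b i) = c i • b i := by
  obtain ⟨s, b, c, hc⟩ := H.exists_basis'
  let e := b.indexEquiv (Module.finBasis ℂ V)
  exact ⟨b.reindex e, c ∘ e.symm, fun i => by simpa using hc (e.symm i)⟩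

theorem Diag.dualMap [FiniteDimensional ℂ V] (H : Diag S g) : Diag S g.dualMap := by
  obtain ⟨b, c, hc⟩ := H.exists_basis
  refine diag_of_basis b.dualBasis fun i => ⟨c i, (hc i).1, b.ext fun j => ?_⟩
  by_cases hij : j = i
  · subst hij
    simp [(hc j).2]
  · simp [(hc j).2, hij]

/-- a one-sided inverse -/
theorem Diag.inv (H : Diag S g) {g' : V →ₗ[ℂ] V} (hg : ∀ v, g' (g v) = v)
    (hS : ∀ c ∈ S, c⁻¹ ∈ S') : Diag S' g' := by
  refine diag_iff.2 fun p hp => H.eq_top fun c hc v hv => ?_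
  have h1 := hg v
  rw [hv, map_smul] at h1
  by_cases h0 : c = 0
  · rw [← h1, h0, zero_smul]
    exact p.zero_mem
  · exact hp _ (hS c hc) v (by rw [eq_inv_smul_iff₀ h0, h1])

theorem Diag.symm {e : V ≃ₗ[ℂ] V} (H : Diag S e.toLinearMap) (hS : ∀ c ∈ S, c⁻¹ ∈ S') :
    Diag S' e.symm.toLinearMap :=
  H.inv e.symm_apply_apply hS

theorem Diag.symm_dualMap [FiniteDimensional ℂ V] {e : V ≃ₗ[ℂ] V} (H : Diag S e.toLinearMap)
    (hS : ∀ c ∈ S, c⁻¹ ∈ S') : Diag S' e.symm.dualMap.toLinearMap :=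
  (H.symm hS).dualMap

/-- `φ ↦ h ∘ φ ∘ g` on `Hom(V, W)` -/
theorem Diag.hom [FiniteDimensional ℂ V] (H : Diag S g) (H' : Diag S' h)
    (hS : ∀ a ∈ S, ∀ b ∈ S', a * b ∈ S'') {Φ : (V →ₗ[ℂ] W) →ₗ[ℂ] (V →ₗ[ℂ] W)}
    (hΦ : ∀ φ v, Φ φ v = h (φ (g v))) : Diag S'' Φ :=
  (H.dualMap.tmap H' hS).of_surjective (f := dualTensorHom ℂ V W)
    (dualTensorHomEquiv ℂ V W).surjective fun z => by
      induction z with
      | zero => simp
      | tmul ℓ w => ext v; simp [hΦ]
      | add z z' h1 h2 => simp [h1, h2]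

/-- `φ ↦ h φ g⁻¹` -/
theorem Diag.arrowCongr [FiniteDimensional ℂ V] {e : V ≃ₗ[ℂ] V} {e' : W ≃ₗ[ℂ] W}
    (H : Diag S e.toLinearMap) (H' : Diag S' e'.toLinearMap)
    (hS : ∀ a ∈ S, ∀ b ∈ S', a⁻¹ * b ∈ S'') : 
    Diag S'' (e.arrowCongr e' : (V →ₗ[ℂ] W) ≃ₗ[ℂ] (V →ₗ[ℂ] W)).toLinearMap :=
  (H.symm (S' := (fun a => a⁻¹) '' S) fun c hc => ⟨c, hc, rfl⟩).hom H'
    (by rintro _ ⟨a, ha, rfl⟩ b hb; exact hS a ha b hb) fun _ _ => rfl

/-- a stable subspace has a stable complement -/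
theorem Diag.exists_isCompl (H : Diag S g) {p : Submodule ℂ V} (hp : ∀ v ∈ p, g v ∈ p) :
    ∃ q : Submodule ℂ V, IsCompl p q ∧ ∀ v ∈ q, g v ∈ q := by
  obtain ⟨s, b, c, hc⟩ := (H.mapQ (p := p) hp).exists_basis'
  -- lift the eigenvectors of the quotient to eigenvectors
  have hl : ∀ i, ∃ v, p.mkQ v = b i ∧ g v = c i • v := by
    intro i
    classical
    obtain ⟨v, hv⟩ := p.mkQ_surjective (b i)
    obtain ⟨t, u, -, hu, hu0, rfl⟩ := H.exists_sum v
    refine ⟨u (c i), ?_, hu _⟩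
    have h1 := mem_of_sum_mem (g := p.mapQ p g hp) (p := ⊥) (by simp) (insert (c i) t)
      (fun a => p.mkQ (u a) - if a = c i then b i else 0) (fun a _ => by
        have : p.mapQ p g hp (p.mkQ (u a)) = a • p.mkQ (u a) := by
          rw [← map_smul, ← hu]; rfl
        by_cases ha : a = c i
        · rw [if_pos ha, map_sub, this, (hc i).2, smul_sub, ha]
        · rw [if_neg ha, sub_zero, this]) (by
        rw [Finset.sum_sub_distrib, Finset.sum_ite_eq', if_pos (Finset.mem_insert_self _ _),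
          ← map_sum, ← Finset.sum_subset (Finset.subset_insert (c i) t) fun a _ ha => hu0 a ha, hv,
          sub_self]
        exact Submodule.zero_mem _) (c i) (Finset.mem_insert_self _ _)
    simpa [sub_eq_zero] using h1
  choose v hv hv' using hl
  let σ : (V ⧸ p) →ₗ[ℂ] V := b.constr ℂ v
  have hσ : p.mkQ ∘ₗ σ = LinearMap.id := b.ext fun i => by
    rw [LinearMap.comp_apply, Basis.constr_basis, hv i, LinearMap.id_apply]
  have hσ' : ∀ x, p.mkQ (σ x) = x := LinearMap.congr_fun hσ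
  refine ⟨LinearMap.range σ, ⟨?_, ?_⟩, ?_⟩
  · rw [Submodule.disjoint_def]
    rintro _ hx ⟨x, rfl⟩
    rw [← hσ' x, Submodule.mkQ_apply, (Submodule.Quotient.mk_eq_zero p).2 hx, map_zero]
  · rw [codisjoint_iff, eq_top_iff]
    intro w _
    rw [← sub_add_cancel w (σ (p.mkQ w))]
    refine Submodule.add_mem_sup ?_ ⟨_, rfl⟩
    rw [← Submodule.Quotient.mk_eq_zero, ← Submodule.mkQ_apply, map_sub, hσ', sub_self]
  · have h2 : g ∘ₗ σ = σ ∘ₗ p.mapQ p g hp := b.ext fun i => by simp [σ, hv' i, (hc i).2]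
    rintro _ ⟨x, rfl⟩
    exact ⟨_, (LinearMap.congr_fun h2 x).symm⟩

end Crest.Agent.N265.Alg
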