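import Crest.Agent.N265.K.AlgCore
import Crest.Agent.N265.K.Alg2
import Crest.Agent.N265.K.PowD

/-!
# Row 265, layer K: basis-free bundles on a space (helper68)

* `GV`         : finite-dimensional space with the grading automorphism `g`
                 (`O(d)` has `g = chi d`); constructions `line, shift, triv, tens, dual, hom, prod, lam`;
* `IsAB X V L` : `L` is an algebraic equivariant family of subspaces of `V` on `X`;
* `IsRM`, `IsRV` : regular equivariant families of maps / vectors;
* `kc X V L`   : the class in `K X` (through an eigenbasis);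
* `PDer`, `dV`, `IsVar` : point derivations, derivatives of regular vectors, first order variation
                 of a family; `Spc.pd X x ξ` the point derivation of a tangent vector;
* `ACone`      : the basis-free cone condition;
* `Blk`        : coordinates of a block identified with an eigenbasis.
-/

set_option autoImplicit false
noncomputable section
open MvPolynomial TensorProduct

namespace Crest.Agent.N265

open Alg _root_.Crest.Agent.N265.Pow

/-- finite-dimensional spaces with a grading automorphism -/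
structure GV where
  V : Type
  [acg : AddCommGroup V]
  [mod : Module ℂ V]
  [fd : FiniteDimensional ℂ V]
  g : V ≃ₗ[ℂ] V

attribute [instance] GV.acg GV.mod GV.fd

namespace GV
/-- all degrees live in the blocks `B` -/
def In (V : GV) (B : Finset ℕ) : Prop := Diag (chi '' (DS B : Set D)) V.g.toLinearMap
/-- trivial grading -/
abbrev triv (V : Type) [AddCommGroup V] [Module ℂ V] [FiniteDimensional ℂ V] : GV :=
  { V := V, g := LinearEquiv.refl ℂ V }
/-- `V ⊗ O(d)` -/
abbrev shift (V : GV) (d : D) : GV :=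
  { V := V.V, g := V.g.trans (LinearEquiv.smulOfNeZero ℂ V.V (chi d) (chi_ne d)) }
/-- `O(d)` -/
abbrev line (d : D) : GV := (triv ℂ).shift d
abbrev tens (V W : GV) : GV := { V := V.V ⊗[ℂ] W.V, g := TensorProduct.congr V.g W.g }
abbrev dual (V : GV) : GV := { V := Module.Dual ℂ V.V, g := V.g.symm.dualMap }
abbrev hom (V W : GV) : GV := { V := V.V →ₗ[ℂ] W.V, g := LinearEquiv.arrowCongr V.g W.g }
abbrev prod (V W : GV) : GV := { V := V.V × W.V, g := V.g.prodCongr W.g }
abbrev pi {ι : Type} [Fintype ι] (V : ι → GV) : GV :=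
  { V := ∀ i, (V i).V, g := LinearEquiv.piCongrRight fun i => (V i).g }
/-- `⊕ O(deg i)` in coordinates -/
abbrev co {ι : Type} [Fintype ι] (deg : ι → D) : GV := { V := ι → ℂ, g := gd deg }
/-- a constant map of degree zero -/
def Deg0 (V W : GV) (f : V.V →ₗ[ℂ] W.V) : Prop := ∀ v, f (V.g v) = W.g (f v)
/-- a stable subspace -/
def Stab (V : GV) (U : Submodule ℂ V.V) : Prop := U.map V.g.toLinearMap = U
abbrev lam (k : ℕ) (V : GV) : GV :=
  { V := Lam k V.V
    g := LinearEquiv.ofLinearMap (lamM k V.g.toLinearMap) (lamM k V.g.symm.toLinearMap)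
      (by rw [← exteriorPower.map_comp]; simp [exteriorPower.map_id])
      (by rw [← exteriorPower.map_comp]; simp [exteriorPower.map_id]) }
end GV

/-- algebraic equivariant families of subspaces -/
structure IsAB (X : Spc) (V : GV) (L : Pt → Submodule ℂ V.V) : Prop where
  hin : V.In X.B
  alg : Alg X.fn fun x => L x.1
  eqv : ∀ x ∈ X.pts, (L x).map V.g.toLinearMap = L (gpt x)
/-- regular equivariant families of linear maps -/
structure IsRM (X : Spc) (V W : GV) (φ : Pt → V.V →ₗ[ℂ] W.V) : Prop where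
  reg : RegM X.fn fun x => φ x.1
  eqv : ∀ x ∈ X.pts, φ (gpt x) ∘ₗ V.g.toLinearMap = W.g.toLinearMap ∘ₗ φ x
/-- regular equivariant families of vectors -/
structure IsRV (X : Spc) (V : GV) (s : Pt → V.V) : Prop where
  reg : RegV X.fn fun x => s x.1
  eqv : ∀ x ∈ X.pts, s (gpt x) = V.g (s x)

/-- the bundle `A` presents the family `L` in the eigenbasis `b` of `V` -/
def PresB {X : Spc} (A : Bun X) (V : GV) (L : Pt → Submodule ℂ V.V)
    (b : Module.Basis A.ι ℂ V.V) : Prop :=
  (∀ i, V.g (b i) = chi (A.deg i) • b i) ∧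
    ∀ x ∈ X.pts, A.L x = (L x).map b.equivFun.toLinearMap
/-- the bundle `A` presents the family `L` in some eigenbasis of `V` -/
def Pres {X : Spc} (A : Bun X) (V : GV) (L : Pt → Submodule ℂ V.V) : Prop :=
  ∃ b, PresB A V L b

/-- equivariance of a family -/
def Eqv (X : Spc) (V : GV) (L : Pt → Submodule ℂ V.V) : Prop :=
  ∀ x ∈ X.pts, (L x).map V.g.toLinearMap = L (gpt x)
/-- every vector of the family is the value of a regular section (rank is lower semicontinuous) -/
def GenA (X : Spc) {V : Type} [AddCommGroup V] [Module ℂ V] (L : Pt → Submodule ℂ V) : Prop :=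
  ∀ x : X.pts, ∀ v ∈ L x.1, ∃ σ : X.pts → V, RegV X.fn σ ∧ (∀ y, σ y ∈ L y.1) ∧ σ x = v
/-- the annihilators are generated (rank is upper semicontinuous) -/
def CogA (X : Spc) {V : Type} [AddCommGroup V] [Module ℂ V] (L : Pt → Submodule ℂ V) : Prop :=
  GenA X fun x => (L x).dualAnnihilator
/-- the span of the eigenvectors whose degree satisfies `P` -/
def GV.part (V : GV) (P : D → Prop) : Submodule ℂ V.V :=
  ⨆ d, ⨆ _ : P d, Module.End.eigenspace V.g.toLinearMap (chi d)

open Classical in
/-- the class of a family (`0` if it is not a bundle) -/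
def kc (X : Spc) (V : GV) (L : Pt → Submodule ℂ V.V) : K X :=
  if h : ∃ A : Bun X, Pres A V L then h.choose.kl else 0

/-- the basis-free cone condition -/
structure ACone (W Q : Spc) (V : GV) (E : Pt → Submodule ℂ V.V) (s : Pt → V.V) : Prop where
  sub : Q.Sub W
  ab : IsAB Q V E
  rv : IsRV W V s
  zero : ∀ x ∈ W.pts, x ∈ Q.pts ↔ s x = 0
  syz : ∀ x ∈ Q.pts, ∀ a ∈ (E x).dualAnnihilator, ∃ μ : Pt → Module.Dual ℂ V.V,
    RegV W.fn (fun y => μ y.1) ∧ μ x = a ∧ ∀ y ∈ W.pts, μ y (s y) = 0

/-! ### first order calculus -/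

section Tan
variable {T : Type} {V : Type} [AddCommGroup V] [Module ℂ V] [FiniteDimensional ℂ V]

/-- point derivations of `𝒜` at `x₀` -/
def PDer (𝒜 : Subalgebra ℂ (T → ℂ)) (x₀ : T) (δ : (T → ℂ) →ₗ[ℂ] ℂ) : Prop :=
  ∀ f ∈ 𝒜, ∀ g ∈ 𝒜, δ (f * g) = f x₀ * δ g + g x₀ * δ f
/-- derivative of a vector valued function -/
def dV (δ : (T → ℂ) →ₗ[ℂ] ℂ) (σ : T → V) : V :=
  (Module.evalEquiv ℂ V).symm
    { toFun := fun ℓ => δ fun x => ℓ (σ x)
      map_add' := fun ℓ ℓ' => by rw [← map_add]; rfl
      map_smul' := fun c ℓ => by rw [RingHom.id_apply, ← map_smul]; rfl }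
theorem dV_spec (δ : (T → ℂ) →ₗ[ℂ] ℂ) (σ : T → V) (ℓ : Module.Dual ℂ V) :
    ℓ (dV δ σ) = δ fun x => ℓ (σ x) := by
  simp [dV]
/-- `φ` lifts the first order variation `L x₀ → V / L x₀` of the family `L` along `δ` -/
def IsVar (𝒜 : Subalgebra ℂ (T → ℂ)) (x₀ : T) (δ : (T → ℂ) →ₗ[ℂ] ℂ) (L : T → Submodule ℂ V)
    (φ : V →ₗ[ℂ] V) : Prop :=
  ∀ σ : T → V, RegV 𝒜 σ → (∀ x, σ x ∈ L x) → dV δ σ - φ (σ x₀) ∈ L x₀
end Tan

open Classical in
/-- the point derivation of a tangent vector -/
def Spc.pd (X : Spc) (x ξ : Pt) : (X.pts → ℂ) →ₗ[ℂ] ℂ :=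
  if h : ∃ δ : (X.pts → ℂ) →ₗ[ℂ] ℂ, ∀ r : R, δ (fun y => eval y.1 r) = dAt x ξ r then h.choose else 0

/-! ### blocks of coordinates -/

/-- an eigenbasis of a space that has only `T`-weights -/
structure Blk (V : GV) where
  n : ℕ
  e : Module.Basis (Fin n) ℂ V.V
  w : Fin n → ℤ
  he : ∀ i, V.g (e i) = chi (w i • eT) • e i

namespace Blk
variable {V : GV} (β : Blk V)
/-- the variables of block `b` -/
def var (b : ℕ) (i : Fin β.n) : Var := (b, i.1, β.w i)
/-- the vector with the coordinates of block `b` -/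
def vec (b : ℕ) : Pt →ₗ[ℂ] V.V where
  toFun y := ∑ i, y (β.var b i) • β.e i
  map_add' y z := by simp [add_smul, Finset.sum_add_distrib]
  map_smul' c y := by simp [Finset.smul_sum, mul_smul]
/-- the point with block `b` coordinates `v` -/
def pt (b : ℕ) (v : V.V) : Pt := ∑ i, Pi.single (β.var b i) (β.e.repr v i)
/-- `y` uses only the variables of `β` in block `b` -/
def Supp (b : ℕ) (y : Pt) : Prop := ∀ v : Var, (∀ i, v ≠ β.var b i) → y v = 0
end Blk

end Crest.Agent.N265
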