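import Crest.Agent.N265.K.Ring
import Crest.Agent.N265.G.Push

/-! # Task K4, part 0 (helper1): matrices acting on tuples, the condition `Bun.Act` -/

set_option autoImplicit false
noncomputable section
open MvPolynomial Module

namespace Crest.Agent.N265
open Bun GM
variable {X Y Z : Spc}

section mv
variable {N N' : Type} [AddCommGroup N] [Module R N] [AddCommGroup N'] [Module R N']
  {ι κ μ : Type} [Fintype ι] [Fintype κ]

/-- a matrix acts on tuples -/
def mv (Φ : Matrix κ ι R) (u : ι → N) : κ → N := fun j => ∑ i, Φ j i • u i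

omit [Fintype κ] in
lemma mv_apply (Φ : Matrix κ ι R) (u : ι → N) (j : κ) : mv Φ u j = ∑ i, Φ j i • u i := rfl
lemma mv_mul (Ψ : Matrix μ κ R) (Φ : Matrix κ ι R) (u : ι → N) :
    mv (Ψ * Φ) u = mv Ψ (mv Φ u) := by
  funext l
  simp only [mv_apply, Matrix.mul_apply, Finset.sum_smul, Finset.smul_sum, mul_smul]
  exact Finset.sum_comm
omit [Fintype κ] in
lemma mv_add (Φ Ψ : Matrix κ ι R) (u : ι → N) : mv (Φ + Ψ) u = mv Φ u + mv Ψ u := by
  funext l
  simp only [mv_apply, Matrix.add_apply, add_smul, Finset.sum_add_distrib, Pi.add_apply]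
omit [Fintype κ] in
lemma mv_sub (Φ Ψ : Matrix κ ι R) (u : ι → N) : mv (Φ - Ψ) u = mv Φ u - mv Ψ u := by
  funext l
  simp only [mv_apply, Matrix.sub_apply, sub_smul, Finset.sum_sub_distrib, Pi.sub_apply]
omit [Fintype κ] in
lemma mv_zero (Φ : Matrix κ ι R) : mv Φ (0 : ι → N) = 0 := by
  funext l
  simp [mv_apply]
omit [Fintype κ] in
lemma mv_smul (Φ : Matrix κ ι R) (r : R) (u : ι → N) : mv Φ (r • u) = r • mv Φ u := by
  funext l
  simp only [mv_apply, Pi.smul_apply, Finset.smul_sum]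
  exact Finset.sum_congr rfl fun i _ => smul_comm _ _ _
lemma mv_diag [DecidableEq ι] (r : R) (u : ι → N) :
    mv (Matrix.diagonal fun _ => r) u = r • u := by
  funext l
  rw [mv_apply, Finset.sum_eq_single l]
  · simp
  · intro i _ hi
    simp [Matrix.diagonal_apply_ne _ hi.symm]
  · simp
omit [Fintype κ] in
lemma map_mv (f : N →ₗ[R] N') (Φ : Matrix κ ι R) (u : ι → N) (j : κ) :
    f (mv Φ u j) = mv Φ (fun i => f (u i)) j := by
  simp only [mv_apply, map_sum, map_smul]
lemma mat_eq_mv (a : ι → D) (b : κ → D) (Φ : Matrix κ ι R) (M : GM) (u : (pw a M).M) :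
    mat a b Φ M u = (mv (N := M.M) Φ u : κ → M.M) := rfl

omit [Fintype κ] in
lemma mev_add' (x : Pt) (Φ Ψ : Matrix κ ι R) (v : ι → ℂ) :
    mev x (Φ + Ψ) v = mev x Φ v + mev x Ψ v := by
  funext j
  simp only [mev_apply, Matrix.add_apply, map_add, add_mul, Finset.sum_add_distrib, Pi.add_apply]
omit [Fintype κ] in
lemma mev_sub' (x : Pt) (Φ Ψ : Matrix κ ι R) (v : ι → ℂ) :
    mev x (Φ - Ψ) v = mev x Φ v - mev x Ψ v := by
  funext j
  simp only [mev_apply, Matrix.sub_apply, map_sub, sub_mul, Finset.sum_sub_distrib, Pi.sub_apply]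
lemma mev_diag' [DecidableEq ι] (x : Pt) (r : R) (v : ι → ℂ) :
    mev x (Matrix.diagonal fun _ => r) v = eval x r • v := by
  funext l
  rw [mev_apply, Finset.sum_eq_single l]
  · simp
  · intro i _ hi
    simp [Matrix.diagonal_apply_ne _ hi.symm]
  · simp
omit [Fintype κ] in
lemma mev_kill' (B : Finset ℕ) (x : Pt) (Φ : Matrix κ ι R) (v : ι → ℂ) :
    mev x (Φ.map (kill B)) v = mev (restr B x) Φ v := by
  funext j
  simp only [mev_apply, Matrix.map_apply, eval_kill]

/-- the tuple `u` lies in `A ⊗ N` -/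
def Bun.Act (A : Bun X) (u : A.ι → N) : Prop := ∀ a : A.ι → R, A.IsCov a → ∑ i, a i • u i = 0

namespace Bun.Act
variable {A B : Bun X} {u : A.ι → N}

omit [Fintype κ] in
lemma mv_eq_zero (hu : A.Act u) {Φ : Matrix κ A.ι R}
    (hΦ : ∀ x ∈ X.pts, ∀ v ∈ A.L x, mev x Φ v = 0) : mv Φ u = 0 :=
  funext fun j => hu (Φ j) fun x hx v hv => by
    have := congrFun (hΦ x hx v hv) j
    rwa [mev_apply] at this
omit [Fintype κ] in
lemma mv_eq (hu : A.Act u) {Φ Ψ : Matrix κ A.ι R}
    (h : ∀ x ∈ X.pts, ∀ v ∈ A.L x, mev x Φ v = mev x Ψ v) : mv Φ u = mv Ψ u := by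
  rw [← sub_eq_zero, ← mv_sub]
  exact hu.mv_eq_zero fun x hx v hv => by rw [mev_sub', h x hx v hv, sub_self]
lemma mv_eq_smul (hu : A.Act u) {Φ : Matrix A.ι A.ι R} {r : R}
    (h : ∀ x ∈ X.pts, ∀ v ∈ A.L x, mev x Φ v = eval x r • v) : mv Φ u = r • u := by
  rw [← mv_diag]
  exact hu.mv_eq fun x hx v hv => by rw [mev_diag', h x hx v hv]
lemma map (hu : A.Act u) {Φ : Matrix B.ι A.ι R}
    (h : ∀ x ∈ X.pts, ∀ v ∈ A.L x, mev x Φ v ∈ B.L x) : B.Act (mv Φ u) := by
  intro b hb
  have h1 := congrFun (mv_mul (Matrix.of fun (_ : Unit) j => b j) Φ u) ()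
  refine h1.symm.trans (congrFun (hu.mv_eq_zero fun x hx v hv => ?_) ())
  funext l
  rw [mev_mul, mev_apply]
  exact hb x hx _ (h x hx v hv)
lemma lin (hu : A.Act u) (f : N →ₗ[R] N') : A.Act fun i => f (u i) := fun a ha => by
  have := congrArg f (hu a ha)
  simpa only [map_sum, map_smul, map_zero] using this
lemma of_inj {f : N →ₗ[R] N'} (hf : Function.Injective f) (hu : A.Act fun i => f (u i)) :
    A.Act u := fun a ha => hf (by
  have := hu a ha
  simpa only [map_sum, map_smul, map_zero] using this)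
lemma smul (hu : A.Act u) (r : R) : A.Act (r • u) := hu.lin (LinearMap.lsmul R N r)
lemma add {w : A.ι → N} (hu : A.Act u) (hw : A.Act w) : A.Act (u + w) := fun a ha => by
  simp only [Pi.add_apply, smul_add, Finset.sum_add_distrib, hu a ha, hw a ha, add_zero]
lemma zero : A.Act (0 : A.ι → N) := fun a _ => by simp
end Bun.Act

lemma Bun.act_mv (A : Bun X) (hN : ∀ r ∈ X.I, ∀ m : N, r • m = 0) {Φ : Matrix A.ι κ R}
    (hΦ : ∀ x ∈ X.pts, ∀ v, mev x Φ v ∈ A.L x) (u : κ → N) : A.Act (mv Φ u) := by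
  classical
  intro b hb
  have h1 := congrFun (mv_mul (Matrix.of fun (_ : Unit) j => b j) Φ u) ()
  refine h1.symm.trans (Finset.sum_eq_zero fun j _ => hN _ (fun x hx => ?_) _)
  have h2 := hb x hx _ (hΦ x hx (Pi.single j 1))
  simp only [mev_apply, Pi.single_apply, mul_ite, mul_one, mul_zero, Finset.sum_ite_eq',
    Finset.mem_univ, if_true] at h2
  simpa [Matrix.mul_apply] using h2

lemma Bun.act_top (A : Bun X) (hA : ∀ x ∈ X.pts, A.L x = ⊤) (hN : ∀ r ∈ X.I, ∀ m : N, r • m = 0)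
    (u : A.ι → N) : A.Act u := by
  have := A.act_mv hN (Φ := Matrix.diagonal fun _ => 1) (fun x hx v => by rw [hA x hx]; trivial) u
  rwa [mv_diag, one_smul] at this

/-- local projector -/
lemma Bun.exists_proj (A : Bun X) {x : Pt} (hx : x ∈ X.pts) : ∃ (r : R) (P : Matrix A.ι A.ι R),
    eval x r ≠ 0 ∧ (∀ y ∈ X.pts, ∀ v, mev y P v ∈ A.L y) ∧
      ∀ y ∈ X.pts, ∀ v ∈ A.L y, mev y P v = eval y r • v := by
  obtain ⟨r, P, hr, h⟩ := A.alg x hx
  exact ⟨r, P, hr, fun y hy => (h y hy).1, fun y hy => (h y hy).2⟩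

lemma Bun.IsCov.gam {A : Bun X} {a : A.ι → R} (ha : A.IsCov a) :
    ∃ b : A.ι → R, A.IsCov b ∧ ∀ i, gam (b i) = C (chi (-A.deg i)) * a i := by
  choose b hb using fun i => gam_surj (C (chi (-A.deg i)) * a i)
  refine ⟨b, fun x hx v hv => ?_, hb⟩
  obtain ⟨y, rfl⟩ := gpt_surj x
  have hy := X.mem_of_gpt hx
  have h1 : (fun i => chi (-A.deg i) * v i) ∈ A.L y := by
    rw [A.eqv y hy]
    convert hv using 2 with i
    rw [← mul_assoc, ← chi_add, add_neg_cancel, chi_zero, one_mul]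
  refine Eq.trans (Finset.sum_congr rfl fun i _ => ?_) (ha y hy _ h1)
  rw [← eval_gam, hb, map_mul, eval_C]
  ring

lemma Bun.IsCov.kill {A : Bun X} {a : A.ι → R} (ha : A.IsCov a) (h : Proj Y X) :
    (A.pull h).IsCov fun i => kill X.B (a i) := fun y hy v hv => by
  simp only [eval_kill]
  exact ha _ (h.map y hy) v hv

lemma Bun.Act.tens_left {A B : Bun X} {w : A.ι × B.ι → N} (hw : (A.tens B).Act w) (j : B.ι) :
    A.Act fun i => w (i, j) := by
  intro a ha
  have := hw (fun p => if p.2 = j then a p.1 else 0) fun x hx v hv => by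
    have h1 := ha x hx _ ((mem_tens.1 hv).1 j)
    refine Eq.trans ?_ h1
    change ∑ p : A.ι × B.ι, _ = _
    rw [Fintype.sum_prod_type]
    refine Finset.sum_congr rfl fun i _ => ?_
    simp [apply_ite (eval x)]
  refine Eq.trans ?_ this
  change _ = ∑ p : A.ι × B.ι, _
  rw [Fintype.sum_prod_type]
  refine Finset.sum_congr rfl fun i _ => ?_
  simp [ite_smul]

lemma Bun.Act.tens_right {A B : Bun X} {w : A.ι × B.ι → N} (hw : (A.tens B).Act w) (i : A.ι) :
    B.Act fun j => w (i, j) := by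
  intro a ha
  have := hw (fun p => if p.1 = i then a p.2 else 0) fun x hx v hv => by
    have h1 := ha x hx _ ((mem_tens.1 hv).2 i)
    refine Eq.trans ?_ h1
    change ∑ p : A.ι × B.ι, _ = _
    rw [Fintype.sum_prod_type_right]
    refine Finset.sum_congr rfl fun j _ => ?_
    simp [apply_ite (eval x)]
  refine Eq.trans ?_ this
  change _ = ∑ p : A.ι × B.ι, _
  rw [Fintype.sum_prod_type_right]
  refine Finset.sum_congr rfl fun j _ => ?_
  simp [ite_smul]

/-- locally `A ⊗ (B ⊗ N) = (A ⊗ B) ⊗ N` -/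
lemma Bun.exists_tens (A B : Bun X) {x : Pt} (hx : x ∈ X.pts) : ∃ r : R, eval x r ≠ 0 ∧
    ∀ {N : Type} [AddCommGroup N] [Module R N], (∀ r ∈ X.I, ∀ m : N, r • m = 0) →
      ∀ w : A.ι × B.ι → N, (∀ j, A.Act fun i => w (i, j)) → (∀ i, B.Act fun j => w (i, j)) →
        (A.tens B).Act (r • w) := by
  obtain ⟨r, P, hr, h1, h2⟩ := A.exists_proj hx
  obtain ⟨s, Q, hs, h3, h4⟩ := B.exists_proj hx
  refine ⟨r * s, by rw [map_mul]; exact mul_ne_zero hr hs, fun {N} _ _ hN w hA hB => ?_⟩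
  let T : Matrix (A.ι × B.ι) (A.ι × B.ι) R := fun p q => P p.1 q.1 * Q p.2 q.2
  have h5 : mv T w = (r * s) • w := by
    funext p
    have h6 : ∀ i, ∑ j, Q p.2 j • w (i, j) = s • w (i, p.2) := fun i =>
      congrFun ((hB i).mv_eq_smul h4) p.2
    have h7 : ∑ i, P p.1 i • w (i, p.2) = r • w (p.1, p.2) :=
      congrFun ((hA p.2).mv_eq_smul h2) p.1
    rw [mv_apply, Fintype.sum_prod_type, Pi.smul_apply, mul_comm, mul_smul, ← h7,
      Finset.smul_sum]
    refine Finset.sum_congr rfl fun i _ => ?_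
    simp only [T, mul_smul, ← Finset.smul_sum, h6]
    exact smul_comm _ _ _
  rw [← h5]
  refine (A.tens B).act_mv hN (Φ := T) (fun y hy v => mem_tens.2 ⟨fun j => ?_, fun i => ?_⟩) w
  · convert h1 y hy fun i => ∑ l, eval y (Q j l) * v (i, l) using 2 with i
    refine (mev_apply y T v (i, j)).trans ?_
    rw [mev_apply, Fintype.sum_prod_type]
    simp only [T, map_mul, Finset.mul_sum, mul_assoc]
  · convert h3 y hy fun l => ∑ m, eval y (P i m) * v (m, l) using 2 with j
    refine (mev_apply y T v (i, j)).trans ?_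
    rw [mev_apply, Fintype.sum_prod_type_right]
    simp only [T, map_mul, Finset.mul_sum]
    exact Finset.sum_congr rfl fun _ _ => Finset.sum_congr rfl fun _ _ => by ring
end mv

section piece
variable {M N : GM} {B : Finset ℕ}

lemma GM.Deg0.mem_pieceSub {f : M.M →ₗ[R] N.M} (hf : Deg0 f) {m : M.M}
    (hm : m ∈ pieceSub B M) : f m ∈ pieceSub B N :=
  GM.mem_pieceSub.2 fun d hd => by rw [← hf.map_cp, GM.mem_pieceSub.1 hm d hd, map_zero]
lemma GM.Deg0.mem_pieceSub_of_inj {f : M.M →ₗ[R] N.M} (hf : Deg0 f) (hi : Function.Injective f)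
    {m : M.M} (hm : f m ∈ pieceSub B N) : m ∈ pieceSub B M :=
  GM.mem_pieceSub.2 fun d hd => hi (by rw [hf.map_cp, GM.mem_pieceSub.1 hm d hd, map_zero])
lemma mem_pieceSub_pw {ι : Type} [Fintype ι] {deg : ι → D} (hd : ∀ i, deg i ∈ DS B)
    {u : ι → M.M} : (u : (pw deg M).M) ∈ pieceSub B (pw deg M) ↔ ∀ i, u i ∈ pieceSub B M := by
  classical
  constructor
  · intro hu i
    induction hu using AddSubgroup.closure_induction with
    | mem u hu =>
      obtain ⟨d, h1, h2⟩ := hu
      exact AddSubgroup.subset_closure ⟨d + deg i, add_mem h1 (hd i), (pw_gr deg).1 h2 i⟩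
    | zero => exact zero_mem _
    | add a b _ _ ha hb => exact add_mem ha hb
    | neg a _ ha => exact neg_mem ha
  · intro hu
    rw [← Finset.univ_sum_single u]
    refine sum_mem (S := pieceSub B (pw deg M)) fun i _ => ?_
    have key : ∀ m ∈ pieceSub B M,
        ((Pi.single i m : ι → M.M) : (pw deg M).M) ∈ pieceSub B (pw deg M) := by
      intro m hm
      induction hm using AddSubgroup.closure_induction with
      | mem m hm =>
        obtain ⟨d, h1, h2⟩ := hm
        refine AddSubgroup.subset_closure ⟨d - deg i, sub_mem h1 (hd i), (pw_gr deg).2 fun j => ?_⟩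
        by_cases hj : j = i
        · subst hj
          simpa using h2
        · simp [hj]
      | zero => rw [Pi.single_zero]; exact zero_mem _
      | add a b _ _ ha hb => rw [Pi.single_add]; exact add_mem ha hb
      | neg a _ ha => rw [Pi.single_neg]; exact neg_mem ha
    exact key _ (hu i)
/-- the underlying element as an additive map -/
def PieceT.valHom (B : Finset ℕ) (M : GM) : PieceT B M →+ M.M where
  toFun := PieceT.val
  map_zero' := rfl
  map_add' _ _ := rfl
lemma val_mv {ι κ : Type} [Fintype ι] (Φ : Matrix κ ι R) (u : ι → PieceT B M) (j : κ) :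
    (mv Φ u j).val = mv (Φ.map (kill B)) (fun i => (u i).val) j :=
  map_sum (PieceT.valHom B M) _ _
end piece

end Crest.Agent.N265
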