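import Crest.Agent.N265.G.Push

/-! # The external product `O_S ⊗_ℂ M` of a graded module with a structure sheaf -/

set_option autoImplicit false
noncomputable section
open MvPolynomial
open scoped TensorProduct

namespace Crest.Agent.N265.Bx
open GM
variable {S : Spc} {M N : GM}

/-- coordinate ring -/
abbrev A (S : Spc) : Type := R ⧸ S.I
/-- kill the variables inside the blocks `B` -/
def kc (B : Finset ℕ) : R →ₐ[ℂ] R := aeval fun v => if v.1 ∈ B then 0 else X v
/-- split the variables -/
def sig (S : Spc) : R →ₐ[ℂ] A S ⊗[ℂ] R := aeval (S₁ := A S ⊗[ℂ] R) fun v : Var =>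
  if v.1 ∈ S.B then Ideal.Quotient.mk S.I (X v) ⊗ₜ[ℂ] (1 : R) else (1 : A S) ⊗ₜ[ℂ] (X v : R)
/-- the carrier -/
def T (S : Spc) (M : GM) : Type := A S ⊗[ℂ] M.M
instance : AddCommGroup (T S M) := inferInstanceAs (AddCommGroup (A S ⊗[ℂ] M.M))
/-- the action of `A ⊗ R` -/
def rho (S : Spc) (M : GM) : A S ⊗[ℂ] R →ₐ[ℂ] Module.End ℂ (A S ⊗[ℂ] M.M) :=
  Algebra.TensorProduct.lift
    ((Module.End.rTensorAlgHom ℂ (A S) M.M).comp (Algebra.lmul ℂ (A S)))
    ((Module.End.lTensorAlgHom ℂ M.M (A S)).comp (Algebra.lsmul ℂ ℂ M.M)) fun _ _ =>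
      TensorProduct.ext' fun _ _ => rfl
lemma rho_tmul (a a' : A S) (r : R) (m : M.M) :
    rho S M (a ⊗ₜ r) (a' ⊗ₜ m) = (a * a') ⊗ₜ (r • m) := rfl
instance : Module R (T S M) :=
  Module.compHom (A S ⊗[ℂ] M.M) ((rho S M).comp (sig S)).toRingHom
/-- pure tensors -/
def tm (S : Spc) (a : R) (m : M.M) : T S M := (Ideal.Quotient.mk S.I a ⊗ₜ[ℂ] m : A S ⊗[ℂ] M.M)
lemma tm_add_left (a b : R) (m : M.M) : tm S (a + b) m = tm S a m + tm S b m := by
  unfold tm; rw [map_add, TensorProduct.add_tmul]; rfl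
lemma tm_add_right (a : R) (m n : M.M) : tm S a (m + n) = tm S a m + tm S a n :=
  TensorProduct.tmul_add _ _ _
lemma tm_zero (a : R) : tm S a (0 : M.M) = 0 := TensorProduct.tmul_zero _ _
lemma tm_of_mem {a : R} (h : a ∈ S.I) (m : M.M) : tm S a m = 0 := by
  unfold tm; rw [Ideal.Quotient.eq_zero_iff_mem.2 h, TensorProduct.zero_tmul]; rfl
lemma tm_sum_right {ι : Type*} (a : R) (s : Finset ι) (m : ι → M.M) :
    tm S a (∑ i ∈ s, m i) = ∑ i ∈ s, tm S a (m i) := TensorProduct.tmul_sum _ _ _
lemma tm_sum_left {ι : Type*} (s : Finset ι) (a : ι → R) (m : M.M) :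
    tm S (∑ i ∈ s, a i) m = ∑ i ∈ s, tm S (a i) m := by
  unfold tm; rw [map_sum]; exact TensorProduct.sum_tmul _ _ _
lemma T.ind {P : T S M → Prop} (h0 : P 0) (h1 : ∀ a m, P (tm S a m))
    (h2 : ∀ s t, P s → P t → P (s + t)) (t : T S M) : P t := by
  induction t using TensorProduct.induction_on with
  | zero => exact h0
  | tmul a m => obtain ⟨a, rfl⟩ := Ideal.Quotient.mk_surjective a; exact h1 a m
  | add s t hs ht => exact h2 s t hs ht
lemma sub_kill_mem (S : Spc) (r : R) : kill S.B r - r ∈ S.I := fun x hx => by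
  rw [map_sub, eval_kill, S.restr_eq hx, sub_self]
/-- induction over homogeneous pure tensors -/
lemma T.ind_h {P : T S M → Prop} (h0 : P 0)
    (h1 : ∀ d ∈ DS S.B, ∀ e a m, Hmg d a → m ∈ M.gr e → P (tm S a m))
    (h2 : ∀ s t, P s → P t → P (s + t)) (t : T S M) : P t := by
  refine T.ind h0 (fun a m => ?_) h2 t
  obtain ⟨s, hs, -⟩ := exists_sum_hc a
  obtain ⟨s', hs', -⟩ := M.exists_sum_cp m
  rw [← hs, tm_sum_left]
  refine Finset.sum_induction _ P h2 h0 fun d _ => ?_
  by_cases hd : d ∈ DS S.B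
  · rw [← hs', tm_sum_right]
    exact Finset.sum_induction _ P h2 h0 fun e _ => h1 d hd e _ _ (hc_hmg d a) (M.cp_mem e m)
  · rw [tm_of_mem]
    · exact h0
    · have := sub_kill_mem S (hc d a)
      rw [(hc_hmg d a).kill_eq_zero hd, zero_sub] at this
      exact neg_mem_iff.1 this

lemma X_smul_in {v : Var} (hv : v.1 ∈ S.B) (a : R) (m : M.M) :
    (X v : R) • tm S a m = tm S (X v * a) m := by
  change rho S M (sig S (X v)) (_ ⊗ₜ _) = _
  rw [sig, aeval_X, if_pos hv, rho_tmul, one_smul, ← map_mul]; rfl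
lemma X_smul_out {v : Var} (hv : v.1 ∉ S.B) (a : R) (m : M.M) :
    (X v : R) • tm S a m = tm S a ((X v : R) • m) := by
  change rho S M (sig S (X v)) (_ ⊗ₜ _) = _
  rw [sig, aeval_X, if_neg hv, rho_tmul, one_mul]; rfl
lemma C_smul_right (c : ℂ) (a : R) (m : M.M) :
    (C c : R) • tm S a m = tm S a ((C c : R) • m) := by
  change rho S M (sig S (algebraMap ℂ R c)) (_ ⊗ₜ _) = _
  rw [AlgHom.commutes, AlgHom.commutes, Module.algebraMap_end_apply, ← TensorProduct.tmul_smul]
  rfl
lemma C_smul_left (c : ℂ) (a : R) (m : M.M) : (C c : R) • tm S a m = tm S (C c * a) m := by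
  change rho S M (sig S (algebraMap ℂ R c)) (_ ⊗ₜ _) = _
  rw [AlgHom.commutes, AlgHom.commutes, Module.algebraMap_end_apply, TensorProduct.smul_tmul',
    ← smul_eq_C_mul]
  rfl
lemma kill_smul_tm (r a : R) (m : M.M) : kill S.B r • tm S a m = tm S (kill S.B r * a) m := by
  induction r using MvPolynomial.induction_on generalizing a with
  | C c => simpa [kill] using C_smul_left c a m
  | add p q hp hq => rw [map_add, add_smul, hp, hq, add_mul, tm_add_left]
  | mul_X p v hp =>
    rw [map_mul, mul_smul]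
    by_cases hv : v.1 ∈ S.B
    · rw [show kill S.B (X v) = X v by simp [kill, hv], X_smul_in hv, hp, mul_assoc]
    · rw [show kill S.B (X v) = 0 by simp [kill, hv]]; simp [tm_of_mem (zero_mem _)]
lemma kill_smul_tm' (r a : R) (m : M.M) : kill S.B r • tm S a m = tm S (r * a) m := by
  rw [kill_smul_tm, ← sub_add_cancel (kill S.B r) r, add_mul, tm_add_left,
    tm_of_mem (Ideal.mul_mem_right _ _ (sub_kill_mem S r)), zero_add]
/-- polynomials in variables outside `S` act on the module -/
lemma aeval_smul_tm (f : Var → R) (hf : ∀ v, f v = 0 ∨ (f v = X v ∧ v.1 ∉ S.B)) (r a : R)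
    (m : M.M) : aeval f r • tm S a m = tm S a (aeval f r • m) := by
  induction r using MvPolynomial.induction_on generalizing m with
  | C c => simpa using C_smul_right c a m
  | add p q hp hq => rw [map_add, add_smul, hp, hq, add_smul, tm_add_right]
  | mul_X p v hp =>
    rw [map_mul, mul_smul, mul_smul, aeval_X]
    rcases hf v with h | ⟨h, hv⟩
    · simp [h, tm_zero]
    · rw [h, X_smul_out hv, hp]
lemma kc_smul_tm (r a : R) (m : M.M) : kc S.B r • tm S a m = tm S a (kc S.B r • m) :=
  aeval_smul_tm _ (fun v => by by_cases h : v.1 ∈ S.B <;> simp [h]) r a m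
lemma kill_smul_out {B : Finset ℕ} (hB : Disjoint B S.B) (r a : R) (m : M.M) :
    kill B r • tm S a m = tm S a (kill B r • m) :=
  aeval_smul_tm _ (fun v => by
    by_cases h : v.1 ∈ B
    · simp [h, Finset.disjoint_left.1 hB h]
    · simp [h]) r a m

/-- it suffices to check semilinearity on constants, variables and pure tensors -/
lemma smul_ind {R' P : Type} [Ring R'] [AddCommGroup P] [Module R' P] (F : T S M →+ P)
    (θ : R →+* R')
    (hC : ∀ c a m, F ((C c : R) • tm S a m) = θ (C c) • F (tm S a m))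
    (hX : ∀ v a m, F ((X v : R) • tm S a m) = θ (X v) • F (tm S a m)) (r : R) (t : T S M) :
    F (r • t) = θ r • F t := by
  have key : ∀ r : R, (∀ a m, F (r • tm S a m) = θ r • F (tm S a m)) →
      ∀ t, F (r • t) = θ r • F t := fun r h t => by
    induction t using T.ind with
    | h0 => simp
    | h1 a m => exact h a m
    | h2 s t hs ht => rw [smul_add, map_add, map_add, smul_add, hs, ht]
  induction r using MvPolynomial.induction_on generalizing t with
  | C c => exact key _ (hC c) t
  | add p q hp hq => rw [add_smul, map_add, map_add, add_smul, hp, hq]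
  | mul_X p v hp => rw [mul_smul, hp, key _ (hX v), map_mul, mul_smul]

/-- `1 ⊗ f` for a `ℂ`-linear map -/
def lt (S : Spc) (f : M.M →ₗ[ℂ] N.M) : T S M →+ T S N := (f.lTensor (A S)).toAddMonoidHom
lemma lt_tm (f : M.M →ₗ[ℂ] N.M) (a : R) (m : M.M) : lt S f (tm S a m) = tm S a (f m) := rfl
/-- functoriality -/
def bmap (S : Spc) (f : M.M →ₗ[R] N.M) : T S M →ₗ[R] T S N where
  toFun := lt S (f.restrictScalars ℂ)
  map_add' := map_add _
  map_smul' := smul_ind _ (RingHom.id R)
    (fun c a m => by simp only [C_smul_right, lt_tm, RingHom.id_apply]; simp)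
    (fun v a m => by
      by_cases hv : v.1 ∈ S.B
      · simp only [X_smul_in hv, lt_tm, RingHom.id_apply]
      · simp only [X_smul_out hv, lt_tm, RingHom.id_apply]; simp)
lemma bmap_tm (f : M.M →ₗ[R] N.M) (a : R) (m : M.M) : bmap S f (tm S a m) = tm S a (f m) := rfl

/-- a jointly injective family stays jointly injective after tensoring -/
lemma eq_zero_of_lTensor {U V : Type} [AddCommGroup U] [Module ℂ U] [AddCommGroup V] [Module ℂ V]
    {ι : Type} {W : ι → Type} [∀ i, AddCommGroup (W i)] [∀ i, Module ℂ (W i)]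
    (φ : ∀ i, V →ₗ[ℂ] W i) (hφ : ∀ v, (∀ i, φ i v = 0) → v = 0) (t : U ⊗[ℂ] V)
    (h : ∀ i, (φ i).lTensor U t = 0) : t = 0 := by
  let b := Module.Free.chooseBasis ℂ U
  obtain ⟨c, rfl⟩ := TensorProduct.eq_repr_basis_left b t
  have : c = 0 := Finsupp.ext fun k => hφ _ fun i => by
    have h1 := TensorProduct.sum_tmul_basis_left_eq_zero b (c.mapRange (φ i) (map_zero _)) (by
      rw [Finsupp.sum_mapRange_index (by simp), ← h i, map_finsuppSum]; rfl)
    simpa using DFunLike.congr_fun h1 k
  simp [this]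

/-- the grading on the coordinate ring -/
def gA (S : Spc) : A S →ₐ[ℂ] A S := Ideal.quotientMapₐ S.I gamA fun _ h => S.gam_mem_I h
/-- the grading on a module, as a `ℂ`-linear map -/
def gC (M : GM) : M.M →ₗ[ℂ] M.M where
  toFun := M.g
  map_add' := map_add _
  map_smul' c m := by simp [c_smul]
/-- the grading on the external product -/
def gT (S : Spc) (M : GM) : T S M →+ T S M :=
  (TensorProduct.map (gA S).toLinearMap (gC M)).toAddMonoidHom
lemma gT_tm (a : R) (m : M.M) : gT S M (tm S a m) = tm S (gam a) (M.g m) := rfl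
lemma gT_hmg {d e : D} {a : R} {m : M.M} (ha : Hmg d a) (hm : m ∈ M.gr e) :
    gT S M (tm S a m) = (C (chi (d + e)) : R) • tm S a m := by
  rw [gT_tm, ha, mem_gr.1 hm, ← C_smul_left, ← C_smul_right, chi_add, map_mul, mul_smul]

lemma noeth_of_fin {P : Type} [AddCommGroup P] [Module R P] [Module.Finite R P] (V : Finset Var)
    (hV : ∀ v ∉ V, ∀ m : P, (X v : R) • m = 0) : IsNoetherian R P := by
  have hJ : Module.IsTorsionBySet R P (Module.annihilator R P) :=
    Module.isTorsionBySet_annihilator R P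
  have := noeth_quot (Module.annihilator R P) V fun v hv => Module.mem_annihilator.2 (hV v hv)
  let _ := hJ.module
  have : RingHomSurjective (Ideal.Quotient.mk (Module.annihilator R P)) :=
    ⟨Ideal.Quotient.mk_surjective⟩
  have : Module.Finite (R ⧸ Module.annihilator R P) P :=
    Module.Finite.of_surjective hJ.semilinearMap Function.surjective_id
  exact (LinearMap.isNoetherian_iff_of_bijective hJ.semilinearMap Function.bijective_id).2
    inferInstance

/-- the variables of `S` act by zero on `M` -/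
def Av (S : Spc) (M : GM) : Prop := ∀ v : Var, v.1 ∈ S.B → ∀ m : M.M, (X v : R) • m = 0
lemma Av.kc_smul (h : Av S M) (r : R) (m : M.M) : kc S.B r • m = r • m := by
  induction r using MvPolynomial.induction_on generalizing m with
  | C c => simp [kc]
  | add p q hp hq => rw [map_add, add_smul, add_smul, hp, hq]
  | mul_X p v hp =>
    rw [map_mul, mul_smul, mul_smul, hp]
    by_cases hv : v.1 ∈ S.B
    · simp [kc, hv, h v hv]
    · simp [kc, hv]
lemma av_of_degIn {B : Finset ℕ} (h : M.DegIn B) (hB : Disjoint B S.B) : Av S M :=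
  fun _ hv m => h.X_smul (Finset.disjoint_right.1 hB hv) m
lemma Av.of_inj {f : M.M →ₗ[R] N.M} (hf : Function.Injective f) (h : Av S N) : Av S M :=
  fun v hv m => hf (by rw [map_smul, h v hv, map_zero])
lemma Av.of_surj {f : M.M →ₗ[R] N.M} (hf : Function.Surjective f) (h : Av S M) : Av S N :=
  fun v hv m => by obtain ⟨m, rfl⟩ := hf m; rw [← map_smul, h v hv, map_zero]
lemma Av.tm_smul (h : Av S M) (r a : R) (m : M.M) : tm S a (r • m) = kc S.B r • tm S a m := by
  rw [kc_smul_tm, h.kc_smul]

lemma exists_V (S : Spc) (M : GM) : ∃ V : Finset Var, ∀ v ∉ V, ∀ t : T S M, (X v : R) • t = 0 := by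
  classical
  obtain ⟨V, hV⟩ := M.fin
  obtain ⟨W, -, hW⟩ := S.exists_V
  refine ⟨V ∪ W, fun v hv t => ?_⟩
  rw [Finset.mem_union, not_or] at hv
  induction t using T.ind with
  | h0 => exact smul_zero _
  | h1 a m =>
    by_cases h : v.1 ∈ S.B
    · rw [X_smul_in h, tm_of_mem (Ideal.mul_mem_right _ _ (hW v hv.2))]
    · rw [X_smul_out h, hV v hv.1, tm_zero]
  | h2 s t hs ht => rw [smul_add, hs, ht, add_zero]

lemma Av.finite (h : Av S M) : Module.Finite R (T S M) := by
  classical
  obtain ⟨s, hs⟩ := (inferInstance : Module.Finite R M.M).fg_top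
  refine ⟨s.image (tm S 1), eq_top_iff.2 fun t ht => ?_⟩
  clear ht
  induction t using T.ind with
  | h0 => exact zero_mem _
  | h2 s t hs ht => exact add_mem hs ht
  | h1 a m =>
    have hm : m ∈ Submodule.span R (s : Set M.M) := hs ▸ Submodule.mem_top
    induction hm using Submodule.span_induction with
    | mem m hm =>
      rw [← mul_one a, ← kill_smul_tm']
      exact Submodule.smul_mem _ _ (Submodule.subset_span (by simpa using ⟨m, hm, rfl⟩))
    | zero => rw [tm_zero]; exact zero_mem _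
    | add m n _ _ hm hn => rw [tm_add_right]; exact add_mem hm hn
    | smul r m _ hm => rw [h.tm_smul]; exact Submodule.smul_mem _ _ hm

/-- the external product -/
def bx (S : Spc) (M : GM) (h : Av S M) : GM where
  M := T S M
  noeth := by
    have := h.finite
    obtain ⟨V, hV⟩ := exists_V S M
    exact noeth_of_fin V hV
  fin := exists_V S M
  g := { toFun := gT S M
         map_add' := map_add _
         map_smul' := smul_ind _ gam
          (fun c a m => by simp only [C_smul_right, gT_tm, gam_C, LinearMap.map_smulₛₗ])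
          (fun v a m => by
            by_cases hv : v.1 ∈ S.B
            · simp only [X_smul_in hv, gT_tm, map_mul, gam_X, mul_smul, C_smul_left, mul_assoc]
            · simp only [X_smul_out hv, gT_tm, gam_X, mul_smul, C_smul_right,
                LinearMap.map_smulₛₗ]) }
  diag := fun t => by
    induction t using T.ind_h with
    | h0 => exact zero_mem _
    | h1 d _ e a m ha hm => exact AddSubgroup.subset_closure ⟨d + e, gT_hmg ha hm⟩
    | h2 s t hs ht => exact add_mem hs ht

lemma tm_mem_gr (h : Av S M) {d e : D} {a : R} {m : M.M} (ha : Hmg d a) (hm : m ∈ M.gr e) :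
    (tm S a m : (bx S M h).M) ∈ (bx S M h).gr (d + e) := gT_hmg ha hm
lemma deg0_bmap (h : Av S M) (h' : Av S N) {f : M.M →ₗ[R] N.M} (hf : Deg0 f) :
    Deg0 (M := bx S M h) (N := bx S N h') (bmap S f) := by
  intro t
  change bmap S f (gT S M t) = gT S N (bmap S f t)
  induction t using T.ind with
  | h0 => simp
  | h1 a m => rw [gT_tm, bmap_tm, bmap_tm, gT_tm, hf]
  | h2 s t hs ht => simp only [map_add, hs, ht]
lemma bmap_inj {f : M.M →ₗ[R] N.M} (hf : Function.Injective f) :
    Function.Injective (bmap S f) :=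
  Module.Flat.lTensor_preserves_injective_linearMap (M := A S) (f.restrictScalars ℂ) hf
lemma ses_bx {M₁ M₂ M₃ : GM} (h : SES M₁ M₂ M₃) (h₁ h₂ h₃) :
    SES (bx S M₁ h₁) (bx S M₂ h₂) (bx S M₃ h₃) := by
  obtain ⟨f, p, hf, hp, hi, he, hs⟩ := h
  exact ⟨bmap S f, bmap S p, deg0_bmap h₁ h₂ hf, deg0_bmap h₂ h₃ hp, bmap_inj hi,
    Module.Flat.lTensor_exact (A S) (f := f.restrictScalars ℂ) (g := p.restrictScalars ℂ) he,
    LinearMap.lTensor_surjective (A S) (g := p.restrictScalars ℂ) hs⟩

lemma ext_g (M : GM) (g' fin' diag') (h : g' = M.g) :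
    (@GM.mk M.M M.acg M.mod M.noeth fin' g' diag') = M := by subst h; rfl
lemma bx_shift (h : Av S M) (d : D) : bx S (M.shift d) h = (bx S M h).shift d := by
  refine ext_g ((bx S M h).shift d) (bx S (M.shift d) h).g (bx S (M.shift d) h).fin
    (bx S (M.shift d) h).diag (LinearMap.ext fun t => ?_)
  change gT S (M.shift d) t = (C (chi (-d)) : R) • gT S M t
  induction t using T.ind (M := M) with
  | h0 => exact (map_zero _).trans (by rw [map_zero, smul_zero]; rfl)
  | h1 a m => exact (C_smul_right (M := M) _ _ _).symm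
  | h2 s t hs ht => exact (map_add _ _ _).trans (by rw [hs, ht, map_add, smul_add]; rfl)

variable {X : Spc}
lemma degIn_bx {B : Finset ℕ} (hM : M.DegIn B) (h) : (bx S M h).DegIn (B ∪ S.B) := by
  have key : ∀ t : T S M, (t : (bx S M h).M) ∈ pieceSub (B ∪ S.B) (bx S M h) := fun t => by
    induction t using T.ind_h with
    | h0 => exact zero_mem _
    | h2 s t hs ht => exact add_mem hs ht
    | h1 d hd e a m ha hm =>
      by_cases he : e ∈ DS B
      · exact AddSubgroup.subset_closure ⟨_, add_mem (DS_mono Finset.subset_union_right hd)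
          (DS_mono Finset.subset_union_left he), tm_mem_gr h ha hm⟩
      · rw [hM e he, Submodule.mem_bot] at hm
        rw [hm, tm_zero]; exact zero_mem _
  exact fun d hd => eq_bot_iff.2 fun t ht =>
    ((bx S M h).cp_of_mem ht).symm.trans (mem_pieceSub.1 (key t) d hd)
lemma smul_eq_zero_of {r : R} (h : ∀ a m, r • tm S a m = (0 : T S M)) (t : T S M) :
    r • t = 0 := by
  induction t using T.ind with
  | h0 => exact smul_zero _
  | h1 a m => exact h a m
  | h2 s t hs ht => rw [smul_add, hs, ht, add_zero]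
lemma kill_bx (hX : Disjoint X.B S.B) (hM : M.DegIn X.B) (h) {z : Pt}
    (hz : M.Kill (restr X.B z)) : (bx S M h).Kill z := by
  obtain ⟨r, hr, hk⟩ := hz
  exact ⟨kill X.B r, by rwa [eval_kill], smul_eq_zero_of fun a m => by
    rw [kill_smul_out hX, hM.kill_smul, hk, tm_zero]⟩
lemma on_bx (hX : Disjoint X.B S.B) (hM : M.On X) (h) : (bx S M h).On (X.fib S) := by
  refine ⟨degIn_bx hM.deg h, fun z hz hn => ?_⟩
  by_cases h1 : restr X.B z ∈ X.pts
  swap
  · exact kill_bx hX hM.deg h (hM.supp _ ((rel_restr subset_rfl).2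
      fun b hb => hz b (Finset.mem_union_left _ hb)) h1)
  by_cases h2 : restr S.B z ∈ S.pts
  swap
  · obtain ⟨r, hr, hr'⟩ := Spc.exists_notMem ((rel_restr subset_rfl).2
      fun b hb => hz b (Finset.mem_union_right _ hb)) h2
    exact ⟨kill S.B r, by rwa [eval_kill], smul_eq_zero_of fun a m => by
      rw [kill_smul_tm', tm_of_mem (Ideal.mul_mem_right _ _ hr)]⟩
  have : ∃ v, z v ≠ 0 ∧ v.1 ∉ X.B ∪ S.B := by
    by_contra h3
    push Not at h3
    exact hn ⟨h1, h2, h3⟩
  obtain ⟨v, hv, hv'⟩ := this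
  rw [Finset.mem_union, not_or] at hv'
  exact ⟨MvPolynomial.X v, by simpa using hv, smul_eq_zero_of fun a m => by
    rw [X_smul_out hv'.2, hM.deg.X_smul hv'.1, tm_zero]⟩
lemma irr_bx (hX : Disjoint X.B S.B) (hM : M.On X) (hi : M.Irr X) (h) :
    (bx S M h).Irr (X.fib S) := fun _ hz => kill_bx hX hM.deg h (hi _ hz.1)

end Crest.Agent.N265.Bx
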