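import Crest.Agent.N265.K.Bun0

/-! # Task K2: constructions of bundles and identities in `K X` -/

set_option autoImplicit false
noncomputable section
open MvPolynomial Module

namespace Crest.Agent.N265
open B0
variable {X Y : Spc}

/-- projection of a degree to the blocks `B` -/
def dpr (B : Finset ℕ) : D →+ D :=
  Finsupp.filterAddHom fun i : Option ℕ => ∀ b, i = some b → b ∈ B
lemma dpr_apply (B : Finset ℕ) (d : D) (i : Option ℕ) :
    dpr B d i = if ∀ b, i = some b → b ∈ B then d i else 0 := Finsupp.filter_apply _ _ _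
lemma dpr_mem (B : Finset ℕ) (d : D) : dpr B d ∈ DS B := by
  intro b hb
  simp [dpr_apply, hb]
lemma dpr_of_mem {B : Finset ℕ} {d : D} (h : d ∈ DS B) : dpr B d = d := by
  ext i
  rcases i with _ | b
  · simp [dpr_apply]
  · by_cases hb : b ∈ B
    · simp [dpr_apply, hb]
    · rw [dpr_mem B d b hb, h b hb]

namespace Bun
/-- `⊕ O(deg i)` -/
def triv (X : Spc) {ι : Type} [Fintype ι] [DecidableEq ι] (deg : ι → D)
    (h : ∀ i, deg i ∈ DS X.B) : Bun X :=
  { ι := ι, deg := deg, hdeg := h, L := fun _ => ⊤, eqv := isEqv_top, alg := isAlg_const ⊤ }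
/-- the ambient trivial bundle -/
def amb (A : Bun X) : Bun X := triv X A.deg A.hdeg
/-- another family in the same ambient bundle -/
def re (A : Bun X) (L : Pt → Submodule ℂ (A.ι → ℂ)) (he : IsEqv X A.deg L) (ha : IsAlg X L) :
    Bun X := { ι := A.ι, deg := A.deg, hdeg := A.hdeg, L := L, eqv := he, alg := ha }
/-- the line bundle `O(d)` -/
def line (X : Spc) (d : D) : Bun X := triv X (fun _ : Unit => dpr X.B d) fun _ => dpr_mem _ _
/-- the zero bundle -/
def zero (X : Spc) : Bun X := triv X (ι := Empty) (fun i => i.elim) fun i => i.elim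
/-- pull-back -/
def pull (A : Bun X) (h : Proj Y X) : Bun Y where
  ι := A.ι
  deg := A.deg
  hdeg := fun i => DS_mono h.sub (A.hdeg i)
  L := fun y => A.L (restr X.B y)
  eqv := fun y hy v => by simp only [restr_gpt]; exact A.eqv _ (h.map y hy) v
  alg := A.alg.pull h
/-- direct sum -/
def sum (A B : Bun X) : Bun X where
  ι := A.ι ⊕ B.ι
  deg := Sum.elim A.deg B.deg
  hdeg := by rintro (i | i); exacts [A.hdeg i, B.hdeg i]
  L := fun x => (A.L x).comap (LinearMap.funLeft ℂ ℂ Sum.inl) ⊓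
    (B.L x).comap (LinearMap.funLeft ℂ ℂ Sum.inr)
  eqv := fun x hx v => and_congr (A.eqv x hx _) (B.eqv x hx _)
  alg := by
    intro x hx
    obtain ⟨r, P, hr, hP⟩ := A.alg x hx
    obtain ⟨s, Q, hs, hQ⟩ := B.alg x hx
    have e1 : ∀ y (v : A.ι ⊕ B.ι → ℂ), LinearMap.funLeft ℂ ℂ Sum.inl
        (mev y (Matrix.fromBlocks (s • P) 0 0 (r • Q)) v) =
        eval y s • mev y P (LinearMap.funLeft ℂ ℂ Sum.inl v) := fun y v => by
      funext i; simp [mev_apply, Finset.mul_sum, mul_assoc]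
    have e2 : ∀ y (v : A.ι ⊕ B.ι → ℂ), LinearMap.funLeft ℂ ℂ Sum.inr
        (mev y (Matrix.fromBlocks (s • P) 0 0 (r • Q)) v) =
        eval y r • mev y Q (LinearMap.funLeft ℂ ℂ Sum.inr v) := fun y v => by
      funext i; simp [mev_apply, Finset.mul_sum, mul_assoc]
    refine ⟨r * s, Matrix.fromBlocks (s • P) 0 0 (r • Q), by simp [hr, hs], fun y hy =>
      ⟨fun v => ⟨?_, ?_⟩, fun v hv => ?_⟩⟩
    · rw [SetLike.mem_coe, Submodule.mem_comap, e1]
      exact Submodule.smul_mem _ _ ((hP y hy).1 _)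
    · rw [SetLike.mem_coe, Submodule.mem_comap, e2]
      exact Submodule.smul_mem _ _ ((hQ y hy).1 _)
    · funext i
      rcases i with i | i
      · have := congrFun (e1 y v) i
        rw [(hP y hy).2 _ hv.1] at this
        simp only [LinearMap.funLeft_apply, Pi.smul_apply, smul_eq_mul, map_mul] at this ⊢
        rw [this]; ring
      · have := congrFun (e2 y v) i
        rw [(hQ y hy).2 _ hv.2] at this
        simp only [LinearMap.funLeft_apply, Pi.smul_apply, smul_eq_mul, map_mul] at this ⊢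
        rw [this]; ring
/-- tensor product -/
def tens (A B : Bun X) : Bun X where
  ι := A.ι × B.ι
  deg := fun p => A.deg p.1 + B.deg p.2
  hdeg := fun p => add_mem (A.hdeg p.1) (B.hdeg p.2)
  L := fun x => Submodule.span ℂ {u | ∃ v ∈ A.L x, ∃ w ∈ B.L x, u = fun p => v p.1 * w p.2}
  eqv := by
    intro x hx u
    refine mem_tensS.trans (Iff.trans (and_congr (forall_congr' fun j => ?_)
      (forall_congr' fun i => ?_)) mem_tensS.symm)
    · rw [A.eqv x hx]
      exact (smul_mem_iff' (chi_ne (B.deg j)) fun i => by simp only [chi_add]; ring).symm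
    · rw [B.eqv x hx]
      exact (smul_mem_iff' (chi_ne (A.deg i)) fun j => by simp only [chi_add]; ring).symm
  alg := by
    intro x hx
    obtain ⟨r, P, hr, hP⟩ := A.alg x hx
    obtain ⟨s, Q, hs, hQ⟩ := B.alg x hx
    refine ⟨r * s, kron P Q, by simp [hr, hs], fun y hy => ?_⟩
    have e : (kron P Q).map (eval y) = kron (P.map (eval y)) (Q.map (eval y)) := by
      ext p q; simp [kron]
    have := kron_proj (P := P.map (eval y)) (Q := Q.map (eval y)) (hP y hy).1 (hP y hy).2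
      (hQ y hy).1 (hQ y hy).2
    rw [← e, ← map_mul] at this
    exact this
lemma mem_tens {A B : Bun X} {x : Pt} {u : A.ι × B.ι → ℂ} : u ∈ (A.tens B).L x ↔
    (∀ j, (fun i => u (i, j)) ∈ A.L x) ∧ ∀ i, (fun j => u (i, j)) ∈ B.L x := mem_tensS
/-- annihilator in the dual ambient bundle -/
def ann (A : Bun X) : Bun X where
  ι := A.ι
  deg := fun i => -A.deg i
  hdeg := fun i => neg_mem (A.hdeg i)
  L := fun x => perp (A.L x)
  eqv := A.eqv.perp
  alg := A.alg.perp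
/-- twist `A(d)` -/
def twist (A : Bun X) (d : D) (hd : d ∈ DS X.B) : Bun X where
  ι := A.ι
  deg := fun i => A.deg i + d
  hdeg := fun i => add_mem (A.hdeg i) hd
  L := A.L
  eqv := fun x hx v => (A.eqv x hx v).trans
    (smul_mem_iff' (chi_ne d) fun i => by simp only [chi_add]; ring).symm
  alg := A.alg
/-- normalised weight of a degree -/
def nwt (B : Finset ℕ) (w : ℕ → ℤ) (d : D) : ℤ := d none - ∑ b ∈ B, w b * d (some b)
/-- the vectors supported on ambient indices satisfying `p` -/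
def suppOn {ι : Type} (p : ι → Prop) : Submodule ℂ (ι → ℂ) where
  carrier := {v | ∀ i, ¬ p i → v i = 0}
  add_mem' := by intro a b ha hb i hi; simp [ha i hi, hb i hi]
  zero_mem' := by intro i _; rfl
  smul_mem' := by intro c a ha i hi; simp [ha i hi]
/-- the normalised weight is additive -/
def nwtH (B : Finset ℕ) (w : ℕ → ℤ) : D →+ ℤ where
  toFun := nwt B w
  map_zero' := by simp [nwt]
  map_add' d e := by simp only [nwt, Finsupp.add_apply, mul_add, Finset.sum_add_distrib]; ring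
lemma nwt_vdeg {B : Finset ℕ} (w : ℕ → ℤ) {v : Var} (hv : v.1 ∈ B) :
    nwt B w (vdeg v) = v.2.2 - w v.1 := by
  simp [nwt, vdeg, eB, eT, Finsupp.single_apply, hv]
lemma _root_.Crest.Agent.N265.Spc.mem_B (X : Spc) {x : Pt} (hx : x ∈ X.pts) {v : Var}
    (hv : x v ≠ 0) : v.1 ∈ X.B := by
  by_contra h
  exact hv (by rw [← X.restr_eq hx]; simp [restr, h])
/-- on a `T`-trivial space the fibres are graded by the normalised weight -/
lemma wt_proj_mem (A : Bun X) {w : ℕ → ℤ} (hw : X.TTriv w) (p : ℤ → Prop) [DecidablePred p]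
    {x : Pt} (hx : x ∈ X.pts) {v : A.ι → ℂ} (hv : v ∈ A.L x) :
    (fun i => if p (nwt X.B w (A.deg i)) then v i else 0) ∈ A.L x := by
  let c : Tor := (zpowersHom ℂˣ (Units.mk0 2 two_ne_zero)).comp
    (AddMonoidHom.toMultiplicative (nwtH X.B w))
  have hc : ∀ d, (c (Multiplicative.ofAdd d) : ℂ) = 2 ^ nwt X.B w d := fun d => by
    simp [c, nwtH]
  have hcx : tpt c x = x := by
    funext u
    by_cases hu : x u = 0
    · simp [tpt, hu]
    · rw [tpt, hc, nwt_vdeg w (X.mem_B hx hu), hw x hx u hu]; simp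
  have := interp (U := A.L x) (fun i => nwt X.B w (A.deg i)) (fun u hu => by
    have := A.alg.gen.tpt A.eqv c hx hu
    simpa only [hc, hcx] using this) (fun k => if p k then 1 else 0) hv
  simpa using this
/-- extension by zero -/
def extZ {ι : Type} (p : ι → Prop) [DecidablePred p] (u : {i // p i} → ℂ) : ι → ℂ :=
  fun i => if h : p i then u ⟨i, h⟩ else 0
lemma mev_dl_val {ι κ : Type} [Fintype ι] (p : ι → Prop) [DecidablePred p] (x : Pt) (f : κ → ι)
    (u : {i // p i} → ℂ) : mev x (dl f Subtype.val) u = fun j => extZ p u (f j) := by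
  funext j
  by_cases h : p (f j)
  · rw [extZ, dif_pos h]; exact mev_dl_of_eq x Subtype.val_injective u rfl
  · rw [extZ, dif_neg h]; exact mev_dl_of_ne x u fun i e => h (e ▸ i.2)
lemma extZ_mem (A : Bun X) {w : ℕ → ℤ} (hw : X.TTriv w) (p : ℤ → Prop) [DecidablePred p]
    {x : Pt} (hx : x ∈ X.pts) {u : {i : A.ι // p (nwt X.B w (A.deg i))} → ℂ}
    (hu : u ∈ (A.L x).map (LinearMap.funLeft ℂ ℂ Subtype.val)) : extZ _ u ∈ A.L x := by
  obtain ⟨v, hv, rfl⟩ := hu
  convert A.wt_proj_mem hw p hx hv using 1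
  funext i; simp [extZ]
/-- the part of `A` with normalised weights in `p` (ambient indices restricted accordingly) -/
def wt (A : Bun X) (w : ℕ → ℤ) (hw : X.TTriv w) (p : ℤ → Prop) [DecidablePred p] : Bun X where
  ι := {i : A.ι // p (nwt X.B w (A.deg i))}
  deg := fun i => A.deg i.1
  hdeg := fun i => A.hdeg i.1
  L := fun x => (A.L x).map (LinearMap.funLeft ℂ ℂ Subtype.val)
  eqv := by
    have := A.eqv.map (b := fun i : {i : A.ι // p (nwt X.B w (A.deg i))} => A.deg i.1)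
      (mhmg_dl (f := Subtype.val) (g := id) fun _ _ e => congrArg A.deg e)
    simpa only [mev_dl_id] using this
  alg := by
    intro x hx
    obtain ⟨r, P, hr, hP⟩ := A.alg x hx
    refine ⟨r, (dl Subtype.val id : Matrix _ A.ι R) * P * (dl id Subtype.val : Matrix A.ι _ R), hr,
      fun y hy => ⟨fun v => ?_, fun v hv => ?_⟩⟩
    · rw [mev_mul, mev_mul, mev_dl_id]
      exact ⟨_, (hP y hy).1 _, rfl⟩
    · rw [mev_mul, mev_mul, mev_dl_id, mev_dl_val,
        (hP y hy).2 (fun j => extZ _ v (id j)) (A.extZ_mem hw p hy hv)]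
      funext i; simp [extZ, i.2]
lemma wt_pure (A : Bun X) (w hw) (k : ℤ) : (A.wt w hw (· = k)).Pure w k := by
  intro i
  have : nwt X.B w (A.deg i.1) = k := i.2
  exact sub_eq_iff_eq_add.1 this

lemma Rk.pull {A : Bun X} {n : ℕ} (h : A.Rk n) (p : Proj Y X) : (A.pull p).Rk n :=
  fun y hy => h _ (p.map y hy)
lemma rk_triv {ι : Type} [Fintype ι] [DecidableEq ι] (deg : ι → D) (h) :
    (triv X deg h).Rk (Fintype.card ι) := fun _ _ => by
  change finrank ℂ (⊤ : Submodule ℂ (ι → ℂ)) = _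
  simp
lemma rk_line (d : D) : (line X d).Rk 1 := rk_triv _ _
lemma Rk.tens {A B : Bun X} {m n : ℕ} (h : A.Rk m) (h' : B.Rk n) : (A.tens B).Rk (m * n) :=
  fun x hx => (finrank_tensS _ _).trans (by rw [h x hx, h' x hx])
lemma SES.finrank {A B C : Bun X} (h : SES A B C) {x : Pt} (hx : x ∈ X.pts) :
    finrank ℂ (B.L x) = finrank ℂ (A.L x) + finrank ℂ (C.L x) := by
  obtain ⟨f, p, -, -, h⟩ := h
  obtain ⟨h1, h2, h3⟩ := h x hx
  rw [finrank_split (B.L x) (mev x p), ← h2, h3, finrank_map_of_inj h1]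
lemma exists_rk (A : Bun X) (h : X.Conn) : ∃ n, A.Rk n := by
  obtain ⟨x, hx⟩ := h.1
  exact ⟨_, fun y hy => h.const A.alg.lc (fun z hz => A.eqv.finrank hz) hy hx⟩
lemma SES.pull {A B C : Bun X} (h : SES A B C) (p : Proj Y X) :
    SES (A.pull p) (B.pull p) (C.pull p) := by
  obtain ⟨f, q, hf, hq, h⟩ := h
  refine ⟨f.map (kill X.B), q.map (kill X.B), mhmg_kill hf _, mhmg_kill hq _, fun y hy => ?_⟩
  have := h _ (p.map y hy)
  rw [← mev_kill, ← mev_kill] at this
  exact this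
lemma SES.tens_left {A B C : Bun X} (h : SES A B C) (E : Bun X) :
    SES (E.tens A) (E.tens B) (E.tens C) := by
  obtain ⟨f, q, hf, hq, h⟩ := h
  refine ⟨kron 1 f, kron 1 q, mhmg_kron (MHmg.one _) hf, mhmg_kron (MHmg.one _) hq,
    fun x hx => ?_⟩
  obtain ⟨h1, h2, h3⟩ := h x hx
  change tensS (E.L x) (A.L x) ⊓ LinearMap.ker (mev x (kron (1 : Matrix E.ι E.ι R) f)) = ⊥ ∧
    (tensS (E.L x) (A.L x)).map (mev x (kron (1 : Matrix E.ι E.ι R) f)) =
      tensS (E.L x) (B.L x) ⊓ LinearMap.ker (mev x (kron (1 : Matrix E.ι E.ι R) q)) ∧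
    (tensS (E.L x) (B.L x)).map (mev x (kron (1 : Matrix E.ι E.ι R) q)) = tensS (E.L x) (C.L x)
  rw [mev_kron_one, mev_kron_one, tensS_inf_ker, tensS_inf_ker, map_tensS, map_tensS, h1, h2, h3,
    tensS_bot]
  exact ⟨rfl, rfl, rfl⟩
lemma ses_sum (A B : Bun X) : SES A (A.sum B) B := by
  refine ⟨dl id Sum.inl, dl Sum.inr id, mhmg_dl ?_, mhmg_dl ?_, fun x _ => ?_⟩
  · rintro _ i rfl; rfl
  · rintro j _ rfl; rfl
  have e : ∀ v : A.ι → ℂ, mev x (dl (id : A.ι ⊕ B.ι → _) Sum.inl) v = Sum.elim v 0 := fun v => by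
    funext j
    rcases j with j | j
    · exact mev_dl_of_eq x Sum.inl_injective v rfl
    · exact mev_dl_of_ne x v fun i => by simp
  have e' := mev_dl_id x (Sum.inr : B.ι → A.ι ⊕ B.ι)
  refine ⟨eq_bot_iff.2 fun v hv => ?_, le_antisymm ?_ ?_, le_antisymm ?_ ?_⟩
  · have : Sum.elim v (0 : B.ι → ℂ) = 0 := (e v).symm.trans hv.2
    exact funext fun i => congrFun this (Sum.inl i)
  · rintro _ ⟨v, hv, rfl⟩
    refine ⟨?_, (LinearMap.congr_fun e' _).trans ?_⟩
    · erw [e]; exact ⟨hv, (B.L x).zero_mem⟩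
    · erw [e]; rfl
  · rintro v ⟨hv, h0⟩
    have h0 := (LinearMap.congr_fun e' v).symm.trans h0
    refine ⟨_, hv.1, (e _).trans (funext ?_)⟩
    rintro (j | j)
    · rfl
    · exact (congrFun h0 j).symm
  · rintro _ ⟨v, hv, rfl⟩
    erw [e']; exact hv.2
  · intro v hv
    exact ⟨Sum.elim 0 v, ⟨(A.L x).zero_mem, hv⟩, (LinearMap.congr_fun e' _).trans rfl⟩
lemma Rk.sum {A B : Bun X} {m n : ℕ} (h : A.Rk m) (h' : B.Rk n) : (A.sum B).Rk (m + n) :=
  fun x hx => ((ses_sum A B).finrank hx).trans (by rw [h x hx, h' x hx])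
/-- quotients exist -/
theorem exists_quot (A B : Bun X) (f : Matrix B.ι A.ι R) (hf : MHmg A.deg B.deg f)
    (hi : ∀ x ∈ X.pts, A.L x ⊓ LinearMap.ker (mev x f) = ⊥ ∧ (A.L x).map (mev x f) ≤ B.L x) :
    ∃ (C : Bun X) (p : Matrix C.ι B.ι R), MHmg B.deg C.deg p ∧ ∀ x ∈ X.pts,
      (A.L x).map (mev x f) = B.L x ⊓ LinearMap.ker (mev x p) ∧ (B.L x).map (mev x p) = C.L x := by
  have ha := A.alg.map_of_inj f fun x hx => (hi x hx).1
  obtain ⟨n, e, Φ, he, hΦ, hk⟩ := ha.cogen.exists_hmg (A.eqv.map hf) B.hdeg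
  have hk' : ∀ x ∈ X.pts, (A.L x).map (mev x f) = B.L x ⊓ LinearMap.ker (mev x Φ) := fun x hx => by
    rw [hk x hx, inf_eq_right.2 (hi x hx).2]
  have hu := usc_congr ((lc_cast B.alg.lc).usc.add (lc_cast ha.lc).neg_usc)
    (g := fun x => (finrank ℂ ((B.L x).map (mev x Φ)) : ℤ)) fun x hx => by
      simp only [Pi.add_apply, Pi.neg_apply]
      rw [finrank_split (B.L x) (mev x Φ), hk' x hx]; push_cast; ring
  exact ⟨⟨Fin n, e, he, _, B.eqv.map hΦ, (B.alg.map_of_usc Φ hu).1⟩, Φ, hΦ,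
    fun x hx => ⟨hk' x hx, rfl⟩⟩
theorem exists_compl (A : Bun X) : ∃ C : Bun X, SES A A.amb C := by
  obtain ⟨C, p, hp, h⟩ := exists_quot A A.amb (1 : Matrix A.ι A.ι R) (MHmg.one _)
    fun x _ => ⟨one_inf _ x, le_top⟩
  exact ⟨C, (1 : Matrix A.ι A.ι R), p, MHmg.one _, hp, fun x hx => ⟨one_inf _ x, h x hx⟩⟩
/-- every bundle is isomorphic to one with uniform block degrees, by an injective ambient map -/
theorem exists_unif (A : Bun X) : ∃ (A' : Bun X) (δ : D) (f : Matrix A'.ι A.ι R), δ ∈ DS X.B ∧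
    A'.Unif δ ∧ MHmg A.deg A'.deg f ∧ ∀ x ∈ X.pts, Function.Injective (mev x f) ∧
      (A.L x).map (mev x f) = A'.L x := by
  classical
  obtain ⟨V, hV, hV'⟩ := X.fin
  obtain ⟨N, hN⟩ := (Set.finite_range fun p : A.ι × X.B => A.deg p.1 (some p.2)).bddAbove
  have hN' : ∀ i (b : X.B), A.deg i (some b) ≤ N := fun i b => hN ⟨(i, b), rfl⟩
  let Ch := {ch : X.B → V // ∀ b, (ch b).1.1 = b}
  let n : A.ι → X.B → ℕ := fun i b => (N - A.deg i (some b)).toNat
  let e : A.ι × Ch → D := fun p => A.deg p.1 + ∑ b, n p.1 b • vdeg (p.2.1 b)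
  let f : Matrix (A.ι × Ch) A.ι R := fun p i =>
    if p.1 = i then ∏ b, (MvPolynomial.X (p.2.1 b).1 : R) ^ n p.1 b else 0
  have hf : MHmg A.deg e f := by
    intro p i
    simp only [f]
    split_ifs with h
    · subst h
      rw [show e p - A.deg p.1 = ∑ b, n p.1 b • vdeg (p.2.1 b) from add_sub_cancel_left _ _]
      exact Hmg.prod _ fun b _ => (Hmg.X _).pow _
    · exact Hmg.zero _
  have hinj : ∀ x ∈ X.pts, Function.Injective (mev x f) := by
    intro x hx
    have : ∀ b : X.B, ∃ v : V, v.1.1 = b ∧ x v ≠ 0 := fun b => by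
      obtain ⟨v, h1, h2⟩ := X.rel x hx b b.2
      exact ⟨⟨v, by_contra fun h => h2 (hV' x hx v h)⟩, h1, h2⟩
    choose ch h1 h2 using this
    refine (injective_iff_map_eq_zero _).2 fun v hv => funext fun i => ?_
    have := congrFun hv (i, ⟨ch, h1⟩)
    rw [mev_apply, Finset.sum_eq_single i (fun j _ hj => by simp [f, hj.symm]) (by simp)] at this
    simpa [f, Finset.prod_eq_zero_iff, h2] using this
  have he : ∀ p, e p ∈ DS X.B := fun p =>
    add_mem (A.hdeg _) (sum_mem fun b _ => nsmul_mem (vdeg_mem (hV _ (p.2.1 b).2)) _)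
  refine ⟨⟨A.ι × Ch, e, he, _, A.eqv.map hf, A.alg.map_of_inj f fun x hx => ?_⟩,
    ∑ b ∈ X.B, N • eB b, f, sum_mem fun b hb => zsmul_mem (eB_mem hb) _, fun p b => ?_, hf,
    fun x hx => ⟨hinj x hx, rfl⟩⟩
  · rw [LinearMap.ker_eq_bot.2 (hinj x hx), inf_bot_eq]
  · by_cases hb : b ∈ X.B
    · change e p (some b) = _
      simp only [e, Finsupp.add_apply, Finsupp.finsetSum_apply, Finsupp.smul_apply, vdeg, eB, eT,
        p.2.2, Finsupp.single_apply]
      rw [Finset.sum_eq_single ⟨b, hb⟩, Finset.sum_eq_single b]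
      · simp [n, hN' p.1 ⟨b, hb⟩]
      · intro c _ hc; simp [hc]
      · simp [hb]
      · intro c _ hc
        have : c.1 ≠ b := fun h => hc (Subtype.ext h)
        simp [this]
      · simp
    · rw [he p b hb]
      exact ((sum_mem fun b hb => zsmul_mem (eB_mem hb) N : ∑ b ∈ X.B, N • eB b ∈ DS X.B)
        b hb).symm
end Bun

open Bun
/-- the quotient map to `K X` -/
def K.mk (X : Spc) : FreeAbelianGroup (Bun X) →+ K X :=
  QuotientAddGroup.mk' (AddSubgroup.closure (KRel X))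
lemma K.mk_of (A : Bun X) : K.mk X (.of A) = A.kl := rfl
lemma K.mk_surj : Function.Surjective (K.mk X) := QuotientAddGroup.mk'_surjective _
lemma kl_ses {A B C : Bun X} (h : SES A B C) : B.kl = A.kl + C.kl := by
  have : K.mk X (.of B - .of A - .of C) = 0 :=
    (QuotientAddGroup.eq_zero_iff _).2 (AddSubgroup.subset_closure ⟨A, B, C, h, rfl⟩)
  rw [map_sub, map_sub, K.mk_of, K.mk_of, K.mk_of, sub_sub, sub_eq_zero] at this
  exact this
lemma kl_of_bot {A : Bun X} (h : ∀ x ∈ X.pts, A.L x = ⊥) : A.kl = 0 := by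
  have : SES A A A := ⟨0, 0, mhmg_zero _ _, mhmg_zero _ _, fun x hx => by simp [h x hx]⟩
  simpa using kl_ses this
lemma kl_zero : (Bun.zero X).kl = 0 := kl_of_bot fun _ _ =>
  Subsingleton.elim (α := Submodule ℂ (Empty → ℂ)) _ _
lemma kl_iso {A B : Bun X} (f : Matrix B.ι A.ι R) (hf : MHmg A.deg B.deg f)
    (h : ∀ x ∈ X.pts, A.L x ⊓ LinearMap.ker (mev x f) = ⊥ ∧ (A.L x).map (mev x f) = B.L x) :
    A.kl = B.kl := by
  have : SES A B (Bun.zero X) := ⟨f, 0, hf, mhmg_zero _ _, fun x hx => ⟨(h x hx).1,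
    by rw [(h x hx).2, mev_zero]; simp, Subsingleton.elim (α := Submodule ℂ (Empty → ℂ)) _ _⟩⟩
  rw [kl_ses this, kl_zero, add_zero]
lemma kl_re (A : Bun X) {L he ha} (h : ∀ x ∈ X.pts, L x = A.L x) : (A.re L he ha).kl = A.kl :=
  kl_iso (1 : Matrix A.ι A.ι R) (MHmg.one _) fun x hx =>
    ⟨one_inf _ x, (one_map _ x).trans (h x hx)⟩
lemma kl_re_re (A : Bun X) {L L' he ha he' ha'} (h : ∀ x ∈ X.pts, L x = L' x) :
    (A.re L he ha).kl = (A.re L' he' ha').kl := kl_re (A.re L' he' ha') h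
/-- the kernel of a surjection -/
lemma kl_surj {A C : Bun X} (φ : Matrix C.ι A.ι R) (hφ : MHmg A.deg C.deg φ)
    (h : ∀ x ∈ X.pts, (A.L x).map (mev x φ) = C.L x) : ∃ he ha,
    A.kl = (A.re (fun x => A.L x ⊓ LinearMap.ker (mev x φ)) he ha).kl + C.kl :=
  ⟨A.eqv.inf (isEqv_bot.comap hφ), A.alg.ker_of_surj C.alg φ h, kl_ses
    ⟨(1 : Matrix A.ι A.ι R), φ, MHmg.one _, hφ, fun x hx => ⟨one_inf _ x, one_map _ x, h x hx⟩⟩⟩
lemma kl_sum (A B : Bun X) : (A.sum B).kl = A.kl + B.kl := kl_ses (ses_sum A B)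
lemma kl_triv {ι : Type} [Fintype ι] [DecidableEq ι] (deg : ι → D) (h) :
    (triv X deg h).kl = ∑ i, (line X (deg i)).kl := by
  have he : ∀ s : Finset ι, IsEqv X deg fun _ => suppOn (· ∈ s) := fun s x _ v =>
    forall_congr' fun i => imp_congr_right fun _ => by simp [chi_ne]
  have key : ∀ s : Finset ι, ((triv X deg h).re _ (he s) (isAlg_const _)).kl =
      ∑ i ∈ s, (line X (deg i)).kl := by
    intro s
    induction s using Finset.induction_on with
    | empty =>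
      exact kl_of_bot fun x _ => eq_bot_iff.2 fun v hv =>
        funext fun i => hv i (Finset.notMem_empty _)
    | insert a s ha ih =>
      obtain ⟨_, _, h2⟩ := kl_surj (A := (triv X deg h).re _ (he (insert a s)) (isAlg_const _))
        (C := line X (deg a)) (dl (fun _ : Unit => a) id)
        (mhmg_dl (by rintro _ _ rfl; exact dpr_of_mem (h _))) fun x _ => by
          erw [mev_dl_id]
          refine eq_top_iff.2 fun u _ => ⟨Pi.single a (u ()), fun i hi => ?_, ?_⟩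
          · exact Pi.single_eq_of_ne (fun e => hi (by simp [e])) _
          · funext j; exact Pi.single_eq_same _ _
      rw [h2, Finset.sum_insert ha, add_comm, ← ih]
      congr 1
      refine kl_re_re (triv X deg h) fun x _ => ?_
      erw [mev_dl_id]
      refine le_antisymm (fun v hv i hi => ?_) fun v hv => ⟨fun i hi => ?_, ?_⟩
      · by_cases e : i = a
        · exact e ▸ congrFun hv.2 ()
        · exact hv.1 i (by simp [e, hi])
      · exact hv i fun h' => hi (by simp [h'])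
      · exact funext fun _ => hv a ha
  rw [← key]
  exact (kl_re _ fun x _ => eq_top_iff.2 fun v _ i hi => absurd (Finset.mem_univ i) hi).symm
lemma kl_wt_split (A : Bun X) (w hw) (p q r : ℤ → Prop) [DecidablePred p] [DecidablePred q]
    [DecidablePred r] (h : ∀ i, p (nwt X.B w (A.deg i)) ↔
      q (nwt X.B w (A.deg i)) ∨ r (nwt X.B w (A.deg i)))
    (h' : ∀ i, q (nwt X.B w (A.deg i)) → ¬ r (nwt X.B w (A.deg i))) :
    (A.wt w hw p).kl = (A.wt w hw q).kl + (A.wt w hw r).kl := by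
  refine kl_ses ⟨dl Subtype.val Subtype.val, dl Subtype.val Subtype.val,
    mhmg_dl fun _ _ e => congrArg A.deg e, mhmg_dl fun _ _ e => congrArg A.deg e, fun x hx => ?_⟩
  have e1 := mev_dl_val (fun i => q (nwt X.B w (A.deg i))) x
    (Subtype.val : {i // p (nwt X.B w (A.deg i))} → _)
  have e2 := mev_dl_val (fun i => p (nwt X.B w (A.deg i))) x
    (Subtype.val : {i // r (nwt X.B w (A.deg i))} → _)
  refine ⟨eq_bot_iff.2 fun u hu => funext fun i => ?_, le_antisymm ?_ ?_, le_antisymm ?_ ?_⟩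
  · have := congrFun ((e1 u).symm.trans hu.2) ⟨i.1, (h _).2 (Or.inl i.2)⟩
    exact (dif_pos i.2).symm.trans this
  · rintro _ ⟨u, hu, rfl⟩
    refine ⟨⟨_, A.extZ_mem hw q hx hu, (e1 u).symm⟩, (e2 _).trans (funext fun i => ?_)⟩
    have a1 := (h _).2 (Or.inr i.2)
    have a2 : ¬ q (nwt X.B w (A.deg i.1)) := fun a => h' _ a i.2
    exact (dif_pos a1).trans ((congrFun (e1 u) _).trans (dif_neg a2))
  · rintro _ ⟨⟨v, hv, rfl⟩, h0⟩
    refine ⟨_, ⟨v, hv, rfl⟩, (e1 _).trans (funext fun i => ?_)⟩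
    by_cases a : q (nwt X.B w (A.deg i.1))
    · exact dif_pos a
    · have := congrFun ((e2 _).symm.trans h0) ⟨i.1, ((h _).1 i.2).resolve_left a⟩
      exact (dif_neg a).trans ((dif_pos i.2).symm.trans this).symm
  · rintro _ ⟨u, hu, rfl⟩
    exact ⟨_, A.extZ_mem hw p hx hu, (e2 u).symm⟩
  · rintro _ ⟨v, hv, rfl⟩
    exact ⟨_, ⟨v, hv, rfl⟩, (e2 _).trans (funext fun i => dif_pos ((h _).2 (Or.inr i.2)))⟩
lemma kl_wt_bot (A : Bun X) (w hw) (p : ℤ → Prop) [DecidablePred p]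
    (h : ∀ i, ¬ p (nwt X.B w (A.deg i))) : (A.wt w hw p).kl = 0 :=
  kl_of_bot fun _ _ => eq_bot_iff.2 fun _ _ => funext fun i => absurd i.2 (h _)
lemma kl_wt_top (A : Bun X) (w hw) : A.kl = (A.wt w hw fun _ => True).kl :=
  kl_iso (dl Subtype.val id) (mhmg_dl fun _ _ e => congrArg A.deg e) fun x _ => by
    erw [mev_dl_id]
    exact ⟨eq_bot_iff.2 fun v hv => funext fun i => congrFun hv.2 ⟨i, trivial⟩, rfl⟩
lemma kl_wt (A : Bun X) (w hw) (p : ℤ → Prop) [DecidablePred p] :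
    A.kl = (A.wt w hw p).kl + (A.wt w hw fun k => ¬ p k).kl :=
  (kl_wt_top A w hw).trans (kl_wt_split A w hw _ _ _ (fun _ => by simp [em]) fun _ a b => b a)
lemma kl_wt_sum (A : Bun X) (w hw) (p : ℤ → Prop) [DecidablePred p] (s : Finset ℤ)
    (hs : ∀ i, p (nwt X.B w (A.deg i)) → nwt X.B w (A.deg i) ∈ s) (hp : ∀ k ∈ s, p k) :
    (A.wt w hw p).kl = ∑ k ∈ s, (A.wt w hw (· = k)).kl := by
  have key : ∀ t : Finset ℤ, (A.wt w hw (· ∈ t)).kl = ∑ k ∈ t, (A.wt w hw (· = k)).kl := by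
    intro t
    induction t using Finset.induction_on with
    | empty => exact kl_wt_bot A w hw _ (by simp)
    | insert a t ha ih =>
      rw [Finset.sum_insert ha, ← ih]
      exact kl_wt_split A w hw _ _ _ (fun _ => Finset.mem_insert) fun _ e => e ▸ ha
  rw [← key, kl_wt_split A w hw p (· ∈ s) (fun _ => False)
    (fun i => ⟨fun a => Or.inl (hs i a), fun a => hp _ (a.resolve_right id)⟩) fun _ _ => id,
    kl_wt_bot A w hw (fun _ => False) fun _ => id, add_zero]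
/-- correspondences: an algebraic family `Γ ≤ A ⊕ B` whose projections are isomorphisms
modulo `A'` and `B'` gives `[A] - [A'] = [B] - [B']` -/
theorem kl_corr {A A' B B' Γ : Bun X} (i : Matrix A.ι A'.ι R) (j : Matrix B.ι B'.ι R)
    (p : Matrix A.ι Γ.ι R) (q : Matrix B.ι Γ.ι R) (hi : MHmg A'.deg A.deg i)
    (hj : MHmg B'.deg B.deg j) (hp : MHmg Γ.deg A.deg p) (hq : MHmg Γ.deg B.deg q)
    (h : ∀ x ∈ X.pts, A'.L x ⊓ LinearMap.ker (mev x i) = ⊥ ∧ B'.L x ⊓ LinearMap.ker (mev x j) = ⊥ ∧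
      (A'.L x).map (mev x i) ≤ A.L x ∧ (B'.L x).map (mev x j) ≤ B.L x ∧
      (Γ.L x).map (mev x p) ⊔ (A'.L x).map (mev x i) = A.L x ∧
      (Γ.L x).map (mev x q) ⊔ (B'.L x).map (mev x j) = B.L x ∧
      ∀ v ∈ Γ.L x, mev x p v ∈ (A'.L x).map (mev x i) ↔ mev x q v ∈ (B'.L x).map (mev x j)) :
    A.kl - A'.kl = B.kl - B'.kl := by
  have key : ∀ {A A' : Bun X} (i : Matrix A.ι A'.ι R) (p : Matrix A.ι Γ.ι R)
      (_ : MHmg A'.deg A.deg i) (_ : MHmg Γ.deg A.deg p)
      (_ : ∀ x ∈ X.pts, A'.L x ⊓ LinearMap.ker (mev x i) = ⊥ ∧ (A'.L x).map (mev x i) ≤ A.L x ∧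
        (Γ.L x).map (mev x p) ⊔ (A'.L x).map (mev x i) = A.L x), ∃ L he ha,
      A.kl - A'.kl = Γ.kl - (Γ.re L he ha).kl ∧
        ∀ x ∈ X.pts, ∀ v, v ∈ L x ↔ v ∈ Γ.L x ∧ mev x p v ∈ (A'.L x).map (mev x i) := by
    intro A A' i p hi hp h
    obtain ⟨C, π, hπ, hC⟩ := exists_quot A' A i hi fun x hx => ⟨(h x hx).1, (h x hx).2.1⟩
    obtain ⟨he, ha, e⟩ := kl_surj (A := Γ) (π * p) (hπ.mul hp) fun x hx => by
      have h0 : ((A'.L x).map (mev x i)).map (mev x π) = ⊥ := by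
        rw [(hC x hx).1, eq_bot_iff, Submodule.map_le_iff_le_comap]; exact inf_le_right
      rw [mev_mul', Submodule.map_comp, ← (hC x hx).2, ← (h x hx).2.2, Submodule.map_sup, h0,
        sup_bot_eq]
    refine ⟨_, he, ha, ?_, fun x hx v => and_congr_right fun hv => ?_⟩
    · rw [kl_ses ⟨i, π, hi, hπ, fun x hx => ⟨(h x hx).1, hC x hx⟩⟩]
      rw [eq_sub_iff_add_eq, e]; abel
    · have : mev x p v ∈ A.L x := (h x hx).2.2 ▸ Submodule.mem_sup_left ⟨v, hv, rfl⟩
      rw [(hC x hx).1, mev_mul']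
      exact ⟨fun a => ⟨this, a⟩, fun a => a.2⟩
  obtain ⟨L, he, ha, e, hL⟩ := key i p hi hp fun x hx =>
    ⟨(h x hx).1, (h x hx).2.2.1, (h x hx).2.2.2.2.1⟩
  obtain ⟨L', he', ha', e', hL'⟩ := key j q hj hq fun x hx =>
    ⟨(h x hx).2.1, (h x hx).2.2.2.1, (h x hx).2.2.2.2.2.1⟩
  rw [e, e', kl_re_re Γ (he' := he') (ha' := ha') fun x hx => Submodule.ext fun v => ?_]
  rw [hL x hx, hL' x hx]
  exact and_congr_right ((h x hx).2.2.2.2.2.2 v)
/-- exact sequence of subquotients `A/A' → B/B' → C/C'` (primed families in the same ambients) -/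
theorem kl_sq {A B C : Bun X} {LA LB LC heA haA heB haB heC haC} (f : Matrix B.ι A.ι R)
    (p : Matrix C.ι B.ι R) (hf : MHmg A.deg B.deg f) (hp : MHmg B.deg C.deg p)
    (h : ∀ x ∈ X.pts, LA x ≤ A.L x ∧ LB x ≤ B.L x ∧ LC x ≤ C.L x ∧
      A.L x ⊓ (LB x).comap (mev x f) = LA x ∧
      (A.L x).map (mev x f) ⊔ LB x = B.L x ⊓ (LC x).comap (mev x p) ∧
      (B.L x).map (mev x p) ⊔ LC x = C.L x) :
    B.kl - (B.re LB heB haB).kl =
      (A.kl - (A.re LA heA haA).kl) + (C.kl - (C.re LC heC haC).kl) := by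
  have h1 : ∀ {ι : Type} [Fintype ι] [DecidableEq ι] (U : Submodule ℂ (ι → ℂ)) (x : Pt),
      U ⊓ LinearMap.ker (mev x (1 : Matrix ι ι R)) = ⊥ ∧ U.map (mev x (1 : Matrix ι ι R)) = U :=
    fun U x => ⟨one_inf U x, one_map U x⟩
  obtain ⟨Q, π, hπ, hQ⟩ := exists_quot (C.re LC heC haC) C (1 : Matrix C.ι C.ι R) (MHmg.one _)
    fun x hx => ⟨(h1 _ x).1, (h1 _ x).2.le.trans (h x hx).2.2.1⟩
  have hQ' : ∀ x ∈ X.pts, LC x = C.L x ⊓ LinearMap.ker (mev x π) := fun x hx =>
    (h1 _ x).2.symm.trans (hQ x hx).1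
  have eC : C.kl = (C.re LC heC haC).kl + Q.kl :=
    kl_ses ⟨(1 : Matrix C.ι C.ι R), π, MHmg.one _, hπ, fun x hx => ⟨(h1 _ x).1, hQ x hx⟩⟩
  obtain ⟨he, ha, e⟩ := kl_surj (A := B) (π * p) (hπ.mul hp) fun x hx => by
    have h0 : (LC x).map (mev x π) = ⊥ := by
      rw [hQ' x hx, eq_bot_iff, Submodule.map_le_iff_le_comap]; exact inf_le_right
    rw [mev_mul', Submodule.map_comp, ← (hQ x hx).2, ← (h x hx).2.2.2.2.2, Submodule.map_sup, h0,
      sup_bot_eq]
  have hK : ∀ x ∈ X.pts, (A.L x).map (mev x f) ⊔ LB x = B.L x ⊓ LinearMap.ker (mev x (π * p)) := by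
    intro x hx
    rw [(h x hx).2.2.2.2.1, hQ' x hx, mev_mul']
    refine Submodule.ext fun v => and_congr_right fun hv => ⟨fun a => a.2, fun a => ⟨?_, a⟩⟩
    exact (h x hx).2.2.2.2.2 ▸ Submodule.mem_sup_left ⟨v, hv, rfl⟩
  have e2 := kl_corr (A := A) (A' := A.re LA heA haA) (B := B.re _ he ha) (B' := B.re LB heB haB)
    (Γ := A) (1 : Matrix A.ι A.ι R) (1 : Matrix B.ι B.ι R) (1 : Matrix A.ι A.ι R) f
    (MHmg.one _) (MHmg.one _) (MHmg.one _) hf fun x hx => by
      refine ⟨(h1 _ x).1, (h1 _ x).1, (h1 _ x).2.le.trans (h x hx).1,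
        (h1 _ x).2.le.trans (le_sup_right.trans (hK x hx).le), ?_, ?_, fun v hv => ?_⟩
      · erw [(h1 (A.L x) x).2, (h1 (LA x) x).2]; exact sup_eq_left.2 (h x hx).1
      · erw [(h1 (LB x) x).2]; exact hK x hx
      · erw [(h1 (LA x) x).2, (h1 (LB x) x).2, mev_one, ← (h x hx).2.2.2.1]
        exact ⟨fun a => a.2, fun a => ⟨hv, a⟩⟩
  rw [e2, eC, e]; abel
/-- a four term exact sequence -/
theorem kl_four {A B C E : Bun X} (f : Matrix B.ι A.ι R) (p : Matrix C.ι B.ι R)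
    (q : Matrix E.ι C.ι R) (hf : MHmg A.deg B.deg f) (hp : MHmg B.deg C.deg p)
    (hq : MHmg C.deg E.deg q) (h : ∀ x ∈ X.pts, A.L x ⊓ LinearMap.ker (mev x f) = ⊥ ∧
      (A.L x).map (mev x f) = B.L x ⊓ LinearMap.ker (mev x p) ∧
      (B.L x).map (mev x p) = C.L x ⊓ LinearMap.ker (mev x q) ∧ (C.L x).map (mev x q) = E.L x) :
    A.kl + C.kl = B.kl + E.kl := by
  obtain ⟨he, ha, e⟩ := kl_surj q hq fun x hx => (h x hx).2.2.2
  have e' : B.kl = A.kl + (C.re _ he ha).kl :=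
    kl_ses ⟨f, p, hf, hp, fun x hx => ⟨(h x hx).1, (h x hx).2.1, (h x hx).2.2.1⟩⟩
  rw [e', e]; abel

lemma K.ind {P : K X → Prop} (h0 : P 0) (hkl : ∀ A : Bun X, P A.kl) (hneg : ∀ a, P a → P (-a))
    (hadd : ∀ a b, P a → P b → P (a + b)) (a : K X) : P a := by
  obtain ⟨z, rfl⟩ := K.mk_surj a
  induction z using FreeAbelianGroup.induction_on with
  | zero => simpa using h0
  | of A => exact hkl A
  | neg A h => rw [map_neg]; exact hneg _ h
  | add x y hx hy => rw [map_add]; exact hadd _ _ hx hy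
lemma K.exists_sub (a : K X) : ∃ A B : Bun X, a = A.kl - B.kl := by
  induction a using K.ind with
  | h0 => exact ⟨Bun.zero X, Bun.zero X, by simp⟩
  | hkl A => exact ⟨A, Bun.zero X, by simp [kl_zero]⟩
  | hneg a h => obtain ⟨A, B, rfl⟩ := h; exact ⟨B, A, by simp⟩
  | hadd a b h h' =>
    obtain ⟨A, B, rfl⟩ := h
    obtain ⟨A', B', rfl⟩ := h'
    exact ⟨A.sum A', B.sum B', by rw [kl_sum, kl_sum]; abel⟩
lemma K.hom_ext {G : Type*} [AddCommGroup G] {φ ψ : K X →+ G} (h : ∀ A : Bun X, φ A.kl = ψ A.kl) :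
    φ = ψ := by
  ext a
  obtain ⟨A, B, rfl⟩ := K.exists_sub a
  rw [map_sub, map_sub, h, h]
lemma K.exists_lift {G : Type*} [AddCommGroup G] (φ : Bun X → G)
    (h : ∀ A B C : Bun X, SES A B C → φ B = φ A + φ C) : ∃ Φ : K X →+ G, ∀ A, Φ A.kl = φ A := by
  refine ⟨QuotientAddGroup.lift _ (FreeAbelianGroup.lift φ) ?_, fun A => ?_⟩
  · refine (AddSubgroup.closure_le _).2 ?_
    rintro _ ⟨A, B, C, hs, rfl⟩
    simp [h A B C hs]
  · exact (QuotientAddGroup.lift_mk _ _ _).trans (FreeAbelianGroup.lift_apply_of _ _)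
/-- on a point every pure bundle is trivial -/
theorem Spc.IsPt.kl_pure {P : Spc} {w : ℕ → ℤ} (h : P.IsPt w) {A : Bun P} {k : ℤ} (hA : A.Pure w k)
    {n : ℕ} (hn : A.Rk n) : A.kl = n • (line P (k • eT)).kl := by
  classical
  obtain ⟨hw, x, hx, hpt⟩ := h
  have : ∀ b : P.B, ∃ v : Var, v.1 = b ∧ x v ≠ 0 := fun b => P.rel x hx b b.2
  choose u hu hu' using this
  have hc : ∀ y ∈ P.pts, ∃ c : ℕ → ℂ, (∀ b : P.B, c b ≠ 0) ∧ ∀ v, y v = c v.1 * x v := by
    intro y hy
    obtain ⟨c, hc⟩ := hpt y hy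
    refine ⟨c, fun b hb => ?_, hc⟩
    obtain ⟨v, h1, h2⟩ := P.rel y hy b b.2
    exact h2 (by rw [hc, h1, hb, zero_mul])
  have hne : ∀ y ∈ P.pts, ∀ m : P.B → ℕ,
      eval y (∏ b, (MvPolynomial.X (u b) : R) ^ m b) ≠ 0 := fun y hy m => by
    obtain ⟨c, h1, h2⟩ := hc y hy
    simp [Finset.prod_eq_zero_iff, h2, hu, h1, hu']
  have hdeg : ∀ m : P.B → ℕ, Hmg (∑ b, m b • vdeg (u b)) (∏ b, (MvPolynomial.X (u b) : R) ^ m b) :=
    fun m => Hmg.prod _ fun b _ => (Hmg.X _).pow _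
  obtain ⟨N', hN⟩ := (Set.finite_range fun p : A.ι × P.B => A.deg p.1 (some p.2)).bddAbove
  obtain ⟨N, hN2⟩ : ∃ N : ℕ, N' ≤ N := ⟨N'.toNat, Int.self_le_toNat _⟩
  have hN' : ∀ i (b : P.B), A.deg i (some b) ≤ N := fun i b => (hN ⟨(i, b), rfl⟩).trans hN2
  let m : A.ι → P.B → ℕ := fun i b => (N - A.deg i (some b)).toNat
  let δ : D := k • eT + ∑ b, N • vdeg (u b)
  have hδ : δ ∈ DS P.B := add_mem (zsmul_mem (eT_mem _) _)
    (sum_mem fun b _ => nsmul_mem (vdeg_mem (hu b ▸ b.2)) _)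
  have hv : ∀ b, vdeg (u b) = eB b + w b • eT := fun b => by rw [vdeg, hw x hx _ (hu' b), hu]
  have hm : ∀ i, δ - A.deg i = ∑ b, m i b • vdeg (u b) := by
    intro i
    have e1 : A.deg i = k • eT + ∑ b : P.B, A.deg i (some b) • vdeg (u b) := by
      ext j
      simp only [hv, Finsupp.add_apply, Finsupp.finsetSum_apply, Finsupp.smul_apply, eB, eT,
        Finsupp.single_apply]
      rcases j with _ | j
      · rw [hA i, ← Finset.sum_coe_sort P.B]; simp [mul_comm]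
      · by_cases hj : j ∈ P.B
        · rw [Finset.sum_eq_single ⟨j, hj⟩]
          · simp
          · intro c _ hc
            have : c.1 ≠ j := fun h => hc (Subtype.ext h)
            simp [this]
          · simp
        · rw [A.hdeg i j hj, Finset.sum_eq_zero]
          · simp
          · intro c _
            have : c.1 ≠ j := fun h => hj (h ▸ c.2)
            simp [this]
    rw [e1, add_sub_add_left_eq_sub, ← Finset.sum_sub_distrib]
    refine Finset.sum_congr rfl fun b _ => ?_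
    rw [← natCast_zsmul, ← natCast_zsmul, ← sub_smul, Int.toNat_of_nonneg (sub_nonneg.2 (hN' i b))]
  let f : Matrix A.ι A.ι R := Matrix.diagonal fun i => ∏ b, (MvPolynomial.X (u b) : R) ^ m i b
  have hf : MHmg A.deg (fun _ => δ) f := by
    intro j i
    by_cases e : j = i
    · subst e; simp only [f, Matrix.diagonal_apply_eq, hm]; exact hdeg _
    · simp only [f, Matrix.diagonal_apply_ne _ e]; exact Hmg.zero _
  have hfi : ∀ y ∈ P.pts, A.L y ⊓ LinearMap.ker (mev y f) = ⊥ := fun y hy =>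
    eq_bot_iff.2 fun v hv => funext fun i => by
      have := congrFun hv.2 i
      rw [mev_apply, Finset.sum_eq_single i (fun j _ hj => by simp [f, hj.symm]) (by simp)] at this
      simp only [f, Matrix.diagonal_apply_eq] at this
      exact (mul_eq_zero.1 this).resolve_left (hne y hy _)
  let A' : Bun P := ⟨A.ι, fun _ => δ, fun _ => hδ, _, A.eqv.map hf, A.alg.map_of_inj f hfi⟩
  have hr : ∀ y ∈ P.pts, finrank ℂ (A'.L y) = n := fun y hy =>
    (finrank_map_of_inj (hfi y hy)).trans (hn y hy)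
  have hL : ∀ y ∈ P.pts, A'.L x = A'.L y := by
    intro y hy
    refine Submodule.eq_of_le_of_finrank_eq (fun v hv => ?_) (by rw [hr x hx, hr y hy])
    obtain ⟨c, h1, h2⟩ := hc y hy
    obtain ⟨t, ht⟩ := exists_tor fun i => i.elim 1 fun b =>
      if hb : b ∈ P.B then Units.mk0 (c b) (h1 ⟨b, hb⟩) else 1
    have e : tpt t x = y := by
      funext v
      by_cases h0 : x v = 0
      · simp [tpt, h2, h0]
      · rw [tpt, h2, vdeg, ofAdd_add, map_mul, ofAdd_zsmul, map_zpow, eB, eT, ht, ht]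
        simp [P.mem_B hx h0]
    have := A'.alg.gen.tpt A'.eqv t hx hv
    rw [e] at this
    exact (smul_mem_iff' (t (Multiplicative.ofAdd δ)).ne_zero fun _ => rfl).1 this
  let β := Module.finBasisOfFinrankEq ℂ (A'.L x) (hr x hx)
  let g : Matrix A.ι (Fin n) R := (∏ b, (MvPolynomial.X (u b) : R) ^ N) •
    (Matrix.of fun i j => (β j).1 i).map (C : ℂ → R)
  have hg : ∀ y v, mev y g v = eval y (∏ b, (MvPolynomial.X (u b) : R) ^ N) •
      (β.equivFun.symm v).1 := fun y v => by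
    rw [mev_smul, mev_C]; congr 1
    funext i; simp [Matrix.mulVec, dotProduct, mul_comm]
  have e2 : (triv P (fun _ : Fin n => k • eT) fun _ => zsmul_mem (eT_mem _) _).kl = A'.kl := by
    refine kl_iso g (fun i j => ?_) fun y hy => ⟨eq_bot_iff.2 fun v hv => ?_, ?_⟩
    · have := (hdeg fun _ => N).mul (Hmg.C ((β j).1 i))
      rw [add_zero] at this
      change Hmg (δ - k • eT) _
      rw [add_sub_cancel_left]
      exact this
    · have := (smul_eq_zero.1 ((hg y v).symm.trans hv.2)).resolve_left (hne y hy fun _ => N)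
      exact β.equivFun.symm.map_eq_zero_iff.1 (Subtype.ext this)
    · rw [← hL y hy]
      refine le_antisymm ?_ fun v hv => ?_
      · rintro _ ⟨v, -, rfl⟩
        erw [hg]; exact Submodule.smul_mem _ _ (Subtype.mem _)
      · refine ⟨β.equivFun ((eval y (∏ b, (MvPolynomial.X (u b) : R) ^ N))⁻¹ • ⟨v, hv⟩), trivial,
          (hg _ _).trans ?_⟩
        rw [LinearEquiv.symm_apply_apply, Submodule.coe_smul,
          smul_inv_smul₀ (hne y hy fun _ => N)]
  rw [kl_iso (B := A') f hf fun y hy => ⟨hfi y hy, rfl⟩, ← e2, kl_triv]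
  simp

end Crest.Agent.N265
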