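import Crest.Agent.N265.K.Alg

/-! # Linear algebra helpers for `K/Bun.lean` -/

set_option autoImplicit false
noncomputable section
open MvPolynomial Module

namespace Crest.Agent.N265
namespace B0
variable {ι κ μ α : Type}

lemma mev_one [Fintype ι] [DecidableEq ι] (x : Pt) : mev x (1 : Matrix ι ι R) = LinearMap.id := by
  ext v i; simp [mev, Matrix.map_one]
lemma one_inf [Fintype ι] [DecidableEq ι] (U : Submodule ℂ (ι → ℂ)) (x : Pt) :
    U ⊓ LinearMap.ker (mev x (1 : Matrix ι ι R)) = ⊥ := by rw [mev_one]; simp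
lemma one_map [Fintype ι] [DecidableEq ι] (U : Submodule ℂ (ι → ℂ)) (x : Pt) :
    U.map (mev x (1 : Matrix ι ι R)) = U := by rw [mev_one]; simp
lemma mev_zero [Fintype ι] (x : Pt) : mev x (0 : Matrix κ ι R) = 0 := by
  ext v i; simp [mev]
lemma mev_mul' [Fintype ι] [Fintype κ] (x : Pt) (Ψ : Matrix μ κ R) (Φ : Matrix κ ι R) :
    mev x (Ψ * Φ) = mev x Ψ ∘ₗ mev x Φ := LinearMap.ext fun v => mev_mul x Ψ Φ v
lemma mev_smul [Fintype ι] (x : Pt) (r : R) (Φ : Matrix κ ι R) (v : ι → ℂ) :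
    mev x (r • Φ) v = eval x r • mev x Φ v := by
  funext j; simp [mev_apply, Finset.mul_sum, mul_assoc]
lemma mev_add [Fintype ι] (x : Pt) (Φ Ψ : Matrix κ ι R) (v : ι → ℂ) :
    mev x (Φ + Ψ) v = mev x Φ v + mev x Ψ v := by
  funext j; simp [mev_apply, add_mul, Finset.sum_add_distrib]
lemma mev_kill [Fintype ι] (B : Finset ℕ) (x : Pt) (Φ : Matrix κ ι R) :
    mev x (Φ.map (kill B)) = mev (restr B x) Φ := by
  ext v j; simp [mev_apply, eval_kill]
lemma mhmg_kill {a : ι → D} {b : κ → D} {Φ : Matrix κ ι R} (h : MHmg a b Φ) (B : Finset ℕ) :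
    MHmg a b (Φ.map (kill B)) := fun j i => (h j i).kill B
lemma mhmg_zero (a : ι → D) (b : κ → D) : MHmg a b (0 : Matrix κ ι R) := fun _ _ => Hmg.zero _
lemma mev_C [Fintype ι] (x : Pt) (Φ : Matrix κ ι ℂ) :
    mev x (Φ.map (C : ℂ → R)) = Φ.mulVecLin := by
  ext v j; simp [mev_apply, Matrix.mulVec, dotProduct]

open Classical in
/-- the `0-1` matrix comparing two indexings -/
def dl (f : κ → α) (g : ι → α) : Matrix κ ι R := fun j i => if f j = g i then 1 else 0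
lemma mhmg_dl {f : κ → α} {g : ι → α} {a : ι → D} {b : κ → D}
    (h : ∀ j i, f j = g i → b j = a i) : MHmg a b (dl f g) := by
  intro j i
  unfold dl
  split_ifs with e
  · rw [h j i e, sub_self]; exact Hmg.one
  · exact Hmg.zero _
lemma mev_dl_of_eq [Fintype ι] (x : Pt) {f : κ → α} {g : ι → α} (hg : Function.Injective g)
    (v : ι → ℂ) {j : κ} {i : ι} (e : f j = g i) : mev x (dl f g) v j = v i := by
  rw [mev_apply, Finset.sum_eq_single i]
  · simp [dl, e]
  · intro i' _ h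
    have : f j ≠ g i' := fun e' => h (hg (e'.symm.trans e))
    simp [dl, this]
  · simp
lemma mev_dl_of_ne [Fintype ι] (x : Pt) {f : κ → α} {g : ι → α} (v : ι → ℂ) {j : κ}
    (e : ∀ i, f j ≠ g i) : mev x (dl f g) v j = 0 := by
  rw [mev_apply]; exact Finset.sum_eq_zero fun i _ => by simp [dl, e i]
lemma mev_dl_id [Fintype ι] (x : Pt) (f : κ → ι) :
    mev x (dl f id) = LinearMap.funLeft ℂ ℂ f :=
  LinearMap.ext fun v => funext fun _ => mev_dl_of_eq x Function.injective_id v rfl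

lemma finrank_split [Fintype ι] {W : Type} [AddCommGroup W] [Module ℂ W]
    (U : Submodule ℂ (ι → ℂ)) (φ : (ι → ℂ) →ₗ[ℂ] W) :
    finrank ℂ U = finrank ℂ (U ⊓ LinearMap.ker φ : Submodule ℂ _) + finrank ℂ (U.map φ) := by
  have h := LinearMap.finrank_range_add_finrank_ker (φ.domRestrict U)
  rw [LinearMap.range_domRestrict, LinearMap.ker_domRestrict,
    ← Submodule.finrank_map_subtype_eq, Submodule.map_comap_subtype] at h
  omega
lemma finrank_map_of_inj [Fintype ι] {W : Type} [AddCommGroup W] [Module ℂ W]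
    {U : Submodule ℂ (ι → ℂ)} {φ : (ι → ℂ) →ₗ[ℂ] W} (h : U ⊓ LinearMap.ker φ = ⊥) :
    finrank ℂ (U.map φ) = finrank ℂ U := by
  rw [finrank_split U φ, h]; simp

lemma smul_mem_iff' {U : Submodule ℂ (ι → ℂ)} {c : ℂ} (hc : c ≠ 0) {v w : ι → ℂ}
    (h : ∀ i, w i = c * v i) : w ∈ U ↔ v ∈ U := by
  rw [show w = c • v from funext h, U.smul_mem_iff hc]

/-! ### tensor products of subspaces -/

/-- the tensor product of two subspaces -/
def tensS (U : Submodule ℂ (ι → ℂ)) (W : Submodule ℂ (κ → ℂ)) : Submodule ℂ (ι × κ → ℂ) :=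
  Submodule.span ℂ {u | ∃ v ∈ U, ∃ w ∈ W, u = fun p => v p.1 * w p.2}

lemma exists_projM [Fintype ι] (U : Submodule ℂ (ι → ℂ)) : ∃ P : Matrix ι ι ℂ,
    (∀ v, P.mulVec v ∈ U) ∧ ∀ v ∈ U, P.mulVec v = v := by
  classical
  obtain ⟨W, hW⟩ := U.exists_isCompl
  refine ⟨LinearMap.toMatrix' (U.subtype ∘ₗ U.projectionOnto W hW), fun v => ?_,
    fun v hv => ?_⟩
  · rw [LinearMap.toMatrix'_mulVec]; exact Subtype.mem _
  · rw [LinearMap.toMatrix'_mulVec]
    exact congrArg Subtype.val (Submodule.projectionOnto_apply_left hW ⟨v, hv⟩)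

lemma col_mem [Fintype ι] {U : Submodule ℂ (κ → ℂ)} {P : Matrix κ ι ℂ} (h : ∀ v, P.mulVec v ∈ U)
    (i : ι) : (fun a => P a i) ∈ U := by
  classical
  convert h (Pi.single i 1) using 1
  funext a; simp

lemma mem_tensS [Fintype ι] [Fintype κ] {U : Submodule ℂ (ι → ℂ)} {W : Submodule ℂ (κ → ℂ)}
    {u : ι × κ → ℂ} :
    u ∈ tensS U W ↔ (∀ j, (fun i => u (i, j)) ∈ U) ∧ ∀ i, (fun j => u (i, j)) ∈ W := by
  constructor
  · intro hu
    induction hu using Submodule.span_induction with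
    | mem u hu =>
      obtain ⟨v, hv, w, hw, rfl⟩ := hu
      refine ⟨fun j => ?_, fun i => ?_⟩
      · convert U.smul_mem (w j) hv using 1; funext i; simp [mul_comm]
      · exact W.smul_mem (v i) hw
    | zero => exact ⟨fun _ => U.zero_mem, fun _ => W.zero_mem⟩
    | add u u' _ _ h h' =>
      exact ⟨fun j => U.add_mem (h.1 j) (h'.1 j), fun i => W.add_mem (h.2 i) (h'.2 i)⟩
    | smul c u _ h => exact ⟨fun j => U.smul_mem c (h.1 j), fun i => W.smul_mem c (h.2 i)⟩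
  · rintro ⟨h1, h2⟩
    obtain ⟨P, hP, hP'⟩ := exists_projM U
    have : u = ∑ i, fun p : ι × κ => P p.1 i * u (i, p.2) := by
      funext p
      have := congrFun (hP' _ (h1 p.2)) p.1
      simpa [Matrix.mulVec, dotProduct] using this.symm
    rw [this]
    exact Submodule.sum_mem _ fun i _ =>
      Submodule.subset_span ⟨_, col_mem hP i, _, h2 i, rfl⟩

/-- `1 ⊗ φ` -/
def rowMap (μ : Type) (φ : (ι → ℂ) →ₗ[ℂ] (κ → ℂ)) : (μ × ι → ℂ) →ₗ[ℂ] (μ × κ → ℂ) where
  toFun u p := φ (fun i => u (p.1, i)) p.2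
  map_add' u v := by funext p; exact congrFun (φ.map_add (fun i => u (p.1, i)) _) p.2
  map_smul' c u := by funext p; exact congrFun (φ.map_smul c (fun i => u (p.1, i))) p.2

lemma map_tensS (E : Submodule ℂ (μ → ℂ)) (U : Submodule ℂ (ι → ℂ))
    (φ : (ι → ℂ) →ₗ[ℂ] (κ → ℂ)) : (tensS E U).map (rowMap μ φ) = tensS E (U.map φ) := by
  have key : ∀ (v : μ → ℂ) (w : ι → ℂ), rowMap μ φ (fun p => v p.1 * w p.2) =
      fun p => v p.1 * φ w p.2 := fun v w => by
    funext p; exact congrFun (φ.map_smul (v p.1) w) p.2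
  rw [tensS, Submodule.map_span, tensS]
  congr 1
  ext u
  constructor
  · rintro ⟨_, ⟨v, hv, w, hw, rfl⟩, rfl⟩
    exact ⟨v, hv, _, ⟨w, hw, rfl⟩, key v w⟩
  · rintro ⟨v, hv, _, ⟨w, hw, rfl⟩, rfl⟩
    exact ⟨_, ⟨v, hv, w, hw, rfl⟩, key v w⟩

lemma tensS_inf_ker [Fintype μ] [Fintype ι] (E : Submodule ℂ (μ → ℂ)) (U : Submodule ℂ (ι → ℂ))
    (φ : (ι → ℂ) →ₗ[ℂ] (κ → ℂ)) :
    tensS E U ⊓ LinearMap.ker (rowMap μ φ) = tensS E (U ⊓ LinearMap.ker φ) := by
  ext u
  simp only [Submodule.mem_inf, mem_tensS, LinearMap.mem_ker]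
  constructor
  · rintro ⟨⟨h1, h2⟩, h3⟩
    exact ⟨h1, fun i => ⟨h2 i, funext fun j => congrFun h3 (i, j)⟩⟩
  · rintro ⟨h1, h2⟩
    exact ⟨⟨h1, fun i => (h2 i).1⟩, funext fun p => congrFun (h2 p.1).2 p.2⟩

lemma tensS_bot [Fintype μ] [Fintype ι] (E : Submodule ℂ (μ → ℂ)) :
    tensS E (⊥ : Submodule ℂ (ι → ℂ)) = ⊥ := by
  refine eq_bot_iff.2 fun u hu => ?_
  exact funext fun p => congrFun ((mem_tensS.1 hu).2 p.1) p.2

/-- Kronecker product -/
def kron {S : Type} [Mul S] (P : Matrix μ α S) (Q : Matrix κ ι S) : Matrix (μ × κ) (α × ι) S :=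
  fun p q => P p.1 q.1 * Q p.2 q.2

lemma mev_kron_one [Fintype μ] [DecidableEq μ] [Fintype ι] (x : Pt) (Φ : Matrix κ ι R) :
    mev x (kron (1 : Matrix μ μ R) Φ) = rowMap μ (mev x Φ) := by
  refine LinearMap.ext fun u => funext fun p => ?_
  change _ = mev x Φ _ _
  rw [mev_apply, mev_apply, Fintype.sum_prod_type, Finset.sum_eq_single p.1]
  · simp [kron]
  · intro a _ h; simp [kron, Matrix.one_apply_ne h.symm]
  · simp
lemma mhmg_kron {a : α → D} {b : μ → D} {c : ι → D} {d : κ → D} {P : Matrix μ α R}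
    {Q : Matrix κ ι R} (hP : MHmg a b P) (hQ : MHmg c d Q) :
    MHmg (fun p : α × ι => a p.1 + c p.2) (fun p : μ × κ => b p.1 + d p.2) (kron P Q) := by
  intro p q
  have := (hP p.1 q.1).mul (hQ p.2 q.2)
  rwa [sub_add_sub_comm] at this

lemma kron_proj [Fintype ι] [Fintype κ] {U : Submodule ℂ (ι → ℂ)} {W : Submodule ℂ (κ → ℂ)}
    {P : Matrix ι ι ℂ} {Q : Matrix κ κ ℂ} {r s : ℂ} (hP : ∀ v, P.mulVec v ∈ U)
    (hP' : ∀ v ∈ U, P.mulVec v = r • v) (hQ : ∀ v, Q.mulVec v ∈ W)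
    (hQ' : ∀ v ∈ W, Q.mulVec v = s • v) :
    (∀ u, (kron P Q).mulVec u ∈ tensS U W) ∧
      ∀ u ∈ tensS U W, (kron P Q).mulVec u = (r * s) • u := by
  have e1 : ∀ (u : ι × κ → ℂ) a b, (kron P Q).mulVec u (a, b) =
      P.mulVec (fun i => Q.mulVec (fun j => u (i, j)) b) a := fun u a b => by
    simp [kron, Matrix.mulVec, dotProduct, Fintype.sum_prod_type, Finset.mul_sum, mul_assoc]
  have e2 : ∀ (u : ι × κ → ℂ) a b, (kron P Q).mulVec u (a, b) =
      Q.mulVec (fun j => P.mulVec (fun i => u (i, j)) a) b := fun u a b => by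
    simp only [kron, Matrix.mulVec, dotProduct, Fintype.sum_prod_type, Finset.mul_sum]
    rw [Finset.sum_comm]
    exact Finset.sum_congr rfl fun _ _ => Finset.sum_congr rfl fun _ _ => by ring
  refine ⟨fun u => mem_tensS.2 ⟨fun b => ?_, fun a => ?_⟩, fun u hu => ?_⟩
  · simp only [e1]; exact hP _
  · simp only [e2]; exact hQ _
  · obtain ⟨h1, h2⟩ := mem_tensS.1 hu
    funext ⟨a, b⟩
    have : (fun i => Q.mulVec (fun j => u (i, j)) b) = s • fun i => u (i, b) := by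
      funext i; rw [hQ' _ (h2 i)]; rfl
    rw [e1, this, Matrix.mulVec_smul, hP' _ (h1 b)]
    simp; ring

lemma trace_proj [Fintype ι] {U : Submodule ℂ (ι → ℂ)} {P : Matrix ι ι ℂ}
    (hP : ∀ v, P.mulVec v ∈ U) (hP' : ∀ v ∈ U, P.mulVec v = v) :
    P.trace = (finrank ℂ U : ℂ) := by
  classical
  rw [← Matrix.trace_toLin'_eq]
  exact LinearMap.IsProj.trace (p := U) ⟨hP, hP'⟩

lemma finrank_tensS [Fintype ι] [Fintype κ] (U : Submodule ℂ (ι → ℂ)) (W : Submodule ℂ (κ → ℂ)) :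
    finrank ℂ (tensS U W) = finrank ℂ U * finrank ℂ W := by
  obtain ⟨P, hP, hP'⟩ := exists_projM U
  obtain ⟨Q, hQ, hQ'⟩ := exists_projM W
  have h := kron_proj (r := 1) (s := 1) hP (by simpa using hP') hQ (by simpa using hQ')
  have h1 := trace_proj h.1 (by simpa using h.2)
  have h2 : (kron P Q).trace = P.trace * Q.trace := Matrix.trace_kronecker P Q
  rw [h2, trace_proj hP hP', trace_proj hQ hQ'] at h1
  exact_mod_cast h1.symm

/-- a subspace stable under a diagonal map is stable under functions of the eigenvalues -/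
lemma interp {U : Submodule ℂ (ι → ℂ)} [Fintype ι] (n : ι → ℤ)
    (h : ∀ v ∈ U, (fun i => (2 : ℂ) ^ n i * v i) ∈ U) (φ : ℤ → ℂ) {v : ι → ℂ} (hv : v ∈ U) :
    (fun i => φ (n i) * v i) ∈ U := by
  classical
  have key : ∀ q : Polynomial ℂ, (fun i => q.eval ((2 : ℂ) ^ n i) * v i) ∈ U := by
    intro q
    induction q using Polynomial.induction_on with
    | C a => simp only [Polynomial.eval_C]; exact U.smul_mem a hv
    | add p q hp hq => simp only [Polynomial.eval_add, add_mul]; exact U.add_mem hp hq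
    | monomial m a hm =>
      convert h _ hm using 1
      funext i; simp; ring
  have hinj : Set.InjOn (fun k : ℤ => (2 : ℂ) ^ k) (Finset.univ.image n : Finset ℤ) := by
    intro a _ b _ e
    have e' : (2 : ℂ) ^ a = 2 ^ b := e
    have : ((2 : ℝ) ^ a : ℝ) = 2 ^ b := by simpa using congrArg norm e'
    exact zpow_right_injective₀ (by norm_num) (by norm_num) this
  convert key (Lagrange.interpolate (Finset.univ.image n) (fun k : ℤ => (2 : ℂ) ^ k) φ) using 3
  exact (Lagrange.eval_interpolate_at_node φ hinj (by simp)).symm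

lemma usc_congr {X : Spc} {f g : Pt → ℤ} (h : X.USC f) (e : ∀ x ∈ X.pts, f x = g x) : X.USC g :=
  fun x hx => (h x hx).imp fun _ hr =>
    ⟨hr.1, fun y hy h' => by rw [← e x hx, ← e y hy]; exact hr.2 y hy h'⟩
lemma lc_cast {X : Spc} {f : Pt → ℕ} (h : X.LC f) : X.LC fun x => (f x : ℤ) :=
  fun x hx => (h x hx).imp fun _ hr => ⟨hr.1, fun y hy h' => by simp only [hr.2 y hy h']⟩

end B0
end Crest.Agent.N265
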