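import Crest.Agent.N265.K.Lam0

/-! # Task K7: `Lam A = λ_{-s}(A^∨)`, splitting principle, characteristic polynomial, Euler class

(`SdS`, `SdS_ses`, `exists_split` are in `K/Lam0.lean`.) -/

set_option autoImplicit false
set_option linter.unusedVariables false
noncomputable section
open Module Polynomial

namespace Crest.Agent.N265
open Bun GM
variable {X Y P : Spc}

namespace L0
section Ring
variable {Λ : Type*} [CommRing Λ] {α : Type*}

lemma natDegree_lin_le (u : Λ) : (1 - C u * Polynomial.X : Λ[X]).natDegree ≤ 1 := by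
  refine (natDegree_sub_le _ _).trans (max_le (by simp) ?_)
  exact (natDegree_C_mul_le _ _).trans natDegree_X_le
lemma natDegree_prod_le_card (s : Finset α) (f : α → Λ[X]) (h : ∀ i, (f i).natDegree ≤ 1) :
    (∏ i ∈ s, f i).natDegree ≤ s.card := by
  refine (natDegree_prod_le s f).trans ?_
  have := Finset.sum_le_card_nsmul s (fun i => (f i).natDegree) 1 fun i _ => h i
  simpa using this
lemma coeff_prod_lin (s : Finset α) (u : α → Λ) :
    (∏ i ∈ s, (1 - C (u i) * Polynomial.X : Λ[X])).coeff s.card = ∏ i ∈ s, -u i := by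
  have := coeff_prod_of_natDegree_le s (fun i => (1 - C (u i) * Polynomial.X : Λ[X])) 1
    fun i _ => natDegree_lin_le (u i)
  rw [mul_one] at this
  rw [this]
  exact Finset.prod_congr rfl fun i _ => by simp [coeff_one]
lemma reflect_prod (s : Finset α) (f : α → Λ[X]) (h : ∀ i, (f i).natDegree ≤ 1) :
    (∏ i ∈ s, f i).reflect s.card = ∏ i ∈ s, (f i).reflect 1 := by
  classical
  induction s using Finset.induction_on with
  | empty => simp
  | insert a s ha ih =>
    rw [Finset.prod_insert ha, Finset.prod_insert ha, Finset.card_insert_of_notMem ha, add_comm,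
      reflect_mul _ _ (h a) (natDegree_prod_le_card s f h), ih]
lemma reflect_X_sub_C (a : Λ) : (Polynomial.X - C a : Λ[X]).reflect 1 = 1 - C a * Polynomial.X := by
  rw [reflect_sub, reflect_one_X, reflect_C, pow_one]
lemma reflect_lin (a : Λ) : (1 - C a * Polynomial.X : Λ[X]).reflect 1 = Polynomial.X - C a := by
  rw [← reflect_X_sub_C, reflect_reflect]
lemma inverse_eq {a b : Λ} (h : a * b = 1) : Ring.inverse a = b := by
  have := Ring.inverse_mul_cancel_left a b (IsUnit.of_mul_eq_one b h)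
  rwa [h, mul_one] at this
lemma inverse_mul' {a b : Λ} (ha : IsUnit a) (hb : IsUnit b) :
    Ring.inverse (a * b) = Ring.inverse a * Ring.inverse b :=
  inverse_eq (by rw [mul_mul_mul_comm, Ring.mul_inverse_cancel a ha, Ring.mul_inverse_cancel b hb,
    mul_one])
lemma sub_dvd_of_nil {a t u : Λ} {J : ℕ} (h : (a - t) ^ J = 0) : u - a ∣ (u - t) ^ J := by
  have := sub_dvd_pow_sub_pow (u - t) (a - t) J
  rwa [h, sub_zero, sub_sub_sub_cancel_right] at this
end Ring

/-- the inverse series -/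
def InvS (A : Bun X) : PowerSeries (Op X) := PowerSeries.invOfUnit (SdS A) 1
lemma InvS_mul (A : Bun X) : InvS A * SdS A = 1 :=
  PowerSeries.invOfUnit_mul _ _ (const_SdS A)
lemma InvS_eq {A : Bun X} {u : PowerSeries (Op X)} (h : u * SdS A = 1) : InvS A = u := by
  rw [← one_mul (InvS A), ← h, mul_assoc, mul_comm (SdS A), InvS_mul, mul_one]
lemma isUnit_InvS (A : Bun X) : IsUnit (InvS A) := IsUnit.of_mul_eq_one _ (InvS_mul A)
lemma InvS_ses {A B C : Bun X} (h : SES A B C) : InvS B = InvS A * InvS C :=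
  InvS_eq (by rw [SdS_ses h, mul_mul_mul_comm, InvS_mul, InvS_mul, mul_one])
lemma InvS_pull (p : Proj Y X) (A : Bun X) :
    InvS (A.pull p) = PowerSeries.map (Op.pull p) (InvS A) :=
  InvS_eq (by rw [SdS_pull, ← map_mul, InvS_mul, map_one])
lemma exists_InvK (X : Spc) : ∃ Φ : Multiplicative (K X) →* PowerSeries (Op X),
    ∀ A : Bun X, Φ (Multiplicative.ofAdd A.kl) = InvS A := by
  obtain ⟨Ψ, hΨ⟩ := K.exists_lift (X := X) (G := Additive (PowerSeries (Op X))ˣ)
    (fun A => Additive.ofMul (isUnit_InvS A).unit) fun A B C h => by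
      rw [← ofMul_mul]
      exact congrArg _ (Units.ext (InvS_ses h))
  refine ⟨{ toFun := fun u => ((Additive.toMul (Ψ u.toAdd) : Units _) : PowerSeries (Op X))
            map_one' := by simp
            map_mul' := by intro a b; simp }, fun A => ?_⟩
  show ((Additive.toMul (Ψ A.kl) : Units _) : PowerSeries (Op X)) = _
  rw [hΨ]
  rfl
lemma InvS_line (d : D) :
    InvS (line X d) = 1 - PowerSeries.C (lb X (-d)) * PowerSeries.X := by
  have h1 := SdS_der (A := line X d) (B := Bun.zero X) 0 (B0.mhmg_zero _ _)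
    (neg_mem (dpr_mem X.B d)) (fun _ => 1) (fun _ => by
      show Hmg (-dpr X.B d + dpr X.B d) 1
      rw [neg_add_cancel]
      exact Hmg.one) fun x hx => ⟨fun e => one_ne_zero ((map_one (MvPolynomial.eval x)).symm.trans (congrFun e ())),
        Subsingleton.elim (α := Submodule ℂ (Empty → ℂ)) _ _, by
          rw [B0.mev_zero, LinearMap.ker_zero, inf_top_eq]
          refine (eq_top_iff.2 fun v _ => Submodule.mem_span_singleton.2 ⟨v (), ?_⟩).symm
          funext u
          show v () * MvPolynomial.eval x 1 = v u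
          rw [map_one, mul_one]
          rfl⟩
  rw [SdS_of_bot (bot_of_rk rk_zero), ← map_neg, lb, lbK_dpr] at h1
  exact InvS_eq h1
lemma InvS_of_kl_sum {A : Bun X} {α : Type} (s : Finset α) (d : α → D)
    (h : A.kl = ∑ i ∈ s, lbK X (d i)) :
    InvS A = ((∏ i ∈ s, (1 - C (lb X (-d i)) * Polynomial.X) : (Op X)[X]) : PowerSeries (Op X)) := by
  obtain ⟨Φ, hΦ⟩ := exists_InvK X
  rw [← hΦ, h, ofAdd_sum, map_prod, ← Polynomial.coeToPowerSeries.ringHom_apply, map_prod]
  refine Finset.prod_congr rfl fun i _ => ?_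
  rw [lbK, hΦ, InvS_line]
  simp

lemma eq_of_split {A : Bun X} {r : ℕ} (h : A.Rk r) {u v : Op X}
    (H : ∀ (Y : Spc) (p : Proj Y X) (d : Fin r → D), (A.pull p).kl = ∑ i, lbK Y (d i) →
      K.pull p (A.det r h).kl = ∏ i, lbK Y (d i) → Op.pull p u = Op.pull p v) : u = v :=
  eq_of_cover' fun Y p => by
    obtain ⟨W, q, d, -, hs, e1, e2⟩ := split r (A.pull p) (h.pull p)
    refine ⟨W, q, hs, H W _ d ?_ ?_⟩
    · rw [← K.pull_kl, ← K.pull_pull q p, K.pull_kl p, e1]
    · rw [← K.pull_pull q p, kl_det_pull, e2]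
lemma poly_of_split {A : Bun X} {r : ℕ} (h : A.Rk r) {u v : (Op X)[X]}
    (H : ∀ (Y : Spc) (p : Proj Y X) (d : Fin r → D), (A.pull p).kl = ∑ i, lbK Y (d i) →
      u.map (Op.pull p) = v.map (Op.pull p)) : u = v := by
  ext k
  exact eq_of_split h fun Y p d e _ => by rw [← coeff_map, ← coeff_map, H Y p d e]
lemma poly_of_rk (A : Bun X) {u v : (Op X)[X]} (H : ∀ (Y : Spc) (p : Proj Y X) (r : ℕ),
    (A.pull p).Rk r → u.map (Op.pull p) = v.map (Op.pull p)) : u = v := by
  ext k
  refine eq_of_irred fun Y p hY => ?_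
  obtain ⟨r, hr⟩ := (A.pull p).exists_rk hY.conn
  rw [← coeff_map, ← coeff_map, H Y p r hr]
lemma coeff_InvS_rk {A : Bun X} {r : ℕ} (h : A.Rk r) {n : ℕ} (hn : r < n) :
    PowerSeries.coeff n (InvS A) = 0 :=
  eq_of_split h fun Y p d e _ => by
    rw [← PowerSeries.coeff_map, ← InvS_pull, InvS_of_kl_sum _ _ e, coeff_coe, map_zero]
    refine coeff_eq_zero_of_natDegree_lt (lt_of_le_of_lt
      (natDegree_prod_le_card _ _ fun i => natDegree_lin_le _) ?_)
    simpa using hn
lemma coeff_InvS (A : Bun X) {n : ℕ} (hn : Fintype.card A.ι < n) :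
    PowerSeries.coeff n (InvS A) = 0 :=
  eq_of_irred fun Y p hY => by
    obtain ⟨r, hr⟩ := (A.pull p).exists_rk hY.conn
    obtain ⟨y, hy⟩ := hY.nonempty
    have h1 : finrank ℂ (A.L (restr X.B y)) ≤ finrank ℂ (A.ι → ℂ) := Submodule.finrank_le _
    have h2 : finrank ℂ (A.L (restr X.B y)) = r := hr y hy
    rw [finrank_fintype_fun_eq_card] at h1
    rw [← PowerSeries.coeff_map, ← InvS_pull, coeff_InvS_rk hr (by omega), map_zero]
end L0
open L0

/-- `λ_{-s}(A^∨) = ∏ (1 - s / a_i)` -/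
def Lam (A : Bun X) : (Op X)[X] :=
  PowerSeries.trunc (Fintype.card A.ι + 1) (PowerSeries.invOfUnit (SdS A) 1)
lemma L0.Lam_coe (A : Bun X) : (Lam A : PowerSeries (Op X)) = InvS A := by
  ext n
  rw [coeff_coe, Lam, PowerSeries.coeff_trunc]
  split_ifs with h
  · rfl
  · exact (coeff_InvS A (by omega)).symm
theorem Lam_mul_SdS (A : Bun X) : (Lam A : PowerSeries (Op X)) * SdS A = 1 := by
  rw [Lam_coe, InvS_mul]
theorem exists_LamK (X : Spc) : ∃ Φ : Multiplicative (K X) →* PowerSeries (Op X),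
    ∀ A : Bun X, Φ (Multiplicative.ofAdd A.kl) = Lam A :=
  (exists_InvK X).imp fun _ h A => by rw [h, Lam_coe]
lemma Lam_congr {A B : Bun X} (h : A.kl = B.kl) : Lam A = Lam B := by
  obtain ⟨Φ, hΦ⟩ := exists_LamK X
  exact coe_injective _ (by rw [← hΦ, ← hΦ, h])
lemma Lam_add {A B C : Bun X} (h : B.kl = A.kl + C.kl) : Lam B = Lam A * Lam C := by
  obtain ⟨Φ, hΦ⟩ := exists_LamK X
  exact coe_injective _ (by rw [coe_mul, ← hΦ, ← hΦ, ← hΦ, h, ofAdd_add, map_mul])
/-- any identity between sums of bundles in `K X` gives an identity of products -/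
lemma Lam_prod {α β : Type} (s : Finset α) (t : Finset β) (A : α → Bun X) (B : β → Bun X)
    (h : ∑ i ∈ s, (A i).kl = ∑ j ∈ t, (B j).kl) : ∏ i ∈ s, Lam (A i) = ∏ j ∈ t, Lam (B j) := by
  obtain ⟨Φ, hΦ⟩ := exists_LamK X
  have key : ∀ {γ : Type} (u : Finset γ) (E : γ → Bun X),
      ((∏ i ∈ u, Lam (E i) : (Op X)[X]) : PowerSeries (Op X)) =
        Φ (Multiplicative.ofAdd (∑ i ∈ u, (E i).kl)) := fun u E => by
    rw [ofAdd_sum, map_prod, ← Polynomial.coeToPowerSeries.ringHom_apply, map_prod]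
    exact Finset.prod_congr rfl fun i _ => (hΦ _).symm
  exact coe_injective _ (by rw [key, key, h])
lemma Lam_add_add {A B C E : Bun X} (h : A.kl + B.kl = C.kl + E.kl) :
    Lam A * Lam B = Lam C * Lam E := by
  rw [← Lam_add (kl_sum A B), ← Lam_add (kl_sum C E)]
  exact Lam_congr (by rw [kl_sum, kl_sum, h])
lemma Lam_of_kl_sum {A : Bun X} {α : Type} (s : Finset α) (d : α → D)
    (h : A.kl = ∑ i ∈ s, lbK X (d i)) : Lam A = ∏ i ∈ s, (1 - C (lb X (-d i)) * Polynomial.X) :=
  coe_injective _ (by rw [Lam_coe, InvS_of_kl_sum s d h])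
lemma Lam_pull (p : Proj Y X) (A : Bun X) : Lam (A.pull p) = (Lam A).map (Op.pull p) := by
  ext n
  rw [coeff_map, ← coeff_coe, ← coeff_coe, Lam_coe, Lam_coe, InvS_pull, PowerSeries.coeff_map]
lemma Lam_coeff_zero (A : Bun X) : (Lam A).coeff 0 = 1 := by
  have := congrArg PowerSeries.constantCoeff (Lam_mul_SdS A)
  rwa [map_mul, const_SdS, mul_one, map_one, constantCoeff_coe] at this
lemma Lam_coeff_one (A : Bun X) : (Lam A).coeff 1 = -op X (K.dual X A.kl) := by
  have := congrArg (PowerSeries.coeff 1) (Lam_mul_SdS A)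
  rw [PowerSeries.coeff_one_mul, const_SdS, constantCoeff_coe, Lam_coeff_zero, coeff_coe, coeff_SdS,
    Sd_one, PowerSeries.coeff_one, if_neg one_ne_zero] at this
  linear_combination this
lemma Lam_natDegree_le {A : Bun X} {r : ℕ} (h : A.Rk r) : (Lam A).natDegree ≤ r :=
  natDegree_le_iff_coeff_eq_zero.2 fun n hn => by rw [← coeff_coe, Lam_coe, coeff_InvS_rk h hn]
lemma Lam_lead {A : Bun X} {r : ℕ} (h : A.Rk r) :
    (Lam A).coeff r * op X (A.det r h).kl = (-1) ^ r :=
  eq_of_split h fun Y p d e1 e2 => by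
    have h1 := coeff_prod_lin Finset.univ fun i => lb Y (-d i)
    rw [Finset.card_fin] at h1
    rw [map_mul, ← coeff_map, ← Lam_pull, Lam_of_kl_sum _ _ e1, h1, Op.pull_op, e2, map_prod,
      ← Finset.prod_mul_distrib, map_pow, map_neg, map_one]
    rw [Finset.prod_congr rfl (g := fun _ => (-1 : Op Y)) fun i _ => by
      rw [neg_mul, mul_comm]; exact congrArg Neg.neg (lb_mul_neg (d i))]
    simp
lemma Lam_rk_one {A : Bun X} (h : A.Rk 1) :
    Lam A = 1 - C (op X (K.dual X A.kl)) * Polynomial.X := by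
  rw [eq_X_add_C_of_natDegree_le_one (Lam_natDegree_le h), Lam_coeff_zero, Lam_coeff_one]
  simp only [map_neg, map_one]
  ring

lemma L0.lead_mul {A : Bun X} {r : ℕ} (h : A.Rk r) :
    (Lam A).coeff r * ((-1) ^ r * op X (A.det r h).kl) = 1 := by
  rw [mul_left_comm, Lam_lead h, ← mul_pow]
  simp
lemma L0.isUnit_lead {A : Bun X} {r : ℕ} (h : A.Rk r) : IsUnit ((Lam A).coeff r) :=
  IsUnit.of_mul_eq_one _ (lead_mul h)

/-- characteristic polynomial `∏ (z - a_i)` -/
def chp (A : Bun X) (r : ℕ) : (Op X)[X] := C (Ring.inverse ((Lam A).coeff r)) * Lam A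
lemma chp_eq {A : Bun X} {r : ℕ} (h : A.Rk r) :
    chp A r = C ((-1) ^ r * op X (A.det r h).kl) * Lam A := by
  rw [chp, inverse_eq (lead_mul h)]
lemma chp_natDegree_le {A : Bun X} {r : ℕ} (h : A.Rk r) : (chp A r).natDegree ≤ r :=
  (natDegree_C_mul_le _ _).trans (Lam_natDegree_le h)
lemma chp_coeff_rk {A : Bun X} {r : ℕ} (h : A.Rk r) : (chp A r).coeff r = 1 := by
  rw [chp_eq h, coeff_C_mul, mul_comm, lead_mul h]
lemma chp_monic {A : Bun X} {r : ℕ} (h : A.Rk r) : (chp A r).Monic :=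
  monic_of_natDegree_le_of_coeff_eq_one r (chp_natDegree_le h) (chp_coeff_rk h)
lemma chp_natDegree [Nontrivial (Op X)] {A : Bun X} {r : ℕ} (h : A.Rk r) :
    (chp A r).natDegree = r :=
  natDegree_eq_of_le_of_coeff_ne_zero (chp_natDegree_le h) (by rw [chp_coeff_rk h]; exact one_ne_zero)
lemma chp_coeff_zero {A : Bun X} {r : ℕ} (h : A.Rk r) :
    (chp A r).coeff 0 = (-1) ^ r * op X (A.det r h).kl := by
  rw [chp_eq h, coeff_C_mul, Lam_coeff_zero, mul_one]
lemma isUnit_det {A : Bun X} {r : ℕ} (h : A.Rk r) : IsUnit (op X (A.det r h).kl) :=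
  IsUnit.of_mul_eq_one ((Lam A).coeff r * (-1) ^ r) (by linear_combination lead_mul h)
lemma chp_congr {A B : Bun X} (h : A.kl = B.kl) (r : ℕ) : chp A r = chp B r := by
  rw [chp, chp, Lam_congr h]
lemma L0.chp_mul {A C : Bun X} {m n : ℕ} (hA : A.Rk m) (hC : C.Rk n) : chp A m * chp C n =
    Polynomial.C (Ring.inverse ((Lam A * Lam C).coeff (m + n))) * (Lam A * Lam C) := by
  rw [coeff_mul_add_eq_of_natDegree_le (Lam_natDegree_le hA) (Lam_natDegree_le hC),
    inverse_mul' (isUnit_lead hA) (isUnit_lead hC), chp, chp, map_mul]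
  ring
lemma chp_add {A B C : Bun X} {m n : ℕ} (hA : A.Rk m) (hC : C.Rk n) (h : B.kl = A.kl + C.kl) :
    chp B (m + n) = chp A m * chp C n := by
  rw [chp_mul hA hC, chp, Lam_add h]
lemma chp_add_add {A B C E : Bun X} {a b c e : ℕ} (hA : A.Rk a) (hB : B.Rk b) (hC : C.Rk c)
    (hE : E.Rk e) (hr : a + b = c + e) (h : A.kl + B.kl = C.kl + E.kl) :
    chp A a * chp B b = chp C c * chp E e := by
  rw [chp_mul hA hB, chp_mul hC hE, Lam_add_add h, hr]
lemma chp_pull (p : Proj Y X) {A : Bun X} {r : ℕ} (h : A.Rk r) :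
    chp (A.pull p) r = (chp A r).map (Op.pull p) := by
  rw [chp_eq h, chp_eq (h.pull p), Polynomial.map_mul, map_C, Lam_pull, map_mul (Op.pull p),
    map_pow, map_neg, map_one, Op.pull_op, kl_det_pull]
lemma chp_of_kl_sum {A : Bun X} {α : Type} (s : Finset α) (d : α → D)
    (h : A.kl = ∑ i ∈ s, lbK X (d i)) :
    chp A s.card = ∏ i ∈ s, (Polynomial.X - C (lb X (d i))) := by
  have h1 : (∏ i ∈ s, -lb X (-d i)) * ∏ i ∈ s, -lb X (d i) = 1 := by
    rw [← Finset.prod_mul_distrib]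
    exact Finset.prod_eq_one fun i _ => by rw [neg_mul_neg, mul_comm, lb_mul_neg]
  rw [chp, Lam_of_kl_sum s d h, coeff_prod_lin, inverse_eq h1, map_prod, ← Finset.prod_mul_distrib]
  refine Finset.prod_congr rfl fun i _ => ?_
  have h2 : (C (lb X (d i)) * C (lb X (-d i)) : (Op X)[X]) = 1 := by
    rw [← map_mul, lb_mul_neg, map_one]
  rw [map_neg]
  linear_combination Polynomial.X * h2
lemma L0.chp_fin {A : Bun X} {r : ℕ} (d : Fin r → D) (h : A.kl = ∑ i, lbK X (d i)) :
    chp A r = ∏ i, (Polynomial.X - C (lb X (d i))) := by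
  have := chp_of_kl_sum Finset.univ d h
  rwa [Finset.card_fin] at this
lemma chp_coeff_pred {A : Bun X} {r : ℕ} (h : A.Rk (r + 1)) :
    (chp A (r + 1)).coeff r = -op X A.kl :=
  eq_of_split h fun Y p d e _ => by
    have h1 := prod_X_sub_C_coeff_card_pred Finset.univ (fun i => lb Y (d i)) (by simp)
    rw [Finset.card_fin, Nat.add_sub_cancel] at h1
    rw [← coeff_map, ← chp_pull p h, chp_fin d e, h1, map_neg, Op.pull_op, K.pull_kl, e, map_sum]
    rfl
lemma chp_rk_one {A : Bun X} (h : A.Rk 1) : chp A 1 = Polynomial.X - C (op X A.kl) := by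
  rw [eq_X_add_C_of_natDegree_le_one (chp_natDegree_le h), chp_coeff_rk h, chp_coeff_pred (r := 0) h]
  simp only [map_neg, map_one]
  ring
lemma chp_rk_zero {A : Bun X} (h : A.Rk 0) : chp A 0 = 1 := by
  rw [eq_C_of_natDegree_le_zero (chp_natDegree_le h), chp_coeff_rk h, map_one]
/-- duality -/
theorem Lam_dual {A A' : Bun X} {r : ℕ} (h : A.Rk r) (e : A'.kl = K.dual X A.kl) :
    Lam A' = (chp A r).reflect r :=
  poly_of_split h fun Y p d e1 => by
    have h1 : (A'.pull p).kl = ∑ i, lbK Y (-d i) := by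
      rw [← K.pull_kl, e, K.pull_dual, K.pull_kl, e1, map_sum]
      simp only [K.dual_lbK]
    have h2 := reflect_prod Finset.univ (fun i => Polynomial.X - C (lb Y (d i)))
      fun i => natDegree_X_sub_C_le _
    rw [Finset.card_fin] at h2
    rw [← Lam_pull, ← reflect_map, ← chp_pull p h, chp_fin d e1, h2, Lam_of_kl_sum _ _ h1]
    simp only [neg_neg, reflect_X_sub_C]
lemma L0.rk_dual {A A' : Bun X} {r : ℕ} (h : A.Rk r) (e : A'.kl = K.dual X A.kl) : A'.Rk r := by
  intro x hx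
  obtain ⟨B, hB, hr⟩ := A.exists_dual
  have h1 := congrArg (K.rk hx) (e.trans hB.symm)
  rw [K.rk_kl, K.rk_kl, hr x hx, h x hx] at h1
  exact_mod_cast h1
theorem chp_dual {A A' : Bun X} {r : ℕ} (h : A.Rk r) (e : A'.kl = K.dual X A.kl) :
    chp A' r = (Lam A).reflect r := by
  rw [Lam_dual (A := A') (A' := A) (rk_dual h e) (by rw [e, K.dual_dual]), reflect_reflect]
/-- tensoring with a line bundle scales the roots -/
theorem Lam_tens {A A' l : Bun X} (hl : l.Rk 1) (e : A'.kl = l.kl * A.kl) :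
    Lam A' = (Lam A).comp (C (op X (K.dual X l.kl)) * Polynomial.X) := by
  have main : ∀ {X : Spc} {A A' : Bun X} {r : ℕ} {c : D}, c ∈ DS X.B → A.Rk r →
      A'.kl = lbK X c * A.kl → Lam A' = (Lam A).comp (C (lb X (-c)) * Polynomial.X) := by
    intro X A A' r c hc h e
    refine poly_of_split h fun Y p d e1 => ?_
    have h1 : (A'.pull p).kl = ∑ i, lbK Y (c + d i) := by
      rw [← K.pull_kl, e, map_mul, K.pull_kl, e1, K.pull_lbK p hc, Finset.mul_sum]
      simp only [lbK_add]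
    rw [← Lam_pull, map_comp, ← Lam_pull, Lam_of_kl_sum _ _ h1, Lam_of_kl_sum _ _ e1,
      Polynomial.map_mul, map_C, map_X, Op.pull_lb p (neg_mem hc), Polynomial.prod_comp]
    refine Finset.prod_congr rfl fun i _ => ?_
    rw [neg_add, lb_add, map_mul]
    simp only [sub_comp, one_comp, mul_comp, C_comp, X_comp]
    ring
  refine poly_of_rk A fun Y p r hr => poly_of_split (hl.pull p) fun W q d e1 => ?_
  rw [Fin.sum_univ_one, ← lbK_dpr] at e1
  have h1 : ((A'.pull p).pull q).kl = lbK W (dpr W.B (d 0)) * ((A.pull p).pull q).kl := by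
    rw [← e1, ← K.pull_kl, ← K.pull_kl, e, map_mul, map_mul, K.pull_kl, K.pull_kl, K.pull_kl,
      K.pull_kl]
  have h2 := main (dpr_mem W.B (d 0)) (hr.pull q) h1
  rw [← Lam_pull, ← Lam_pull, h2, map_comp, map_comp, ← Lam_pull, ← Lam_pull, Polynomial.map_mul,
    Polynomial.map_mul, map_C, map_C, map_X, map_X, Op.pull_op, Op.pull_op, K.pull_dual,
    K.pull_dual, K.pull_kl, K.pull_kl, e1, K.dual_lbK]
  rfl
lemma L0.kl_amb (A : Bun X) : A.amb.kl = ∑ i, lbK X (A.deg i) := kl_triv _ _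
lemma L0.Lam_dvd_amb (A : Bun X) : Lam A ∣ Lam A.amb := by
  obtain ⟨C, hC⟩ := A.exists_compl
  exact Dvd.intro _ (Lam_add (kl_ses hC)).symm
theorem chp_dvd_amb {A : Bun X} {r : ℕ} (h : A.Rk r) :
    chp A r ∣ ∏ i, (Polynomial.X - C (lb X (A.deg i))) := by
  rw [← chp_of_kl_sum _ _ (kl_amb A)]
  have h1 : chp A r ∣ Lam A := ⟨C ((Lam A).coeff r), by
    rw [chp_eq h, mul_right_comm, ← map_mul, mul_comm _ ((Lam A).coeff r), lead_mul h, map_one,
      one_mul]⟩
  exact (h1.trans (Lam_dvd_amb A)).trans (Dvd.intro_left _ rfl)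
theorem chp_dvd_pow {A : Bun X} {r : ℕ} (h : A.Rk r) {w : ℕ → ℤ} (hw : X.TTriv w) {k : ℤ}
    (hA : A.Pure w k) : ∃ J : ℕ, chp A r ∣ (Polynomial.X - C (lb X (k • eT))) ^ J := by
  have h1 : ∀ i, ∃ J : ℕ, (lb X (A.deg i) - lb X (k • eT)) ^ J = 0 := fun i => by
    have h2 := isNilpotent_lb_sub hw (A.hdeg i)
    have h3 : nwt X.B w (A.deg i) = k := by rw [nwt, hA i]; ring
    rwa [h3] at h2
  choose J hJ using h1
  refine ⟨∑ i, J i, (chp_dvd_amb h).trans ?_⟩
  rw [← Finset.prod_pow_eq_pow_sum]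
  exact Finset.prod_dvd_prod_of_dvd _ _ fun i _ =>
    sub_dvd_of_nil (by rw [← map_sub, ← map_pow, hJ, map_zero])
theorem isNilpotent_rk_one {A : Bun X} (h : A.Rk 1) {w : ℕ → ℤ} (hw : X.TTriv w) {k : ℤ}
    (hA : A.Pure w k) : IsNilpotent (op X A.kl - lb X (k • eT)) := by
  obtain ⟨J, q, hq⟩ := chp_dvd_pow h hw hA
  refine ⟨J, ?_⟩
  have := congrArg (eval (op X A.kl)) hq
  rw [chp_rk_one h] at this
  simpa using this

/-- Euler class `λ_{-1}(A^∨)` -/
def eu (A : Bun X) : Op X := (Lam A).eval 1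
lemma eu_congr {A B : Bun X} (h : A.kl = B.kl) : eu A = eu B := by rw [eu, eu, Lam_congr h]
lemma eu_add {A B C : Bun X} (h : B.kl = A.kl + C.kl) : eu B = eu A * eu C := by
  rw [eu, Lam_add h, eval_mul]; rfl
lemma eu_add_add {A B C E : Bun X} (h : A.kl + B.kl = C.kl + E.kl) : eu A * eu B = eu C * eu E := by
  rw [eu, eu, eu, eu, ← eval_mul, Lam_add_add h, eval_mul]
lemma eu_pull (p : Proj Y X) (A : Bun X) : eu (A.pull p) = Op.pull p (eu A) := by
  rw [eu, eu, Lam_pull, eval_one_map]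
lemma eu_tens {A A' l : Bun X} (hl : l.Rk 1) (e : A'.kl = l.kl * A.kl) :
    eu A' = (Lam A).eval (op X (K.dual X l.kl)) := by
  rw [eu, Lam_tens hl e, eval_comp]
  simp
/-- products of `1 - t^k`, `k ≠ 0` -/
def Mov : Submonoid (LaurentPolynomial ℤ) :=
  Submonoid.closure {p | ∃ k : ℤ, k ≠ 0 ∧ p = 1 - LaurentPolynomial.T k}
/-- the Euler class of a bundle without weight zero is invertible after localisation -/
theorem eu_dvd {A : Bun X} {w : ℕ → ℤ} (hw : X.TTriv w) (hA : ∀ i, nwt X.B w (A.deg i) ≠ 0) :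
    ∃ p ∈ Mov, eu A ∣ tHom X p := by
  have h1 : ∀ i, ∃ J : ℕ, (lb X (-A.deg i) - lb X (nwt X.B w (-A.deg i) • eT)) ^ J = 0 :=
    fun i => isNilpotent_lb_sub hw (neg_mem (A.hdeg i))
  choose J hJ using h1
  refine ⟨∏ i, (1 - LaurentPolynomial.T (nwt X.B w (-A.deg i))) ^ J i,
    prod_mem fun i _ => pow_mem (Submonoid.subset_closure ?_) _, ?_⟩
  · refine ⟨_, fun e => hA i ?_, rfl⟩
    have h2 : nwt X.B w (-A.deg i) = -nwt X.B w (A.deg i) := by
      simp only [nwt, Finsupp.neg_apply, mul_neg, Finset.sum_neg_distrib]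
      ring
    rw [h2] at e
    exact neg_eq_zero.1 e
  · refine (eval_dvd (x := 1) (Lam_dvd_amb A)).trans ?_
    rw [Lam_of_kl_sum _ _ (kl_amb A), eval_prod, map_prod]
    refine Finset.prod_dvd_prod_of_dvd _ _ fun i _ => ?_
    rw [map_pow, map_sub, map_one, tHom_T]
    simpa using sub_dvd_of_nil (u := 1) (hJ i)

section PB
variable {A : Bun X} {δ : D} {b : ℕ} {y : A.ι → Var}
lemma L0.Lam_root (h : IsPSub P A δ b y) :
    (Lam A).eval₂ (Op.pull h.proj) (lb P (δ - eB b)) = 0 := by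
  obtain ⟨Q, hQ⟩ := taut_ses h
  have h1 : Lam (line P (δ - eB b)) = 1 - C (lb P (-(δ - eB b))) * Polynomial.X := by
    simpa using Lam_of_kl_sum (A := line P (δ - eB b)) {()} (fun _ => δ - eB b) (by simp [lbK])
  rw [eval₂_eq_eval_map, ← Lam_pull, Lam_add (kl_ses hQ), eval_mul, h1, eval_sub, eval_one, eval_mul,
    eval_C, eval_X, mul_comm (lb P _), lb_mul_neg, sub_self, zero_mul]
theorem IsPSub.chp_root (h : IsPSub P A δ b y) {r : ℕ} (hr : A.Rk r) :
    (chp A r).eval₂ (Op.pull h.proj) (lb P (δ - eB b)) = 0 := by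
  rw [chp, eval₂_mul, Lam_root h, mul_zero]
lemma L0.push_eval (p : Proj P X) (φ : (Op X)[X]) (z w : Op P) (a : G P) :
    push P X ((φ.eval₂ (Op.pull p) z * w) • a) =
      φ.sum fun i c => c • push P X ((z ^ i * w) • a) := by
  rw [eval₂_eq_sum, Polynomial.sum, Polynomial.sum, Finset.sum_mul, Finset.sum_smul, map_sum]
  exact Finset.sum_congr rfl fun i _ => by rw [mul_assoc, mul_smul, push_smul]
/-- the projective bundle formula in all degrees `≥ 1 - r` -/
lemma L0.push_int (h : IsPSub P A δ b y) {r : ℕ} (hr : A.Rk r) {k : ℤ} (hk : 1 - r ≤ k) :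
    push P X (lb P (k • (eB b - δ)) • one P) =
      if 0 ≤ k then op X (Sd A k.toNat) • one X else 0 := by
  obtain ⟨k₀, hk₀⟩ := h.push_pow_big
  set a : ℤ → G X := fun k => push P X (lb P (k • (eB b - δ)) • one P) with ha
  set c : ℤ → G X := fun k => if 0 ≤ k then op X (Sd A k.toNat) • one X else 0 with hc
  have h1 : ∀ k, Ext.app (Lam A) a k = 0 := fun k => by
    have h2 := push_eval h.proj (Lam A) (lb P (δ - eB b)) (lb P (k • (eB b - δ))) (one P)
    rw [Lam_root h, zero_mul, zero_smul, map_zero] at h2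
    rw [h2, Ext.app]
    refine Finset.sum_congr rfl fun i _ => ?_
    simp only [ha]
    rw [← lb_nsmul, ← lb_add]
    congr 4
    rw [sub_smul k, natCast_zsmul, ← neg_sub (eB b) δ, smul_neg]
    abel
  have h3 : ∀ k, 1 ≤ k → Ext.app (Lam A) c k = 0 := fun k hk => by
    obtain ⟨m, rfl⟩ := Int.eq_ofNat_of_zero_le (le_trans zero_le_one hk)
    have h4 := congrArg (PowerSeries.coeff m) (Lam_mul_SdS A)
    rw [PowerSeries.coeff_mul, Finset.Nat.sum_antidiagonal_eq_sum_range_succ_mk,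
      PowerSeries.coeff_one, if_neg (by omega)] at h4
    rw [Ext.app_eq_sum (Lam A) ((Lam_natDegree_le hr).trans (Nat.le_add_right r m)),
      ← Finset.sum_subset (Finset.range_subset_range.2 (show m + 1 ≤ r + m + 1 by omega))]
    · rw [← zero_smul (Op X) (one X), ← h4, Finset.sum_smul]
      refine Finset.sum_congr rfl fun i hi => ?_
      have h5 : i ≤ m := Nat.lt_succ_iff.1 (Finset.mem_range.1 hi)
      have h6 : ((m : ℤ) - i).toNat = m - i := by omega
      simp only [hc]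
      rw [if_pos (by omega), h6, coeff_coe, coeff_SdS, mul_smul]
    · intro i _ hi
      rw [Finset.mem_range] at hi
      simp only [hc]
      rw [if_neg (by omega), smul_zero]
  have h7 := Ext.uniq_from (Lam_natDegree_le hr) (isUnit_lead hr) (a := a - c) (k₀ := 1) (k₁ := k₀)
    (fun k hk => by
      have h8 := congrFun (Ext.app_seq_add (Lam A) (a - c) c) k
      rw [sub_add_cancel, Pi.add_apply, h1, h3 k hk, add_zero] at h8
      exact h8.symm)
    (fun k hk => by
      obtain ⟨m, rfl⟩ := Int.eq_ofNat_of_zero_le (le_trans (Int.natCast_nonneg k₀) hk)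
      simp only [Pi.sub_apply, ha, hc]
      rw [if_pos (Int.natCast_nonneg m), natCast_zsmul, lb_nsmul, hk₀ m (by exact_mod_cast hk),
        Int.toNat_natCast, op_smul, sub_self]) k hk
  exact sub_eq_zero.1 h7
theorem IsPSub.push_pow (h : IsPSub P A δ b y) {r : ℕ} (hr : A.Rk (r + 1)) (k : ℕ) :
    push P X (lb P (eB b - δ) ^ k • one P) = Sd A k • one X := by
  have := push_int h hr (k := k) (by push_cast; omega)
  rwa [if_pos (Int.natCast_nonneg k), natCast_zsmul, lb_nsmul, Int.toNat_natCast, op_smul] at this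
theorem IsPSub.push_one (h : IsPSub P A δ b y) {r : ℕ} (hr : A.Rk (r + 1)) :
    push P X (one P) = one X := by
  have := h.push_pow hr 0
  rwa [pow_zero, one_smul, Sd_zero, one_smul] at this
theorem IsPSub.push_neg (h : IsPSub P A δ b y) {r : ℕ} (hr : A.Rk r) {k : ℕ} (h1 : 1 ≤ k)
    (hk : k < r) : push P X (lb P (δ - eB b) ^ k • one P) = 0 := by
  have := push_int h hr (k := -k) (by omega)
  rwa [if_neg (by omega), neg_smul, ← smul_neg, neg_sub, natCast_zsmul, lb_nsmul] at this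
/-- residue form, in the tautological line `ℓ` -/
theorem IsPSub.push_res (h : IsPSub P A δ b y) {r : ℕ} (hr : A.Rk (r + 1)) (φ : (Op X)[X]) :
    push P X ((φ.eval₂ (Op.pull h.proj) (lb P (δ - eB b)) * lb P (δ - eB b)) • one P) =
      (-(chp A (r + 1)).coeff 0 * Ext.res (chp A (r + 1)) (r + 1) φ) • one X := by
  rcases subsingleton_or_nontrivial (Op X) with hs | hn
  · exact (Module.subsingleton (Op X) (G X)).elim _ _
  set l := lb P (δ - eB b) with hl
  have hrec : ∀ k : ℕ, (chp A (r + 1)).sum (fun i c => c • push P X ((l ^ i * l ^ k) • one P)) = 0 :=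
    fun k => by rw [← push_eval h.proj, h.chp_root hr, zero_mul, zero_smul, map_zero]
  have h1 : push P X (l ^ (r + 1) • one P) = (-(chp A (r + 1)).coeff 0) • one X := by
    have h2 := hrec 0
    rw [sum_over_range' _ (by intro; exact zero_smul _ _) (r + 2)
      (Nat.lt_succ_of_le (chp_natDegree_le hr)), Finset.sum_range_succ, Finset.sum_range_succ',
      Finset.sum_eq_zero, chp_coeff_rk hr] at h2
    · simp only [pow_zero, mul_one, one_smul, zero_add, h.push_one hr] at h2
      rw [neg_smul]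
      exact eq_neg_of_add_eq_zero_right h2
    · intro i hi
      rw [pow_zero, mul_one, h.push_neg hr (by omega) (by simpa using hi), smul_zero]
  have h3 := Ext.sum_eq_res (chp_monic hr) (chp_natDegree hr) (Nat.le_add_left 1 r)
    (a := fun k => push P X (l ^ (k + 1) • one P))
    (fun k => by
      rw [← hrec (k + 1)]
      refine Finset.sum_congr rfl fun i _ => ?_
      simp only
      rw [← pow_add]
      congr 4
      omega)
    (fun k hk => h.push_neg hr (by omega) hk) φ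
  rw [push_eval h.proj]
  simp only [← pow_succ]
  rw [h3, Nat.add_sub_cancel, h1, smul_smul, mul_comm]
/-- residue form, in `ξ = ℓ⁻¹` -/
theorem IsPSub.push_res' (h : IsPSub P A δ b y) {r : ℕ} (hr : A.Rk (r + 1)) (φ : (Op X)[X]) :
    push P X ((φ.eval₂ (Op.pull h.proj) (lb P (eB b - δ)) * lb P (δ - eB b) ^ r) • one P) =
      Ext.res ((Lam A).reflect (r + 1)) (r + 1) φ • one X := by
  rcases subsingleton_or_nontrivial (Op X) with hs | hn
  · exact (Module.subsingleton (Op X) (G X)).elim _ _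
  set l := lb P (δ - eB b) with hl
  set ξ := lb P (eB b - δ) with hξ
  have hlξ : ξ * l = 1 := by rw [hl, hξ, ← neg_sub (eB b) δ, lb_mul_neg]
  have hc : ((Lam A).reflect (r + 1)).coeff (r + 1) = 1 := by
    rw [coeff_reflect, revAt_le le_rfl, Nat.sub_self, Lam_coeff_zero]
  have hd : ((Lam A).reflect (r + 1)).natDegree ≤ r + 1 :=
    natDegree_le_iff_coeff_eq_zero.2 fun n hn => by
      rw [coeff_reflect, revAt_eq_self_of_lt hn]
      exact coeff_eq_zero_of_natDegree_lt (lt_of_le_of_lt (Lam_natDegree_le hr) hn)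
  have hroot : ((Lam A).reflect (r + 1)).eval₂ (Op.pull h.proj) ξ = 0 := by
    let _ : Invertible l := ⟨ξ, hlξ, by rw [mul_comm, hlξ]⟩
    exact (eval₂_reflect_eq_zero_iff _ l _ _ (Lam_natDegree_le hr)).2 (Lam_root h)
  have hpow : ∀ k j : ℕ, ξ ^ k * l ^ (k + j) = l ^ j := fun k j => by
    rw [pow_add, ← mul_assoc, ← mul_pow, hlξ, one_pow, one_mul]
  have h3 := Ext.sum_eq_res (monic_of_natDegree_le_of_coeff_eq_one _ hd hc)
    (natDegree_eq_of_le_of_coeff_ne_zero hd (by rw [hc]; exact one_ne_zero)) (Nat.le_add_left 1 r)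
    (a := fun k => push P X ((ξ ^ k * l ^ r) • one P))
    (fun k => by
      have h4 := push_eval h.proj ((Lam A).reflect (r + 1)) ξ (ξ ^ k * l ^ r) (one P)
      rw [hroot, zero_mul, zero_smul, map_zero] at h4
      rw [h4]
      refine Finset.sum_congr rfl fun i _ => ?_
      simp only
      rw [← mul_assoc, ← pow_add, add_comm k i])
    (fun k hk => by
      obtain ⟨j, rfl⟩ := Nat.exists_eq_add_of_le (show k ≤ r by omega)
      show push P X ((ξ ^ k * l ^ (k + j)) • one P) = 0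
      rw [hpow]
      exact h.push_neg hr (by omega) (by omega)) φ
  have h5 := hpow r 0
  rw [add_zero, pow_zero] at h5
  rw [push_eval h.proj, h3, Nat.add_sub_cancel, h5, one_smul, h.push_one hr]
/-- graph of a line bundle -/
theorem IsPSub.kl_graph (h : IsPSub P A δ b y) (hr : A.Rk 1) :
    (A.pull h.proj).kl = lbK P (δ - eB b) := by
  obtain ⟨Q, hQ⟩ := taut_ses h
  have h1 : Q.Rk 0 := rk_quot hQ (rk_line _) (hr.pull _)
  rw [kl_ses hQ, kl_of_bot (bot_of_rk h1), add_zero]
  rfl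
end PB

end Crest.Agent.N265
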