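import Crest.Agent.N265.K.PB

/-! # Task K7, part 0 (helper2): multiplicativity of `SdS`, the splitting principle -/

set_option autoImplicit false
noncomputable section
open Module

namespace Crest.Agent.N265
open Bun GM
variable {X Y P : Spc}

namespace L0

/-- an operator vanishes if it vanishes after surjective covers of irreducible spaces -/
lemma eq_of_cover {u v : Op X} (h : ∀ (Y : Spc) (p : Proj Y X), Y.Irred → ∃ (W : Spc) (q : Proj W Y),
    Function.Surjective (push W Y) ∧ Op.pull (q.trans p) u = Op.pull (q.trans p) v) : u = v := by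
  rw [← sub_eq_zero]
  refine Op.eq_zero_of_irred fun Y p hY => ?_
  obtain ⟨W, q, hs, e⟩ := h Y p hY
  obtain ⟨a, ha⟩ := hs (one Y)
  rw [← ha, ← push_smul q, Op.pull_pull, map_sub, e, sub_self, zero_smul, map_zero]

lemma eq_of_cover' {u v : Op X} (h : ∀ (Y : Spc) (p : Proj Y X), ∃ (W : Spc) (q : Proj W Y),
    Function.Surjective (push W Y) ∧ Op.pull (q.trans p) u = Op.pull (q.trans p) v) : u = v :=
  eq_of_cover fun Y p _ => h Y p

lemma eq_of_irred {u v : Op X}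
    (h : ∀ (Y : Spc) (p : Proj Y X), Y.Irred → Op.pull p u = Op.pull p v) : u = v :=
  eq_of_cover fun Y _ hY => ⟨Y, Proj.refl Y, fun a => ⟨a, push_self a⟩, h Y _ hY⟩

lemma exists_new (B : Finset ℕ) : ∃ b, b ∉ B := Infinite.exists_notMem_finset B

lemma surj_trans {W : Spc} (q : Proj W Y) (p : Proj Y X) (hq : Function.Surjective (push W Y))
    (hp : Function.Surjective (push Y X)) : Function.Surjective (push W X) := by
  intro a
  obtain ⟨b, rfl⟩ := hp a
  obtain ⟨c, rfl⟩ := hq b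
  exact ⟨c, (push_push q p c).symm⟩

lemma kl_pull_pull {W : Spc} (q : Proj W Y) (p : Proj Y X) (A : Bun X) :
    ((A.pull p).pull q).kl = (A.pull (q.trans p)).kl := by
  rw [← K.pull_kl, ← K.pull_kl, K.pull_pull, K.pull_kl]

lemma lbK_dpr (d : D) : lbK X (dpr X.B d) = lbK X d := by
  unfold lbK line
  simp only [dpr_of_mem (dpr_mem X.B d)]

/-- the image of a bundle under a map of constant rank -/
def img (A : Bun X) {κ : Type} [Fintype κ] [DecidableEq κ] (e : κ → D) (he : ∀ j, e j ∈ DS X.B)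
    (Φ : Matrix κ A.ι R) (hΦ : MHmg A.deg e Φ) (n : ℕ)
    (hn : ∀ x ∈ X.pts, finrank ℂ ((A.L x).map (mev x Φ)) = n) : Bun X where
  ι := κ
  deg := e
  hdeg := he
  L := fun x => (A.L x).map (mev x Φ)
  eqv := A.eqv.map hΦ
  alg := (A.alg.gen.map Φ).isAlg_of_rk hn

lemma mev_fromRows {ι κ μ : Type} [Fintype ι] (x : Pt) (q : Matrix κ ι R) (p : Matrix μ ι R)
    (v : ι → ℂ) : mev x (Matrix.fromRows q p) v = Sum.elim (mev x q v) (mev x p v) := by
  funext j
  rcases j with j | j <;> simp [mev_apply]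

lemma mhmg_fromRows {ι κ μ : Type} {a : ι → D} {b : κ → D} {c : μ → D} {q : Matrix κ ι R}
    {p : Matrix μ ι R} (hq : MHmg a b q) (hp : MHmg a c p) :
    MHmg a (Sum.elim b c) (Matrix.fromRows q p) := by
  rintro (j | j) i
  exacts [hq j i, hp j i]

lemma mev_inl {κ μ : Type} [Fintype κ] (x : Pt) (v : κ → ℂ) :
    mev x (B0.dl (id : κ ⊕ μ → κ ⊕ μ) Sum.inl) v = Sum.elim v 0 := by
  funext j
  rcases j with j | j
  · exact B0.mev_dl_of_eq x Sum.inl_injective v rfl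
  · exact B0.mev_dl_of_ne x v fun i => Sum.inr_ne_inl

lemma mev_inr {κ μ : Type} [Fintype κ] [Fintype μ] (x : Pt) (v : κ ⊕ μ → ℂ) :
    mev x (B0.dl (Sum.inr : μ → κ ⊕ μ) id) v = fun j => v (Sum.inr j) := by
  rw [B0.mev_dl_id]
  rfl

lemma elim_eq_zero {κ μ : Type} {v : κ → ℂ} {w : μ → ℂ} : Sum.elim v w = 0 ↔ v = 0 ∧ w = 0 := by
  constructor
  · intro h
    exact ⟨funext fun j => congrFun h (Sum.inl j), funext fun j => congrFun h (Sum.inr j)⟩
  · rintro ⟨rfl, rfl⟩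
    funext j
    rcases j with j | j <;> rfl

/-- push-out of a short exact sequence along an ambient map `q` -/
lemma ses_push {A B C : Bun X} (f : Matrix B.ι A.ι R) (p : Matrix C.ι B.ι R)
    (hf : MHmg A.deg B.deg f) (hp : MHmg B.deg C.deg p)
    (h : ∀ x ∈ X.pts, A.L x ⊓ LinearMap.ker (mev x f) = ⊥ ∧
      (A.L x).map (mev x f) = B.L x ⊓ LinearMap.ker (mev x p) ∧ (B.L x).map (mev x p) = C.L x)
    {κ : Type} [Fintype κ] [DecidableEq κ] (e : κ → D) (he : ∀ j, e j ∈ DS X.B)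
    (q : Matrix κ B.ι R) (hq : MHmg B.deg e q) {a c : ℕ}
    (ha : ∀ x ∈ X.pts, finrank ℂ ((A.L x).map (mev x (q * f))) = a) (hC : C.Rk c) :
    ∃ (B' : Bun X) (g : Matrix B'.ι B.ι R), MHmg B.deg B'.deg g ∧
      SES (img A e he (q * f) (hq.mul hf) a ha) B' C ∧ ∀ x ∈ X.pts,
        (B.L x).map (mev x g) = B'.L x ∧
        ∀ v, mev x g v = 0 ↔ mev x q v = 0 ∧ mev x p v = 0 := by
  classical
  set g : Matrix (κ ⊕ C.ι) B.ι R := Matrix.fromRows q p with hg
  have hgd : MHmg B.deg (Sum.elim e C.deg) g := mhmg_fromRows hq hp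
  set i : Matrix (κ ⊕ C.ι) κ R := B0.dl (id : κ ⊕ C.ι → κ ⊕ C.ι) Sum.inl with hi
  set π : Matrix C.ι (κ ⊕ C.ι) R := B0.dl (Sum.inr : C.ι → κ ⊕ C.ι) id with hπ
  have key : ∀ x ∈ X.pts,
      (A.L x).map (mev x (q * f)) ⊓ LinearMap.ker (mev x i) = ⊥ ∧
      ((A.L x).map (mev x (q * f))).map (mev x i) =
        (B.L x).map (mev x g) ⊓ LinearMap.ker (mev x π) ∧
      ((B.L x).map (mev x g)).map (mev x π) = C.L x := by
    intro x hx
    obtain ⟨-, h2, h3⟩ := h x hx
    refine ⟨?_, ?_, ?_⟩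
    · refine eq_bot_iff.2 fun v hv => ?_
      have h4 : mev x i v = 0 := hv.2
      rw [hi, mev_inl, elim_eq_zero] at h4
      exact h4.1
    · ext w
      constructor
      · rintro ⟨_, ⟨v, hv, rfl⟩, rfl⟩
        have h4 : mev x f v ∈ B.L x ⊓ LinearMap.ker (mev x p) := h2 ▸ ⟨v, hv, rfl⟩
        have h5 : mev x p (mev x f v) = 0 := h4.2
        refine ⟨⟨mev x f v, h4.1, ?_⟩, ?_⟩
        · rw [hg, mev_fromRows, hi, mev_inl, mev_mul, h5]
        · show mev x π _ = 0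
          rw [hπ, mev_inr, hi, mev_inl]
          rfl
      · rintro ⟨⟨u, hu, rfl⟩, hw⟩
        have h4 : mev x π (mev x g u) = 0 := hw
        rw [hπ, mev_inr, hg, mev_fromRows] at h4
        have h5 : mev x p u = 0 := h4
        have h6 : u ∈ (A.L x).map (mev x f) := h2 ▸ ⟨hu, h5⟩
        obtain ⟨v, hv, rfl⟩ := h6
        refine ⟨_, ⟨v, hv, rfl⟩, ?_⟩
        rw [hg, mev_fromRows, hi, mev_inl, mev_mul, h5]
    · rw [← h3, ← Submodule.map_comp]
      congr 1
      refine LinearMap.ext fun u => ?_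
      rw [LinearMap.comp_apply, hπ, mev_inr, hg, mev_fromRows]
      rfl
  have hrk : ∀ x ∈ X.pts, finrank ℂ ((B.L x).map (mev x g)) = a + c := by
    intro x hx
    obtain ⟨h1, h2, h3⟩ := key x hx
    rw [B0.finrank_split ((B.L x).map (mev x g)) (mev x π), ← h2, h3, B0.finrank_map_of_inj h1,
      ha x hx, hC x hx]
  refine ⟨img B (Sum.elim e C.deg) (by rintro (j | j); exacts [he j, C.hdeg j]) g hgd _ hrk, g,
    hgd, ⟨i, π, B0.mhmg_dl ?_, B0.mhmg_dl ?_, key⟩, fun x _ => ⟨rfl, fun v => ?_⟩⟩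
  · rintro j k rfl
    rfl
  · rintro j k rfl
    rfl
  · exact (congrArg (· = 0) (mev_fromRows x q p v)).to_iff.trans elim_eq_zero

/-- a section as a matrix -/
def col {ι : Type} (s : ι → R) : Matrix ι Unit R := fun i _ => s i

lemma mev_col {ι : Type} (x : Pt) (s : ι → R) (v : Unit → ℂ) :
    mev x (col s) v = v () • fun i => MvPolynomial.eval x (s i) := by
  funext i
  simp [mev_apply, col, mul_comm]

lemma map_col {ι : Type} (x : Pt) (s : ι → R) : (⊤ : Submodule ℂ (Unit → ℂ)).map (mev x (col s)) =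
    Submodule.span ℂ {fun i => MvPolynomial.eval x (s i)} := by
  ext w
  rw [Submodule.mem_span_singleton]
  constructor
  · rintro ⟨v, -, rfl⟩
    exact ⟨v (), (mev_col x s v).symm⟩
  · rintro ⟨c, rfl⟩
    exact ⟨fun _ => c, trivial, mev_col x s _⟩

lemma ker_col {ι : Type} (x : Pt) (s : ι → R) (h : (fun i => MvPolynomial.eval x (s i)) ≠ 0) :
    (⊤ : Submodule ℂ (Unit → ℂ)) ⊓ LinearMap.ker (mev x (col s)) = ⊥ := by
  refine eq_bot_iff.2 fun v hv => ?_
  have h1 : mev x (col s) v = 0 := hv.2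
  rw [mev_col, smul_eq_zero] at h1
  funext u
  exact h1.resolve_right h

lemma mhmg_col {A : Bun X} {d : D} (hd : d ∈ DS X.B) {s : A.ι → R}
    (hs : ∀ i, Hmg (d + A.deg i) (s i)) : MHmg (line X (-d)).deg A.deg (col s) := by
  intro i u
  show Hmg (A.deg i - dpr X.B (-d)) (s i)
  rw [dpr_of_mem (neg_mem hd), sub_neg_eq_add, add_comm]
  exact hs i

/-- the exact sequence of a nowhere vanishing section -/
lemma ses_of_sec {A B : Bun X} (f : Matrix B.ι A.ι R) (hf : MHmg A.deg B.deg f) {d : D}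
    (hd : d ∈ DS X.B) (s : A.ι → R) (hs : ∀ i, Hmg (d + A.deg i) (s i))
    (h : ∀ x ∈ X.pts, (fun i => MvPolynomial.eval x (s i)) ≠ 0 ∧ (A.L x).map (mev x f) = B.L x ∧
      A.L x ⊓ LinearMap.ker (mev x f) = Submodule.span ℂ {fun i => MvPolynomial.eval x (s i)}) :
    SES (line X (-d)) A B :=
  ⟨col s, f, mhmg_col hd hs, hf, fun x hx => ⟨ker_col x s (h x hx).1,
    (map_col x s).trans (h x hx).2.2.symm, (h x hx).2.1⟩⟩

lemma ses_of_iso {A B : Bun X} (f : Matrix B.ι A.ι R) (hf : MHmg A.deg B.deg f)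
    (h : ∀ x ∈ X.pts, A.L x ⊓ LinearMap.ker (mev x f) = ⊥ ∧ (A.L x).map (mev x f) = B.L x) :
    SES A B (Bun.zero X) :=
  ⟨f, 0, hf, B0.mhmg_zero _ _, fun x hx => ⟨(h x hx).1, by
    rw [B0.mev_zero, LinearMap.ker_zero, inf_top_eq]; exact (h x hx).2,
    Subsingleton.elim (α := Submodule ℂ (Empty → ℂ)) _ _⟩⟩

lemma rk_zero : (Bun.zero X).Rk 0 := fun _ _ =>
  finrank_zero_of_subsingleton (R := ℂ) (M := (⊤ : Submodule ℂ (Empty → ℂ)))

lemma bot_of_rk {A : Bun X} (h : A.Rk 0) : ∀ x ∈ X.pts, A.L x = ⊥ :=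
  fun x hx => Submodule.finrank_eq_zero.1 (h x hx)

lemma ne_bot_of_rk {A : Bun X} {r : ℕ} (h : A.Rk (r + 1)) : ∀ x ∈ X.pts, A.L x ≠ ⊥ := by
  intro x hx e
  have := h x hx
  rw [e, finrank_bot] at this
  omega

/-- the tautological section -/
lemma taut {A : Bun X} {δ b y} (h : IsPSub P A δ b y) :
    eB b - δ ∈ DS P.B ∧ (∀ i, Hmg (eB b - δ + (A.pull h.proj).deg i) (MvPolynomial.X (y i))) ∧
      ∀ z ∈ P.pts, (fun i => MvPolynomial.eval z (MvPolynomial.X (y i) : R)) ≠ 0 ∧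
        (fun i => MvPolynomial.eval z (MvPolynomial.X (y i) : R)) ∈ (A.pull h.proj).L z := by
  refine ⟨sub_mem (eB_mem ?_) (DS_mono h.proj.sub h.hδ), fun i => ?_, fun z hz => ?_⟩
  · rw [h.B]
    exact Finset.mem_insert_self _ _
  · have e : eB b - δ + (A.pull h.proj).deg i = vdeg (y i) := by
      show eB b - δ + A.deg i = _
      rw [h.deg i, vdeg, h.blk i]
      abel
    rw [e]
    exact Hmg.X _
  · simp only [MvPolynomial.eval_X]
    exact ⟨((h.mem z).1 hz).2.2.1, ((h.mem z).1 hz).2.1⟩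

/-- the tautological sequence on a projective bundle -/
lemma taut_quot {A : Bun X} {δ b y} (h : IsPSub P A δ b y) :
    ∃ (Q : Bun P) (f : Matrix Q.ι (A.pull h.proj).ι R), MHmg (A.pull h.proj).deg Q.deg f ∧
      ∀ z ∈ P.pts, (fun i => MvPolynomial.eval z (MvPolynomial.X (y i) : R)) ≠ 0 ∧
        ((A.pull h.proj).L z).map (mev z f) = Q.L z ∧
        (A.pull h.proj).L z ⊓ LinearMap.ker (mev z f) =
          Submodule.span ℂ {fun i => MvPolynomial.eval z (MvPolynomial.X (y i) : R)} := by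
  obtain ⟨Q, f, hf, hQ⟩ := h.exists_quot
  refine ⟨Q, f, hf, fun z hz => ⟨((taut h).2.2 z hz).1, (hQ z hz).2, ?_⟩⟩
  have h1 := ((taut h).2.2 z hz).2
  simp only [MvPolynomial.eval_X] at h1 ⊢
  show A.L (restr X.B z) ⊓ LinearMap.ker (mev z f) = _
  rw [(hQ z hz).1]
  exact inf_eq_right.2 ((Submodule.span_singleton_le_iff_mem _ _).2 h1)

lemma taut_ses {A : Bun X} {δ b y} (h : IsPSub P A δ b y) :
    ∃ Q : Bun P, SES (line P (δ - eB b)) (A.pull h.proj) Q := by
  obtain ⟨Q, f, hf, hQ⟩ := taut_quot h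
  have := ses_of_sec f hf (taut h).1 _ (taut h).2.1 hQ
  rw [neg_sub] at this
  exact ⟨Q, this⟩

lemma rk_quot {A B C : Bun X} (h : SES A B C) {a c : ℕ} (hA : A.Rk a) (hB : B.Rk (c + a)) :
    C.Rk c := by
  intro x hx
  have h1 := h.finrank hx
  rw [hA x hx, hB x hx] at h1
  omega

lemma kl_det_iso {A B : Bun X} (f : Matrix B.ι A.ι R) (hf : MHmg A.deg B.deg f)
    (h : ∀ x ∈ X.pts, A.L x ⊓ LinearMap.ker (mev x f) = ⊥ ∧ (A.L x).map (mev x f) = B.L x)
    {r : ℕ} (hA : A.Rk r) (hB : B.Rk r) : (B.det r hB).kl = (A.det r hA).kl := by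
  have := kl_det_ses (ses_of_iso f hf h) hA rk_zero (n := 0) hB
  rw [kl_det_zero, mul_one] at this
  exact this

lemma unif (A : Bun X) : ∃ (A' : Bun X) (δ : D) (f : Matrix A'.ι A.ι R), δ ∈ DS X.B ∧
    A'.Unif δ ∧ MHmg A.deg A'.deg f ∧ (∀ x ∈ X.pts, Function.Injective (mev x f)) ∧ ∀ x ∈ X.pts,
      A.L x ⊓ LinearMap.ker (mev x f) = ⊥ ∧ (A.L x).map (mev x f) = A'.L x := by
  obtain ⟨A', δ, f, h1, h2, h3, h4⟩ := A.exists_unif
  refine ⟨A', δ, f, h1, h2, h3, fun x hx => (h4 x hx).1, fun x hx => ⟨?_, (h4 x hx).2⟩⟩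
  rw [LinearMap.ker_eq_bot.2 (h4 x hx).1, inf_bot_eq]

lemma exists_psub {A : Bun X} {δ : D} (hδ : δ ∈ DS X.B) (h : A.Unif δ) :
    ∃ P b y, IsPSub P A δ b y := by
  obtain ⟨b, hb⟩ := exists_new X.B
  obtain ⟨y, hy⟩ := exists_pvar hδ h hb
  obtain ⟨P, hP⟩ := hy.exists_psub
  exact ⟨P, b, y, hP⟩

/-- splitting principle, with the determinant -/
theorem split (r : ℕ) : ∀ {X : Spc} (A : Bun X) (h : A.Rk r), ∃ (Y : Spc) (p : Proj Y X)
    (d : Fin r → D), (∀ i, d i ∈ DS Y.B) ∧ Function.Surjective (push Y X) ∧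
      K.pull p A.kl = ∑ i, lbK Y (d i) ∧ K.pull p (A.det r h).kl = ∏ i, lbK Y (d i) := by
  induction r with
  | zero =>
    intro X A h
    refine ⟨X, Proj.refl X, Fin.elim0, fun i => i.elim0, fun a => ⟨a, push_self a⟩, ?_, ?_⟩
    · rw [kl_of_bot (bot_of_rk h), map_zero, Finset.univ_eq_empty, Finset.sum_empty]
    · rw [kl_det_zero, map_one, Finset.univ_eq_empty, Finset.prod_empty]
  | succ r ih =>
    intro X A h
    obtain ⟨A', δ, f, hδ, hu, hf, -, hiso⟩ := unif A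
    have h' : A'.Rk (r + 1) := fun x hx => by
      rw [← (hiso x hx).2, B0.finrank_map_of_inj (hiso x hx).1, h x hx]
    obtain ⟨P, b, y, hP⟩ := exists_psub hδ hu
    obtain ⟨Q, hQ⟩ := taut_ses hP
    have hQr : Q.Rk r := rk_quot hQ (rk_line _) (h'.pull _)
    obtain ⟨Y, p, d, hd, hs, e1, e2⟩ := ih Q hQr
    have hl : δ - eB b ∈ DS P.B := by
      have := neg_mem (taut hP).1
      rwa [neg_sub] at this
    refine ⟨Y, p.trans hP.proj, Fin.cons (δ - eB b) d, ?_,
      surj_trans p hP.proj hs (hP.push_surj (ne_bot_of_rk h')), ?_, ?_⟩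
    · refine Fin.cases ?_ ?_
      · exact DS_mono p.sub hl
      · exact hd
    · rw [kl_iso f hf hiso, ← K.pull_pull p hP.proj, K.pull_kl, kl_ses hQ, map_add, e1,
        Fin.sum_univ_succ, Fin.cons_zero]
      simp only [Fin.cons_succ]
      rw [← K.pull_lbK p hl]
      rfl
    · have h1 : (A'.pull hP.proj).Rk (1 + r) := by rw [add_comm]; exact h'.pull _
      have h2 := kl_det_ses hQ (rk_line _) hQr h1
      have h3 : ((A'.pull hP.proj).det (r + 1) (h'.pull _)).kl =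
          ((A'.pull hP.proj).det (1 + r) h1).kl := by
        congr 2
        exact add_comm r 1
      rw [← kl_det_iso f hf hiso h h', ← K.pull_pull p hP.proj, kl_det_pull, h3, h2, map_mul, e2,
        kl_det_one, Fin.prod_univ_succ, Fin.cons_zero]
      simp only [Fin.cons_succ]
      rw [← K.pull_lbK p hl]
      rfl

end L0

/-- `∑ [Sym^k A^∨] s^k` -/
def SdS (A : Bun X) : PowerSeries (Op X) := PowerSeries.mk fun k => op X (Sd A k)

namespace L0

lemma coeff_SdS (A : Bun X) (k : ℕ) : PowerSeries.coeff k (SdS A) = op X (Sd A k) :=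
  PowerSeries.coeff_mk _ _

lemma const_SdS (A : Bun X) : PowerSeries.constantCoeff (SdS A) = 1 := by
  rw [← PowerSeries.coeff_zero_eq_constantCoeff_apply, coeff_SdS, Sd_zero, map_one]

lemma SdS_pull (p : Proj Y X) (A : Bun X) :
    SdS (A.pull p) = PowerSeries.map (Op.pull p) (SdS A) := by
  ext k
  rw [PowerSeries.coeff_map, coeff_SdS, coeff_SdS, Op.pull_op, Sd_pull]

lemma SdS_iso {A B : Bun X} (f : Matrix B.ι A.ι R) (hf : MHmg A.deg B.deg f)
    (h : ∀ x ∈ X.pts, A.L x ⊓ LinearMap.ker (mev x f) = ⊥ ∧ (A.L x).map (mev x f) = B.L x) :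
    SdS A = SdS B := by
  ext k
  rw [coeff_SdS, coeff_SdS, Sd_iso f hf h]

lemma SdS_of_bot {A : Bun X} (h : ∀ x ∈ X.pts, A.L x = ⊥) : SdS A = 1 := by
  ext k
  rw [coeff_SdS, PowerSeries.coeff_one]
  cases k with
  | zero => rw [Sd_zero, map_one, if_pos rfl]
  | succ k => rw [Sd_of_bot h, map_zero, if_neg (Nat.succ_ne_zero k)]

lemma SdS_der {A B : Bun X} (f : Matrix B.ι A.ι R) (hf : MHmg A.deg B.deg f) {d : D}
    (hd : d ∈ DS X.B) (s : A.ι → R) (hs : ∀ i, Hmg (d + A.deg i) (s i))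
    (h : ∀ x ∈ X.pts, (fun i => MvPolynomial.eval x (s i)) ≠ 0 ∧ (A.L x).map (mev x f) = B.L x ∧
      A.L x ⊓ LinearMap.ker (mev x f) = Submodule.span ℂ {fun i => MvPolynomial.eval x (s i)}) :
    (1 - PowerSeries.C (lb X d) * PowerSeries.X) * SdS A = SdS B := by
  ext k
  rw [sub_mul, one_mul, map_sub, mul_assoc, PowerSeries.coeff_C_mul, coeff_SdS, coeff_SdS]
  cases k with
  | zero => rw [PowerSeries.coeff_zero_X_mul, Sd_zero, Sd_zero, mul_zero, sub_zero]
  | succ k =>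
    rw [PowerSeries.coeff_succ_X_mul, coeff_SdS, Sd_der f hf hd s hs h k, map_add, map_mul, lb]
    ring

lemma isUnit_lin (u : Op X) : IsUnit (1 - PowerSeries.C u * PowerSeries.X) := by
  rw [PowerSeries.isUnit_iff_constantCoeff]
  simp

lemma ps_eq_of_cover {u v : PowerSeries (Op X)} (h : ∀ (Y : Spc) (p : Proj Y X), Y.Irred →
    ∃ (W : Spc) (q : Proj W Y), Function.Surjective (push W Y) ∧
      PowerSeries.map (Op.pull (q.trans p)) u = PowerSeries.map (Op.pull (q.trans p)) v) :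
    u = v := by
  ext k
  refine eq_of_cover fun Y p hY => ?_
  obtain ⟨W, q, hs, e⟩ := h Y p hY
  exact ⟨W, q, hs, by rw [← PowerSeries.coeff_map, ← PowerSeries.coeff_map, e]⟩

lemma map_map {W : Spc} (q : Proj W Y) (p : Proj Y X) (u : PowerSeries (Op X)) :
    PowerSeries.map (Op.pull (q.trans p)) u =
      PowerSeries.map (Op.pull q) (PowerSeries.map (Op.pull p) u) := by
  ext k
  simp only [PowerSeries.coeff_map, Op.pull_pull]

/-- the induction step, given a nowhere vanishing section of the kernel -/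
lemma SdS_step {a c : ℕ} (ih : ∀ {A B C : Bun X}, SES A B C → A.Rk a → C.Rk c →
    SdS B = SdS A * SdS C) {A B C : Bun X} (h : SES A B C) (hA : A.Rk (a + 1)) (hC : C.Rk c)
    {d : D} (hd : d ∈ DS X.B) (s : A.ι → R) (hs : ∀ i, Hmg (d + A.deg i) (s i))
    (h0 : ∀ x ∈ X.pts, (fun i => MvPolynomial.eval x (s i)) ≠ 0 ∧
      (fun i => MvPolynomial.eval x (s i)) ∈ A.L x) : SdS B = SdS A * SdS C := by
  obtain ⟨f, p, hf, hp, h⟩ := h
  -- the section of `B`
  set t : B.ι → R := fun j => (f * col s) j () with ht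
  have hcol : col t = f * col s := by ext j u; rfl
  have htd : ∀ j, Hmg (d + B.deg j) (t j) := fun j => by
    have := hf.mul (mhmg_col hd hs) j ()
    have e : B.deg j - (line X (-d)).deg () = d + B.deg j := by
      show B.deg j - dpr X.B (-d) = _
      rw [dpr_of_mem (neg_mem hd), sub_neg_eq_add, add_comm]
    rwa [e] at this
  have hte : ∀ x, (fun j => MvPolynomial.eval x (t j)) =
      mev x f fun i => MvPolynomial.eval x (s i) := fun x => by
    have h1 := mev_col x t fun _ => 1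
    rw [hcol, mev_mul, mev_col, one_smul, one_smul] at h1
    exact h1.symm
  have hinj : ∀ x ∈ X.pts, ∀ v ∈ A.L x, mev x f v = 0 → v = 0 := fun x hx v hv e => by
    have : v ∈ A.L x ⊓ LinearMap.ker (mev x f) := ⟨hv, e⟩
    rwa [(h x hx).1] at this
  have hmem : ∀ x ∈ X.pts, ∀ v ∈ A.L x, mev x f v ∈ B.L x ∧ mev x p (mev x f v) = 0 :=
    fun x hx v hv => by
      have : mev x f v ∈ B.L x ⊓ LinearMap.ker (mev x p) := (h x hx).2.1 ▸ ⟨v, hv, rfl⟩
      exact this
  have ht0 : ∀ x ∈ X.pts, (fun j => MvPolynomial.eval x (t j)) ≠ 0 := fun x hx e => by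
    rw [hte] at e
    exact (h0 x hx).1 (hinj x hx _ (h0 x hx).2 e)
  obtain ⟨Q, q, hq, hQ⟩ := exists_quot (line X (-d)) B (col t) (mhmg_col hd htd) fun x hx =>
    ⟨ker_col x t (ht0 x hx), by
      refine (map_col x t).le.trans ((Submodule.span_singleton_le_iff_mem _ _).2 ?_)
      rw [hte]
      exact (hmem x hx _ (h0 x hx).2).1⟩
  have hQ' : ∀ x ∈ X.pts, B.L x ⊓ LinearMap.ker (mev x q) =
      Submodule.span ℂ {fun j => MvPolynomial.eval x (t j)} := fun x hx =>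
    (hQ x hx).1.symm.trans (map_col x t)
  have hkA : ∀ x ∈ X.pts, A.L x ⊓ LinearMap.ker (mev x (q * f)) =
      Submodule.span ℂ {fun i => MvPolynomial.eval x (s i)} := fun x hx => by
    ext v
    rw [Submodule.mem_span_singleton]
    constructor
    · rintro ⟨hv, e⟩
      have e' : mev x (q * f) v = 0 := e
      rw [mev_mul] at e'
      have h1 : mev x f v ∈ B.L x ⊓ LinearMap.ker (mev x q) := ⟨(hmem x hx v hv).1, e'⟩
      rw [hQ' x hx, Submodule.mem_span_singleton] at h1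
      obtain ⟨c, hc⟩ := h1
      refine ⟨c, (sub_eq_zero.1 (hinj x hx _ (sub_mem ((A.L x).smul_mem c (h0 x hx).2) hv) ?_))⟩
      rw [map_sub, map_smul, ← hte, hc, sub_self]
    · rintro ⟨c, rfl⟩
      refine ⟨(A.L x).smul_mem c (h0 x hx).2, ?_⟩
      have h1 : (fun j => MvPolynomial.eval x (t j)) ∈ B.L x ⊓ LinearMap.ker (mev x q) := by
        rw [hQ' x hx]
        exact Submodule.mem_span_singleton_self _
      have h2 : mev x q _ = 0 := h1.2
      show mev x (q * f) _ = 0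
      rw [map_smul, mev_mul, ← hte, h2, smul_zero]
  have ha : ∀ x ∈ X.pts, finrank ℂ ((A.L x).map (mev x (q * f))) = a := fun x hx => by
    have h1 := B0.finrank_split (A.L x) (mev x (q * f))
    rw [hkA x hx, finrank_span_singleton (h0 x hx).1, hA x hx] at h1
    omega
  obtain ⟨B', g, hg, hses, hB'⟩ := ses_push f p hf hp h Q.deg Q.hdeg q hq ha hC
  have e1 := SdS_der (B := img A Q.deg Q.hdeg (q * f) (hq.mul hf) a ha) (q * f) (hq.mul hf) hd s hs
    fun x hx => ⟨(h0 x hx).1, rfl, hkA x hx⟩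
  have e2 := SdS_der g hg hd t htd fun x hx => ⟨ht0 x hx, (hB' x hx).1, by
    rw [← hQ' x hx]
    ext v
    simp only [Submodule.mem_inf, LinearMap.mem_ker, (hB' x hx).2]
    refine and_congr_right fun hv => ⟨fun e => e.1, fun e => ⟨e, ?_⟩⟩
    have h1 : v ∈ B.L x ⊓ LinearMap.ker (mev x q) := ⟨hv, e⟩
    rw [hQ' x hx, Submodule.mem_span_singleton] at h1
    obtain ⟨c, rfl⟩ := h1
    rw [map_smul, hte, (hmem x hx _ (h0 x hx).2).2, smul_zero]⟩
  have e3 := ih hses ha hC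
  refine (isUnit_lin (lb X d)).mul_left_cancel ?_
  rw [e2, e3, ← e1, mul_assoc]

theorem SdS_rk (c a : ℕ) : ∀ {X : Spc} {A B C : Bun X}, SES A B C → A.Rk a → C.Rk c →
    SdS B = SdS A * SdS C := by
  induction a with
  | zero =>
    rintro X A B C ⟨f, p, hf, hp, h⟩ hA hC
    rw [SdS_of_bot (bot_of_rk hA), one_mul]
    refine SdS_iso p hp fun x hx => ⟨?_, (h x hx).2.2⟩
    rw [← (h x hx).2.1, bot_of_rk hA x hx, Submodule.map_bot]
  | succ a ih =>
    -- the statement on one space, after a surjective cover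
    have main : ∀ {X : Spc} {A B C : Bun X}, SES A B C → A.Rk (a + 1) → C.Rk c →
        ∃ (W : Spc) (q : Proj W X), Function.Surjective (push W X) ∧
          PowerSeries.map (Op.pull q) (SdS B) = PowerSeries.map (Op.pull q) (SdS A * SdS C) := by
      rintro X A B C ⟨f, p, hf, hp, h⟩ hA hC
      obtain ⟨B₁, δ, q, hδ, hu, hq, hqi, -⟩ := unif B
      have hi : ∀ x ∈ X.pts, A.L x ⊓ LinearMap.ker (mev x (q * f)) = ⊥ := fun x hx => by
        rw [← (h x hx).1, B0.mev_mul', LinearMap.ker_comp_of_ker_eq_bot _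
          (LinearMap.ker_eq_bot.2 (hqi x hx))]
      have ha : ∀ x ∈ X.pts, finrank ℂ ((A.L x).map (mev x (q * f))) = a + 1 := fun x hx => by
        rw [B0.finrank_map_of_inj (hi x hx), hA x hx]
      obtain ⟨B', g, hg, hses, hB'⟩ := ses_push f p hf hp h B₁.deg B₁.hdeg q hq ha hC
      set A' := img A B₁.deg B₁.hdeg (q * f) (hq.mul hf) (a + 1) ha with hA'
      have e1 : SdS A = SdS A' := SdS_iso (B := A') (q * f) (hq.mul hf) fun x hx => ⟨hi x hx, rfl⟩
      have e2 : SdS B = SdS B' := SdS_iso g hg fun x hx => ⟨eq_bot_iff.2 fun v hv =>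
        hqi x hx (by rw [map_zero]; exact (((hB' x hx).2 v).1 hv.2).1), (hB' x hx).1⟩
      have hA'r : A'.Rk (a + 1) := ha
      obtain ⟨P, b, y, hP⟩ := exists_psub (A := A') hδ hu
      refine ⟨P, hP.proj, hP.push_surj (ne_bot_of_rk hA'r), ?_⟩
      rw [e1, e2, map_mul, ← SdS_pull, ← SdS_pull, ← SdS_pull]
      exact SdS_step ih (hses.pull _) (hA'r.pull _) (hC.pull _) (taut hP).1 _ (taut hP).2.1
        (taut hP).2.2
    intro X A B C h hA hC
    refine ps_eq_of_cover fun Y p _ => ?_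
    obtain ⟨W, q, hs, e⟩ := main (h.pull p) (hA.pull p) (hC.pull p)
    refine ⟨W, q, hs, ?_⟩
    rw [map_map q p, map_map q p, map_mul (PowerSeries.map (Op.pull p)), ← SdS_pull p,
      ← SdS_pull p, ← SdS_pull p, e]

end L0

/-- multiplicativity (induction on the rank of the kernel, graph form `Γ ≤ ι ⊕ ι'`, `Sd_der`) -/
theorem SdS_ses {A B C : Bun X} (h : SES A B C) : SdS B = SdS A * SdS C := by
  refine L0.ps_eq_of_cover fun Y p hY => ⟨Y, Proj.refl Y, fun a => ⟨a, push_self a⟩, ?_⟩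
  obtain ⟨a, ha⟩ := (A.pull ((Proj.refl Y).trans p)).exists_rk hY.conn
  obtain ⟨c, hc⟩ := (C.pull ((Proj.refl Y).trans p)).exists_rk hY.conn
  rw [map_mul, ← L0.SdS_pull, ← L0.SdS_pull, ← L0.SdS_pull]
  exact L0.SdS_rk c a (h.pull _) ha hc

/-- splitting principle -/
theorem exists_split (A : Bun X) {r : ℕ} (h : A.Rk r) : ∃ (Y : Spc) (p : Proj Y X) (d : Fin r → D),
    (∀ i, d i ∈ DS Y.B) ∧ Function.Surjective (push Y X) ∧ (A.pull p).kl = ∑ i, lbK Y (d i) := by
  obtain ⟨Y, p, d, h1, h2, h3, -⟩ := L0.split r A h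
  exact ⟨Y, p, d, h1, h2, by rw [← K.pull_kl, h3]⟩

end Crest.Agent.N265
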