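import Crest.Agent.N265.K.Tan

/-! # Localisation at the products of `1 - t^k`: `Lh`, `Mh M`, `Oh X`, localised functionals -/

set_option autoImplicit false
noncomputable section

namespace Crest.Agent.N265
variable {X Y Z : Spc}

/-- `Λ = ℤ[t^±]` -/
abbrev La : Type := LaurentPolynomial ℤ
instance (X : Spc) : Algebra La (Op X) := (tHom X).toAlgebra
lemma algebraMap_La (p : La) : algebraMap La (Op X) p = tHom X p := rfl
instance (X : Spc) : Module La (G X) := Module.compHom (G X) (tHom X)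
lemma La_smul (p : La) (a : G X) : p • a = tHom X p • a := rfl
instance (X : Spc) : IsScalarTower La (Op X) (G X) :=
  ⟨fun p u a => by rw [Algebra.smul_def, mul_smul]; rfl⟩
/-- localised modules -/
abbrev Mh (M : Type*) [AddCommGroup M] [Module La M] := LocalizedModule Mov M
/-- localised coefficients -/
abbrev Lh : Type := Mh La
/-- the canonical map to the localisation -/
abbrev toMh (M : Type*) [AddCommGroup M] [Module La M] : M →ₗ[La] Mh M :=
  LocalizedModule.mkLinearMap Mov M
/-- localised operators -/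
abbrev Oh (X : Spc) : Type 1 := Localization (Algebra.algebraMapSubmonoid (Op X) Mov)
/-- the canonical map -/
abbrev oh (X : Spc) : Op X →+* Oh X := algebraMap (Op X) (Oh X)
/-- the canonical map, linear version -/
def ohL (X : Spc) : Op X →ₗ[La] Oh X := (IsScalarTower.toAlgHom La (Op X) (Oh X)).toLinearMap
lemma ohL_apply (u : Op X) : ohL X u = oh X u := rfl
instance (X : Spc) : IsLocalizedModule Mov (ohL X) :=
  isLocalizedModule_iff_isLocalization.2 inferInstance

variable {M : Type*} [AddCommGroup M] [Module La M]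
/-- localisation of a functional -/
def fhat (Φ : Op X →ₗ[La] M) : Oh X →ₗ[La] Mh M := IsLocalizedModule.map Mov (ohL X) (toMh M) Φ
lemma fhat_oh (Φ : Op X →ₗ[La] M) (u : Op X) : fhat Φ (oh X u) = toMh M (Φ u) :=
  IsLocalizedModule.map_apply Mov (ohL X) (toMh M) Φ u
/-- linear maps from `Oh X` to a localised module are determined on `Op X` -/
lemma Oh.lin_ext {φ ψ : Oh X →ₗ[La] Mh M} (h : ∀ u, φ (oh X u) = ψ (oh X u)) : φ = ψ :=
  IsLocalizedModule.linearMap_ext Mov (ohL X) (toMh M) (LinearMap.ext h)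
lemma Mh.smul_inj {p : La} (hp : p ∈ Mov) {a b : Mh M} (h : p • a = p • b) : a = b :=
  IsLocalizedModule.smul_injective (toMh M) ⟨p, hp⟩ h
lemma Oh.exists_den (z : Oh X) : ∃ p ∈ Mov, ∃ u : Op X, p • z = oh X u := by
  obtain ⟨⟨u, p⟩, h⟩ := IsLocalizedModule.surj Mov (ohL X) z
  exact ⟨p.1, p.2, u, h⟩
lemma isUnit_oh_tHom {p : La} (hp : p ∈ Mov) : IsUnit (oh X (tHom X p)) :=
  IsLocalization.map_units (Oh X) (⟨_, p, hp, rfl⟩ : Algebra.algebraMapSubmonoid (Op X) Mov)
lemma isUnit_oh_of_dvd {u : Op X} {p : La} (hp : p ∈ Mov) (h : u ∣ tHom X p) : IsUnit (oh X u) :=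
  isUnit_of_dvd_unit (map_dvd (oh X) h) (isUnit_oh_tHom hp)
/-- moving bundles have invertible Euler class -/
lemma isUnit_oh_eu {A : Bun X} {w : ℕ → ℤ} (hw : X.TTriv w)
    (hA : ∀ i, Bun.nwt X.B w (A.deg i) ≠ 0) : IsUnit (oh X (eu A)) := by
  obtain ⟨p, hp, h⟩ := eu_dvd hw hA
  exact isUnit_oh_of_dvd hp h
lemma Oh.smul_def (p : La) (z : Oh X) : p • z = oh X (tHom X p) * z := by
  rw [Algebra.smul_def, IsScalarTower.algebraMap_apply La (Op X) (Oh X)]; rfl

/-- pull-back of localised operators -/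
def Oh.pull (h : Proj Y X) : Oh X →+* Oh Y :=
  IsLocalization.map (M := Algebra.algebraMapSubmonoid (Op X) Mov)
    (T := Algebra.algebraMapSubmonoid (Op Y) Mov) (Oh Y) (Op.pull h) (by
      rintro _ ⟨p, hp, rfl⟩
      exact ⟨p, hp, (Op.pull_tHom h p).symm⟩)
lemma Oh.pull_oh (h : Proj Y X) (u : Op X) : Oh.pull h (oh X u) = oh Y (Op.pull h u) :=
  IsLocalization.map_eq _ _
lemma Oh.pull_smul (h : Proj Y X) (p : La) (z : Oh X) : Oh.pull h (p • z) = p • Oh.pull h z := by
  rw [Oh.smul_def, Oh.smul_def, map_mul, Oh.pull_oh, Op.pull_tHom]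
lemma Oh.pull_pull (h : Proj Z Y) (h' : Proj Y X) (z : Oh X) :
    Oh.pull h (Oh.pull h' z) = Oh.pull (h.trans h') z := by
  have : (Oh.pull h).comp (Oh.pull h') = Oh.pull (h.trans h') :=
    IsLocalization.ringHom_ext (Algebra.algebraMapSubmonoid (Op X) Mov) (RingHom.ext fun u => by
      change Oh.pull h (Oh.pull h' (oh X u)) = Oh.pull _ (oh X u)
      rw [Oh.pull_oh, Oh.pull_oh, Oh.pull_oh, Op.pull_pull])
  exact congrArg (fun f : Oh X →+* Oh Z => f z) this

/-- push-forward is `Λ`-linear -/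
def pushL (h : Proj Y X) : G Y →ₗ[La] G X where
  toFun := push Y X
  map_add' := map_add _
  map_smul' p a := by
    rw [La_smul, ← Op.pull_tHom h, push_smul]; rfl
/-- the Euler characteristic is `Λ`-linear -/
def eulL (X : Spc) : G X →ₗ[La] La where
  toFun := eul X
  map_add' := map_add _
  map_smul' p a := eul_tHom p a
/-- `u ↦ u • a` -/
def onG (a : G X) : Op X →ₗ[La] G X where
  toFun u := u • a
  map_add' u v := add_smul u v a
  map_smul' p u := smul_assoc p u a
/-- pull-back, linear version -/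
def Op.pullL (h : Proj Y X) : Op X →ₗ[La] Op Y where
  toFun := Op.pull h
  map_add' := map_add _
  map_smul' p u := by
    rw [Algebra.smul_def, map_mul, algebraMap_La, Op.pull_tHom]; rfl

/-- the numeric functional `u ↦ χ(X, u)` -/
def numF (X : Spc) : Op X →ₗ[La] La := eulL X ∘ₗ onG (one X)
lemma numF_apply (u : Op X) : numF X u = eul X (u • one X) := rfl
/-- the functional `u ↦ pr_{S*}(u ⊠ σ)` with values in `G S` (`S` in blocks disjoint from `X`) -/
def srfF (X S : Spc) (σ : Op (X.fib S)) : Op X →ₗ[La] G S :=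
  pushL (Spc.fib_snd X S) ∘ₗ onG (σ • one (X.fib S)) ∘ₗ Op.pullL (Spc.fib_fst X S)
lemma srfF_apply (S : Spc) (σ : Op (X.fib S)) (u : Op X) : srfF X S σ u =
    push (X.fib S) S (Op.pull (Spc.fib_fst X S) u • σ • one (X.fib S)) := rfl
/-- `λ ↦ λ • a`, localised -/
def vhat (a : M) : Lh →ₗ[La] Mh M :=
  IsLocalizedModule.map Mov (toMh La) (toMh M) (LinearMap.toSpanSingleton La M a)
lemma vhat_toMh (a : M) (p : La) : vhat a (toMh La p) = toMh M (p • a) :=
  IsLocalizedModule.map_apply Mov (toMh La) (toMh M) _ p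

/-- transfer principle: a relation between functionals on `Op` that is compatible with a
polynomial substitution passes to the localisations -/
lemma fhat_pull (h : Proj Y X) (Φ : Op Y →ₗ[La] M) (Ψ : Op X →ₗ[La] M) (c : Op Y) (c' : Op X)
    (H : ∀ u, Φ (Op.pull h u * c) = Ψ (u * c')) (z : Oh X) :
    fhat Φ (Oh.pull h z * oh Y c) = fhat Ψ (z * oh X c') := by
  obtain ⟨p, hp, u, hu⟩ := Oh.exists_den z
  refine Mh.smul_inj hp ?_
  rw [← map_smul, ← map_smul, ← smul_mul_assoc, ← smul_mul_assoc, ← Oh.pull_smul, hu, Oh.pull_oh,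
    ← map_mul, ← map_mul, fhat_oh, fhat_oh, H]

end Crest.Agent.N265
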