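import Crest.Agent.N265.K.Pol0

/-! # Task K5: polynomial functions on a bundle, `Sd A k = [Sym^k A^∨]` -/

set_option autoImplicit false
noncomputable section
open MvPolynomial Module

namespace Crest.Agent.N265
open Bun Pol
variable {X Y : Spc}

/-- monomials of degree `k` -/
def Mon (ι : Type) (k : ℕ) : Type := {α : ι →₀ ℕ // α.degree = k}
instance (ι : Type) [Fintype ι] (k : ℕ) : Fintype (Mon ι k) := by
  classical
  exact Fintype.subtype (Finset.finsuppAntidiag Finset.univ k) fun α => by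
    simp [Finsupp.degree_eq_sum]
instance (ι : Type) (k : ℕ) : DecidableEq (Mon ι k) := Classical.decEq _
/-- value of the form with coefficients `c` -/
def polEv {ι : Type} [Fintype ι] {k : ℕ} (c : Mon ι k → ℂ) (v : ι → ℂ) : ℂ :=
  ∑ α, c α * ∏ i, v i ^ α.1 i
/-- forms of degree `k` vanishing on `U` -/
def vanOn {ι : Type} [Fintype ι] (k : ℕ) (U : Submodule ℂ (ι → ℂ)) : Submodule ℂ (Mon ι k → ℂ) where
  carrier := {c | ∀ v ∈ U, polEv c v = 0}
  add_mem' := by
    intro a b ha hb v hv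
    have h1 := ha v hv; have h2 := hb v hv
    simp only [polEv, Pi.add_apply, add_mul, Finset.sum_add_distrib] at *
    rw [h1, h2, add_zero]
  zero_mem' := by intro v _; simp [polEv]
  smul_mem' := by
    intro c a ha v hv
    have h1 := ha v hv
    simp only [polEv, Pi.smul_apply, smul_eq_mul, mul_assoc, ← Finset.mul_sum] at *
    rw [h1, mul_zero]
lemma mem_vanOn {ι : Type} [Fintype ι] {k : ℕ} {U : Submodule ℂ (ι → ℂ)} {c : Mon ι k → ℂ} :
    c ∈ vanOn k U ↔ ∀ v ∈ U, polEv c v = 0 := Iff.rfl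
/-- degree of the coefficient of a monomial -/
def monDeg {ι : Type} [Fintype ι] (deg : ι → D) (k : ℕ) (α : Mon ι k) : D := -∑ i, α.1 i • deg i

section aux
variable {ι κ : Type} [Fintype ι] [Fintype κ] {k l : ℕ}
lemma Mon.sum_eq (α : Mon ι k) : ∑ i, α.1 i = k := by rw [← Finsupp.degree_eq_sum]; exact α.2
lemma polEv_add (c c' : Mon ι k → ℂ) (v : ι → ℂ) : polEv (c + c') v = polEv c v + polEv c' v := by
  simp [polEv, add_mul, Finset.sum_add_distrib]
lemma polEv_sub (c c' : Mon ι k → ℂ) (v : ι → ℂ) : polEv (c - c') v = polEv c v - polEv c' v := by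
  simp [polEv, sub_mul, Finset.sum_sub_distrib]
lemma polEv_smul' (a : ℂ) (c : Mon ι k → ℂ) (v : ι → ℂ) : polEv (a • c) v = a * polEv c v := by
  simp [polEv, mul_assoc, Finset.mul_sum]
/-- the polynomial with given coefficients -/
def Pol.toP (c : Mon ι k → ℂ) : MvPolynomial ι ℂ := ∑ α, C (c α) * monomial α.1 1
lemma Pol.eval_toP (c : Mon ι k → ℂ) (v : ι → ℂ) : eval v (toP c) = polEv c v := by
  simp [toP, polEv, eval_monomial, Finsupp.prod_fintype]
lemma Pol.sum_coeff_eq {S : Type} [CommRing S] {p : MvPolynomial ι S} (h : p.IsHomogeneous k) :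
    ∑ α : Mon ι k, C (coeff α.1 p) * monomial α.1 1 = p := by
  classical
  ext β
  simp only [C_mul_monomial, mul_one, coeff_sum, coeff_monomial]
  by_cases hβ : β.degree = k
  · obtain ⟨γ, rfl⟩ : ∃ γ : Mon ι k, γ.1 = β := ⟨⟨β, hβ⟩, rfl⟩
    rw [Finset.sum_eq_single γ]
    · simp
    · intro α _ hα
      rw [if_neg fun e => hα (Subtype.ext e)]
    · simp
  · rw [h.coeff_eq_zero hβ]
    exact Finset.sum_eq_zero fun α _ => if_neg fun e : α.1 = β => hβ (e ▸ α.2)
lemma Pol.coeff_toP (c : Mon ι k → ℂ) (β : Mon ι k) : coeff β.1 (toP c) = c β := by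
  classical
  simp only [toP, C_mul_monomial, mul_one, coeff_sum, coeff_monomial]
  rw [Finset.sum_eq_single β]
  · simp
  · intro α _ hα
    rw [if_neg fun e => hα (Subtype.ext e)]
  · simp
lemma Pol.toP_hmg (c : Mon ι k → ℂ) : (toP c).IsHomogeneous k :=
  IsHomogeneous.sum _ _ _ fun α _ => (isHomogeneous_monomial _ α.2).C_mul _
lemma Pol.exists_toP {p : MvPolynomial ι ℂ} (h : p.IsHomogeneous k) : ∃ c : Mon ι k → ℂ, toP c = p :=
  ⟨fun α => coeff α.1 p, sum_coeff_eq h⟩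
/-- a polynomial family of linear maps of forms is given by a matrix -/
lemma Pol.exists_mat (T : Mon κ k → MvPolynomial ι R) (hT : ∀ α, (T α).IsHomogeneous l) :
    ∃ S : Matrix (Mon ι l) (Mon κ k) R, ∀ x c,
      toP (mev x S c) = ∑ α, C (c α) * map (eval x) (T α) := by
  refine ⟨fun β α => coeff β.1 (T α), fun x c => ?_⟩
  have : (∑ α, C (c α) * map (eval x) (T α)).IsHomogeneous l :=
    IsHomogeneous.sum _ _ _ fun α _ => ((hT α).map _).C_mul _
  rw [← sum_coeff_eq this, toP]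
  refine Finset.sum_congr rfl fun β _ => ?_
  erw [mev_apply]
  simp [coeff_sum, coeff_map, mul_comm]
lemma Pol.chi_nsmul (n : ℕ) (d : D) : chi (n • d) = chi d ^ n := by
  induction n with
  | zero => simp
  | succ n ih => rw [succ_nsmul, chi_add, ih, pow_succ]
lemma Pol.chi_sum {α : Type} (t : Finset α) (d : α → D) : chi (∑ a ∈ t, d a) = ∏ a ∈ t, chi (d a) := by
  classical
  induction t using Finset.induction_on with
  | empty => simp
  | insert a t ha ih => rw [Finset.sum_insert ha, Finset.prod_insert ha, chi_add, ih]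
lemma polEv_chi (a : ι → D) (c : Mon ι k → ℂ) (v : ι → ℂ) :
    polEv (fun α => chi (monDeg a k α) * c α) (fun i => chi (a i) * v i) = polEv c v := by
  refine Finset.sum_congr rfl fun α _ => ?_
  have : ∏ i, chi (a i) ^ α.1 i ≠ 0 := Finset.prod_ne_zero_iff.2 fun i _ => pow_ne_zero _ (chi_ne _)
  simp only [monDeg, chi_neg, chi_sum, chi_nsmul, mul_pow, Finset.prod_mul_distrib]
  field_simp
omit [Fintype ι] in
lemma Pol.exists_chi (a : ι → D) (w : ι → ℂ) : ∃ v : ι → ℂ, w = fun i => chi (a i) * v i :=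
  ⟨fun i => (chi (a i))⁻¹ * w i, funext fun i => by rw [mul_inv_cancel_left₀ (chi_ne _)]⟩
end aux

lemma polEv_inj {ι : Type} [Fintype ι] {k : ℕ} {c : Mon ι k → ℂ} (h : ∀ v, polEv c v = 0) : c = 0 := by
  have : toP c = 0 := MvPolynomial.funext fun v => by rw [eval_toP, h]; simp
  funext β
  rw [← coeff_toP c β, this]; simp
lemma polEv_ext {ι : Type} [Fintype ι] {k : ℕ} {c c' : Mon ι k → ℂ}
    (h : ∀ v, polEv c v = polEv c' v) : c = c' :=
  sub_eq_zero.1 (polEv_inj fun v => by rw [polEv_sub, h, sub_self])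
/-- substitution matrix: coefficients of `p ∘ Φ` in terms of those of `p` -/
theorem exists_subst {ι κ : Type} [Fintype ι] [Fintype κ] (k : ℕ) (Φ : Matrix κ ι R) :
    ∃ S : Matrix (Mon ι k) (Mon κ k) R, (∀ x c v, polEv (mev x S c) v = polEv c (mev x Φ v)) ∧
      (∀ a b, MHmg a b Φ → MHmg (monDeg b k) (monDeg a k) S) := by
  obtain ⟨S, hS⟩ := exists_mat (l := k) (fun α : Mon κ k =>
    ∏ j, (∑ i, C (Φ j i) * (MvPolynomial.X i : MvPolynomial ι R)) ^ α.1 j) (fun α => by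
      have := IsHomogeneous.prod Finset.univ (fun j => (∑ i, C (Φ j i) *
        (MvPolynomial.X i : MvPolynomial ι R)) ^ α.1 j) (fun j => α.1 j) fun j _ => by
          simpa using (IsHomogeneous.sum Finset.univ _ 1 fun i _ =>
            isHomogeneous_C_mul_X (Φ j i) i).pow (α.1 j)
      rwa [α.sum_eq] at this)
  have key : ∀ x c v, polEv (mev x S c) v = polEv c (mev x Φ v) := by
    intro x c v
    rw [← eval_toP, hS]
    simp [polEv, mev_apply]
  refine ⟨S, key, fun a b h => mhmg_of_mev fun x c => polEv_ext fun w => ?_⟩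
  obtain ⟨v, rfl⟩ := exists_chi a w
  rw [key, mev_gpt h, polEv_chi, polEv_chi, key]
lemma polEv_smul {ι : Type} [Fintype ι] {k : ℕ} (c : Mon ι k → ℂ) (a : ℂ) (v : ι → ℂ) :
    polEv c (a • v) = a ^ k * polEv c v := by
  simp only [polEv, Finset.mul_sum, Pi.smul_apply, smul_eq_mul, mul_pow, Finset.prod_mul_distrib,
    Finset.prod_pow_eq_pow_sum]
  refine Finset.sum_congr rfl fun α _ => ?_
  rw [α.sum_eq]; ring
/-- composition with a linear map -/
lemma Pol.exists_comp {ι κ : Type} [Fintype ι] [Fintype κ] {k : ℕ} (c : Mon κ k → ℂ)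
    (g : (ι → ℂ) →ₗ[ℂ] (κ → ℂ)) : ∃ q : Mon ι k → ℂ, ∀ w, polEv q w = polEv c (g w) := by
  obtain ⟨Φ, hΦ⟩ := exists_const g
  obtain ⟨S, hS, -⟩ := exists_subst k Φ
  exact ⟨mev 0 S c, fun w => by rw [hS, hΦ]⟩
/-- derivative matrix -/
lemma Pol.exists_derM {ι : Type} [Fintype ι] (k : ℕ) (s : ι → R) :
    ∃ S : Matrix (Mon ι k) (Mon ι (k + 1)) R,
      (∀ x c, toP (mev x S c) = dS (fun i => eval x (s i)) (toP c)) ∧
      ∀ (a : ι → D) (d : D), (∀ i, Hmg (d + a i) (s i)) →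
        MHmg (monDeg a (k + 1)) (fun α => monDeg a k α + d) S := by
  obtain ⟨S, hS⟩ := exists_mat (l := k) (fun α : Mon ι (k + 1) => dS s (monomial α.1 1))
    fun α => dS_hmg s (isHomogeneous_monomial _ α.2)
  have key : ∀ x c, toP (mev x S c) = dS (fun i => eval x (s i)) (toP c) := by
    intro x c
    rw [hS, toP, dS_sum]
    refine Finset.sum_congr rfl fun α _ => ?_
    rw [map_dS, dS_C_mul, map_monomial, map_one]
  refine ⟨S, key, fun a d h => mhmg_of_mev fun x c => polEv_ext fun w => ?_⟩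
  obtain ⟨v, rfl⟩ := exists_chi a w
  have e1 : (fun α => chi (monDeg a k α + d) * mev x S c α) =
      chi d • fun α => chi (monDeg a k α) * mev x S c α := by
    funext α; simp only [chi_add, Pi.smul_apply, smul_eq_mul]; ring
  rw [e1, polEv_smul', polEv_chi, ← eval_toP, ← eval_toP, key, key]
  have e2 : onLine (fun i => chi (a i) * v i) (fun i => eval (gpt x) (s i))
      (toP fun α => chi (monDeg a (k + 1) α) * c α) =
      (onLine v (fun i => eval x (s i)) (toP c)).comp (Polynomial.C (chi d) * Polynomial.X) := by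
    refine Polynomial.funext fun t => ?_
    rw [Polynomial.eval_comp, eval_onLine, eval_onLine, eval_toP, eval_toP, ← polEv_chi a c]
    congr 1
    funext i
    simp only [Pi.add_apply, Pi.smul_apply, smul_eq_mul, (h i).eval_gpt, chi_add,
      Polynomial.eval_mul, Polynomial.eval_C, Polynomial.eval_X]
    ring
  have e3 := congrArg (fun q => (Polynomial.derivative q).eval 0) e2
  simp only [Polynomial.derivative_comp, derivative_onLine, Polynomial.eval_mul,
    Polynomial.eval_comp, eval_onLine] at e3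
  simpa using e3
/-- forms vanishing on the bundle -/
def Bun.van (A : Bun X) (k : ℕ) : Bun X where
  ι := Mon A.ι k
  deg := monDeg A.deg k
  hdeg := fun _ => neg_mem (sum_mem fun i _ => nsmul_mem (A.hdeg i) _)
  L := fun x => vanOn k (A.L x)
  eqv := by
    intro x hx c
    refine ⟨fun h w hw => ?_, fun h v hv => ?_⟩
    · obtain ⟨v, rfl⟩ := exists_chi A.deg w
      rw [polEv_chi]; exact h v ((A.eqv x hx v).2 hw)
    · rw [← polEv_chi A.deg]; exact h _ ((A.eqv x hx v).1 hv)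
  alg := by
    intro x hx
    obtain ⟨r, P, hr, hP⟩ := A.alg x hx
    obtain ⟨S, hS, -⟩ := exists_subst k P
    refine ⟨r ^ k, r ^ k • 1 - S, by rw [map_pow]; exact pow_ne_zero _ hr, fun y hy => ⟨fun c v hv => ?_,
      fun c hc => ?_⟩⟩
    · rw [mev_sub_smul, polEv_sub, polEv_smul', hS, (hP y hy).2 v hv, polEv_smul, map_pow, sub_self]
    · rw [mev_sub_smul, polEv_inj (c := mev y S c) fun v => by
        rw [hS]; exact hc _ ((hP y hy).1 v), sub_zero]
/-- `[Sym^k A^∨]` -/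
def Sd (A : Bun X) (k : ℕ) : K X := (A.van k).amb.kl - (A.van k).kl
lemma Sd_zero (A : Bun X) : Sd A 0 = 1 := by
  have : Unique (Mon A.ι 0) :=
    ⟨⟨⟨0, map_zero _⟩⟩, fun α => Subtype.ext ((Finsupp.degree_eq_zero_iff _).1 α.2)⟩
  have h0 : ∀ α : Mon A.ι 0, α.1 = 0 := fun α => (Finsupp.degree_eq_zero_iff _).1 α.2
  rw [Sd, kl_of_bot (A := A.van 0), sub_zero, K.one_def]
  · refine kl_reindex (Equiv.ofUnique Unit (Mon A.ι 0)) (fun j => ?_) fun x _ v => Iff.rfl
    have : ∀ α : Mon A.ι 0, monDeg A.deg 0 α = dpr X.B 0 := fun α => by simp [monDeg, h0]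
    exact this _
  · refine fun x _ => eq_bot_iff.2 fun c hc => polEv_inj fun v => ?_
    have := hc 0 (zero_mem _)
    simpa [polEv, h0] using this
/-- monomials of degree one -/
def Pol.monOne (ι : Type) : ι ≃ Mon ι 1 :=
  Equiv.ofBijective (fun i => ⟨Finsupp.single i 1, Finsupp.degree_single _ _⟩) ⟨fun i j h =>
    Finsupp.single_left_injective one_ne_zero (congrArg Subtype.val h), fun α => by
      obtain ⟨i, hi⟩ := (Finsupp.sum_eq_one_iff α.1).1 α.2
      exact ⟨i, Subtype.ext hi.symm⟩⟩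
lemma Pol.monOne_val {ι : Type} (i : ι) : (monOne ι i).1 = Finsupp.single i 1 := rfl
lemma Sd_one (A : Bun X) : Sd A 1 = K.dual X A.kl := by
  have hd : ∀ j, monDeg A.deg 1 (monOne A.ι j) = -A.deg j := fun j => by
    simp [monDeg, monOne_val, Finsupp.single_apply]
  rw [Sd, K.dual_kl]
  congr 1
  · exact kl_reindex (monOne A.ι) hd fun x _ v => Iff.rfl
  · refine kl_reindex (monOne A.ι) hd fun x _ c => forall₂_congr fun v _ => ?_
    have : ∀ c : Mon A.ι 1 → ℂ, polEv c v = ∑ i : A.ι, c (monOne A.ι i) * v i := fun c => by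
      rw [polEv, ← (monOne A.ι).sum_comp]
      simp [monOne_val, Finsupp.single_apply, apply_ite]
    exact (this c).congr_left
lemma Sd_pull (h : Proj Y X) (A : Bun X) (k : ℕ) : K.pull h (Sd A k) = Sd (A.pull h) k := by
  rw [Sd, map_sub, K.pull_kl, K.pull_kl]; rfl
lemma Sd_of_bot {A : Bun X} (h : ∀ x ∈ X.pts, A.L x = ⊥) (k : ℕ) : Sd A (k + 1) = 0 := by
  refine sub_eq_zero.2 (kl_reindex (Equiv.refl _) (fun _ => rfl) fun x hx c => ?_)
  refine ⟨fun _ v hv => ?_, fun _ => trivial⟩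
  rw [h x hx] at hv
  have := polEv_smul c 0 v
  rw [show v = 0 from hv] at *
  rw [zero_smul, pow_succ, mul_zero, zero_mul] at this
  exact this
section pt
variable {ι κ : Type} [Fintype ι] [Fintype κ] {k : ℕ} {f : (ι → ℂ) →ₗ[ℂ] (κ → ℂ)}
  {U : Submodule ℂ (ι → ℂ)}
lemma Pol.van_comap {S : (Mon κ k → ℂ) →ₗ[ℂ] (Mon ι k → ℂ)} (hS : ∀ c v, polEv (S c) v = polEv c (f v)) :
    (vanOn k U).comap S = vanOn k (U.map f) := by
  ext c
  refine ⟨fun h w hw => ?_, fun h v hv => ?_⟩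
  · obtain ⟨v, hv, rfl⟩ := hw
    rw [← hS]; exact h v hv
  · rw [hS]; exact h _ ⟨v, hv, rfl⟩
lemma Pol.mem_sup_van {S : (Mon κ k → ℂ) →ₗ[ℂ] (Mon ι k → ℂ)}
    (hS : ∀ c v, polEv (S c) v = polEv c (f v)) {c : Mon ι k → ℂ}
    (hc : ∀ v ∈ U, ∀ w ∈ U ⊓ LinearMap.ker f, polEv c (v + w) = polEv c v) :
    c ∈ (⊤ : Submodule ℂ _).map S ⊔ vanOn k U := by
  obtain ⟨g, hg⟩ := exists_sec f U
  obtain ⟨q, hq⟩ := exists_comp c g
  refine Submodule.mem_sup.2 ⟨S q, ⟨q, trivial, rfl⟩, c - S q, fun v hv => ?_, by simp⟩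
  have := hc v hv (g (f v) - v) ⟨sub_mem (hg v hv).1 hv, by simp [(hg v hv).2]⟩
  rw [polEv_sub, hS, hq, ← this, add_sub_cancel, sub_self]
lemma Pol.der_pt {S : (Mon κ (k + 1) → ℂ) →ₗ[ℂ] (Mon ι (k + 1) → ℂ)}
    {T : (Mon ι (k + 1) → ℂ) →ₗ[ℂ] (Mon ι k → ℂ)} {σ : ι → ℂ}
    (hS : ∀ c v, polEv (S c) v = polEv c (f v)) (hT : ∀ c, toP (T c) = dS σ (toP c)) (h0 : σ ≠ 0)
    (h2 : U ⊓ LinearMap.ker f = Submodule.span ℂ {σ}) :
    (⊤ : Submodule ℂ _).map S ⊔ vanOn (k + 1) U = ⊤ ⊓ (vanOn k U).comap T ∧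
      (⊤ : Submodule ℂ _).map T ⊔ vanOn k U = ⊤ := by
  have hσ : σ ∈ U ⊓ LinearMap.ker f := h2 ▸ Submodule.mem_span_singleton_self σ
  have hTe : ∀ c v, polEv (T c) v = eval v (dS σ (toP c)) := fun c v => by rw [← eval_toP, hT]
  rw [top_inf_eq]
  refine ⟨le_antisymm (sup_le ?_ fun c hc v hv => ?_) fun c hc => mem_sup_van hS ?_, ?_⟩
  · rintro _ ⟨q, -, rfl⟩ v _
    rw [hTe]
    refine dS_eq_zero fun t => ?_
    rw [eval_toP, eval_toP, hS, hS, map_add, map_smul, show f σ = 0 from hσ.2, smul_zero, add_zero]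
  · rw [hTe]
    refine dS_eq_zero fun t => ?_
    rw [eval_toP, eval_toP, hc v hv, hc _ (add_mem hv (Submodule.smul_mem _ t hσ.1))]
  · intro v hv w hw
    rw [h2] at hw
    obtain ⟨t, rfl⟩ := Submodule.mem_span_singleton.1 hw
    rw [← eval_toP, ← eval_toP, const_of_dS]
    intro u
    rw [← hTe]
    exact hc _ (add_mem hv (Submodule.smul_mem _ u hσ.1))
  · refine eq_top_iff.2 fun c _ => Submodule.mem_sup_left ?_
    obtain ⟨p, hp, hd⟩ := exists_antider h0 (toP_hmg c)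
    obtain ⟨c', rfl⟩ := exists_toP hp
    exact ⟨c', trivial, polEv_ext fun v => by rw [hTe, hd, eval_toP]⟩
end pt
lemma Sd_iso {A B : Bun X} (f : Matrix B.ι A.ι R) (hf : MHmg A.deg B.deg f)
    (h : ∀ x ∈ X.pts, A.L x ⊓ LinearMap.ker (mev x f) = ⊥ ∧ (A.L x).map (mev x f) = B.L x)
    (k : ℕ) : Sd A k = Sd B k := by
  obtain ⟨S, hS, hS'⟩ := exists_subst k f
  have := kl_sq (A := (B.van k).amb) (B := (A.van k).amb) (C := Bun.zero X) (LC := fun _ => ⊤)
    (heA := (B.van k).eqv) (haA := (B.van k).alg) (heB := (A.van k).eqv) (haB := (A.van k).alg)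
    (heC := (Bun.zero X).eqv) (haC := (Bun.zero X).alg) S (fun j => j.elim) (hS' _ _ hf)
    (fun j => j.elim) fun x hx => ⟨le_top, le_top, le_top, ?_, ?_, sup_top_eq _⟩
  · exact this.trans (add_eq_left.2 (sub_self _))
  · exact (top_inf_eq _).trans ((van_comap (hS x)).trans (congrArg _ (h x hx).2))
  · refine eq_top_iff.2 (fun c _ => ?_) |>.trans (top_inf_eq _).symm
    refine mem_sup_van (hS x) fun v _ w hw => ?_
    rw [(h x hx).1] at hw
    rw [show w = 0 from hw, add_zero]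
/-- derivative along a nowhere vanishing section `s : O(-d) → A` with quotient `B` -/
theorem Sd_der {A B : Bun X} (f : Matrix B.ι A.ι R) (hf : MHmg A.deg B.deg f) {d : D}
    (hd : d ∈ DS X.B) (s : A.ι → R) (hs : ∀ i, Hmg (d + A.deg i) (s i))
    (h : ∀ x ∈ X.pts, (fun i => eval x (s i)) ≠ 0 ∧ (A.L x).map (mev x f) = B.L x ∧
      A.L x ⊓ LinearMap.ker (mev x f) = Submodule.span ℂ {fun i => eval x (s i)}) (k : ℕ) :
    Sd A (k + 1) = Sd B (k + 1) + lbK X d * Sd A k := by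
  obtain ⟨S, hS, hS'⟩ := exists_subst (k + 1) f
  obtain ⟨T, hT, hT'⟩ := exists_derM k s
  have := kl_sq (A := (B.van (k + 1)).amb) (B := (A.van (k + 1)).amb)
    (C := (A.van k).amb.twist d hd) (heA := (B.van (k + 1)).eqv) (haA := (B.van (k + 1)).alg)
    (heB := (A.van (k + 1)).eqv) (haB := (A.van (k + 1)).alg)
    (heC := ((A.van k).twist d hd).eqv) (haC := ((A.van k).twist d hd).alg)
    S T (hS' _ _ hf) (hT' _ _ hs) fun x hx => ?_
  · rw [Sd, Sd, Sd, mul_sub, ← kl_twist _ d hd, ← kl_twist _ d hd]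
    exact this
  obtain ⟨h0, h1, h2⟩ := h x hx
  have := der_pt (hS x) (hT x) h0 h2
  exact ⟨le_top, le_top, le_top, (top_inf_eq _).trans ((van_comap (hS x)).trans (congrArg _ h1)),
    this.1, this.2⟩
lemma Sd_twist (A : Bun X) (d : D) (hd) (k : ℕ) :
    Sd (A.twist d hd) k = lbK X (-(k • d)) * Sd A k := by
  have hd' : -(k • d) ∈ DS X.B := neg_mem (nsmul_mem hd k)
  have he : ∀ α : Mon A.ι k, monDeg (fun i => A.deg i + d) k α = monDeg A.deg k α + -(k • d) := by
    intro α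
    simp only [monDeg, smul_add, Finset.sum_add_distrib, ← Finset.sum_smul, α.sum_eq, neg_add]
  rw [Sd, Sd, mul_sub, ← kl_twist _ _ hd', ← kl_twist _ _ hd']
  congr 1
  · exact kl_reindex (Equiv.refl _) he fun _ _ _ => Iff.rfl
  · exact kl_reindex (Equiv.refl _) he fun _ _ _ => Iff.rfl

/-- Plücker coordinates of a family of vectors -/
def plk {ι : Type} {r : ℕ} (v : Fin r → ι → ℂ) : (Fin r → ι) → ℂ :=
  fun e => (Matrix.of fun i j => v i (e j)).det
/-- the top exterior power of a subspace, in Plücker coordinates -/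
def plkSub {ι : Type} (r : ℕ) (U : Submodule ℂ (ι → ℂ)) : Submodule ℂ ((Fin r → ι) → ℂ) :=
  Submodule.span ℂ {p | ∃ v : Fin r → ι → ℂ, (∀ i, v i ∈ U) ∧ p = plk v}
lemma plk_mem {ι : Type} {r : ℕ} {U : Submodule ℂ (ι → ℂ)} {v : Fin r → ι → ℂ} (h : ∀ i, v i ∈ U) :
    plk v ∈ plkSub r U := Submodule.subset_span ⟨v, h, rfl⟩
lemma plk_comb {ι : Type} {r : ℕ} (b : Fin r → ι → ℂ) (M : Matrix (Fin r) (Fin r) ℂ) :
    plk (fun i => ∑ j, M i j • b j) = M.det • plk b := by
  funext e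
  simp only [plk, Pi.smul_apply, smul_eq_mul, ← Matrix.det_mul]
  congr 1
  ext i j
  simp [Matrix.mul_apply]
lemma Pol.det_pair {ι : Type} [Fintype ι] {r : ℕ}
    (φ : Fin r → (ι → ℂ) →ₗ[ℂ] ℂ) : ∃ w : (Fin r → ι) → ℂ, ∀ b : Fin r → ι → ℂ,
      (Matrix.of fun i j => φ j (b i)).det = ∑ g, w g * plk b g := by
  classical
  refine ⟨fun g => ∏ j, φ j (Pi.single (g j) 1), fun b => ?_⟩
  simp only [plk]
  rw [← det_sum (fun j l => φ j (Pi.single l 1)) b]
  congr 1
  ext i j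
  rw [Matrix.of_apply, Matrix.of_apply, LinearMap.pi_apply_eq_sum_univ]
  refine Finset.sum_congr rfl fun l _ => ?_
  rw [smul_eq_mul, mul_comm]
  congr 2
  funext m
  simp [Pi.single_apply, eq_comm]
lemma Pol.exists_dual_fam {ι : Type} {r : ℕ} {b : Fin r → ι → ℂ} (h : LinearIndependent ℂ b) :
    ∃ φ : Fin r → (ι → ℂ) →ₗ[ℂ] ℂ, (Matrix.of fun i j => φ j (b i)) = 1 := by
  obtain ⟨g, hg⟩ := (Finsupp.linearCombination ℂ b).exists_leftInverse_of_injective
    (LinearMap.ker_eq_bot.2 h)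
  refine ⟨fun j => Finsupp.lapply j ∘ₗ g, ?_⟩
  ext i j
  have := LinearMap.congr_fun hg (Finsupp.single i 1)
  simp only [LinearMap.comp_apply, Finsupp.linearCombination_single, one_smul,
    LinearMap.id_apply] at this
  simp [this, Matrix.one_apply, Finsupp.single_apply]
lemma plk_ne_zero {ι : Type} [Fintype ι] {r : ℕ} {b : Fin r → ι → ℂ} (h : LinearIndependent ℂ b) :
    plk b ≠ 0 := by
  intro h0
  obtain ⟨φ, hφ⟩ := exists_dual_fam h
  obtain ⟨w, hw⟩ := det_pair φ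
  have := hw b
  simp [hφ, h0] at this
lemma Pol.exists_basis {ι : Type} [Fintype ι] {r : ℕ} {U : Submodule ℂ (ι → ℂ)} (h : finrank ℂ U = r) :
    ∃ b : Fin r → ι → ℂ, LinearIndependent ℂ b ∧ (∀ i, b i ∈ U) ∧
      (∀ v ∈ U, ∃ μ : Fin r → ℂ, ∑ j, μ j • b j = v) ∧ plkSub r U = Submodule.span ℂ {plk b} := by
  let B := Module.finBasisOfFinrankEq ℂ U h
  have h3 : ∀ v ∈ U, ∃ μ : Fin r → ℂ, ∑ j, μ j • (B j : ι → ℂ) = v := fun v hv =>
    ⟨B.repr ⟨v, hv⟩, by
      have := congrArg U.subtype (B.sum_repr ⟨v, hv⟩)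
      rw [map_sum] at this
      exact this⟩
  refine ⟨fun i => B i, B.linearIndependent.map' U.subtype (Submodule.ker_subtype U),
    fun i => (B i).2, h3, le_antisymm (Submodule.span_le.2 ?_) ?_⟩
  · rintro _ ⟨v, hv, rfl⟩
    choose M hM using fun i => h3 _ (hv i)
    rw [← funext hM]
    exact Submodule.mem_span_singleton.2 ⟨_, (plk_comb _ (Matrix.of M)).symm⟩
  · exact (Submodule.span_singleton_le_iff_mem _ _).2 (plk_mem fun i => (B i).2)
lemma finrank_plkSub {ι : Type} [Fintype ι] {r : ℕ} {U : Submodule ℂ (ι → ℂ)}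
    (h : finrank ℂ U = r) : finrank ℂ (plkSub r U) = 1 := by
  obtain ⟨b, hb, -, -, e⟩ := exists_basis h
  rw [e, finrank_span_singleton (plk_ne_zero hb)]
lemma plkSub_inj {ι : Type} [Fintype ι] {r : ℕ} {U U' : Submodule ℂ (ι → ℂ)}
    (h : finrank ℂ U = r) (h' : finrank ℂ U' = r) (e : plkSub r U = plkSub r U') : U = U' := by
  refine (Submodule.eq_of_le_of_finrank_eq (fun w hw => ?_) (h'.trans h.symm)).symm
  by_contra hn
  obtain ⟨l, hl, hU⟩ := U.exists_dual_map_eq_bot_of_notMem hn inferInstance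
  obtain ⟨b, -, hbU, -, eb⟩ := exists_basis h
  obtain ⟨b', hb', hbU', hsp, -⟩ := exists_basis h'
  obtain ⟨μ, rfl⟩ := hsp w hw
  obtain ⟨j, hj⟩ : ∃ j, l (b' j) ≠ 0 := by
    by_contra hc
    push Not at hc
    exact hl (by simp [hc])
  obtain ⟨φ, hφ⟩ := exists_dual_fam hb'
  obtain ⟨w, hw⟩ := det_pair (Function.update φ j l)
  have h1 : plk b' ∈ Submodule.span ℂ {plk b} := eb ▸ e ▸ plk_mem hbU'
  obtain ⟨c, hc⟩ := Submodule.mem_span_singleton.1 h1
  have h2 : (Matrix.of fun i m => Function.update φ j l m (b i)).det = 0 :=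
    Matrix.det_eq_zero_of_column_eq_zero j fun i => by
      have : l (b i) ∈ U.map l := ⟨b i, hbU i, rfl⟩
      rw [hU] at this
      simpa using this
  have h3 : (Matrix.of fun i m => Function.update φ j l m (b' i)) =
      (1 : Matrix (Fin r) (Fin r) ℂ).updateCol j fun i => l (b' i) := by
    rw [← hφ]
    ext i m
    by_cases hm : m = j
    · subst hm; simp
    · simp [hm]
  have h4 := hw b'
  rw [h3, ← Matrix.cramer_apply, Matrix.cramer_one, ← hc] at h4
  rw [hw] at h2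
  simp only [Pi.smul_apply, smul_eq_mul, mul_left_comm _ c, ← Finset.mul_sum, h2] at h4
  exact hj (by simpa using h4)
lemma Pol.plkSub_scale {ι : Type} {r : ℕ} {U U' : Submodule ℂ (ι → ℂ)} (a : ι → ℂ)
    (h : ∀ v ∈ U, (fun i => a i * v i) ∈ U') {p : (Fin r → ι) → ℂ} (hp : p ∈ plkSub r U) :
    (fun e => (∏ j, a (e j)) * p e) ∈ plkSub r U' := by
  induction hp using Submodule.span_induction with
  | mem p hp =>
    obtain ⟨v, hv, rfl⟩ := hp
    convert plk_mem (v := fun i l => a l * v i l) fun i => h _ (hv i) using 1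
    funext e
    exact (Matrix.det_mul_row (fun j => a (e j)) (Matrix.of fun i j => v i (e j))).symm
  | zero => convert (plkSub r U').zero_mem using 1; funext e; simp
  | add p q _ _ hp hq => convert add_mem hp hq using 1; funext e; simp [mul_add]
  | smul c p _ hp => convert Submodule.smul_mem _ c hp using 1; funext e; simp [mul_left_comm]
/-- tensor power of a matrix -/
def Pol.tpow {ι κ : Type} (r : ℕ) (Φ : Matrix κ ι R) : Matrix (Fin r → κ) (Fin r → ι) R :=
  fun e g => ∏ j, Φ (e j) (g j)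
lemma Pol.mhmg_tpow {ι κ : Type} (r : ℕ) {Φ : Matrix κ ι R} {a : ι → D} {b : κ → D} (h : MHmg a b Φ) :
    MHmg (fun g : Fin r → ι => ∑ j, a (g j)) (fun e : Fin r → κ => ∑ j, b (e j)) (tpow r Φ) := by
  intro e g
  rw [← Finset.sum_sub_distrib]
  exact Hmg.prod _ fun j _ => h _ _
lemma Pol.mev_tpow {ι κ : Type} [Fintype ι] [DecidableEq ι] {r : ℕ} (Φ : Matrix κ ι R) (x : Pt)
    (v : Fin r → ι → ℂ) : mev x (tpow r Φ) (plk v) = plk fun i => mev x Φ (v i) := by
  funext e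
  simp only [mev_apply, tpow, map_prod, plk]
  exact (det_sum (fun j l => eval x (Φ (e j) l)) v).symm
/-- determinant line bundle -/
def Bun.det (A : Bun X) (r : ℕ) (h : A.Rk r) : Bun X where
  ι := Fin r → A.ι
  deg := fun e => ∑ j, A.deg (e j)
  hdeg := fun e => sum_mem fun j _ => A.hdeg (e j)
  L := fun x => plkSub r (A.L x)
  eqv := by
    intro x hx p
    simp only [chi_sum]
    refine ⟨plkSub_scale _ fun v hv => (A.eqv x hx v).1 hv, fun hp => ?_⟩
    convert plkSub_scale (U' := A.L x) (fun i => (chi (A.deg i))⁻¹) (fun v hv => ?_) hp using 1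
    · funext e
      rw [Finset.prod_inv_distrib, inv_mul_cancel_left₀]
      exact Finset.prod_ne_zero_iff.2 fun _ _ => chi_ne _
    · refine (A.eqv x hx _).2 ?_
      simpa [mul_inv_cancel_left₀ (chi_ne _)] using hv
  alg := by
    refine Gen.isAlg_of_rk (n := 1) ?_ fun x hx => finrank_plkSub (h x hx)
    have hev : ∀ (x : Pt) (s : Fin r → A.ι → R), (fun e : Fin r → A.ι =>
        eval x (Matrix.of fun i j => s i (e j)).det) = plk fun i l => eval x (s i l) :=
      fun x s => funext fun e => RingHom.map_det _ _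
    refine (gen_span fun (s : {s : Fin r → A.ι → R // ∀ i, A.IsSec (s i)}) (e : Fin r → A.ι) =>
      (Matrix.of fun i j => s.1 i (e j)).det).congr fun x hx => ?_
    refine congrArg _ (Set.ext fun p => ⟨?_, ?_⟩)
    · rintro ⟨s, rfl⟩
      exact ⟨_, fun i => s.2 i x hx, hev x s.1⟩
    · rintro ⟨v, hv, rfl⟩
      choose s hs hs' using fun i => A.alg.gen x hx _ (hv i)
      exact ⟨⟨s, hs'⟩, (hev x s).trans (congrArg plk (funext hs))⟩
lemma Bun.rk_det (A : Bun X) (r : ℕ) (h : A.Rk r) : (A.det r h).Rk 1 :=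
  fun x hx => finrank_plkSub (h x hx)
lemma Pol.tens_mem {A B : Bun X} {x : Pt} {v w} (hv : v ∈ A.L x) (hw : w ∈ B.L x) {u}
    (hu : u = fun p : A.ι × B.ι => v p.1 * w p.2) : u ∈ (A.tens B).L x :=
  show u ∈ Submodule.span ℂ {u : A.ι × B.ι → ℂ | ∃ v ∈ A.L x, ∃ w ∈ B.L x,
    u = fun p => v p.1 * w p.2} from Submodule.subset_span ⟨v, hv, w, hw, hu⟩
/-- the determinant is multiplicative -/
theorem kl_det_ses {A B C : Bun X} (h : SES A B C) {m n : ℕ} (hA : A.Rk m) (hC : C.Rk n)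
    (hB : B.Rk (m + n)) : (B.det _ hB).kl = (A.det _ hA).kl * (C.det _ hC).kl := by
  obtain ⟨f, p, hf, hp, H⟩ := h
  let A' := B.re (fun x => (A.L x).map (mev x f)) (A.eqv.map hf)
    (A.alg.map_of_inj f fun x hx => (H x hx).1)
  have hli : ∀ x ∈ X.pts, ∃ a : Fin m → A.ι → ℂ, (∀ i, a i ∈ A.L x) ∧
      LinearIndependent ℂ fun i => mev x f (a i) := by
    intro x hx
    obtain ⟨a, ha, ha', -, -⟩ := exists_basis (hA x hx)
    refine ⟨a, ha', ha.map (Disjoint.mono_left ?_ (disjoint_iff.2 (H x hx).1))⟩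
    exact Submodule.span_le.2 (by rintro _ ⟨i, rfl⟩; exact ha' i)
  have hA' : A'.Rk m := fun x hx => by
    have := LinearMap.finrank_range_add_finrank_ker ((mev x f).domRestrict (A.L x))
    rw [LinearMap.range_domRestrict, LinearMap.ker_domRestrict, hA x hx,
      (Submodule.disjoint_iff_comap_eq_bot.1 (disjoint_iff.2 (H x hx).1)), finrank_bot] at this
    exact this
  have e1 : (A.det _ hA).kl = (A'.det _ hA').kl := by
    refine kl_iso_line (A.rk_det _ _) (A'.rk_det _ _) (tpow m f) (mhmg_tpow m hf) fun x hx => ?_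
    obtain ⟨a, ha, ha'⟩ := hli x hx
    refine ⟨plk a, plk_mem ha, ?_⟩
    erw [mev_tpow]
    exact ⟨plk_mem fun i => ⟨a i, ha i, rfl⟩, plk_ne_zero ha'⟩
  rw [e1, ← kl_tens]
  let Θ : Matrix (B.ι ⊕ C.ι) B.ι R := Sum.elim (1 : Matrix B.ι B.ι R) p
  have hΘ : MHmg B.deg (Sum.elim B.deg C.deg) Θ := by
    rintro (j | j) i
    exacts [MHmg.one B.deg j i, hp j i]
  let ap : (Fin m → B.ι) × (Fin n → C.ι) → Fin (m + n) → B.ι ⊕ C.ι :=
    fun e => Fin.append (fun j => Sum.inl (e.1 j)) fun j => Sum.inr (e.2 j)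
  refine kl_iso_line (B.rk_det _ _) (by simpa using (A'.rk_det _ hA').tens (C.rk_det _ hC))
    (fun e g => tpow (m + n) Θ (ap e) g) (fun e g => ?_) fun x hx => ?_
  · have := mhmg_tpow (m + n) hΘ (ap e) g
    simp only [Fin.sum_univ_add (f := fun j => Sum.elim B.deg C.deg (ap e j)), ap, Fin.append_left,
      Fin.append_right] at this
    exact this
  obtain ⟨a, ha, ha'⟩ := hli x hx
  obtain ⟨c, hc, hc', -, -⟩ := exists_basis (hC x hx)
  have hl : ∀ i, ∃ b ∈ B.L x, mev x p b = c i := fun i => by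
    have := hc' i
    rw [← (H x hx).2.2] at this
    exact this
  choose b hb hb' using hl
  have hfa : ∀ i, mev x f (a i) ∈ B.L x ⊓ LinearMap.ker (mev x p) := fun i =>
    (H x hx).2.1 ▸ ⟨a i, ha i, rfl⟩
  let v : Fin (m + n) → B.ι → ℂ := Fin.append (fun i => mev x f (a i)) b
  have hv : mev (κ := (Fin m → B.ι) × (Fin n → C.ι)) x
      (fun e g => tpow (m + n) Θ (ap e) g) (plk v) =
      fun e : (Fin m → B.ι) × (Fin n → C.ι) => plk (fun i => mev x f (a i)) e.1 * plk c e.2 := by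
    funext e
    have h1 : ∀ w j, mev x Θ w (Sum.inl j) = w j := fun w j => congrFun (Pol.mev_one x w) j
    have h2 : ∀ w j, mev x Θ w (Sum.inr j) = mev x p w j := fun w j => rfl
    refine (congrFun (mev_tpow Θ x v) (ap e)).trans ?_
    simp only [plk]
    rw [← Matrix.det_submatrix_equiv_self finSumFinEquiv,
      ← Matrix.det_fromBlocks_zero₁₂ _ (Matrix.of fun i j => b i (e.1 j))]
    congr 1
    ext (i | i) (j | j)
    · simp [ap, v, h1]
    · simp [ap, v, h2, show mev x p (mev x f (a i)) = 0 from (hfa i).2]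
    · simp [ap, v, h1]
    · simp [ap, v, h2, hb']
  refine ⟨plk v, plk_mem fun i => ?_, ?_⟩
  · refine Fin.addCases (fun i => ?_) (fun i => ?_) i
    · simpa [v] using (hfa i).1
    · simpa [v] using hb i
  · refine ⟨tens_mem (A := A'.det _ hA') (B := C.det _ hC) (plk_mem fun i => ⟨a i, ha i, rfl⟩)
      (plk_mem hc') hv, fun h0 => ?_⟩
    replace h0 := hv.symm.trans h0
    obtain ⟨e₁, h₁⟩ := Function.ne_iff.1 (plk_ne_zero ha')
    obtain ⟨e₂, h₂⟩ := Function.ne_iff.1 (plk_ne_zero hc)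
    exact mul_ne_zero h₁ h₂ (congrFun h0 (e₁, e₂))
theorem kl_det_one {A : Bun X} (h : A.Rk 1) : (A.det 1 h).kl = A.kl := by
  refine (kl_iso_line h (A.rk_det _ _) (sel fun e : Fin 1 → A.ι => e 0)
    (mhmg_sel fun e => (Fin.sum_univ_one fun j => A.deg (e j)).symm) fun x hx => ?_).symm
  obtain ⟨a, ha, ha', -, -⟩ := exists_basis (h x hx)
  have : mev x (sel fun e : Fin 1 → A.ι => e 0) (a 0) = plk a := by
    rw [mev_sel]; funext e; simp [plk]
  refine ⟨a 0, ha' 0, ?_⟩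
  erw [this]
  exact ⟨plk_mem ha', plk_ne_zero ha⟩
theorem kl_det_zero {A : Bun X} (h : A.Rk 0) : (A.det 0 h).kl = 1 := by
  refine (kl_iso_line (rk_line 0) (A.rk_det _ _) (sel fun _ : Fin 0 → A.ι => ())
    (mhmg_sel fun e => ?_) fun x hx => ?_).symm
  · exact (map_zero (dpr X.B)).trans (Fin.sum_univ_zero fun j => A.deg (e j)).symm
  obtain ⟨a, ha, ha', -, -⟩ := exists_basis (h x hx)
  have : mev x (sel fun _ : Fin 0 → A.ι => ()) (fun _ => 1) = plk a := by
    rw [mev_sel]; funext e; simp [plk]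
  refine ⟨fun _ => 1, trivial, ?_⟩
  erw [this]
  exact ⟨plk_mem ha', plk_ne_zero ha⟩
lemma kl_det_pull (p : Proj Y X) (A : Bun X) (r : ℕ) (h : A.Rk r) :
    K.pull p (A.det r h).kl = ((A.pull p).det r (h.pull p)).kl := K.pull_kl p _

end Crest.Agent.N265
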