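import Crest.Agent.N265.K.Act
import Crest.Agent.N265.K.Pol

/-! # Task K6, tools: pieces of twisted structure sheaves (helper98) -/

set_option autoImplicit false
noncomputable section
open MvPolynomial Module

namespace Crest.Agent.N265.PB
open Bun GM
variable {B : Finset ℕ} {Z Y : Spc} {ι : Type}

lemma kill_kill (B : Finset ℕ) (r : R) : kill B (kill B r) = kill B r := by
  induction r using MvPolynomial.induction_on with
  | C c => simp [kill]
  | add p q hp hq => simp only [map_add, hp, hq]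
  | mul_X p v hp =>
    simp only [map_mul, hp]
    by_cases h : v.1 ∈ B <;> simp [h, kill]

lemma kill_X {v : Var} (h : v.1 ∈ B) : kill B (X v) = X v := by simp [kill, h]

lemma eB_apply (b c : ℕ) : eB b (some c) = if b = c then 1 else 0 := by
  simp [eB, Finsupp.single_apply]

lemma vdeg_apply (v : Var) (c : ℕ) : vdeg v (some c) = if v.1 = c then 1 else 0 := by
  simp [vdeg, eT, eB_apply]

/-- the class of a homogeneous polynomial in the twisted structure sheaf -/
lemma mk_mem_gr {e d : D} {r : R} (h : Hmg (d + e) r) :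
    (Ideal.Quotient.mk Y.I r : ((O Y).shift e).M) ∈ ((O Y).shift e).gr d := by
  rw [shift_gr]
  exact (Oid_gr _ _).2 ⟨r, h, rfl⟩

lemma mk_kill_mul_mem {e d₀ : D} (hd : d₀ ∈ DS B) {m : R} (hm : Hmg (d₀ + e) m) (r : R) :
    (Ideal.Quotient.mk Y.I (kill B r * m) : ((O Y).shift e).M) ∈ pieceSub B ((O Y).shift e) := by
  have h1 : (Ideal.Quotient.mk Y.I m : ((O Y).shift e).M) ∈ pieceSub B ((O Y).shift e) :=
    AddSubgroup.subset_closure ⟨d₀, hd, mk_mem_gr hm⟩
  exact kill_smul_mem r h1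

/-- multiplication by a homogeneous polynomial, from the base to the piece -/
def mu (hk : ∀ r ∈ Z.I, kill B r ∈ Y.I) (e : D) {d₀ : D} (hd : d₀ ∈ DS B) {m : R}
    (hm : Hmg (d₀ + e) m) : (R ⧸ Z.I) →ₗ[R] PieceT B ((O Y).shift e) :=
  Submodule.liftQ Z.I
    { toFun := fun r => (⟨Ideal.Quotient.mk Y.I (kill B r * m), mk_kill_mul_mem hd hm r⟩ :
        pieceSub B ((O Y).shift e))
      map_add' := fun r s => PieceT.ext (by
        change Ideal.Quotient.mk Y.I (kill B (r + s) * m) =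
          Ideal.Quotient.mk Y.I (kill B r * m) + Ideal.Quotient.mk Y.I (kill B s * m)
        rw [map_add, add_mul, map_add])
      map_smul' := fun r s => PieceT.ext (by
        change Ideal.Quotient.mk Y.I (kill B (r * s) * m) =
          Ideal.Quotient.mk Y.I (kill B r * (kill B s * m))
        rw [map_mul (kill B), mul_assoc]) }
    fun r hr => PieceT.ext (Ideal.Quotient.eq_zero_iff_mem.2 (Y.I.mul_mem_right _ (hk r hr)))

lemma mu_val (hk : ∀ r ∈ Z.I, kill B r ∈ Y.I) (e : D) {d₀ : D} (hd : d₀ ∈ DS B) {m : R}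
    (hm : Hmg (d₀ + e) m) (r : R) : (mu hk e hd hm (Ideal.Quotient.mk Z.I r)).val =
      (Ideal.Quotient.mk Y.I (kill B r * m) : R ⧸ Y.I) := rfl

lemma mu_gr (hk : ∀ r ∈ Z.I, kill B r ∈ Y.I) (e : D) {d₀ : D} (hd : d₀ ∈ DS B) {m : R}
    (hm : Hmg (d₀ + e) m) {d : D} {q : R ⧸ Z.I} (hq : (q : (O Z).M) ∈ (O Z).gr d) :
    (mu hk e hd hm q : (piece B ((O Y).shift e)).M) ∈ (piece B ((O Y).shift e)).gr (d + d₀) := by
  obtain ⟨r, hr, rfl⟩ := (Oid_gr _ _).1 hq
  rw [piece_gr, mu_val]
  exact mk_mem_gr (by rw [add_assoc]; exact (hr.kill B).mul hm)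

variable [Fintype ι] {y : ι → Var} {b : ℕ}

/-- the monomial `y ^ α` -/
def ym (y : ι → Var) (α : ι →₀ ℕ) : R := ∏ i, X (y i) ^ α i

lemma ym_zero : ym y 0 = 1 := by simp [ym]

lemma ym_add_single (α : ι →₀ ℕ) (i : ι) : ym y (α + Finsupp.single i 1) = ym y α * X (y i) := by
  classical
  simp only [ym, Finsupp.add_apply, pow_add, Finset.prod_mul_distrib]
  congr 1
  rw [Finset.prod_eq_single i (fun j _ hj => by simp [hj]) (by simp)]
  simp

lemma eval_ym (z : Pt) (α : ι →₀ ℕ) : eval z (ym y α) = ∏ i, z (y i) ^ α i := by simp [ym]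

lemma hmg_ym (α : ι →₀ ℕ) : Hmg (∑ i, α i • vdeg (y i)) (ym y α) :=
  Hmg.prod _ fun i _ => (Hmg.X (y i)).pow _

/-- combinations of the monomials of degree `k` -/
def TT (Y : Spc) (B : Finset ℕ) (y : ι → Var) (k : ℕ) : AddSubgroup (R ⧸ Y.I) :=
  AddSubgroup.closure {q | ∃ (c : R) (α : ι →₀ ℕ), α.degree = k ∧
    q = Ideal.Quotient.mk Y.I (kill B c * ym y α)}

lemma hc_mem_TT (hb : b ∉ B) (hy : ∀ i, (y i).1 = b)
    (hY : ∀ v : Var, v.1 ∉ B → v ∉ Set.range y → (X v : R) ∈ Y.I) (r : R) :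
    ∀ (k : ℕ) (d : D), d (some b) = k → Ideal.Quotient.mk Y.I (hc d r) ∈ TT Y B y k := by
  induction r using MvPolynomial.induction_on with
  | C c =>
    intro k d hd
    by_cases h : d = 0
    · subst h
      have : k = 0 := by simpa using hd.symm
      subst this
      rw [hc_of_hmg (Hmg.C c)]
      exact AddSubgroup.subset_closure ⟨C c, 0, by simp, by simp [ym_zero, kill]⟩
    · rw [hc_of_hmg_ne (Hmg.C c) h, map_zero]; exact zero_mem _
  | add p q hp hq =>
    intro k d hd
    rw [map_add, map_add]; exact add_mem (hp k d hd) (hq k d hd)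
  | mul_X p v hp =>
    intro k d hd
    have e := hc_mul (Hmg.X v) (d - vdeg v) p
    rw [sub_add_cancel] at e
    rw [e, map_mul]
    have key : ∀ k', (∀ (c : R) (α : ι →₀ ℕ), α.degree = k' →
        Ideal.Quotient.mk Y.I (kill B c * ym y α * X v) ∈ TT Y B y k) → ∀ q ∈ TT Y B y k',
        q * Ideal.Quotient.mk Y.I (X v) ∈ TT Y B y k := fun k' h q hq => by
      induction hq using AddSubgroup.closure_induction with
      | mem q hq => obtain ⟨c, α, hα, rfl⟩ := hq; rw [← map_mul]; exact h c α hα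
      | zero => rw [zero_mul]; exact zero_mem _
      | add a b _ _ ha hb => rw [add_mul]; exact add_mem ha hb
      | neg a _ ha =>
        have e' : -a * Ideal.Quotient.mk Y.I (X v) = -(a * Ideal.Quotient.mk Y.I (X v)) := by ring
        rw [e']; exact neg_mem ha
    by_cases h1 : v.1 ∈ B
    · have h2 : v.1 ≠ b := fun h => hb (h ▸ h1)
      refine key k (fun c α hα => AddSubgroup.subset_closure ⟨c * X v, α, hα, ?_⟩) _
        (hp k _ (by simp [vdeg_apply, h2, hd]))
      rw [map_mul (kill B), kill_X h1, mul_right_comm]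
    by_cases h2 : v ∈ Set.range y
    · obtain ⟨i, rfl⟩ := h2
      cases k with
      | zero =>
        rw [(hc_hmg (d - vdeg (y i)) p).eq_zero_of_neg (b := b) (by simp [vdeg_apply, hy, hd]),
          map_zero, zero_mul]
        exact zero_mem _
      | succ k =>
        refine key k (fun c α hα => AddSubgroup.subset_closure
          ⟨c, α + Finsupp.single i 1, by simp [hα], ?_⟩) _
          (hp k _ (by simp [vdeg_apply, hy, hd]))
        rw [ym_add_single, mul_assoc]
    · rw [Ideal.Quotient.eq_zero_iff_mem.2 (hY v h1 h2), mul_zero]; exact zero_mem _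

/-- the piece is spanned by the monomials -/
lemma val_mem_TT (hb : b ∉ B) (hy : ∀ i, (y i).1 = b)
    (hY : ∀ v : Var, v.1 ∉ B → v ∉ Set.range y → (X v : R) ∈ Y.I) (k : ℕ)
    (m : PieceT B ((O Y).shift (k • eB b))) : (m.val : R ⧸ Y.I) ∈ TT Y B y k := by
  obtain ⟨m, hm⟩ := m
  change (m : R ⧸ Y.I) ∈ _
  induction hm using AddSubgroup.closure_induction with
  | mem q hq =>
    obtain ⟨d, hd, hq⟩ := hq
    rw [shift_gr] at hq
    obtain ⟨r, hr, rfl⟩ := (Oid_gr _ _).1 hq
    rw [← hc_of_hmg hr]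
    exact hc_mem_TT hb hy hY r k _ (by simp [hd b hb, eB_apply])
  | zero => exact zero_mem _
  | add a b _ _ ha hb => exact add_mem ha hb
  | neg a _ ha => exact neg_mem ha

/-- the closure of an invariant set of points -/
def clo (Y : Spc) (S : Set Pt) (hi : ∀ x ∈ S, gpt x ∈ S) : Spc :=
  Y.ofClosed {z | z ∈ Y.pts ∧ ∀ r : R, (∀ w ∈ S, eval w r = 0) → eval z r = 0} (fun _ h => h.1)
    (fun x hx hn => by
      by_contra hc
      push Not at hc
      refine hn ⟨hx, fun r hr => ?_⟩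
      by_contra h0
      obtain ⟨w, hw, hw'⟩ := hc r h0
      exact hw' (hw.2 r hr))
    fun x hx => ⟨Y.inv x hx.1, fun r hr => by
      rw [← eval_gam]
      exact hx.2 _ fun w hw => by rw [eval_gam]; exact hr _ (hi w hw)⟩

lemma clo_sub (Y : Spc) (S : Set Pt) (hi) : (clo Y S hi).Sub Y := ⟨rfl, fun _ h => h.1⟩

lemma mem_clo_I {S : Set Pt} {hi} (hS : S ⊆ Y.pts) {r : R} :
    r ∈ (clo Y S hi).I ↔ ∀ w ∈ S, eval w r = 0 :=
  ⟨fun h w hw => h w ⟨hS hw, fun _ hs => hs w hw⟩, fun h _ hz => hz.2 r h⟩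

end Crest.Agent.N265.PB
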