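import Crest.Agent.N265.K.Act
import Crest.Agent.N265.K.Pol
import Crest.Agent.N265.K.PB1

/-! # Task K6: projective bundles of lines, graphs of line bundles -/

set_option autoImplicit false
noncomputable section
open MvPolynomial Module

namespace Crest.Agent.N265
open Bun GM
variable {X Y P : Spc}

/-- variables `y i` of a new block `b` adapted to the uniform bundle `A` -/
structure PVar (A : Bun X) (δ : D) (b : ℕ) (y : A.ι → Var) : Prop where
  new : b ∉ X.B
  hδ : δ ∈ DS X.B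
  inj : Function.Injective y
  blk : ∀ i, (y i).1 = b
  deg : ∀ i, A.deg i = δ + (y i).2.2 • eT
/-- `P` is the bundle of lines in `A`, in the variables `y` -/
structure IsPSub (P : Spc) (A : Bun X) (δ : D) (b : ℕ) (y : A.ι → Var) : Prop extends
    PVar A δ b y where
  B : P.B = insert b X.B
  mem : ∀ z, z ∈ P.pts ↔ restr X.B z ∈ X.pts ∧ (fun i => z (y i)) ∈ A.L (restr X.B z) ∧
    (fun i => z (y i)) ≠ 0 ∧ ∀ v, z v ≠ 0 → v.1 ∈ X.B ∨ v ∈ Set.range y
lemma PVar.vdeg_y {A : Bun X} {δ b y} (h : PVar A δ b y) (i : A.ι) :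
    vdeg (y i) = A.deg i + (eB b - δ) := by
  rw [vdeg, h.blk, h.deg]; abel
lemma PVar.notMem {A : Bun X} {δ b y} (h : PVar A δ b y) (i : A.ι) : (y i).1 ∉ X.B := by
  rw [h.blk]; exact h.new
lemma PVar.gpt_y {A : Bun X} {δ b y} (h : PVar A δ b y) (z : Pt) :
    (fun i => gpt z (y i)) = chi (eB b - δ) • fun i => chi (A.deg i) * z (y i) := by
  funext i
  simp only [gpt, h.vdeg_y, chi_add, Pi.smul_apply, smul_eq_mul]; ring
theorem PVar.exists_psub {A : Bun X} {δ b y} (h : PVar A δ b y) : ∃ P, IsPSub P A δ b y := by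
  classical
  refine ⟨⟨insert b X.B, {z | restr X.B z ∈ X.pts ∧ (fun i => z (y i)) ∈ A.L (restr X.B z) ∧
    (fun i => z (y i)) ≠ 0 ∧ ∀ v, z v ≠ 0 → v.1 ∈ X.B ∨ v ∈ Set.range y}, ?_, ?_, ?_, ?_⟩,
    h, rfl, fun _ => Iff.rfl⟩
  · obtain ⟨V, hV, hV'⟩ := X.fin
    refine ⟨V ∪ Finset.univ.image y, fun v hv => ?_, fun z hz v hv => ?_⟩
    · rcases Finset.mem_union.1 hv with hv | hv
      · exact Finset.mem_insert_of_mem (hV v hv)
      · obtain ⟨i, -, rfl⟩ := Finset.mem_image.1 hv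
        rw [h.blk]; exact Finset.mem_insert_self _ _
    · by_contra h0
      rcases hz.2.2.2 v h0 with h1 | ⟨i, rfl⟩
      · have := hV' _ hz.1 v fun h2 => hv (Finset.mem_union_left _ h2)
        simp only [restr, if_pos h1] at this
        exact h0 this
      · exact hv (Finset.mem_union_right _ (Finset.mem_image_of_mem y (Finset.mem_univ i)))
  · intro z hz c hc
    rcases Finset.mem_insert.1 hc with rfl | hc
    · obtain ⟨i, hi⟩ := Function.ne_iff.1 hz.2.2.1
      exact ⟨y i, h.blk i, hi⟩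
    · exact (rel_restr subset_rfl).1 (X.rel _ hz.1) c hc
  · intro z hz hr
    have h1 : restr X.B z ∈ X.pts := X.closed _
      ((rel_restr subset_rfl).2 fun c hc => hz c (Finset.mem_insert_of_mem hc)) fun r hr' => by
        rw [← eval_kill]
        exact hr _ fun w hw => by rw [eval_kill]; exact hr' _ hw.1
    have h4 : ∀ v, z v ≠ 0 → v.1 ∈ X.B ∨ v ∈ Set.range y := fun v hv => by
      by_contra hc
      refine hv ?_
      have := hr (MvPolynomial.X v) fun w hw => by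
        rw [eval_X]
        by_contra h0
        exact hc (hw.2.2.2 v h0)
      rwa [eval_X] at this
    refine ⟨h1, ?_, ?_, h4⟩
    · rw [← perp_perp (A.L _), mem_perp]
      intro a ha
      obtain ⟨s, hs, hs'⟩ := A.alg.cogen _ h1 a ha
      have := hr (∑ i, kill X.B (s i) * MvPolynomial.X (y i)) fun w hw => by
        simpa only [map_sum, map_mul, eval_kill, eval_X] using hs' _ hw.1 _ hw.2.1
      simp only [map_sum, map_mul, eval_kill, eval_X] at this
      rw [← this, ← hs]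
      exact Finset.sum_congr rfl fun i _ => mul_comm _ _
    · obtain ⟨v, hv, hv'⟩ := hz b (Finset.mem_insert_self _ _)
      rcases h4 v hv' with h5 | ⟨i, rfl⟩
      · exact absurd (hv ▸ h5) h.new
      · exact Function.ne_iff.2 ⟨i, hv'⟩
  · intro z hz
    refine ⟨by rw [restr_gpt]; exact X.inv _ hz.1, ?_, ?_, fun v hv => hz.2.2.2 v ?_⟩
    · rw [h.gpt_y, restr_gpt]
      exact Submodule.smul_mem _ _ ((A.eqv _ hz.1 _).1 hz.2.1)
    · obtain ⟨i, hi⟩ := Function.ne_iff.1 hz.2.2.1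
      exact Function.ne_iff.2 ⟨i, mul_ne_zero (chi_ne _) hi⟩
    · exact right_ne_zero_of_mul hv
theorem exists_pvar {A : Bun X} {δ : D} (hδ : δ ∈ DS X.B) (h : A.Unif δ) {b : ℕ} (hb : b ∉ X.B) :
    ∃ y, PVar A δ b y := by
  refine ⟨fun i => (b, (Fintype.equivFin A.ι i : ℕ), A.deg i none - δ none), hb, hδ,
    fun i j hij => ?_, fun _ => rfl, fun i => ?_⟩
  · exact (Fintype.equivFin A.ι).injective (Fin.ext (congrArg (fun v : Var => v.2.1) hij))
  · ext c
    cases c with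
    | none => simp [eT]
    | some c => simp [eT, h i c]
lemma IsPSub.proj {A : Bun X} {δ b y} (h : IsPSub P A δ b y) : Proj P X :=
  ⟨h.B ▸ Finset.subset_insert _ _, fun z hz => ((h.mem z).1 hz).1⟩
lemma IsPSub.uniq {P' : Spc} {A : Bun X} {δ b y} (h : IsPSub P A δ b y) (h' : IsPSub P' A δ b y) :
    P = P' :=
  Spc.ext (h.B.trans h'.B.symm) (Set.ext fun z => (h.mem z).trans (h'.mem z).symm)
/-- the point of `P` over `x` given by a vector -/
lemma IsPSub.exists_pt {A : Bun X} {δ b y} (h : IsPSub P A δ b y) {x : Pt} (hx : x ∈ X.pts)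
    {v : A.ι → ℂ} (hv : v ∈ A.L x) (h0 : v ≠ 0) :
    ∃ z ∈ P.pts, restr X.B z = x ∧ (fun i => z (y i)) = v := by
  have e1 : (fun i => Function.extend y v x (y i)) = v := funext fun i => h.inj.extend_apply _ _ i
  have e2 : restr X.B (Function.extend y v x) = x := by
    conv_rhs => rw [← X.restr_eq hx]
    funext w
    unfold restr
    split_ifs with hw
    · exact Function.extend_apply' _ _ _ (by rintro ⟨i, rfl⟩; exact h.notMem i hw)
    · rfl
  refine ⟨_, (h.mem _).2 ⟨by rwa [e2], by rwa [e1, e2], by rwa [e1], fun w hw => ?_⟩, e2, e1⟩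
  by_contra hc
  rw [not_or] at hc
  rw [Function.extend_apply' _ _ _ hc.2, ← X.restr_eq hx] at hw
  exact hw (if_neg hc.1)
/-- base change -/
lemma IsPSub.fib {A : Bun X} {δ b y} (h : IsPSub P A δ b y) (p : Proj Y X) (hb : b ∉ Y.B) :
    IsPSub (Y.fib P) (A.pull p) δ b y := by
  have hB : Y.B ∪ P.B = insert b Y.B := by
    rw [h.B, Finset.union_insert, Finset.union_eq_left.2 p.sub]
  have hy : ∀ z : Pt, (fun i => restr P.B z (y i)) = fun i => z (y i) := fun z => funext fun i =>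
    if_pos (by rw [h.B, h.blk]; exact Finset.mem_insert_self _ _)
  refine ⟨⟨hb, DS_mono p.sub h.hδ, h.inj, h.blk, h.deg⟩, hB, fun z => ?_⟩
  change (restr Y.B z ∈ Y.pts ∧ restr P.B z ∈ P.pts ∧ ∀ v, z v ≠ 0 → v.1 ∈ Y.B ∪ P.B) ↔
    restr Y.B z ∈ Y.pts ∧ (fun i => z (y i)) ∈ A.L (restr X.B (restr Y.B z)) ∧
      (fun i => z (y i)) ≠ 0 ∧ ∀ v, z v ≠ 0 → v.1 ∈ Y.B ∨ v ∈ Set.range y
  rw [h.mem, restr_restr h.proj.sub, restr_restr p.sub, hy, hB]
  refine and_congr_right fun hz => ⟨fun ⟨⟨_, h2, h3, h4⟩, h5⟩ => ⟨h2, h3, fun v hv => ?_⟩,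
    fun ⟨h2, h3, h4⟩ => ⟨⟨?_, h2, h3, fun v hv => ?_⟩, fun v hv => ?_⟩⟩
  · rcases Finset.mem_insert.1 (h5 v hv) with h6 | h6
    · refine (h4 v ?_).imp_left fun h7 => p.sub h7
      rwa [restr, if_pos (by rw [h.B, h6]; exact Finset.mem_insert_self _ _)]
    · exact Or.inl h6
  · rw [← restr_restr p.sub]; exact p.map _ hz
  · by_cases h6 : v.1 ∈ P.B
    · rw [restr, if_pos h6] at hv
      rw [h.B] at h6
      rcases Finset.mem_insert.1 h6 with h7 | h7
      · exact (h4 v hv).imp_left fun h8 => absurd (h7 ▸ h8) hb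
      · exact Or.inl h7
    · exact absurd (if_neg h6) hv
  · rcases h4 v hv with h6 | ⟨i, rfl⟩
    · exact Finset.mem_insert_of_mem h6
    · rw [h.blk]; exact Finset.mem_insert_self _ _
lemma IsPSub.ttriv {A : Bun X} {δ b y} (h : IsPSub P A δ b y) {w : ℕ → ℤ} (hw : X.TTriv w)
    (hy : ∀ i, (y i).2.2 = w b) : P.TTriv w := by
  intro z hz v hv
  obtain ⟨h1, -, -, h4⟩ := (h.mem z).1 hz
  rcases h4 v hv with h5 | ⟨i, rfl⟩
  · exact hw _ h1 v (by rwa [restr, if_pos h5])
  · rw [hy, h.blk]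
lemma IsPSub.X_mem {A : Bun X} {δ b y} (h : IsPSub P A δ b y) {Z : Spc} (hZ : Z.Sub P) (v : Var)
    (h1 : v.1 ∉ X.B) (h2 : v ∉ Set.range y) : (MvPolynomial.X v : R) ∈ Z.I := fun z hz => by
  rw [eval_X]
  by_contra h0
  exact (((h.mem z).1 (hZ.2 hz)).2.2.2 v h0).elim h1 h2
lemma IsPSub.b_mem {A : Bun X} {δ b y} (h : IsPSub P A δ b y) : eB b ∈ DS P.B :=
  eB_mem (h.B ▸ Finset.mem_insert_self _ _)
/-- push-forward of high twists -/
lemma IsPSub.push_big {A : Bun X} {δ b y} (h : IsPSub P A δ b y) {M : GM} (hM : M.On P) :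
    ∃ k₀ : ℕ, ∀ k ≥ k₀, push P X (cl P (M.shift (k • eB b))) =
      cl X (piece X.B (M.shift (k • eB b))) := by
  obtain ⟨k₀, hk⟩ := (isPush h.proj).big M hM
  refine ⟨k₀.toNat, fun k hk' => hk _ ⟨by simp [eB], fun c hc => ?_, fun c hc hc' => ?_⟩⟩
  · have : b ≠ c := by
      rintro rfl
      exact hc.elim h.new fun h1 => h1 (h.B ▸ Finset.mem_insert_self _ _)
    simp [PB.eB_apply, this]
  · rw [h.B] at hc
    obtain rfl := (Finset.mem_insert.1 hc).resolve_right hc'
    simp only [Finsupp.coe_nsmul, Pi.smul_apply, PB.eB_apply, if_true, nsmul_eq_mul, mul_one]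
    omega
lemma PVar.hmg_ym {A : Bun X} {δ b y} (h : PVar A δ b y) {k : ℕ} (α : Mon A.ι k) :
    Hmg ((-monDeg A.deg k α - k • δ) + k • eB b) (PB.ym y α.1) := by
  have e : ∑ i, α.1 i • vdeg (y i) = (-monDeg A.deg k α - k • δ) + k • eB b := by
    have hk : ∑ i, α.1 i = k := by rw [← Finsupp.degree_eq_sum]; exact α.2
    simp only [h.vdeg_y, smul_add, Finset.sum_add_distrib]
    rw [← Finset.sum_smul, hk, monDeg, neg_neg, smul_sub]
    abel
  rw [← e]; exact PB.hmg_ym α.1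
/-- The projective bundle formula in high degrees. The tautological line is `O(δ - e_b)`. -/
theorem IsPSub.push_pow_big {A : Bun X} {δ b y} (h : IsPSub P A δ b y) :
    ∃ k₀ : ℕ, ∀ k ≥ k₀, push P X (lb P (eB b - δ) ^ k • one P) = Sd A k • one X := by
  classical
  obtain ⟨k₀, hk₀⟩ := h.push_big (red_O P).on
  refine ⟨k₀ + 1, fun k hk => ?_⟩
  have hδ : -(k • δ) ∈ DS X.B := neg_mem (nsmul_mem h.hδ k)
  have hb : k • eB b ∈ DS P.B := nsmul_mem h.b_mem k
  have hd : ∀ α, monDeg A.deg k α ∈ DS X.B := (A.van k).hdeg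
  have hd' : ∀ α, -monDeg A.deg k α - k • δ ∈ DS X.B := fun α =>
    sub_mem (neg_mem (hd α)) (nsmul_mem h.hδ k)
  have hkl : ∀ r ∈ X.I, kill X.B r ∈ P.I := fun r hr => h.proj.kill_mem hr
  have hred : (piece X.B ((O P).shift (k • eB b))).Red X :=
    Red.piece h.proj ((red_O P).shift hb).ann
  have e1 : push P X (lb P (eB b - δ) ^ k • one P) =
      cl X ((piece X.B ((O P).shift (k • eB b))).shift (-(k • δ))) := by
    rw [← lb_nsmul, smul_sub, sub_eq_neg_add, lb_smul (add_mem (DS_mono h.proj.sub hδ) hb),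
      sh_add (DS_mono h.proj.sub hδ) hb, push_sh h.proj hδ, one, sh_cl hb (red_O P).on,
      hk₀ k (by omega), sh_cl hδ hred.on]
  have e2 : (A.van k).amb.kl • one X = cl X (pw (monDeg A.deg k) (O X)) := by
    rw [cl_pw hd (red_O X).on, Bun.amb, kl_triv, Finset.sum_smul]
    exact Finset.sum_congr rfl fun α _ => (lbK_smul (hd α) _).trans (sh_cl (hd α) (red_O X).on)
  let φ : (Mon A.ι k → R ⧸ X.I) →ₗ[R] PieceT X.B ((O P).shift (k • eB b)) :=
    ∑ α : Mon A.ι k, (PB.mu hkl (k • eB b) (hd' α) (h.hmg_ym α)).comp (LinearMap.proj α)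
  have hφ : ∀ c : Mon A.ι k → R ⧸ X.I,
      φ c = ∑ α : Mon A.ι k, PB.mu hkl (k • eB b) (hd' α) (h.hmg_ym α) (c α) := fun c =>
    LinearMap.sum_apply _ _ _
  have hval : ∀ s : Mon A.ι k → R, PieceT.val (φ fun α => Ideal.Quotient.mk X.I (s α)) =
      (Ideal.Quotient.mk P.I (∑ α, kill X.B (s α) * PB.ym y α.1) : R ⧸ P.I) := fun s => by
    rw [hφ, map_sum]
    exact map_sum (pieceSub X.B ((O P).shift (k • eB b))).subtype _ _
  have hg : ∀ (d : D) (c : Mon A.ι k → R ⧸ X.I),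
      (∀ α, (c α : (O X).M) ∈ (O X).gr (d + monDeg A.deg k α)) →
      (φ c : (piece X.B ((O P).shift (k • eB b))).M) ∈
        (piece X.B ((O P).shift (k • eB b))).gr (d + -(k • δ)) := fun d c hc => by
    rw [hφ]
    refine Submodule.sum_mem ((piece X.B ((O P).shift (k • eB b))).gr (d + -(k • δ)))
      fun α _ => ?_
    have := PB.mu_gr hkl (k • eB b) (hd' α) (h.hmg_ym α) (hc α)
    rwa [show d + monDeg A.deg k α + (-monDeg A.deg k α - k • δ) = d + -(k • δ) by abel] at this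
  have hses : GM.SES ((A.van k).act (O X)) (pw (monDeg A.deg k) (O X))
      ((piece X.B ((O P).shift (k • eB b))).shift (-(k • δ))) := by
    refine ⟨((A.van k).actSub (O X)).subtype, φ, deg0_subtype _, deg0_of_gr fun d c hc => ?_,
      Subtype.val_injective, fun c => ?_, fun m => ?_⟩
    · rw [shift_gr]
      exact hg d c ((pw_gr _).1 hc)
    · choose s hs using fun α => Ideal.Quotient.mk_surjective (I := X.I) (c α)
      obtain rfl : c = fun α => Ideal.Quotient.mk X.I (s α) := funext fun α => (hs α).symm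
      have e3 : (φ fun α => Ideal.Quotient.mk X.I (s α)) = 0 ↔
          ∑ α, kill X.B (s α) * PB.ym y α.1 ∈ P.I := by
        rw [← Ideal.Quotient.eq_zero_iff_mem, ← hval]
        exact ⟨fun h0 => congrArg PieceT.val h0, fun h0 => PieceT.ext h0⟩
      have e4 : ∀ z : Pt, eval z (∑ α, kill X.B (s α) * PB.ym y α.1) =
          polEv (fun α => eval (restr X.B z) (s α)) fun i => z (y i) := fun z => by
        simp only [map_sum, map_mul, eval_kill, PB.eval_ym, polEv]
      refine e3.trans (Iff.trans ?_ (((A.van k).mem_act_O s).symm.trans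
        ⟨fun h0 => ⟨⟨_, h0⟩, rfl⟩, fun ⟨u, hu⟩ => hu ▸ u.2⟩))
      constructor
      · intro h0 x hx v hv
        by_cases hv0 : v = 0
        · have := polEv_smul (fun α => eval x (s α)) 0 v
          rwa [zero_smul, zero_pow (by omega), zero_mul, ← hv0] at this
        · obtain ⟨z, hz, rfl, rfl⟩ := h.exists_pt hx hv hv0
          exact (e4 z).symm.trans (h0 z hz)
      · intro h0 z hz
        rw [e4]
        exact h0 _ ((h.mem z).1 hz).1 _ ((h.mem z).1 hz).2.1
    · have hm := PB.val_mem_TT h.new h.blk (h.X_mem (Spc.Sub.refl P)) k m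
      have key : ∀ q ∈ PB.TT P X.B y k, ∃ c, (PieceT.val (φ c) : R ⧸ P.I) = q := fun q hq => by
        induction hq using AddSubgroup.closure_induction with
        | mem q hq =>
          obtain ⟨c, α, hα, rfl⟩ := hq
          obtain ⟨α', rfl⟩ : ∃ α' : Mon A.ι k, α'.1 = α := ⟨⟨α, hα⟩, rfl⟩
          refine ⟨fun β => Ideal.Quotient.mk X.I (Pi.single (M := fun _ => R) α' c β),
            (hval _).trans ?_⟩
          rw [Finset.sum_eq_single α' (fun β _ hβ => by simp [hβ]) (by simp), Pi.single_eq_same]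
        | zero => exact ⟨0, by rw [map_zero]; rfl⟩
        | add a b _ _ ha hb =>
          obtain ⟨c, rfl⟩ := ha
          obtain ⟨c', rfl⟩ := hb
          exact ⟨c + c', by rw [map_add]; rfl⟩
        | neg a _ ha =>
          obtain ⟨c, rfl⟩ := ha
          exact ⟨-c, by rw [map_neg]; rfl⟩
      obtain ⟨c, hc⟩ := key _ hm
      exact ⟨c, PieceT.ext hc⟩
  rw [e1, Sd, sub_smul, e2, cl_ses hses ((red_O X).on.pw hd), one, kl_smul _ (red_O X)]
  abel
/-- push-forward is onto (closure of the graph of a generically non-zero section, `G.dev_ind`) -/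
theorem IsPSub.push_surj {A : Bun X} {δ b y} (h : IsPSub P A δ b y)
    (hA : ∀ x ∈ X.pts, A.L x ≠ ⊥) : Function.Surjective (push P X) := by
  classical
  rw [← AddMonoidHom.range_eq_top]
  refine G.dev_ind _ fun Z hZ hirr hind => ?_
  obtain ⟨n, e, Φ, he, hΦ, hr⟩ := A.alg.gen.exists_hmg A.eqv A.hdeg
  obtain ⟨x₀, hx₀⟩ := hirr.nonempty
  obtain ⟨i₀, j, hij⟩ : ∃ i j, eval x₀ (Φ i j) ≠ 0 := by
    by_contra hc
    push Not at hc
    refine hA x₀ (hZ.2 hx₀) ?_
    rw [← hr x₀ (hZ.2 hx₀), LinearMap.range_eq_bot]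
    refine LinearMap.ext fun v => funext fun i => ?_
    simp [mev_apply, hc]
  set s : A.ι → R := fun i => Φ i j with hs
  have hsL : ∀ x ∈ X.pts, (fun i => eval x (s i)) ∈ A.L x := fun x hx => by
    rw [← hr x hx]
    refine ⟨Pi.single j 1, funext fun i => ?_⟩
    simp [mev_apply, Pi.single_apply, hs]
  have hsh : ∀ i, Hmg (A.deg i - e j) (s i) := fun i => hΦ i j
  have hsI : s i₀ ∉ Z.I := fun h0 => hij (h0 x₀ hx₀)
  set S : Set Pt := {z | z ∈ P.pts ∧ restr X.B z ∈ Z.pts ∧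
    ∀ i, eval (restr X.B z) (s i₀) * z (y i) = eval (restr X.B z) (s i) * z (y i₀) ∧
      eval (restr X.B z) (s i₀) ≠ 0} with hS
  have hSi : ∀ z ∈ S, gpt z ∈ S := fun z hz => ⟨P.inv z hz.1, by
    rw [restr_gpt]; exact Z.inv _ hz.2.1, fun i => by
      rw [restr_gpt, (hsh i₀).eval_gpt, (hsh i).eval_gpt]
      refine ⟨?_, mul_ne_zero (chi_ne _) (hz.2.2 i).2⟩
      simp only [gpt, h.vdeg_y, chi_add, chi_sub]
      linear_combination (chi (A.deg i₀) * (chi (e j))⁻¹ * chi (A.deg i) *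
        (chi (eB b) * (chi δ)⁻¹)) * (hz.2.2 i).1⟩
  set Z' := PB.clo P S hSi with hZ'
  have hZP : Z'.Sub P := PB.clo_sub _ _ _
  have hI : ∀ r, r ∈ Z'.I ↔ ∀ w ∈ S, eval w r = 0 := fun r => PB.mem_clo_I fun _ hz => hz.1
  have hkl : ∀ r ∈ Z.I, kill X.B r ∈ Z'.I := fun r hr =>
    (hI _).2 fun w hw => by rw [eval_kill]; exact hr _ hw.2.1
  have hOn : (O Z').On P := ((red_O Z').mono hZP).on
  obtain ⟨k, hk⟩ := h.push_big hOn
  have hk' := hk k le_rfl
  set d₀ : D := k • (A.deg i₀ - δ) with hd₀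
  have hd₀' : d₀ ∈ DS X.B := nsmul_mem (sub_mem (A.hdeg i₀) h.hδ) k
  have hm : Hmg (d₀ + k • eB b) (MvPolynomial.X (y i₀) ^ k) := by
    have := (Hmg.X (y i₀)).pow k
    rwa [h.vdeg_y, show k • (A.deg i₀ + (eB b - δ)) = d₀ + k • eB b by
      rw [hd₀, ← smul_add]; congr 1; abel] at this
  set N := piece X.B ((O Z').shift (k • eB b)) with hN
  let μ : (R ⧸ Z.I) →ₗ[R] PieceT X.B ((O Z').shift (k • eB b)) := PB.mu hkl (k • eB b) hd₀' hm
  have hμ0 : Deg0 (M := (O Z).shift (-d₀)) (N := N) μ := deg0_of_gr fun d q hq => by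
    rw [shift_gr] at hq
    have := PB.mu_gr hkl (k • eB b) hd₀' hm hq
    rwa [neg_add_cancel_right] at this
  have hμi : Function.Injective μ := by
    rw [injective_iff_map_eq_zero]
    intro q hq
    obtain ⟨r, rfl⟩ := Ideal.Quotient.mk_surjective q
    have h1 : kill X.B r * MvPolynomial.X (y i₀) ^ k ∈ Z'.I :=
      Ideal.Quotient.eq_zero_iff_mem.1 (congrArg PieceT.val hq)
    refine Ideal.Quotient.eq_zero_iff_mem.2 ((hirr.mem_or_mem (show r * s i₀ ∈ Z.I from
      fun x hx => ?_)).resolve_right hsI)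
    by_cases h0 : eval x (s i₀) = 0
    · rw [map_mul, h0, mul_zero]
    obtain ⟨z, hz, rfl, hzy⟩ := h.exists_pt (hZ.2 hx) (hsL x (hZ.2 hx))
      (Function.ne_iff.2 ⟨i₀, h0⟩)
    have h2 := (hI _).1 h1 z ⟨hz, hx, fun i => ⟨by
      rw [congrFun hzy i, congrFun hzy i₀, mul_comm], h0⟩⟩
    rw [map_mul, map_pow, eval_kill, eval_X, congrFun hzy i₀] at h2
    rw [map_mul, (mul_eq_zero.1 h2).resolve_right (pow_ne_zero _ h0), zero_mul]
  have hcok : ∀ m : PieceT X.B ((O Z').shift (k • eB b)), ∃ q, μ q = s i₀ ^ k • m := fun m => by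
    have key : ∀ q ∈ PB.TT Z' X.B y k, ∃ c, (PieceT.val (μ c) : R ⧸ Z'.I) =
        Ideal.Quotient.mk Z'.I (kill X.B (s i₀ ^ k)) * q := fun q hq => by
      induction hq using AddSubgroup.closure_induction with
      | mem q hq =>
        obtain ⟨c, α, hα, rfl⟩ := hq
        refine ⟨Ideal.Quotient.mk Z.I (c * ∏ i, s i ^ α i), ?_⟩
        rw [← map_mul]
        refine Ideal.Quotient.eq.2 ((hI _).2 fun w hw => ?_)
        have hk2 : ∑ i, α i = k := by rw [← Finsupp.degree_eq_sum]; exact hα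
        have h3 : (∏ i, eval (restr X.B w) (s i) ^ α i) * w (y i₀) ^ k =
            eval (restr X.B w) (s i₀) ^ k * ∏ i, w (y i) ^ α i := by
          rw [← hk2, ← Finset.prod_pow_eq_pow_sum, ← Finset.prod_pow_eq_pow_sum,
            ← Finset.prod_mul_distrib, ← Finset.prod_mul_distrib]
          exact Finset.prod_congr rfl fun i _ => by rw [← mul_pow, ← mul_pow, (hw.2.2 i).1]
        simp only [map_sub, map_mul, map_pow, map_prod, eval_kill, eval_X, PB.eval_ym]
        linear_combination eval (restr X.B w) c * h3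
      | zero => exact ⟨0, by rw [map_zero, mul_zero]; rfl⟩
      | add a b _ _ ha hb =>
        obtain ⟨c, hc⟩ := ha
        obtain ⟨c', hc'⟩ := hb
        exact ⟨c + c', by rw [map_add, mul_add, ← hc, ← hc']; rfl⟩
      | neg a _ ha =>
        obtain ⟨c, hc⟩ := ha
        refine ⟨-c, ?_⟩
        have e' : Ideal.Quotient.mk Z'.I (kill X.B (s i₀ ^ k)) * -a =
          -(Ideal.Quotient.mk Z'.I (kill X.B (s i₀ ^ k)) * a) := by ring
        rw [map_neg, e', ← hc]; rfl
    obtain ⟨c, hc⟩ := key _ (PB.val_mem_TT h.new h.blk (h.X_mem hZP) k m)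
    exact ⟨c, PieceT.ext hc⟩
  have hNZ : ∀ r ∈ Z.I, ∀ m : PieceT X.B ((O Z').shift (k • eB b)), r • m = 0 :=
    fun r hr m => PieceT.ext (by
    obtain ⟨t, ht⟩ := Ideal.Quotient.mk_surjective (I := Z'.I) (PieceT.val m)
    rw [PieceT.val_smul, ← ht]
    exact Ideal.Quotient.eq_zero_iff_mem.2 (Z'.I.mul_mem_right _ (hkl r hr)))
  have hNX : N.Red X := ⟨degIn_piece _ _, fun r hr => hNZ r (hZ.I_le hr)⟩
  set Z₂ := Z.cut {s i₀} (by rintro r rfl; exact ⟨_, hsh i₀⟩) with hZ₂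
  have hZ₂Z : Z₂.Sub Z := Spc.cut_sub _ _ _
  set Q := N.quot _ hμ0.stab_range with hQ
  have hQOn : Q.On Z₂ := by
    refine ⟨(hZ₂Z.1.trans hZ.1).symm ▸ (hNX.quot hμ0.stab_range).deg, fun x hx hn => ?_⟩
    by_cases hxZ : x ∈ Z.pts
    · have h0 : eval x (s i₀) ≠ 0 := fun h0 => hn ⟨hxZ, by rintro r rfl; exact h0⟩
      refine ⟨s i₀ ^ k, by rw [map_pow]; exact pow_ne_zero _ h0, fun m => ?_⟩
      obtain ⟨m, rfl⟩ := Submodule.mkQ_surjective _ m
      exact (Submodule.Quotient.mk_eq_zero _).2 (hcok m)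
    · obtain ⟨r, hr, hr'⟩ := Spc.exists_notMem (Z := Z) hx hxZ
      refine ⟨r, hr', fun m => ?_⟩
      obtain ⟨m, rfl⟩ := Submodule.mkQ_surjective _ m
      exact (congrArg (LinearMap.range μ).mkQ (hNZ r hr m)).trans (map_zero _)
  have hses : GM.SES ((O Z).shift (-d₀)) N Q :=
    ⟨μ, (LinearMap.range μ).mkQ, hμ0, deg0_mkQ hμ0.stab_range, hμi,
      LinearMap.exact_map_mkQ_range μ, Submodule.mkQ_surjective (LinearMap.range μ)⟩
  have h1 : cl X ((O Z).shift (-d₀)) ∈ (push P X).range := by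
    have h2 : cl X ((O Z).shift (-d₀)) = cl X N - cl X Q :=
      eq_sub_of_add_eq (cl_ses hses hNX.on).symm
    rw [h2]
    refine sub_mem ⟨_, hk'⟩ ?_
    rw [← incl_cl (hZ₂Z.trans hZ) hQOn]
    exact hind Z₂ hZ₂Z (fun h0 => hij ((h0.ge hx₀).2 _ rfl)) _
  intro d hd
  obtain ⟨a, ha⟩ := h1
  have hOZ : (O Z).On X := ((red_O Z).mono hZ).on
  refine ⟨sh P (d + d₀) a, ?_⟩
  rw [push_sh h.proj (add_mem hd hd₀'), ha, ← sh_cl (neg_mem hd₀') hOZ,
    ← sh_add (add_mem hd hd₀') (neg_mem hd₀'), add_neg_cancel_right, sh_cl hd hOZ]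
/-- the quotient by the tautological line, `v ↦ (y_i v_j - y_j v_i)` -/
theorem IsPSub.exists_quot {A : Bun X} {δ b y} (h : IsPSub P A δ b y) :
    ∃ (Q : Bun P) (f : Matrix Q.ι A.ι R), MHmg A.deg Q.deg f ∧ ∀ z ∈ P.pts,
      LinearMap.ker (mev z f) = Submodule.span ℂ {fun i => z (y i)} ∧
      (A.L (restr X.B z)).map (mev z f) = Q.L z := by
  classical
  have hδ : eB b - δ ∈ DS P.B := sub_mem h.b_mem (DS_mono h.proj.sub h.hδ)
  let f : Matrix (A.ι × A.ι) A.ι R := fun p k =>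
    (if p.2 = k then MvPolynomial.X (y p.1) else 0) - if p.1 = k then MvPolynomial.X (y p.2) else 0
  let dg : A.ι × A.ι → D := fun p => A.deg p.1 + A.deg p.2 + (eB b - δ)
  have hf : MHmg A.deg dg f := fun p k => by
    refine Hmg.sub ?_ ?_
    · split_ifs with h1
      · have := Hmg.X (y p.1)
        rwa [h.vdeg_y, show A.deg p.1 + (eB b - δ) = dg p - A.deg k by
          simp only [dg, h1]; abel] at this
      · exact Hmg.zero _
    · split_ifs with h1
      · have := Hmg.X (y p.2)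
        rwa [h.vdeg_y, show A.deg p.2 + (eB b - δ) = dg p - A.deg k by
          simp only [dg, h1]; abel] at this
      · exact Hmg.zero _
  have hev : ∀ (z : Pt) u p, mev z f u p = z (y p.1) * u p.2 - z (y p.2) * u p.1 := fun z u p => by
    rw [mev_apply]
    simp [f, sub_mul, Finset.sum_sub_distrib, apply_ite (eval z)]
  have hker : ∀ z ∈ P.pts,
      LinearMap.ker (mev z f) = Submodule.span ℂ {fun i => z (y i)} := fun z hz => by
    obtain ⟨i, hi⟩ := Function.ne_iff.1 ((h.mem z).1 hz).2.2.1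
    have hi' : z (y i) ≠ 0 := hi
    ext u
    rw [LinearMap.mem_ker, Submodule.mem_span_singleton]
    constructor
    · intro hu
      refine ⟨u i / z (y i), funext fun k => ?_⟩
      have := congrFun hu (i, k)
      rw [hev] at this
      simp only [Pi.smul_apply, smul_eq_mul, Pi.zero_apply] at this ⊢
      field_simp
      linear_combination -this
    · rintro ⟨a, rfl⟩
      funext p
      rw [hev]
      simp only [Pi.smul_apply, smul_eq_mul, Pi.zero_apply]
      ring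
  have hrk : ∀ z ∈ P.pts, (finrank ℂ ((A.L (restr X.B z)).map (mev z f)) : ℤ) =
      finrank ℂ (A.L (restr X.B z)) - 1 := fun z hz => by
    obtain ⟨-, h2, h3, -⟩ := (h.mem z).1 hz
    have h4 := LinearMap.finrank_range_add_finrank_ker ((mev z f).domRestrict (A.L (restr X.B z)))
    rw [LinearMap.range_domRestrict, LinearMap.ker_domRestrict, hker z hz,
      (Submodule.comapSubtypeEquivOfLe ((Submodule.span_singleton_le_iff_mem _ _).2 h2)).finrank_eq,
      finrank_span_singleton h3] at h4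
    omega
  have halg := ((A.pull h.proj).alg.map_of_usc f fun z hz => by
    obtain ⟨r, hr, hr'⟩ := (A.pull h.proj).alg.lc z hz
    refine ⟨r, hr, fun w hw hw' => le_of_eq ?_⟩
    have : finrank ℂ (A.L (restr X.B w)) = finrank ℂ (A.L (restr X.B z)) := hr' w hw hw'
    exact (hrk w hw).trans (by rw [this]; exact (hrk z hz).symm)).1
  exact ⟨{ ι := A.ι × A.ι
           deg := dg
           hdeg := fun p => add_mem (add_mem ((A.pull h.proj).hdeg _) ((A.pull h.proj).hdeg _)) hδ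
           L := fun z => (A.L (restr X.B z)).map (mev z f)
           eqv := (A.pull h.proj).eqv.map hf
           alg := halg }, f, hf, fun z hz => ⟨hker z hz, rfl⟩⟩
lemma IsPSub.kl_quot {A : Bun X} {δ b y} (h : IsPSub P A δ b y) (Q : Bun P)
    (f : Matrix Q.ι A.ι R) (hf : MHmg A.deg Q.deg f) (hQ : ∀ z ∈ P.pts,
      A.L (restr X.B z) ⊓ LinearMap.ker (mev z f) = Submodule.span ℂ {fun i => z (y i)} ∧
      (A.L (restr X.B z)).map (mev z f) = Q.L z) :
    (A.pull h.proj).kl = lbK P (δ - eB b) + Q.kl := by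
  have hδ : δ - eB b ∈ DS P.B := sub_mem (DS_mono h.proj.sub h.hδ) h.b_mem
  let g : Matrix A.ι Unit R := fun i _ => MvPolynomial.X (y i)
  have hev : ∀ (z : Pt) (u : Unit → ℂ), mev z g u = u () • fun i => z (y i) := fun z u => by
    funext i; rw [mev_apply]; simp [g, mul_comm]
  refine kl_ses (A := line P (δ - eB b))
    ⟨g, f, fun (i : A.ι) _ => ?_, hf, fun z hz => ⟨?_, ?_, (hQ z hz).2⟩⟩
  · have := Hmg.X (y i)
    change Hmg (A.deg i - dpr P.B (δ - eB b)) (MvPolynomial.X (y i))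
    rwa [dpr_of_mem hδ, show A.deg i - (δ - eB b) = A.deg i + (eB b - δ) by abel, ← h.vdeg_y]
  · refine (Submodule.eq_bot_iff _).2 fun (u : Unit → ℂ) hu => ?_
    have h1 := (hev z u).symm.trans hu.2
    exact funext fun _ => (smul_eq_zero.1 h1).resolve_right ((h.mem z).1 hz).2.2.1
  · refine Eq.trans ?_ (hQ z hz).1.symm
    refine Submodule.ext fun (u : A.ι → ℂ) => Iff.trans ?_
      (Submodule.mem_span_singleton (R := ℂ) (x := u) (y := fun i => z (y i))).symm
    exact ⟨fun ⟨w, _, hw⟩ => ⟨w (), (hev z w).symm.trans hw⟩,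
      fun ⟨a, ha⟩ => ⟨fun _ => a, trivial, (hev z _).trans ha⟩⟩

end Crest.Agent.N265
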