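import Crest.Agent.N265.K.Ring

/-! # Helpers for task K5: directional derivatives, Cauchy–Binet, selection matrices -/

set_option autoImplicit false
noncomputable section
open MvPolynomial Module

namespace Crest.Agent.N265
open Bun
variable {X Y : Spc}

namespace Pol
section der
variable {ι S : Type} [Fintype ι] [CommRing S]

/-- derivative in the direction `s` -/
def dS (s : ι → S) (p : MvPolynomial ι S) : MvPolynomial ι S := ∑ i, C (s i) * pderiv i p

lemma dS_C (s : ι → S) (c : S) : dS s (C c) = 0 := by simp [dS]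
lemma dS_add (s : ι → S) (p q : MvPolynomial ι S) : dS s (p + q) = dS s p + dS s q := by
  simp [dS, mul_add, Finset.sum_add_distrib]
lemma dS_sub (s : ι → S) (p q : MvPolynomial ι S) : dS s (p - q) = dS s p - dS s q := by
  simp [dS, mul_sub, Finset.sum_sub_distrib]
lemma dS_mul (s : ι → S) (p q : MvPolynomial ι S) : dS s (p * q) = dS s p * q + p * dS s q := by
  simp only [dS, Derivation.leibniz, smul_eq_mul, Finset.sum_mul, Finset.mul_sum,
    ← Finset.sum_add_distrib]
  exact Finset.sum_congr rfl fun i _ => by ring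
lemma dS_X (s : ι → S) (i : ι) : dS s (MvPolynomial.X i) = C (s i) := by
  classical
  simp [dS, pderiv_X, Pi.single_apply]
lemma dS_sum {α : Type} (s : ι → S) (t : Finset α) (p : α → MvPolynomial ι S) :
    dS s (∑ a ∈ t, p a) = ∑ a ∈ t, dS s (p a) := by
  simp only [dS, map_sum, Finset.mul_sum]
  exact Finset.sum_comm
lemma dS_C_mul (s : ι → S) (c : S) (p : MvPolynomial ι S) : dS s (C c * p) = C c * dS s p := by
  rw [dS_mul, dS_C]; ring
lemma dS_pow (s : ι → S) (p : MvPolynomial ι S) (m : ℕ) :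
    dS s (p ^ (m + 1)) = (m + 1 : ℕ) * p ^ m * dS s p := by
  induction m with
  | zero => simp
  | succ m ih => rw [pow_succ, dS_mul, ih]; push_cast; ring
lemma dS_hmg (s : ι → S) {p : MvPolynomial ι S} {k : ℕ} (h : p.IsHomogeneous (k + 1)) :
    (dS s p).IsHomogeneous k :=
  IsHomogeneous.sum _ _ _ fun i _ => by simpa using (h.pderiv (i := i)).C_mul (s i)
lemma map_dS {T : Type} [CommRing T] (φ : S →+* T) (s : ι → S) (p : MvPolynomial ι S) :
    map φ (dS s p) = dS (fun i => φ (s i)) (map φ p) := by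
  simp [dS, pderiv_map]

/-- restriction to a line -/
def onLine (v s : ι → ℂ) : MvPolynomial ι ℂ →ₐ[ℂ] Polynomial ℂ :=
  aeval fun i => Polynomial.C (v i) + Polynomial.X * Polynomial.C (s i)
omit [Fintype ι] in
lemma eval_onLine (v s : ι → ℂ) (t : ℂ) (p : MvPolynomial ι ℂ) :
    (onLine v s p).eval t = eval (v + t • s) p := by
  induction p using MvPolynomial.induction_on with
  | C c => simp [onLine]
  | add p q hp hq => simp [hp, hq]
  | mul_X p i hp => rw [map_mul, map_mul, Polynomial.eval_mul, hp]; simp [onLine, mul_comm t]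
lemma derivative_onLine (v s : ι → ℂ) (p : MvPolynomial ι ℂ) :
    Polynomial.derivative (onLine v s p) = onLine v s (dS s p) := by
  induction p using MvPolynomial.induction_on with
  | C c => simp [onLine, dS_C]
  | add p q hp hq => simp [hp, hq, dS_add]
  | mul_X p i hp =>
    rw [map_mul, Polynomial.derivative_mul, hp, dS_mul, dS_X, map_add, map_mul, map_mul]
    simp [onLine]
lemma dS_eq_zero {v s : ι → ℂ} {p : MvPolynomial ι ℂ}
    (h : ∀ t : ℂ, eval (v + t • s) p = eval v p) : eval v (dS s p) = 0 := by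
  have h1 : onLine v s p = Polynomial.C (eval v p) :=
    Polynomial.funext fun t => by rw [eval_onLine, h]; simp
  have h2 := derivative_onLine v s p
  rw [h1, Polynomial.derivative_C] at h2
  have h3 := eval_onLine v s 0 (dS s p)
  rw [← h2] at h3
  simpa using h3.symm
lemma const_of_dS {v s : ι → ℂ} {p : MvPolynomial ι ℂ}
    (h : ∀ t : ℂ, eval (v + t • s) (dS s p) = 0) (t : ℂ) : eval (v + t • s) p = eval v p := by
  have h1 : Polynomial.derivative (onLine v s p) = 0 := by
    rw [derivative_onLine]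
    exact Polynomial.funext fun t => by rw [eval_onLine, h]; simp
  have h2 := Polynomial.eq_C_of_derivative_eq_zero h1
  have h3 := eval_onLine v s 0 p
  rw [← eval_onLine, h2]
  rw [h2] at h3
  simpa using h3
/-- antiderivatives of forms -/
lemma exists_antider {s : ι → ℂ} (hs : s ≠ 0) {k : ℕ} {q : MvPolynomial ι ℂ}
    (hq : q.IsHomogeneous k) : ∃ p : MvPolynomial ι ℂ, p.IsHomogeneous (k + 1) ∧ dS s p = q := by
  obtain ⟨i, hi⟩ : ∃ i, s i ≠ 0 := Function.ne_iff.1 hs
  set l : MvPolynomial ι ℂ := C (s i)⁻¹ * MvPolynomial.X i with hl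
  have hl1 : l.IsHomogeneous 1 := isHomogeneous_C_mul_X _ _
  have hdl : dS s l = 1 := by rw [hl, dS_C_mul, dS_X, ← C_mul, inv_mul_cancel₀ hi, C_1]
  have key : ∀ (m : ℕ) (q p' : MvPolynomial ι ℂ), dS s p' = l ^ (m + 1) * dS s q →
      dS s (C ((m + 1 : ℕ) : ℂ)⁻¹ * (l ^ (m + 1) * q - p')) = l ^ m * q := by
    intro m q p' h
    have hm : (C ((m + 1 : ℕ) : ℂ)⁻¹ : MvPolynomial ι ℂ) * ((m + 1 : ℕ) : MvPolynomial ι ℂ) = 1 := by
      rw [← map_natCast (C : ℂ →+* MvPolynomial ι ℂ), ← C_mul, inv_mul_cancel₀, C_1]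
      exact Nat.cast_ne_zero.2 (Nat.succ_ne_zero m)
    rw [dS_C_mul, dS_sub, dS_mul, dS_pow, hdl, h]
    linear_combination (l ^ m * q) * hm
  suffices H : ∀ (k m : ℕ) (q : MvPolynomial ι ℂ), q.IsHomogeneous k →
      ∃ p : MvPolynomial ι ℂ, p.IsHomogeneous (m + k + 1) ∧ dS s p = l ^ m * q by
    simpa using H k 0 q hq
  intro k
  induction k with
  | zero =>
    intro m q hq
    have h0 : dS s q = 0 := by
      rw [totalDegree_eq_zero_iff_eq_C.1 ((totalDegree_zero_iff_isHomogeneous _).2 hq), dS_C]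
    refine ⟨_, ?_, key m q 0 (by rw [h0, mul_zero]; simp [dS])⟩
    refine IsHomogeneous.C_mul (IsHomogeneous.sub ?_ (isHomogeneous_zero _ _ _)) _
    simpa using (hl1.pow (m + 1)).mul hq
  | succ k ih =>
    intro m q hq
    obtain ⟨p', hp', hd⟩ := ih (m + 1) _ (dS_hmg s hq)
    refine ⟨_, ?_, key m q p' hd⟩
    refine IsHomogeneous.C_mul (IsHomogeneous.sub ?_ ?_) _
    · rw [show m + (k + 1) + 1 = 1 * (m + 1) + (k + 1) by ring]; exact (hl1.pow (m + 1)).mul hq
    · rw [show m + (k + 1) + 1 = m + 1 + k + 1 by ring]; exact hp'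
end der

/-- Cauchy–Binet in its raw multilinear form -/
lemma det_sum {ι S : Type} [Fintype ι] [CommRing S] {r : ℕ} (Φ b : Fin r → ι → S) :
    (Matrix.of fun i j => ∑ l, Φ j l * b i l).det =
      ∑ g : Fin r → ι, (∏ j, Φ j (g j)) * (Matrix.of fun i j => b i (g j)).det := by
  classical
  simp only [Matrix.det_apply', Matrix.of_apply, Finset.prod_univ_sum, Finset.mul_sum,
    Fintype.piFinset_univ]
  rw [Finset.sum_comm]
  refine Finset.sum_congr rfl fun g _ => Finset.sum_congr rfl fun σ _ => ?_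
  rw [Finset.prod_mul_distrib]; ring

section mat
variable {ι κ : Type} [Fintype ι]
/-- homogeneity can be tested on points -/
lemma mhmg_of_mev {a : ι → D} {b : κ → D} {Φ : Matrix κ ι R}
    (h : ∀ x v, mev (gpt x) Φ (fun i => chi (a i) * v i) = fun j => chi (b j) * mev x Φ v j) :
    MHmg a b Φ := by
  classical
  intro j i
  refine MvPolynomial.funext fun x => ?_
  have := congrFun (h x (Pi.single i 1)) j
  simp only [mev_apply, Pi.single_apply, mul_ite, mul_one, mul_zero, Finset.sum_ite_eq',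
    Finset.mem_univ, if_true] at this
  rw [eval_gam, map_mul, eval_C, chi_sub]
  have := chi_ne (a i)
  field_simp
  assumption
open Classical in
/-- selection matrix -/
def sel (e : κ → ι) : Matrix κ ι R := fun j i => if e j = i then 1 else 0
lemma mev_sel (e : κ → ι) (x : Pt) (v : ι → ℂ) : mev x (sel e) v = fun j => v (e j) := by
  classical
  funext j
  simp [mev_apply, sel, apply_ite]
lemma mhmg_sel {a : ι → D} {b : κ → D} {e : κ → ι} (h : ∀ j, a (e j) = b j) : MHmg a b (sel e) :=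
  mhmg_of_mev fun x v => by simp [mev_sel, h]
/-- constant matrices -/
lemma exists_const [Fintype κ] (g : (ι → ℂ) →ₗ[ℂ] (κ → ℂ)) :
    ∃ Φ : Matrix κ ι R, ∀ x v, mev x Φ v = g v := by
  classical
  refine ⟨(LinearMap.toMatrix' g).map C, fun x v => ?_⟩
  rw [← LinearMap.toMatrix'_mulVec g v]
  funext j
  simp [mev_apply, Matrix.mulVec, dotProduct]
lemma mev_one [DecidableEq ι] (x : Pt) (v : ι → ℂ) : mev x (1 : Matrix ι ι R) v = v := by
  funext j
  simp [mev_apply, Matrix.one_apply, apply_ite]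
lemma mev_one' [DecidableEq ι] (x : Pt) : mev x (1 : Matrix ι ι R) = LinearMap.id :=
  LinearMap.ext (mev_one x)
lemma mev_sub_smul [DecidableEq ι] (x : Pt) (r : R) (S : Matrix ι ι R) (v : ι → ℂ) :
    mev x (r • (1 : Matrix ι ι R) - S) v = eval x r • v - mev x S v := by
  funext j
  simp [mev_apply, Matrix.one_apply, apply_ite, sub_mul, Finset.sum_sub_distrib]
end mat

/-- reindexing -/
lemma kl_reindex {A B : Bun X} (e : B.ι ≃ A.ι) (hd : ∀ j, A.deg (e j) = B.deg j)
    (h : ∀ x ∈ X.pts, ∀ v, v ∈ A.L x ↔ (fun j => v (e j)) ∈ B.L x) : A.kl = B.kl := by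
  refine kl_iso (sel e) (mhmg_sel hd) fun x hx => ⟨?_, ?_⟩
  · refine eq_bot_iff.2 fun v hv => ?_
    have := hv.2
    rw [SetLike.mem_coe, LinearMap.mem_ker, mev_sel] at this
    funext i
    simpa using congrFun this (e.symm i)
  · ext w
    constructor
    · rintro ⟨v, hv, rfl⟩
      rw [mev_sel]; exact (h x hx v).1 hv
    · intro hw
      refine ⟨fun i => w (e.symm i), (h x hx _).2 (by simpa using hw), ?_⟩
      rw [mev_sel]; simp

lemma eq_span_of_finrank {V : Type} [AddCommGroup V] [Module ℂ V] {U : Submodule ℂ V}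
    (h : finrank ℂ U = 1) {v : V} (hv : v ∈ U) (h0 : v ≠ 0) : U = Submodule.span ℂ {v} := by
  have : FiniteDimensional ℂ U := Module.finite_of_finrank_eq_succ h
  refine (Submodule.eq_of_le_of_finrank_eq ((Submodule.span_singleton_le_iff_mem _ _).2 hv) ?_).symm
  rw [h, finrank_span_singleton h0]

/-- a nowhere vanishing map of line bundles -/
lemma kl_iso_line {A B : Bun X} (hA : A.Rk 1) (hB : B.Rk 1) (f : Matrix B.ι A.ι R)
    (hf : MHmg A.deg B.deg f)
    (h : ∀ x ∈ X.pts, ∃ v ∈ A.L x, mev x f v ∈ B.L x ∧ mev x f v ≠ 0) : A.kl = B.kl := by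
  refine kl_iso f hf fun x hx => ?_
  obtain ⟨v, hv, hw, h0⟩ := h x hx
  have hv0 : v ≠ 0 := fun e => h0 (by rw [e, map_zero])
  rw [eq_span_of_finrank (hA x hx) hv hv0, eq_span_of_finrank (hB x hx) hw h0]
  refine ⟨eq_bot_iff.2 fun u hu => ?_, by rw [Submodule.map_span, Set.image_singleton]⟩
  obtain ⟨c, rfl⟩ := Submodule.mem_span_singleton.1 hu.1
  have := hu.2
  rw [SetLike.mem_coe, LinearMap.mem_ker, map_smul, smul_eq_zero] at this
  rcases this with h | h
  · simp [h]
  · exact absurd h h0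

/-- a linear section modulo the kernel -/
lemma exists_sec {V W : Type} [AddCommGroup V] [Module ℂ V] [AddCommGroup W] [Module ℂ W]
    (f : V →ₗ[ℂ] W) (U : Submodule ℂ V) :
    ∃ g : W →ₗ[ℂ] V, ∀ v ∈ U, g (f v) ∈ U ∧ f (g (f v)) = f v := by
  obtain ⟨g₀, hg₀⟩ := (f.domRestrict U).rangeRestrict.exists_rightInverse_of_surjective
    (LinearMap.range_rangeRestrict _)
  obtain ⟨g₁, hg₁⟩ := LinearMap.exists_extend g₀
  refine ⟨U.subtype ∘ₗ g₁, fun v hv => ⟨(g₁ _).2, ?_⟩⟩
  have h1 := LinearMap.congr_fun hg₁ ⟨f v, ⟨v, hv⟩, rfl⟩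
  have h2 := congrArg Subtype.val (LinearMap.congr_fun hg₀ ⟨f v, ⟨v, hv⟩, rfl⟩)
  simp only [LinearMap.comp_apply, Submodule.subtype_apply] at h1 h2 ⊢
  rw [h1]; exact h2
end Pol

end Crest.Agent.N265
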