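import Crest.Agent.N265.K.Bun
import Crest.Agent.N265.K.PowB

/-! # Task K3: the ring `K X`, pull-back, dual, rank -/

set_option autoImplicit false
set_option backward.isDefEq.respectTransparency false
noncomputable section
open MvPolynomial Module

namespace Crest.Agent.N265
open Bun
variable {X Y Z : Spc}

namespace K3
variable {ι κ : Type}

/-- the matrix of `v ↦ v ∘ s` -/
def fm [DecidableEq ι] (s : κ → ι) : Matrix κ ι R := fun j i => if i = s j then 1 else 0
lemma mev_fm [Fintype ι] [DecidableEq ι] (x : Pt) (s : κ → ι) (v : ι → ℂ) :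
    mev x (fm s) v = v ∘ s := by
  funext j
  simp [mev_apply, fm, apply_ite (eval x)]
lemma mhmg_fm [DecidableEq ι] {a : ι → D} {b : κ → D} (s : κ → ι) (h : ∀ j, b j = a (s j)) :
    MHmg a b (fm s) := by
  intro j i
  by_cases hi : i = s j
  · simpa [fm, hi, h j] using Hmg.one
  · simpa [fm, hi] using Hmg.zero _
lemma mev_one [Fintype ι] [DecidableEq ι] (x : Pt) : mev x (1 : Matrix ι ι R) = LinearMap.id := by
  ext v j
  simp [mev]
lemma mhmg_transpose {a : ι → D} {b : κ → D} {Φ : Matrix κ ι R} (h : MHmg a b Φ) :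
    MHmg (fun j => -b j) (fun i => -a i) Φ.transpose := fun i j => by
  have := h j i
  rwa [show b j - a i = -a i - -b j by abel] at this

/-- reindexing the ambient bundle does not change the class -/
lemma kl_reindex {A B : Bun X} (e : B.ι ≃ A.ι) (hd : ∀ j, B.deg j = A.deg (e j))
    (h : ∀ x ∈ X.pts, ∀ v, v ∈ A.L x ↔ v ∘ e ∈ B.L x) : A.kl = B.kl := by
  refine kl_iso (fm e) (mhmg_fm e hd) fun x hx => ⟨?_, ?_⟩
  · rw [eq_bot_iff]
    rintro v ⟨-, hv⟩
    rw [SetLike.mem_coe, LinearMap.mem_ker, mev_fm] at hv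
    funext i
    simpa using congrFun hv (e.symm i)
  · ext w
    constructor
    · rintro ⟨v, hv, rfl⟩
      rw [mev_fm]
      exact (h x hx v).1 hv
    · intro hw
      have h1 : (w ∘ e.symm) ∘ e = w := by funext j; simp
      exact ⟨w ∘ e.symm, (h x hx _).2 (h1.symm ▸ hw), by rw [mev_fm, h1]⟩

lemma perp_top [Fintype ι] : perp (⊤ : Submodule ℂ (ι → ℂ)) = ⊥ := by
  classical
  rw [eq_bot_iff]
  intro a ha
  funext i
  simpa [Pi.single_apply] using ha (Pi.single i 1) trivial
lemma perp_bot [Fintype ι] : perp (⊥ : Submodule ℂ (ι → ℂ)) = ⊤ := by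
  rw [← perp_top, perp_perp]
lemma perp_ker [Fintype ι] [Fintype κ] (x : Pt) (Φ : Matrix κ ι R) :
    perp (LinearMap.ker (mev x Φ)) = LinearMap.range (mev x Φ.transpose) := by
  rw [← Submodule.comap_bot, perp_comap, perp_bot, Submodule.map_top]

lemma tens_comm (A B : Bun X) : (A.tens B).kl = (B.tens A).kl :=
  kl_reindex (Equiv.prodComm B.ι A.ι) (fun _ => add_comm _ _) fun _ _ _ => by
    rw [mem_tens, mem_tens]
    exact and_comm
lemma tens_assoc (A B C : Bun X) : ((A.tens B).tens C).kl = (A.tens (B.tens C)).kl :=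
  kl_reindex (Equiv.prodAssoc A.ι B.ι C.ι).symm (fun _ => (add_assoc _ _ _).symm) fun _ _ v => by
    rw [mem_tens, mem_tens]
    exact ⟨fun ⟨h1, h2⟩ => ⟨fun j => (mem_tens.1 (h1 j.2)).1 j.1, fun i => mem_tens.2
      ⟨fun k => (mem_tens.1 (h1 k)).2 i, fun j => h2 (i, j)⟩⟩, fun ⟨h1, h2⟩ =>
      ⟨fun k => mem_tens.2 ⟨fun j => h1 (j, k), fun i => (mem_tens.1 (h2 i)).1 k⟩,
      fun p => (mem_tens.1 (h2 p.1)).2 p.2⟩⟩
lemma line_tens (A : Bun X) (d : D) (hd : d ∈ DS X.B) :
    ((line X d).tens A).kl = (A.twist d hd).kl :=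
  kl_reindex (Equiv.uniqueProd A.ι Unit).symm
    (fun i => by
      change A.deg i + d = dpr X.B d + A.deg i
      rw [dpr_of_mem hd, add_comm]) fun _ _ v => by
    rw [mem_tens]
    exact ⟨fun h => h.2 (), fun h => ⟨fun _ => trivial, fun _ => h⟩⟩
lemma one_tens (A : Bun X) : ((line X 0).tens A).kl = A.kl :=
  (line_tens A 0 (zero_mem _)).trans
    (kl_reindex (Equiv.refl _) (fun _ => (add_zero _).symm) fun _ _ _ => Iff.rfl)

/-- pure tensors -/
lemma tmul_mem {A B : Bun X} {x : Pt} {v : A.ι → ℂ} {w : B.ι → ℂ} (hv : v ∈ A.L x)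
    (hw : w ∈ B.L x) : (fun p : A.ι × B.ι => v p.1 * w p.2) ∈ (A.tens B).L x :=
  Submodule.subset_span ⟨v, hv, w, hw, rfl⟩
lemma finrank_tens (A B : Bun X) (x : Pt) :
    finrank ℂ ((A.tens B).L x) = finrank ℂ (A.L x) * finrank ℂ (B.L x) := by
  let e := ((Pi.basisFun ℂ A.ι).tensorProduct (Pi.basisFun ℂ B.ι)).equivFun
  have he : ∀ v w, e (v ⊗ₜ[ℂ] w) = fun p => v p.1 * w p.2 := fun v w => by
    funext p
    obtain ⟨i, j⟩ := p
    simp [e, mul_comm]
  have h : (A.tens B).L x = (Pow.tens (A.L x) (B.L x)).map e.toLinearMap := by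
    apply le_antisymm
    · refine Submodule.span_le.2 ?_
      rintro _ ⟨v, hv, w, hw, rfl⟩
      exact ⟨_, Pow.tmul_mem hv hw, he v w⟩
    · rw [Submodule.map_le_iff_le_comap, Pow.tens_le]
      intro v hv w hw
      rw [Submodule.mem_comap, LinearEquiv.coe_coe, he]
      exact tmul_mem hv hw
  rw [h, LinearEquiv.finrank_map_eq, Pow.finrank_tens]

/-- an honest bundle for the dual: a quotient of the dual ambient bundle -/
lemma exists_dual (A : Bun X) : ∃ (A' : Bun X) (p : Matrix A'.ι A.ι R),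
    MHmg (fun i => -A.deg i) A'.deg p ∧ ∀ x ∈ X.pts,
      LinearMap.ker (mev x p) = perp (A.L x) ∧ LinearMap.range (mev x p) = A'.L x := by
  obtain ⟨C, p, hp, h⟩ := exists_quot A.ann A.ann.amb (1 : Matrix A.ι A.ι R) (MHmg.one _)
    fun x _ => ⟨by rw [mev_one]; simp, le_top⟩
  refine ⟨C, p, hp, fun x hx => ⟨?_, ?_⟩⟩
  · have h1 := (h x hx).1
    rw [mev_one, Submodule.map_id] at h1
    exact ((top_inf_eq _).symm.trans h1.symm :)
  · exact (Submodule.map_top _).symm.trans (h x hx).2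
lemma ses_dual {A A' : Bun X} {p : Matrix A'.ι A.ι R} (hp : MHmg (fun i => -A.deg i) A'.deg p)
    (h : ∀ x ∈ X.pts, LinearMap.ker (mev x p) = perp (A.L x) ∧
      LinearMap.range (mev x p) = A'.L x) : SES A.ann A.ann.amb A' :=
  ⟨(1 : Matrix A.ι A.ι R), p, MHmg.one _, hp, fun x hx => ⟨by rw [mev_one]; simp, by
    rw [mev_one, Submodule.map_id]
    exact ((h x hx).1.symm.trans (top_inf_eq _).symm :),
    (Submodule.map_top _).trans (h x hx).2⟩⟩
lemma kl_dual {A A' : Bun X} {p : Matrix A'.ι A.ι R} (hp : MHmg (fun i => -A.deg i) A'.deg p)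
    (h : ∀ x ∈ X.pts, LinearMap.ker (mev x p) = perp (A.L x) ∧
      LinearMap.range (mev x p) = A'.L x) : A.ann.amb.kl - A.ann.kl = A'.kl := by
  rw [kl_ses (ses_dual hp h), add_sub_cancel_left]

/-- Kronecker product -/
def kr {ι' κ' : Type} (Φ : Matrix ι' ι R) (Ψ : Matrix κ' κ R) : Matrix (ι' × κ') (ι × κ) R :=
  fun q p => Φ q.1 p.1 * Ψ q.2 p.2
lemma mhmg_kr {ι' κ' : Type} {Φ : Matrix ι' ι R} {Ψ : Matrix κ' κ R} {a a' b b'}
    (h : MHmg a a' Φ) (h' : MHmg b b' Ψ) :
    MHmg (fun p : ι × κ => a p.1 + b p.2) (fun q : ι' × κ' => a' q.1 + b' q.2) (kr Φ Ψ) :=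
  fun q p => by
    have := (h q.1 p.1).mul (h' q.2 p.2)
    rwa [show a' q.1 - a p.1 + (b' q.2 - b p.2) = a' q.1 + b' q.2 - (a p.1 + b p.2) by abel] at this
lemma mev_kr [Fintype ι] [Fintype κ] {ι' κ' : Type} (x : Pt) (Φ : Matrix ι' ι R)
    (Ψ : Matrix κ' κ R) (v : ι → ℂ) (w : κ → ℂ) :
    mev x (kr Φ Ψ) (fun p => v p.1 * w p.2) = fun q => mev x Φ v q.1 * mev x Ψ w q.2 := by
  funext q
  simp only [mev_apply, kr, map_mul, Finset.sum_mul_sum, Fintype.sum_prod_type]
  refine Finset.sum_congr rfl fun i _ => Finset.sum_congr rfl fun j _ => ?_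
  ring
lemma tens_top {A B : Bun X} {x : Pt} (hA : A.L x = ⊤) (hB : B.L x = ⊤) : (A.tens B).L x = ⊤ := by
  rw [eq_top_iff]
  intro u _
  rw [mem_tens, hA, hB]
  exact ⟨fun _ => trivial, fun _ => trivial⟩
lemma map_kr {A B A' B' : Bun X} {x : Pt} (Φ : Matrix A'.ι A.ι R) (Ψ : Matrix B'.ι B.ι R)
    (h : (A.L x).map (mev x Φ) = A'.L x) (h' : (B.L x).map (mev x Ψ) = B'.L x) :
    ((A.tens B).L x).map (mev x (kr Φ Ψ)) = (A'.tens B').L x := by
  apply le_antisymm
  · rw [Submodule.map_le_iff_le_comap]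
    refine Submodule.span_le.2 ?_
    rintro _ ⟨v, hv, w, hw, rfl⟩
    rw [SetLike.mem_coe, Submodule.mem_comap, mev_kr]
    exact tmul_mem (h ▸ Submodule.mem_map_of_mem hv) (h' ▸ Submodule.mem_map_of_mem hw)
  · refine Submodule.span_le.2 ?_
    rintro _ ⟨v, hv, w, hw, rfl⟩
    rw [← h] at hv
    rw [← h'] at hw
    obtain ⟨v, hv, rfl⟩ := hv
    obtain ⟨w, hw, rfl⟩ := hw
    exact ⟨_, tmul_mem hv hw, mev_kr x Φ Ψ v w⟩
lemma dual_ses {A B C : Bun X} (h : SES A B C) : B.ann.amb.kl - B.ann.kl =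
    (A.ann.amb.kl - A.ann.kl) + (C.ann.amb.kl - C.ann.kl) := by
  obtain ⟨f, p, hf, hp, h⟩ := h
  rw [add_comm]
  refine kl_sq (A := C.ann.amb) (B := B.ann.amb) (C := A.ann.amb) (heA := C.ann.eqv)
    (haA := C.ann.alg) (heB := B.ann.eqv) (haB := B.ann.alg) (heC := A.ann.eqv)
    (haC := A.ann.alg) p.transpose f.transpose (mhmg_transpose hp) (mhmg_transpose hf)
    fun x hx => ⟨le_top, le_top, le_top, ?_, ?_, ?_⟩
  · change ⊤ ⊓ (perp (B.L x)).comap (mev x p.transpose) = perp (C.L x)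
    rw [top_inf_eq, ← perp_map, (h x hx).2.2]
  · change (⊤ : Submodule ℂ (C.ι → ℂ)).map (mev x p.transpose) ⊔ perp (B.L x) =
      ⊤ ⊓ (perp (A.L x)).comap (mev x f.transpose)
    rw [top_inf_eq, ← perp_map, (h x hx).2.1, perp_inf, perp_ker, Submodule.map_top, sup_comm]
  · change (⊤ : Submodule ℂ (B.ι → ℂ)).map (mev x f.transpose) ⊔ perp (A.L x) = ⊤
    rw [Submodule.map_top, ← perp_ker, sup_comm, ← perp_inf, (h x hx).1, perp_bot]
lemma dual_of_top {A : Bun X} (h : ∀ x ∈ X.pts, A.L x = ⊤) :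
    A.ann.amb.kl - A.ann.kl = A.ann.amb.kl := by
  rw [kl_of_bot (A := A.ann) fun x hx => by
    change perp (A.L x) = ⊥
    rw [h x hx, perp_top], sub_zero]
lemma dual_line (d : D) : (line X d).ann.amb.kl - (line X d).ann.kl = (line X (-d)).kl := by
  rw [dual_of_top fun _ _ => rfl]
  exact kl_reindex (Equiv.refl _) (fun _ => map_neg (dpr X.B) d) fun _ _ _ => Iff.rfl

end K3
open K3

lemma K.exists_mul (X : Spc) : ∃ μ : K X →+ K X →+ K X, ∀ A B : Bun X,
    μ A.kl B.kl = (A.tens B).kl := by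
  choose Φ hΦ using fun A : Bun X =>
    K.exists_lift (fun B => (A.tens B).kl) fun _ _ _ h => kl_ses (h.tens_left A)
  obtain ⟨μ, hμ⟩ := K.exists_lift Φ fun A B C h => K.hom_ext fun E => by
    rw [AddMonoidHom.add_apply, hΦ, hΦ, hΦ, tens_comm, tens_comm A, tens_comm C]
    exact kl_ses (h.tens_left E)
  exact ⟨μ, fun A B => by rw [hμ, hΦ]⟩
/-- multiplication -/
def K.mulHom (X : Spc) : K X →+ K X →+ K X := (K.exists_mul X).choose
lemma K.mulHom_kl (A B : Bun X) : K.mulHom X A.kl B.kl = (A.tens B).kl :=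
  (K.exists_mul X).choose_spec A B
namespace K3
lemma dual_tens (A B : Bun X) : (A.tens B).ann.amb.kl - (A.tens B).ann.kl =
    K.mulHom X (A.ann.amb.kl - A.ann.kl) (B.ann.amb.kl - B.ann.kl) := by
  obtain ⟨A', p, hp, h⟩ := exists_dual A
  obtain ⟨B', q, hq, h'⟩ := exists_dual B
  rw [kl_dual hp h, kl_dual hq h', K.mulHom_kl]
  refine kl_dual (A := A.tens B) (A' := A'.tens B') (p := kr p q) (fun j i => ?_) fun x hx => ⟨?_, ?_⟩
  · have := mhmg_kr hp hq j i
    beta_reduce at this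
    rwa [← neg_add] at this
  · rw [← perp_perp (LinearMap.ker _), perp_ker]
    congr 1
    have h1 := map_kr (A := A'.ann.amb) (B := B'.ann.amb) (A' := A) (B' := B) (x := x)
      p.transpose q.transpose
      (by rw [← perp_perp (A.L x), ← (h x hx).1, perp_ker]; exact Submodule.map_top _)
      (by rw [← perp_perp (B.L x), ← (h' x hx).1, perp_ker]; exact Submodule.map_top _)
    rw [tens_top rfl rfl, Submodule.map_top] at h1
    exact h1
  · have h1 := map_kr (A := A.ann.amb) (B := B.ann.amb) (A' := A') (B' := B') (x := x) p q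
      ((Submodule.map_top _).trans (h x hx).2) ((Submodule.map_top _).trans (h' x hx).2)
    rw [tens_top rfl rfl, Submodule.map_top] at h1
    exact h1
/-- additive maps that are multiplicative on bundles are multiplicative -/
lemma map_mul_of {S : Type*} [NonUnitalNonAssocRing S] (Φ : K X →+ S)
    (h : ∀ A B : Bun X, Φ (A.tens B).kl = Φ A.kl * Φ B.kl) (a b : K X) :
    Φ (K.mulHom X a b) = Φ a * Φ b := by
  have h1 : (K.mulHom X).compr₂ Φ = (AddMonoidHom.mul.comp Φ).compl₂ Φ :=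
    K.hom_ext fun A => K.hom_ext fun B => by simpa [K.mulHom_kl] using h A B
  exact DFunLike.congr_fun (DFunLike.congr_fun h1 a) b
lemma mul_comm' (a b : K X) : K.mulHom X a b = K.mulHom X b a := by
  have h1 : K.mulHom X = (K.mulHom X).flip :=
    K.hom_ext fun A => K.hom_ext fun B => by simpa [K.mulHom_kl] using tens_comm A B
  exact DFunLike.congr_fun (DFunLike.congr_fun h1 a) b
lemma one_mul' (a : K X) : K.mulHom X (line X 0).kl a = a := by
  have h1 : K.mulHom X (line X 0).kl = AddMonoidHom.id _ :=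
    K.hom_ext fun A => by simpa [K.mulHom_kl] using one_tens A
  exact DFunLike.congr_fun h1 a
lemma mul_assoc' (a b c : K X) :
    K.mulHom X (K.mulHom X a b) c = K.mulHom X a (K.mulHom X b c) := by
  induction a using K.ind with
  | h0 => simp
  | hneg a h => simp [h]
  | hadd a a' h h' => simp [h, h']
  | hkl A =>
    induction b using K.ind with
    | h0 => simp
    | hneg a h => simp [h]
    | hadd a a' h h' => simp [h, h']
    | hkl B =>
      induction c using K.ind with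
      | h0 => simp
      | hneg a h => simp [h]
      | hadd a a' h h' => simp [h, h']
      | hkl C => simpa [K.mulHom_kl] using tens_assoc A B C
end K3

instance (X : Spc) : CommRing (K X) :=
  { (inferInstance : AddCommGroup (K X)) with
    mul := fun a b => K.mulHom X a b
    one := (line X 0).kl
    left_distrib := fun a b c => map_add (K.mulHom X a) b c
    right_distrib := fun a b c => by
      change K.mulHom X (a + b) c = K.mulHom X a c + K.mulHom X b c
      rw [map_add]; rfl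
    zero_mul := fun a => by change K.mulHom X 0 a = 0; simp
    mul_zero := fun a => map_zero (K.mulHom X a)
    mul_assoc := mul_assoc'
    one_mul := one_mul'
    mul_one := fun a => (mul_comm' a _).trans (one_mul' a)
    mul_comm := mul_comm' }
lemma kl_tens (A B : Bun X) : (A.tens B).kl = A.kl * B.kl := (K.mulHom_kl A B).symm
lemma K.one_def : (1 : K X) = (line X 0).kl := rfl
/-- the class of `O(d)` -/
def lbK (X : Spc) (d : D) : K X := (line X d).kl
lemma lbK_zero : lbK X 0 = 1 := rfl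
lemma lbK_add (d e : D) : lbK X (d + e) = lbK X d * lbK X e := by
  rw [lbK, lbK, lbK, ← kl_tens]
  exact kl_reindex (Equiv.uniqueProd Unit Unit) (fun _ => (map_add (dpr X.B) d e).symm)
    fun x _ _ => ⟨fun _ => by rw [tens_top rfl rfl]; trivial, fun _ => trivial⟩
lemma lbK_mul_neg (d : D) : lbK X d * lbK X (-d) = 1 := by rw [← lbK_add, add_neg_cancel]; rfl
lemma kl_twist (A : Bun X) (d : D) (hd) : (A.twist d hd).kl = lbK X d * A.kl := by
  rw [lbK, ← kl_tens, line_tens]

lemma K.exists_pull (h : Proj Y X) : ∃ Φ : K X →+* K Y, ∀ A : Bun X, Φ A.kl = (A.pull h).kl := by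
  obtain ⟨Φ, hΦ⟩ := K.exists_lift (fun A : Bun X => (A.pull h).kl) fun _ _ _ e => kl_ses (e.pull h)
  refine ⟨{ Φ with
    map_one' := (hΦ _).trans (kl_reindex (Equiv.refl _)
      (fun _ => (map_zero (dpr Y.B)).trans (map_zero (dpr X.B)).symm) fun _ _ _ => Iff.rfl)
    map_mul' := map_mul_of Φ fun A B => by rw [hΦ, hΦ, hΦ, ← kl_tens]; rfl }, hΦ⟩
/-- pull-back -/
def K.pull (h : Proj Y X) : K X →+* K Y := (K.exists_pull h).choose
lemma K.pull_kl (h : Proj Y X) (A : Bun X) : K.pull h A.kl = (A.pull h).kl :=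
  (K.exists_pull h).choose_spec A
lemma K.pull_pull (h : Proj Z Y) (h' : Proj Y X) (a : K X) :
    K.pull h (K.pull h' a) = K.pull (h.trans h') a := by
  have h1 : (K.pull h).toAddMonoidHom.comp (K.pull h').toAddMonoidHom =
      (K.pull (h.trans h')).toAddMonoidHom := K.hom_ext fun A => by
    change K.pull h (K.pull h' A.kl) = K.pull (h.trans h') A.kl
    rw [K.pull_kl, K.pull_kl, K.pull_kl]
    refine kl_reindex (Equiv.refl _) (fun _ => rfl) fun z _ v => ?_
    change v ∈ A.L (restr X.B (restr Y.B z)) ↔ v ∈ A.L (restr X.B z)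
    rw [restr_restr h'.sub]
  exact DFunLike.congr_fun h1 a
lemma K.pull_self (a : K X) : K.pull (Proj.refl X) a = a := by
  have h1 : (K.pull (Proj.refl X)).toAddMonoidHom = AddMonoidHom.id _ := K.hom_ext fun A => by
    change K.pull (Proj.refl X) A.kl = A.kl
    rw [K.pull_kl]
    refine kl_reindex (Equiv.refl _) (fun _ => rfl) fun z hz v => ?_
    change v ∈ A.L (restr X.B z) ↔ v ∈ A.L z
    rw [X.restr_eq hz]
  exact DFunLike.congr_fun h1 a
lemma K.pull_lbK (h : Proj Y X) {d : D} (hd : d ∈ DS X.B) : K.pull h (lbK X d) = lbK Y d := by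
  rw [lbK, K.pull_kl]
  exact kl_reindex (Equiv.refl _)
    (fun _ => (dpr_of_mem (DS_mono h.sub hd)).trans (dpr_of_mem hd).symm) fun _ _ _ => Iff.rfl

lemma K.exists_dual (X : Spc) : ∃ Φ : K X →+* K X, ∀ A : Bun X, Φ A.kl = A.ann.amb.kl - A.ann.kl := by
  obtain ⟨Φ, hΦ⟩ := K.exists_lift (fun A : Bun X => A.ann.amb.kl - A.ann.kl)
    fun _ _ _ e => dual_ses e
  refine ⟨{ Φ with
    map_one' := (hΦ _).trans ((dual_line 0).trans (by rw [neg_zero]; rfl))
    map_mul' := map_mul_of Φ fun A B => by rw [hΦ, hΦ, hΦ]; exact dual_tens A B }, hΦ⟩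
/-- dual -/
def K.dual (X : Spc) : K X →+* K X := (K.exists_dual X).choose
lemma K.dual_kl (A : Bun X) : K.dual X A.kl = A.ann.amb.kl - A.ann.kl :=
  (K.exists_dual X).choose_spec A
lemma K.dual_dual (a : K X) : K.dual X (K.dual X a) = a := by
  have h1 : (K.dual X).toAddMonoidHom.comp (K.dual X).toAddMonoidHom = AddMonoidHom.id _ :=
    K.hom_ext fun A => by
      change K.dual X (K.dual X A.kl) = A.kl
      rw [K.dual_kl, map_sub, K.dual_kl, K.dual_kl, dual_of_top (A := A.ann.amb) fun _ _ => rfl]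
      refine (sub_sub_cancel A.ann.ann.amb.kl A.ann.ann.kl).trans ?_
      refine kl_reindex (Equiv.refl _) (fun _ => (neg_neg _).symm) fun z _ v => ?_
      change v ∈ perp (perp (A.L z)) ↔ v ∈ A.L z
      rw [perp_perp]
  exact DFunLike.congr_fun h1 a
lemma K.dual_lbK (d : D) : K.dual X (lbK X d) = lbK X (-d) :=
  (K.dual_kl _).trans (dual_line d)
lemma K.pull_dual (h : Proj Y X) (a : K X) : K.pull h (K.dual X a) = K.dual Y (K.pull h a) := by
  have h1 : (K.pull h).toAddMonoidHom.comp (K.dual X).toAddMonoidHom =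
      (K.dual Y).toAddMonoidHom.comp (K.pull h).toAddMonoidHom := K.hom_ext fun A => by
    change K.pull h (K.dual X A.kl) = K.dual Y (K.pull h A.kl)
    rw [K.dual_kl, map_sub, K.pull_kl, K.pull_kl, K.pull_kl, K.dual_kl]
    rfl
  exact DFunLike.congr_fun h1 a
/-- the dual of a bundle is a bundle -/
lemma Bun.exists_dual (A : Bun X) : ∃ A' : Bun X, A'.kl = K.dual X A.kl ∧
    ∀ x ∈ X.pts, finrank ℂ (A'.L x) = finrank ℂ (A.L x) := by
  obtain ⟨A', p, hp, h⟩ := K3.exists_dual A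
  refine ⟨A', ((K.dual_kl A).trans (kl_dual hp h)).symm, fun x hx => ?_⟩
  have h1 := (mev x p).finrank_range_add_finrank_ker
  have h2 := finrank_perp (A.L x)
  rw [(h x hx).1, (h x hx).2, Module.finrank_fintype_fun_eq_card] at h1
  omega
/-- a perfect pairing given by a polynomial matrix of degree zero `A ⊗ B → O` -/
theorem kl_dual_of_pairing {A B : Bun X} (β : Matrix A.ι B.ι R)
    (hβ : MHmg B.deg (fun i => -A.deg i) β)
    (h : ∀ x ∈ X.pts, finrank ℂ (A.L x) = finrank ℂ (B.L x) ∧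
      ∀ w ∈ B.L x, mev x β w ∈ perp (A.L x) → w = 0) : B.kl = K.dual X A.kl := by
  obtain ⟨A', p, hp, h'⟩ := K3.exists_dual A
  rw [K.dual_kl, kl_dual hp h']
  have hc : ∀ x, mev x (p * β) = mev x p ∘ₗ mev x β := fun x => LinearMap.ext (mev_mul x p β)
  refine kl_iso (p * β) (hp.mul hβ) fun x hx => ?_
  have h0 : B.L x ⊓ LinearMap.ker (mev x (p * β)) = ⊥ := by
    rw [eq_bot_iff]
    rintro w ⟨hw, hw'⟩
    refine (h x hx).2 w hw ?_
    rw [← (h' x hx).1, LinearMap.mem_ker, ← mev_mul]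
    exact hw'
  refine ⟨h0, Submodule.eq_of_le_of_finrank_eq ?_ ?_⟩
  · rw [← (h' x hx).2, hc, Submodule.map_comp]
    exact LinearMap.map_le_range
  · have h1 := (mev x p).finrank_range_add_finrank_ker
    have h2 := finrank_perp (A.L x)
    rw [(h' x hx).1, (h' x hx).2, Module.finrank_fintype_fun_eq_card] at h1
    have h3 := ((mev x (p * β)).domRestrict (B.L x)).finrank_range_add_finrank_ker
    rw [LinearMap.range_domRestrict, LinearMap.ker_domRestrict,
      Submodule.disjoint_iff_comap_eq_bot.1 (disjoint_iff.2 h0), finrank_bot] at h3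
    have h4 := (h x hx).1
    omega
/-- line bundles are units -/
lemma Bun.Rk.mul_dual {A : Bun X} (h : A.Rk 1) : A.kl * K.dual X A.kl = 1 := by
  let ε : Matrix Unit (A.ι × A.ι) R := fun _ p => if p.1 = p.2 then 1 else 0
  have hε : ∀ x u, mev x ε u () = ∑ i, u (i, i) := fun x u => by
    simp [mev_apply, ε, apply_ite (eval x), Fintype.sum_prod_type]
  have hs : SES (A.tens A.ann) (A.tens A.ann.amb) (line X 0) := by
    refine ⟨(1 : Matrix (A.ι × A.ι) (A.ι × A.ι) R), ε, MHmg.one _, fun () p => ?_, fun x hx => ?_⟩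
    · by_cases hp : p.1 = p.2
      · have h1 : (line X 0).deg () - (A.tens A.ann.amb).deg p = 0 := by
          change dpr X.B 0 - (A.deg p.1 + -A.deg p.2) = 0
          rw [hp, map_zero, add_neg_cancel, sub_zero]
        rw [h1]
        simpa [ε, hp] using Hmg.one
      · simpa [ε, hp] using Hmg.zero _
    obtain ⟨⟨v, hv⟩, hv0, hv1⟩ := finrank_eq_one_iff'.1 (h x hx)
    obtain ⟨i₀, hi₀⟩ : ∃ i, v i ≠ 0 := by
      by_contra hn
      exact hv0 (Subtype.ext (funext fun i => not_not.1 fun h => hn ⟨i, h⟩))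
    refine ⟨by rw [mev_one]; simp, ?_, ?_⟩
    · rw [mev_one, Submodule.map_id]
      ext u
      have key : (∀ j, (fun i => u (i, j)) ∈ A.L x) →
          ((∀ i, (fun j => u (i, j)) ∈ perp (A.L x)) ↔ ∑ i, u (i, i) = 0) := by
        intro h1
        choose a ha using fun j => hv1 ⟨_, h1 j⟩
        have hu : ∀ i j, u (i, j) = a j * v i := fun i j =>
          (congrFun (congrArg Subtype.val (ha j)) i).symm
        simp only [hu]
        constructor
        · intro h2
          have h3 := h2 i₀ v hv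
          simp only [mul_right_comm _ (v i₀), ← Finset.sum_mul] at h3
          exact (mul_eq_zero.1 h3).resolve_right hi₀
        · intro h2 i w hw
          obtain ⟨c, hc⟩ := hv1 ⟨w, hw⟩
          have hw' : ∀ j, w j = c * v j := fun j => (congrFun (congrArg Subtype.val hc) j).symm
          simp only [hw']
          rw [← mul_zero (v i * c), ← h2, Finset.mul_sum]
          exact Finset.sum_congr rfl fun j _ => by ring
      rw [Submodule.mem_inf, mem_tens (A := A) (B := A.ann), mem_tens (A := A) (B := A.ann.amb),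
        LinearMap.mem_ker]
      constructor
      · rintro ⟨h1, h2⟩
        exact ⟨⟨h1, fun _ => trivial⟩, funext fun _ => (hε x u).trans ((key h1).1 h2)⟩
      · rintro ⟨⟨h1, -⟩, h2⟩
        exact ⟨h1, (key h1).2 ((hε x u).symm.trans (congrFun h2 ()))⟩
    · refine eq_top_iff.2 fun c _ => ⟨_, tmul_mem (A := A) (B := A.ann.amb) hv
        (w := Pi.single i₀ (c () / v i₀)) trivial, funext fun _ => (hε x _).trans ?_⟩
      simp [Pi.single_apply, mul_div_cancel₀ _ hi₀]
      rfl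
  have h1 := kl_ses hs
  rw [kl_tens, kl_tens] at h1
  rw [K.dual_kl, mul_sub, h1, add_sub_cancel_left]
  rfl
lemma K.exists_rk {x : Pt} (hx : x ∈ X.pts) : ∃ Φ : K X →+* ℤ, ∀ A : Bun X,
    Φ A.kl = finrank ℂ (A.L x) := by
  obtain ⟨Φ, hΦ⟩ := K.exists_lift (fun A : Bun X => (finrank ℂ (A.L x) : ℤ))
    fun _ _ _ e => by rw [e.finrank hx]; push_cast; rfl
  refine ⟨{ Φ with
    map_one' := (hΦ _).trans (by rw [rk_line 0 x hx]; rfl)
    map_mul' := map_mul_of Φ fun A B => by rw [hΦ, hΦ, hΦ, finrank_tens]; push_cast; rfl }, hΦ⟩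
/-- rank at a point -/
def K.rk {x : Pt} (hx : x ∈ X.pts) : K X →+* ℤ := (K.exists_rk hx).choose
lemma K.rk_kl {x : Pt} (hx : x ∈ X.pts) (A : Bun X) : K.rk hx A.kl = finrank ℂ (A.L x) :=
  (K.exists_rk hx).choose_spec A

end Crest.Agent.N265
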