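import Crest.Agent.N265.K.PB
import Crest.Agent.N265.Sp.Dim
import Crest.Agent.N265.Jac.Irr

/-! # Task K8, auxiliary file (helper60): chain rule, products with affine spaces -/

set_option autoImplicit false
noncomputable section
open MvPolynomial Module

namespace Crest.Agent.N265.TanAux
variable {X Y Z P : Spc}

lemma eval_aeval (F : Var → R) (p : Pt) (r : R) :
    eval p (aeval F r) = eval (fun v => eval p (F v)) r := by
  induction r using MvPolynomial.induction_on with
  | C c => simp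
  | add a b ha hb => simp only [map_add, ha, hb]
  | mul_X a v ha => simp only [map_mul, ha, aeval_X, eval_X]

/-- chain rule -/
lemma dAt_aeval (F : Var → R) (p ξ : Pt) (r : R) :
    dAt p ξ (aeval F r) = dAt (fun v => eval p (F v)) (fun v => dAt p ξ (F v)) r := by
  induction r using MvPolynomial.induction_on with
  | C c => simp
  | add a b ha hb => simp only [map_add, dAt_add, ha, hb]
  | mul_X a v ha => simp only [map_mul, dAt_mul, ha, aeval_X, eval_X, dAt_X, eval_aeval]

lemma dAt_kill (B : Finset ℕ) (p ξ : Pt) (r : R) :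
    dAt p ξ (kill B r) = dAt (restr B p) (restr B ξ) r := by
  unfold kill
  rw [dAt_aeval]
  congr 1 <;> funext v <;> by_cases h : v.1 ∈ B <;> simp [restr, h]

lemma dAt_gam (p ξ : Pt) (r : R) : dAt p ξ (gam r) = dAt (gpt p) (gpt ξ) r := by
  change dAt p ξ (aeval (fun v => (C (chi (vdeg v)) * MvPolynomial.X v : R)) r) = _
  rw [dAt_aeval]
  congr 1 <;> funext v <;> simp [gpt, Jac.dAt_C_mul]

lemma gpt_mem_tan {p ξ : Pt} : gpt ξ ∈ X.Tan (gpt p) ↔ ξ ∈ X.Tan p := by
  constructor
  · intro h r hr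
    rw [← Jac.gam_gamInv r, dAt_gam]
    exact h _ ((Jac.stabI_I X).inv hr)
  · intro h r hr
    rw [← dAt_gam]
    exact h _ (Spc.gam_mem_I hr)

/-- substitution of the line `p + t ξ` -/
def lineA (p ξ : Pt) : R →ₐ[ℂ] R := aeval fun v => C (p v) + C (ξ v) * MvPolynomial.X (0, 0, 0)

lemma eval_lineA (p ξ q : Pt) (r : R) :
    eval q (lineA p ξ r) = eval (p + q (0, 0, 0) • ξ) r := by
  unfold lineA
  rw [eval_aeval]
  congr 2; funext v; simp [mul_comm]

lemma lineA_eq_zero {p ξ : Pt} {f : R} (h : ∀ t : ℂ, eval (p + t • ξ) f = 0) :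
    lineA p ξ f = 0 :=
  MvPolynomial.funext fun q => by rw [eval_lineA, h, map_zero]

lemma dAt_line {p ξ : Pt} {f : R} (h : ∀ t : ℂ, eval (p + t • ξ) f = 0) : dAt p ξ f = 0 := by
  have h1 := dAt_aeval (fun v => C (p v) + C (ξ v) * MvPolynomial.X (0, 0, 0)) 0 1 f
  have h2 : dAt 0 1 (lineA p ξ f) = 0 := by rw [lineA_eq_zero h, dAt_zero]
  rw [← h2]
  refine Eq.trans ?_ h1.symm
  congr 1 <;> funext v <;> simp [dAt_add, Jac.dAt_C_mul]

lemma X_mem_I {v : Var} (hv : v.1 ∉ X.B) : (MvPolynomial.X v : R) ∈ X.I := fun x hx => by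
  rw [eval_X, ← X.restr_eq hx]; simp [restr, hv]

lemma restr_tan {x ξ : Pt} (h : ξ ∈ X.Tan x) : restr X.B ξ = ξ := by
  funext v
  by_cases hv : v.1 ∈ X.B
  · simp [restr, hv]
  · have := h _ (X_mem_I hv)
    rw [dAt_X] at this
    simp [restr, hv, this]

/-- tangent vectors of the product of `X` with an affine space -/
lemma dAt_prod {f : R} (hf : ∀ q : Pt, restr X.B q ∈ X.pts → eval q f = 0) {p ξ : Pt}
    (hp : restr X.B p ∈ X.pts) (hξ : restr X.B ξ ∈ X.Tan (restr X.B p)) : dAt p ξ f = 0 := by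
  have h1 : dAt p (restr X.B ξ) f = 0 := by
    have h2 := hξ (aeval (fun v => if v.1 ∈ X.B then MvPolynomial.X v else C (p v)) f) fun x hx => by
      rw [eval_aeval]
      refine hf _ ?_
      convert hx using 1
      rw [← X.restr_eq hx]
      funext v; by_cases h : v.1 ∈ X.B <;> simp [restr, h]
    rw [dAt_aeval] at h2
    rw [← h2]
    congr 1 <;> funext v <;> by_cases h : v.1 ∈ X.B <;> simp [restr, h]
  have h2 : dAt p (ξ - restr X.B ξ) f = 0 := dAt_line fun t => hf _ (by
    convert hp using 1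
    funext v; by_cases h : v.1 ∈ X.B <;> simp [restr, h])
  have h3 := dAt_dir_add p (restr X.B ξ) (ξ - restr X.B ξ) f
  rwa [add_sub_cancel, h1, h2, add_zero] at h3

theorem height_mvPoly (A : Type) [CommRing A] [IsNoetherianRing A] [IsJacobsonRing A] :
    ∀ (s : ℕ) (m : Ideal (MvPolynomial (Fin s) A)), m.IsMaximal →
      (m.comap C).height + s ≤ m.height := by
  intro s
  induction s with
  | zero =>
    intro m _
    have := RingEquiv.height_comap (isEmptyRingEquiv A (Fin 0)).symm m
    simp only [Nat.cast_zero, add_zero]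
    refine le_of_eq (Eq.trans ?_ this)
    congr 1
  | succ s ih =>
    intro m hm
    let e := (finSuccEquiv A s).toRingEquiv
    have h1 : (m.map e).IsMaximal := Ideal.map_isMaximal_of_equiv e
    have h2 := Polynomial.isMaximal_comap_C_of_isJacobsonRing (m.map e)
    have h3 : (m.map e).LiesOver ((m.map e).comap Polynomial.C) := ⟨rfl⟩
    rw [← RingEquiv.height_map e m,
      Polynomial.height_eq_height_add_one ((m.map e).comap Polynomial.C)]
    push_cast
    rw [← add_assoc]
    gcongr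
    refine le_trans ?_ (ih _ h2)
    gcongr
    intro a ha
    have h4 := Ideal.mem_map_of_mem e (Ideal.mem_comap.1 ha)
    have h5 : e (C a) = Polynomial.C (C a) := by simp [e, finSuccEquiv_apply]
    rw [h5] at h4
    exact h4

/-- the ideal of the product of `X` with an affine space -/
theorem exists_aff (X : Spc) {s : ℕ} (y : Fin s → Var) (hy : Function.Injective y)
    (hb : ∀ i, (y i).1 ∉ X.B) : ∃ J : Ideal R, Jac.FinJ J ∧
      (∀ p : Pt, J ≤ mx p ↔ (∀ r ∈ X.I, eval (restr X.B p) r = 0) ∧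
        ∀ v, p v ≠ 0 → v.1 ∈ X.B ∨ v ∈ Set.range y) ∧
      ∀ z : Pt, J ≤ mx z → X.ldim (restr X.B z) + s ≤ Jac.hq J (mx z) := by
  classical
  let ψ : R →+* MvPolynomial (Fin s) (R ⧸ X.I) := eval₂Hom
    (C.comp ((Ideal.Quotient.mk X.I).comp C))
    (Function.extend y MvPolynomial.X fun v => C (Ideal.Quotient.mk X.I (MvPolynomial.X v)))
  have hy1 : ∀ i, ψ (MvPolynomial.X (y i)) = MvPolynomial.X i := fun i => by
    simp only [ψ, eval₂Hom_X', hy.extend_apply]
  have hy2 : ∀ v, v ∉ Set.range y →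
      ψ (MvPolynomial.X v) = C (Ideal.Quotient.mk X.I (MvPolynomial.X v)) := fun v hv => by
    simp only [ψ, eval₂Hom_X']
    exact Function.extend_apply' _ _ _ hv
  have hk : ∀ f, ψ (kill X.B f) = C (Ideal.Quotient.mk X.I f) := by
    intro f
    induction f using MvPolynomial.induction_on with
    | C c => simp [ψ, kill]
    | add a b ha hb => simp only [map_add, ha, hb]
    | mul_X a v ha =>
      simp only [map_mul, ha]
      congr 1
      by_cases h : v.1 ∈ X.B
      · rw [← hy2 v (by rintro ⟨i, rfl⟩; exact hb i h)]; simp [kill, h]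
      · rw [Ideal.Quotient.eq_zero_iff_mem.2 (X_mem_I h)]; simp [kill, h]
  have hs : Function.Surjective ψ := by
    intro g
    induction g using MvPolynomial.induction_on with
    | C c => obtain ⟨f, rfl⟩ := Ideal.Quotient.mk_surjective c; exact ⟨_, hk f⟩
    | add a b ha hb =>
      obtain ⟨a, rfl⟩ := ha; obtain ⟨b, rfl⟩ := hb; exact ⟨a + b, map_add _ _ _⟩
    | mul_X a i ha => obtain ⟨a, rfl⟩ := ha; exact ⟨a * MvPolynomial.X (y i), by rw [map_mul, hy1]⟩
  have hX : ∀ v, v ∉ Set.range y → (MvPolynomial.X v : R) ∈ X.I →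
      (MvPolynomial.X v : R) ∈ RingHom.ker ψ := fun v h1 h2 => by
    rw [RingHom.mem_ker, hy2 v h1, Ideal.Quotient.eq_zero_iff_mem.2 h2, map_zero]
  refine ⟨RingHom.ker ψ, ?_, fun p => ⟨fun h => ⟨fun r hr => ?_, fun v hv => ?_⟩, ?_⟩, fun z hz => ?_⟩
  · obtain ⟨V, hV⟩ := Jac.finJ_I X
    refine ⟨V ∪ Finset.univ.image y, fun v hv => hX v ?_ (hV v fun h => hv (by simp [h]))⟩
    rintro ⟨i, rfl⟩; exact hv (by simp)
  · rw [← eval_kill]
    refine h ?_
    rw [RingHom.mem_ker, hk, Ideal.Quotient.eq_zero_iff_mem.2 hr, map_zero]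
  · by_contra hc
    push Not at hc
    exact hv (by simpa [mem_mx] using h (hX v hc.2 (X_mem_I hc.1)))
  · rintro ⟨h1, h2⟩ f hf
    have h3 : (eval₂Hom (Ideal.Quotient.lift X.I (eval (restr X.B p)) h1) fun i => p (y i)).comp ψ =
        eval p := by
      refine MvPolynomial.ringHom_ext (fun c => by simp [ψ]) fun v => ?_
      by_cases h : v ∈ Set.range y
      · obtain ⟨i, rfl⟩ := h
        simp [hy1]
      · rw [RingHom.comp_apply, hy2 v h]
        by_cases h' : v.1 ∈ X.B
        · simp [restr, h']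
        · have : p v = 0 := by by_contra hc; exact (h2 v hc).elim h' h
          simp [restr, h', this]
    rw [mem_mx, ← h3, RingHom.comp_apply, RingHom.mem_ker.1 hf, map_zero]
  · have := (Jac.finJ_I X).finiteType
    have : IsJacobsonRing (R ⧸ X.I) := isJacobsonRing_of_finiteType (A := ℂ)
    have h1 : Jac.hq (RingHom.ker ψ) (mx z) = ((mx z).map ψ).height := by
      unfold Jac.hq
      rw [← RingEquiv.height_map (S := MvPolynomial (Fin s) (R ⧸ X.I))
        (RingHom.quotientKerEquivOfSurjective hs), ← Ideal.map_coe, Ideal.map_map]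
      rfl
    have h2 : ((mx z).map ψ).IsMaximal := Ideal.IsMaximal.map_of_surjective_of_ker_le hs hz
    rw [h1]
    refine le_trans ?_ (height_mvPoly _ s _ h2)
    gcongr
    refine Ideal.height_mono (Ideal.map_le_iff_le_comap.2 fun f hf => ?_)
    rw [Ideal.mem_comap, Ideal.mem_comap, ← hk]
    exact Ideal.mem_map_of_mem _ (by rw [mem_mx, eval_kill]; exact hf)

end Crest.Agent.N265.TanAux
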